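import Vale.Agent.P159.H813.P4pin4

/-!
P159 / P#4 (helper813), pinned form: final statements.
-/

namespace Vale.Agent.P159.H813

open Finset Real
open Vale.Agent.P159.TM.H764

noncomputable section

variable {N : ℕ} [NeZero N]

/-- with the factor `s²` -/
lemma mult_step {G : ZMod N × ZMod N → ℝ} {j : ZMod N} {s W0 R A C C0 ξ p : ℝ} (hC : 0 ≤ C)
    (hz : ∑ x, |G x| ≤ C * ξ ^ 2) (hs0 : 0 ≤ s) (hs1 : s ≤ 1) (hC0 : 0 ≤ C0)
    (hs : 1 - s ≤ C0 * (ξ * p) ^ 2) (hW0 : W0 = ξ ^ 4 * p ^ 2)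
    (h : |∑ x, (1 - cN (j * x.1)) * G x - A| ≤ W0 * R) :
    |∑ x, G x - s ^ 2 * ∑ x, G x * cN (j * x.1) - A| ≤ W0 * (R + 2 * C0 * C) := by
  obtain ⟨Sj, hSj⟩ : ∃ Sj : ℝ, Sj = ∑ x, G x * cN (j * x.1) := ⟨_, rfl⟩
  have hSjb : |Sj| ≤ C * ξ ^ 2 := by
    rw [hSj]
    refine (abs_sum_le_sum_abs _ _).trans (le_trans (sum_le_sum fun x _ => ?_) hz)
    rw [abs_mul]
    have hc : |cN (j * x.1)| ≤ 1 := abs_le.2 ⟨neg_one_le_cN _, cN_le_one _⟩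
    calc |G x| * |cN (j * x.1)| ≤ |G x| * 1 := mul_le_mul_of_nonneg_left hc (abs_nonneg _)
      _ = _ := mul_one _
  have e1 : ∑ x, (1 - cN (j * x.1)) * G x = ∑ x, G x - Sj := by
    rw [hSj, ← sum_sub_distrib]; exact sum_congr rfl fun x _ => by ring
  rw [e1] at h
  rw [← hSj]
  have e2 : ∑ x, G x - s ^ 2 * Sj - A = (∑ x, G x - Sj - A) + (1 - s ^ 2) * Sj := by ring
  rw [e2]
  have h3 : |(1 - s ^ 2) * Sj| ≤ (2 * (C0 * (ξ * p) ^ 2)) * (C * ξ ^ 2) := by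
    rw [abs_mul]
    have h4 : |1 - s ^ 2| ≤ 2 * (C0 * (ξ * p) ^ 2) := by
      have h5 : 0 ≤ 1 - s ^ 2 := by nlinarith
      rw [abs_of_nonneg h5]
      nlinarith
    exact mul_le_mul h4 hSjb (abs_nonneg _) (by positivity)
  calc |(∑ x, G x - Sj - A) + (1 - s ^ 2) * Sj| ≤
        W0 * R + (2 * (C0 * (ξ * p) ^ 2)) * (C * ξ ^ 2) := (abs_add_le _ _).trans (add_le_add h h3)
    _ = _ := by rw [hW0]; ring

/-- smallest momentum -/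
lemma pw_ge {j : ZMod N} (hj : j ≠ 0) : 1 / (N : ℝ) ≤ |pw j| := by
  have hN : (0 : ℝ) < N := by exact_mod_cast NeZero.pos N
  unfold pw
  have h1 : j.valMinAbs ≠ 0 := fun h => hj ((ZMod.valMinAbs_eq_zero j).1 h)
  have h2 : (1 : ℝ) ≤ |(j.valMinAbs : ℝ)| := by
    rw [← Int.cast_abs]
    exact_mod_cast Int.one_le_abs h1
  rw [abs_div, abs_mul, abs_of_pos hN, abs_of_pos (by positivity : (0 : ℝ) < 2 * π)]
  refine div_le_div_of_nonneg_right ?_ hN.le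
  have := pi_gt_three
  nlinarith

/-- from one kernel to another -/
lemma swap_step {G H : ZMod N × ZMod N → ℝ} {j : ZMod N} (hj : j ≠ 0) {K C ξ A R : ℝ} (hK : 0 ≤ K)
    (hGH : ∀ x, |G x - H x| ≤ K * (ξ / N) ^ 4)
    (h : |∑ x, (1 - cN (j * x.1)) * H x - A| ≤ ξ ^ 4 * pw j ^ 2 * (R + C)) :
    |∑ x, (1 - cN (j * x.1)) * G x - A| ≤ ξ ^ 4 * pw j ^ 2 * (R + (C + 2 * K)) := by
  have hN : (0 : ℝ) < N := by exact_mod_cast NeZero.pos N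
  have h1 : |∑ x, (1 - cN (j * x.1)) * G x - ∑ x, (1 - cN (j * x.1)) * H x| ≤
      (N : ℝ) ^ 2 * (2 * (K * (ξ / N) ^ 4)) := by
    rw [← sum_sub_distrib]
    refine (abs_sum_le_sum_abs _ _).trans ?_
    rw [← card_tor]
    refine sum_le_sum fun x _ => ?_
    rw [← mul_sub, abs_mul]
    refine mul_le_mul ?_ (hGH x) (abs_nonneg _) (by norm_num)
    rw [abs_le]
    have h3 := neg_one_le_cN (j * x.1)
    have h4 := cN_le_one (j * x.1)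
    constructor <;> linarith
  have h2 : (N : ℝ) ^ 2 * (2 * (K * (ξ / N) ^ 4)) ≤ ξ ^ 4 * pw j ^ 2 * (2 * K) := by
    have h3 : (1 / (N : ℝ)) ^ 2 ≤ pw j ^ 2 := by
      rw [← sq_abs (pw j)]
      exact pow_le_pow_left₀ (by positivity) (pw_ge hj) 2
    calc (N : ℝ) ^ 2 * (2 * (K * (ξ / N) ^ 4)) = 2 * K * ξ ^ 4 * (1 / (N : ℝ)) ^ 2 := by
          field_simp
      _ ≤ 2 * K * ξ ^ 4 * pw j ^ 2 := mul_le_mul_of_nonneg_left h3 (by positivity)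
      _ = _ := by ring
  have e : ∑ x, (1 - cN (j * x.1)) * G x - A =
      (∑ x, (1 - cN (j * x.1)) * G x - ∑ x, (1 - cN (j * x.1)) * H x) +
        (∑ x, (1 - cN (j * x.1)) * H x - A) := by ring
  rw [e]
  refine (abs_add_le _ _).trans ((add_le_add (h1.trans h2) h).trans (le_of_eq ?_))
  ring

/-- the conclusion for a kernel `G` -/
def PinC (N : ℕ) [NeZero N] (A0 C0 C2 ε C ξ : ℝ) (G : ZMod N × ZMod N → ℝ) : Prop :=
  ∑ x, |G x| ≤ C * ξ ^ 2 ∧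
  ∀ (j : ZMod N) (s : ℝ), j ≠ 0 → |pw j| * N ≤ C2 → 0 ≤ s → s ≤ 1 → 1 - s ≤ C0 * (ξ * pw j) ^ 2 →
    |∑ x, G x - s ^ 2 * ∑ x, G x * cN (j * x.1) - A0 * (ξ ^ 4 * pw j ^ 2) * log (N / ξ)| ≤
      ξ ^ 4 * pw j ^ 2 * (ε * log (N / ξ) + C)

/-- **(P#4, pinned.)** The torus is the infrared cutoff; uniform in the mass `τ2 → 0` of the prior.
Both for the exact kernel `gk` and for `exp (-4π² (Γ 0 - Γ x)) / 2`. -/
theorem P4_pin : ∃ A0 : ℝ, 0 < A0 ∧ ∀ c0 C0 C2 ε : ℝ, 0 < c0 → c0 ≤ 1 → 0 ≤ C0 → 0 < ε →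
    ∃ C B κ : ℝ, 0 ≤ C ∧ 1 ≤ B ∧ 0 < κ ∧ ∀ (N : ℕ) [NeZero N] (ξ a η τ2 : ℝ)
      (P : ZMod N × ZMod N → ℝ), B ≤ ξ → B * ξ ≤ N → 0 < τ2 →
      τ2 * (N : ℝ) ^ 2 * (1 + log (N / ξ)) ≤ 1 → 0 ≤ η →
      (∀ k, c0 * EE k ≤ P k) →
      (∀ k, |P k - a * EE k| ≤ η * EE k * (1 + EE k * ξ ^ 2)) →
      |a - π / 2| * (1 + log (N / ξ)) ≤ κ →
      η * (1 + log (1 + 9 * (N : ℝ) ^ 2)) ≤ κ →
      PinC N A0 C0 C2 ε C ξ (gk (GamP N (1 / ξ ^ 2) τ2 P)) ∧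
      PinC N A0 C0 C2 ε C ξ (fun x => 1 / 2 * exp (-Dk N (1 / ξ ^ 2) τ2 P x)) ∧
      ∀ x, |gk (GamP N (1 / ξ ^ 2) τ2 P) x - 1 / 2 * exp (-Dk N (1 / ξ ^ 2) τ2 P x)| ≤
        C * (ξ / N) ^ 4 := by
  obtain ⟨A0, hA0, hex⟩ := P4_ex
  refine ⟨A0, hA0, ?_⟩
  intro c0 C0 C2 ε hc0 hc01 hC0 hε
  obtain ⟨C, B, κ, hC, hB, hκ, h⟩ := hex c0 C2 ε hc0 hc01 hε
  obtain ⟨K, hK⟩ : ∃ K : ℝ, K = exp (C + 1) / 2 + 1 := ⟨_, rfl⟩
  have hK0 : 0 ≤ K := by rw [hK]; positivity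
  refine ⟨(C + 2 * K) + 2 * C0 * (C + K), B, κ, by positivity, hB, hκ, ?_⟩
  intro N _ ξ a η τ2 P hξB hξN hτ2 hτN hη hP hF hκa hκη
  have hN : (0 : ℝ) < N := by exact_mod_cast NeZero.pos N
  have hξ0 : 0 < ξ := by linarith
  have hNξ : ξ ≤ N := by nlinarith
  have hL : 0 ≤ log (N / ξ) := log_nonneg (by rw [le_div_iff₀ hξ0]; linarith)
  have hτN' : τ2 * (N : ℝ) ^ 2 ≤ 1 := by
    have h1 : τ2 * (N : ℝ) ^ 2 * 1 ≤ τ2 * (N : ℝ) ^ 2 * (1 + log (N / ξ)) :=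
      mul_le_mul_of_nonneg_left (by linarith) (by positivity)
    linarith
  obtain ⟨-, h2, h3, h4⟩ := h N ξ a η τ2 P hξB hξN hτ2 hτN' hη hP hF hκa hκη
  have hP0 : ∀ k, 0 ≤ P k := fun k => le_trans (mul_nonneg hc0.le (EE_nn k)) (hP k)
  have hPz : P 0 = 0 := by
    have := hF 0
    rw [EE_z] at this
    simp only [mul_zero, sub_zero, zero_mul] at this
    exact abs_eq_zero.1 (le_antisymm this (abs_nonneg _))
  have hτξ : τ2 ≤ 1 / ξ ^ 2 := by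
    rw [le_div_iff₀ (by positivity)]
    exact (mul_le_mul_of_nonneg_left (pow_le_pow_left₀ hξ0.le hNξ 2) hτ2.le).trans hτN'
  -- the zero mode
  have hu0 : 39 * log (N / ξ) ≤ 4 * π ^ 2 * GamP N (1 / ξ ^ 2) τ2 P 0 := by
    have h5 := zero_mode (N := N) hτ2 hτξ hP0 hPz
    have h6 : log (N / ξ) ≤ (1 / τ2 - 1 / (1 / ξ ^ 2)) / (N : ℝ) ^ 2 := by
      rw [le_div_iff₀ (by positivity)]
      have h7 : (1 + log (N / ξ)) * (N : ℝ) ^ 2 ≤ 1 / τ2 := by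
        rw [le_div_iff₀ hτ2]
        linarith
      have h8 : 1 / (1 / ξ ^ 2) = ξ ^ 2 := by field_simp
      have h9 : ξ ^ 2 ≤ (N : ℝ) ^ 2 := pow_le_pow_left₀ hξ0.le hNξ 2
      rw [h8]
      linarith
    have h7 : 39 / 4 ≤ π ^ 2 := by
      have := pi_gt_d2
      nlinarith
    have h8 : 0 ≤ GamP N (1 / ξ ^ 2) τ2 P 0 := hL.trans (h6.trans h5)
    calc 39 * log (N / ξ) ≤ 39 * GamP N (1 / ξ ^ 2) τ2 P 0 :=
          mul_le_mul_of_nonneg_left (h6.trans h5) (by norm_num)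
      _ ≤ 4 * π ^ 2 * GamP N (1 / ξ ^ 2) τ2 P 0 := mul_le_mul_of_nonneg_right (by linarith) h8
  have hgk : ∀ x, |gk (GamP N (1 / ξ ^ 2) τ2 P) x - 1 / 2 * exp (-Dk N (1 / ξ ^ 2) τ2 P x)| ≤
      K * (ξ / N) ^ 4 := by
    intro x
    have h5 := gk_pin (N := N) hL hu0 (GamP_le hτ2 hτξ hP0) x
      ((h2 x).trans (by linarith : 8 * log (N / ξ) + C ≤ 8 * log (N / ξ) + (C + 1)))
    have h6 : exp (-(4 * log (N / ξ))) = (ξ / N) ^ 4 := by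
      have : 4 * log (N / ξ) = ((4 : ℕ) : ℝ) * log (N / ξ) := by norm_num
      rw [exp_neg, this, exp_nat_mul, exp_log (by positivity), ← inv_pow, inv_div]
    rw [h6, ← hK] at h5
    exact h5
  have hCC : C ≤ (C + 2 * K) + 2 * C0 * (C + K) := by
    have : 0 ≤ 2 * C0 * (C + K) := by positivity
    linarith
  have hCK : C + K ≤ (C + 2 * K) + 2 * C0 * (C + K) := by
    have : 0 ≤ 2 * C0 * (C + K) := by positivity
    linarith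
  have hKK : K ≤ (C + 2 * K) + 2 * C0 * (C + K) := by linarith
  have habs : ∑ x, |1 / 2 * exp (-Dk N (1 / ξ ^ 2) τ2 P x)| ≤ C * ξ ^ 2 := by
    refine le_trans (le_of_eq (sum_congr rfl fun x _ => ?_)) h3
    rw [abs_of_nonneg (by positivity)]
  have habsg : ∑ x, |gk (GamP N (1 / ξ ^ 2) τ2 P) x| ≤ (C + K) * ξ ^ 2 := by
    have h5 : ∀ x ∈ (univ : Finset (ZMod N × ZMod N)), |gk (GamP N (1 / ξ ^ 2) τ2 P) x| ≤
        |1 / 2 * exp (-Dk N (1 / ξ ^ 2) τ2 P x)| + K * (ξ / N) ^ 4 := by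
      intro x _
      have h6 := hgk x
      have h7 : gk (GamP N (1 / ξ ^ 2) τ2 P) x = (1 / 2 * exp (-Dk N (1 / ξ ^ 2) τ2 P x)) +
        (gk (GamP N (1 / ξ ^ 2) τ2 P) x - 1 / 2 * exp (-Dk N (1 / ξ ^ 2) τ2 P x)) := by ring
      rw [h7]
      exact (abs_add_le _ _).trans (add_le_add le_rfl h6)
    refine (sum_le_sum h5).trans ?_
    rw [sum_add_distrib, card_tor, add_mul]
    refine add_le_add habs ?_
    have h8 : (ξ / N) ^ 2 ≤ 1 := pow_le_one₀ (by positivity) (by rw [div_le_one hN]; exact hNξ)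
    calc (N : ℝ) ^ 2 * (K * (ξ / N) ^ 4) = K * ξ ^ 2 * (ξ / N) ^ 2 := by field_simp
      _ ≤ K * ξ ^ 2 * 1 := mul_le_mul_of_nonneg_left h8 (by positivity)
      _ = _ := mul_one _
  refine ⟨⟨habsg.trans (mul_le_mul_of_nonneg_right hCK (by positivity)), ?_⟩,
    ⟨habs.trans (mul_le_mul_of_nonneg_right hCC (by positivity)), ?_⟩,
    fun x => (hgk x).trans (mul_le_mul_of_nonneg_right hKK (by positivity))⟩
  · intro j s hj0 hj hs0 hs1 hs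
    have h5 := swap_step hj0 hK0 hgk (h4 j hj)
    have h6 := mult_step (by positivity : 0 ≤ C + K) habsg hs0 hs1 hC0 hs rfl h5
    refine h6.trans (mul_le_mul_of_nonneg_left (by linarith) (by positivity))
  · intro j s hj0 hj hs0 hs1 hs
    have h6 := mult_step hC habs hs0 hs1 hC0 hs rfl (h4 j hj)
    refine h6.trans (mul_le_mul_of_nonneg_left ?_ (by positivity))
    have : 0 ≤ 2 * C0 * K := by positivity
    have e : 2 * C0 * (C + K) = 2 * C0 * C + 2 * C0 * K := by ring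
    linarith

end

end Vale.Agent.P159.H813
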