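import Vale.Agent.P159.H813.TB3

/-!
P159 / P#4, order zero: the total mass of the second order kernel is `O(ξ²)`.
-/

namespace Vale.Agent.P159.H813

open Finset Real
open Vale.Agent.P159.TM.H764

noncomputable section

lemma cau_sum_In {d : ℝ} (hd : 1 ≤ d) (n : ℕ) :
    ∑ a ∈ In n, 1 / ((a : ℝ) ^ 2 + d ^ 2 / 2) ≤ 8 / d := by
  have h1 : ∀ m : ℕ, ∑ a ∈ In m, 1 / ((a : ℝ) ^ 2 + d ^ 2 / 2) =
      1 / (d ^ 2 / 2) + 2 * ∑ i ∈ range m, 1 / (((i : ℝ) + 1) ^ 2 + d ^ 2 / 2) := by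
    intro m
    induction m with
    | zero => unfold In; simp
    | succ m ih =>
      rw [sum_In_succ, ih, sum_range_succ]
      push_cast
      have e : (-((m : ℝ) + 1)) ^ 2 = ((m : ℝ) + 1) ^ 2 := by ring
      have e' : (-1 + -(m : ℝ)) ^ 2 = ((m : ℝ) + 1) ^ 2 := by ring
      simp only [e, e']
      ring
  rw [h1]
  have h2 : ∀ m : ℕ, ∑ i ∈ range m, 1 / (((i : ℝ) + 1) ^ 2 + d ^ 2 / 2) ≤
      3 * (1 / d - 1 / (d + m)) := by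
    intro m
    induction m with
    | zero => simp
    | succ m ih =>
      rw [sum_range_succ]
      push_cast
      have h5 : 1 / (((m : ℝ) + 1) ^ 2 + d ^ 2 / 2) ≤ 3 * (1 / (d + m) - 1 / (d + (m + 1))) := by
        have e : 3 * (1 / (d + m) - 1 / (d + ((m : ℝ) + 1))) = 3 / ((d + m) * (d + (m + 1))) := by
          have h6 : d + (m : ℝ) ≠ 0 := by positivity
          have h7 : d + ((m : ℝ) + 1) ≠ 0 := by positivity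
          field_simp; ring
        rw [e, div_le_div_iff₀ (by positivity) (by positivity)]
        nlinarith [sq_nonneg (2 * ((m : ℝ) + 1) - d)]
      linarith
  have h3 := h2 n
  have h4 : 0 ≤ 1 / (d + (n : ℝ)) := by positivity
  have h5 : 1 / (d ^ 2 / 2) ≤ 2 / d := by
    rw [div_le_div_iff₀ (by positivity) (by positivity)]
    nlinarith
  have h6 : 8 / d = 2 / d + 2 * (3 * (1 / d)) := by ring
  rw [h6]
  linarith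

variable {N : ℕ} [NeZero N]

lemma mx_sq_le (x : ZMod N × ZMod N) : (mx x : ℝ) ^ 2 ≤ sq2 x := by
  have h := mx_le_en x
  have h2 : en x ^ 2 = sq2 x := by unfold en; exact sq_sqrt (sq2_nonneg x)
  rw [← h2]
  exact pow_le_pow_left₀ (by positivity) h 2

lemma quart_torus {n1 : ℕ} (hn1 : 1 ≤ n1) :
    ∑ x : ZMod N × ZMod N, (if n1 < mx x then 1 / sq2 x ^ 2 else 0) ≤ 64 / (n1 : ℝ) ^ 2 := by
  have hn : (1 : ℝ) ≤ n1 := by exact_mod_cast hn1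
  have h1 : ∀ x : ZMod N × ZMod N, (if n1 < mx x then 1 / sq2 x ^ 2 else 0) ≤
      1 / (((x.1.valMinAbs : ℤ) : ℝ) ^ 2 + (n1 : ℝ) ^ 2 / 2) *
        (1 / (((x.2.valMinAbs : ℤ) : ℝ) ^ 2 + (n1 : ℝ) ^ 2 / 2)) := by
    intro x
    split_ifs with h
    · rw [div_mul_div_comm, one_mul]
      refine one_div_le_one_div_of_le (by positivity) ?_
      have h2 := mx_sq_le x
      have h3 : (n1 : ℝ) ^ 2 ≤ (mx x : ℝ) ^ 2 := by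
        have : (n1 : ℝ) ≤ mx x := by exact_mod_cast h.le
        exact pow_le_pow_left₀ (by positivity) this 2
      have h4 : ((x.1.valMinAbs : ℤ) : ℝ) ^ 2 + ((x.2.valMinAbs : ℤ) : ℝ) ^ 2 = sq2 x := rfl
      have h5 : (n1 : ℝ) ^ 2 ≤ sq2 x := h3.trans h2
      obtain ⟨u, hu⟩ : ∃ u : ℝ, u = ((x.1.valMinAbs : ℤ) : ℝ) ^ 2 + (n1 : ℝ) ^ 2 / 2 := ⟨_, rfl⟩
      obtain ⟨v, hv⟩ : ∃ v : ℝ, v = ((x.2.valMinAbs : ℤ) : ℝ) ^ 2 + (n1 : ℝ) ^ 2 / 2 := ⟨_, rfl⟩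
      have hu0 : 0 ≤ u := by rw [hu]; positivity
      have hv0 : 0 ≤ v := by rw [hv]; positivity
      have h6 : u + v ≤ 2 * sq2 x := by rw [hu, hv]; linarith
      rw [← hu, ← hv]
      nlinarith [sq_nonneg (u - v), mul_self_le_mul_self (by linarith : 0 ≤ u + v) h6]
    · positivity
  refine (sum_le_sum fun x _ => h1 x).trans ?_
  rw [sum_torus (N := N) fun a b => 1 / ((a : ℝ) ^ 2 + (n1 : ℝ) ^ 2 / 2) *
    (1 / ((b : ℝ) ^ 2 + (n1 : ℝ) ^ 2 / 2))]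
  simp_rw [← mul_sum, ← sum_mul]
  have h2 : ∑ a ∈ Wn N, 1 / ((a : ℝ) ^ 2 + (n1 : ℝ) ^ 2 / 2) ≤ 8 / (n1 : ℝ) :=
    (sum_le_sum_of_subset_of_nonneg Wn_sub fun a _ _ => by positivity).trans (cau_sum_In hn N)
  have h3 : 0 ≤ ∑ a ∈ Wn N, 1 / ((a : ℝ) ^ 2 + (n1 : ℝ) ^ 2 / 2) :=
    sum_nonneg fun a _ => by positivity
  calc _ ≤ 8 / (n1 : ℝ) * (8 / n1) := mul_le_mul h2 h2 h3 (by positivity)
    _ = _ := by field_simp; norm_num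

theorem P40_core {n1 n2 : ℕ} (hn1 : 1 ≤ n1)
    {ξ ξ2 q ε B1 C5 C7 : ℝ} (hξ : 1 ≤ ξ) (hξ2 : ξ ≤ ξ2) (hq : 0 ≤ q) (hε1 : ε ≤ 1)
    (hC5 : 0 ≤ C5) (hξn : ξ ≤ n1)
    (hB1 : (n1 : ℝ) ≤ B1 * ξ) (hn2ξ : (n2 : ℝ) ≤ ξ2)
    {g H : ZMod N × ZMod N → ℝ} (hH0 : ∀ x, 0 ≤ H x)
    (h1 : ∀ x, mx x ≤ n1 → |g x| ≤ 1 / 2)
    (h2 : ∀ x, n1 < mx x → mx x ≤ n2 → |g x - q / 2 * (ξ ^ 4 / sq2 x ^ 2)| ≤
      ε * (q / 2) * (ξ ^ 4 / sq2 x ^ 2) + C5 * (ξ / ξ2) ^ 4 * (ξ2 / mx x))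
    (h3 : ∀ x, n2 < mx x → |g x| ≤ H x) (hH : ∑ x, H x ≤ C7 * ξ ^ 2) :
    ∑ x, |g x| ≤ ξ ^ 2 * (9 / 2 * B1 ^ 2 + 64 * q + 9 * C5 + C7) := by
  have hξ0 : 0 < ξ := by linarith
  have hξ20 : 0 < ξ2 := by linarith
  have hnr : (1 : ℝ) ≤ n1 := by exact_mod_cast hn1
  obtain ⟨A3, hA3⟩ : ∃ A3 : ℝ, A3 = C5 * (ξ / ξ2) ^ 4 * (ξ2 / ξ) := ⟨_, rfl⟩
  have hA30 : 0 ≤ A3 := by rw [hA3]; positivity
  have hpt : ∀ x : ZMod N × ZMod N, |g x| ≤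
      Ib n1 (1 / 2) x + q * ξ ^ 4 * (if n1 < mx x then 1 / sq2 x ^ 2 else 0) +
        Ib n2 A3 x + H x := by
    intro x
    have e1 := Ib_nonneg n1 (by norm_num : (0 : ℝ) ≤ 1 / 2) x
    have e3 := Ib_nonneg n2 hA30 x
    have e4 := hH0 x
    have e2 : 0 ≤ q * ξ ^ 4 * (if n1 < mx x then 1 / sq2 x ^ 2 else 0) := by
      split_ifs <;> positivity
    by_cases ha : mx x ≤ n1
    · have hE1x : Ib n1 (1 / 2 : ℝ) x = 1 / 2 := by unfold Ib; simp [ha]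
      have h5 := h1 x ha
      linarith
    · have ha' : n1 < mx x := not_le.1 ha
      by_cases hb : mx x ≤ n2
      · have hE3x : Ib n2 A3 x = A3 := by unfold Ib; simp [hb]
        have h5 := h2 x ha' hb
        have h6 : C5 * (ξ / ξ2) ^ 4 * (ξ2 / mx x) ≤ A3 := by
          rw [hA3]
          refine mul_le_mul_of_nonneg_left ?_ (by positivity)
          refine div_le_div_of_nonneg_left hξ20.le hξ0 ?_
          have : (n1 : ℝ) ≤ mx x := by exact_mod_cast ha'.le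
          linarith
        rw [if_pos ha'] at e2 ⊢
        have h7 : 0 ≤ q / 2 * (ξ ^ 4 / sq2 x ^ 2) := by positivity
        have h8 : |g x| ≤ |g x - q / 2 * (ξ ^ 4 / sq2 x ^ 2)| + q / 2 * (ξ ^ 4 / sq2 x ^ 2) := by
          have := abs_add_le (g x - q / 2 * (ξ ^ 4 / sq2 x ^ 2)) (q / 2 * (ξ ^ 4 / sq2 x ^ 2))
          rwa [sub_add_cancel, abs_of_nonneg h7] at this
        have h9 : ε * (q / 2) * (ξ ^ 4 / sq2 x ^ 2) ≤ q / 2 * (ξ ^ 4 / sq2 x ^ 2) := by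
          rw [mul_assoc]
          nlinarith
        have h10 : q * ξ ^ 4 * (1 / sq2 x ^ 2) = 2 * (q / 2 * (ξ ^ 4 / sq2 x ^ 2)) := by ring
        rw [h10, hE3x]
        linarith
      · have hb' : n2 < mx x := not_le.1 hb
        have h5 := h3 x hb'
        linarith
  refine (sum_le_sum fun x _ => hpt x).trans ?_
  rw [sum_add_distrib, sum_add_distrib, sum_add_distrib, ← mul_sum]
  have s1 : ∑ x : ZMod N × ZMod N, Ib n1 (1 / 2 : ℝ) x ≤ ξ ^ 2 * (9 / 2 * B1 ^ 2) := by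
    refine (Ib_sum n1 (by norm_num)).trans ?_
    have h5 : (2 * (n1 : ℝ) + 1) ^ 2 ≤ 9 * (n1 : ℝ) ^ 2 := by nlinarith
    have h6 : (n1 : ℝ) ^ 2 ≤ (B1 * ξ) ^ 2 := pow_le_pow_left₀ (by positivity) hB1 2
    have h7 : (B1 * ξ) ^ 2 = ξ ^ 2 * B1 ^ 2 := by ring
    linarith
  have s2 : q * ξ ^ 4 * ∑ x : ZMod N × ZMod N, (if n1 < mx x then 1 / sq2 x ^ 2 else 0) ≤
      ξ ^ 2 * (64 * q) := by
    have h5 : 64 / (n1 : ℝ) ^ 2 ≤ 64 / ξ ^ 2 :=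
      div_le_div_of_nonneg_left (by norm_num) (by positivity) (pow_le_pow_left₀ hξ0.le hξn 2)
    calc _ ≤ q * ξ ^ 4 * (64 / ξ ^ 2) :=
          mul_le_mul_of_nonneg_left ((quart_torus hn1).trans h5) (by positivity)
      _ = _ := by field_simp
  have s3 : ∑ x : ZMod N × ZMod N, Ib n2 A3 x ≤ ξ ^ 2 * (9 * C5) := by
    refine (Ib_sum n2 hA30).trans ?_
    have hn20 : (0 : ℝ) ≤ n2 := by positivity
    have h5 : (2 * (n2 : ℝ) + 1) ^ 2 ≤ 9 * ξ2 ^ 2 := by nlinarith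
    calc A3 * (2 * (n2 : ℝ) + 1) ^ 2 ≤ A3 * (9 * ξ2 ^ 2) := mul_le_mul_of_nonneg_left h5 hA30
      _ = 9 * C5 * ξ ^ 2 * (ξ / ξ2) := by rw [hA3]; field_simp
      _ ≤ 9 * C5 * ξ ^ 2 * 1 := by
          refine mul_le_mul_of_nonneg_left ?_ (by positivity)
          rw [div_le_one hξ20]; exact hξ2
      _ = _ := by ring
  linarith

/-- **P#4, order zero.** -/
theorem P40 {B c C1 : ℝ} (hB : 1 ≤ B) (hC1 : 0 ≤ C1) :
    ∃ C : ℝ, ∀ (N : ℕ) [NeZero N] (ξ ξ2 ε : ℝ) (Γ H : ZMod N × ZMod N → ℝ),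
      1 ≤ ξ → 8 * B ^ 2 * ξ ≤ ξ2 → 2 * ξ2 ≤ N → 0 ≤ ε → ε ≤ 1 / 2 →
      (∀ x, |Γ x| ≤ Γ 0) →
      |4 * π ^ 2 * Γ 0 - 4 * log (ξ2 / ξ)| ≤ C1 →
      (∀ x, B * ξ ≤ en x → en x ≤ ξ2 / B →
        |4 * π ^ 2 * (Γ 0 - Γ x) - (4 * log (en x / ξ) + c)| ≤ ε) →
      (∀ x, ξ2 / (2 * B) ≤ en x → |Γ x| ≤ C1 ∧ |Γ x| ≤ H x) →
      (∀ x, 0 ≤ H x) → ∑ x, H x ≤ C1 * ξ2 ^ 2 →
      ∑ x, |gk Γ x| ≤ C * ξ ^ 2 := by
  have hB0 : 0 < B := by linarith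
  refine ⟨9 / 2 * (2 * B) ^ 2 + 64 * exp (-c) +
    9 * (exp C1 * (exp (C1 + |c| + 1) / 2 + (5 + C1 + |c|))) + 40 * exp (41 * C1) * C1, ?_⟩
  intro N _ ξ ξ2 ε Γ H hξ hξξ hξN hε hε1 h0 G0 Ga Gc hH0 hH
  have hξ0 : 0 < ξ := by linarith
  obtain ⟨n1, n2, hn1pos, h12, a1, a2, a3, a4, a5, l1, l2, hξ2, hlogρ⟩ := P4_rad hB hξ hξξ
  have hξ20 : 0 < ξ2 := by linarith
  have hB2 : 1 ≤ B ^ 2 := by nlinarith
  have hξξ' : ξ ≤ ξ2 := by nlinarith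
  have hreg := P4_reg hB hC1 hξ0 hξ20 hε (by linarith) G0 Ga Gc a1 a3 a4
  have hHs : ∑ x, (40 * exp (41 * C1) * (ξ / ξ2) ^ 4 * H x) ≤
      (40 * exp (41 * C1) * C1) * ξ ^ 2 := by
    rw [← mul_sum]
    calc 40 * exp (41 * C1) * (ξ / ξ2) ^ 4 * ∑ x, H x
        ≤ 40 * exp (41 * C1) * (ξ / ξ2) ^ 4 * (C1 * ξ2 ^ 2) :=
          mul_le_mul_of_nonneg_left hH (by positivity)
      _ = (40 * exp (41 * C1) * C1) * ξ ^ 2 * (ξ / ξ2) ^ 2 := by field_simp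
      _ ≤ (40 * exp (41 * C1) * C1) * ξ ^ 2 * 1 := by
          refine mul_le_mul_of_nonneg_left ?_ (by positivity)
          refine pow_le_one₀ (by positivity) ?_
          rw [div_le_one hξ20]; exact hξξ'
      _ = _ := mul_one _
  have hξn : ξ ≤ n1 := by nlinarith
  have hcore := P40_core (N := N) hn1pos (n2 := n2) (ξ := ξ) (ξ2 := ξ2) (q := exp (-c)) (ε := 2 * ε)
    (B1 := 2 * B) (C5 := exp C1 * (exp (C1 + |c| + 1) / 2 + (5 + C1 + |c|)))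
    (C7 := 40 * exp (41 * C1) * C1) hξ hξξ' (exp_pos _).le
    (by linarith) (by have := abs_nonneg c; positivity) hξn
    a2 (by linarith) (g := gk Γ) (H := fun x => 40 * exp (41 * C1) * (ξ / ξ2) ^ 4 * H x)
    (fun x => by have := hH0 x; positivity) (fun x _ => gk_half h0 x) hreg.1 hreg.2 hHs
  refine hcore.trans (le_of_eq ?_)
  ring

lemma exp_torus {β : ℝ} (hβ : 0 < β) :
    ∑ x : ZMod N × ZMod N, exp (-(β * (|r1 x| + |r2 x|))) ≤ (1 + 2 / β) ^ 2 := by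
  have h := sum_torus (N := N) fun a b => exp (-(β * (|(a : ℝ)| + |(b : ℝ)|)))
  unfold r1 r2
  rw [h]
  have h1 : ∀ a b : ℤ, exp (-(β * (|(a : ℝ)| + |(b : ℝ)|))) =
      exp (-(β * |(a : ℝ)|)) * exp (-(β * |(b : ℝ)|)) := by
    intro a b
    rw [← exp_add]; congr 1; ring
  simp_rw [h1, ← mul_sum, ← sum_mul]
  have hD1 : ∑ a ∈ Wn N, exp (-(β * |(a : ℝ)|)) ≤ 1 + 2 / β :=
    (sum_le_sum_of_subset_of_nonneg Wn_sub fun a _ _ => by positivity).trans (exp_sum_In hβ N)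
  have hD0 : 0 ≤ ∑ a ∈ Wn N, exp (-(β * |(a : ℝ)|)) := sum_nonneg fun a _ => by positivity
  calc _ ≤ (1 + 2 / β) * (1 + 2 / β) := mul_le_mul hD1 hD1 hD0 (by positivity)
    _ = _ := by ring

lemma sum_H0 {A c1 ξ2 ϑ : ℝ} (hA : 0 ≤ A) (hc1 : 0 < c1) (hξ2 : 1 ≤ ξ2) :
    ∑ x : ZMod N × ZMod N, (A * exp (-(c1 / ξ2 * (|r1 x| + |r2 x|))) + ϑ) ≤
      A * (1 + 2 / c1) ^ 2 * ξ2 ^ 2 + ϑ * (N : ℝ) ^ 2 := by
  rw [sum_add_distrib, ← mul_sum]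
  have h2 : ∑ _x : ZMod N × ZMod N, ϑ = ϑ * (N : ℝ) ^ 2 := by
    rw [sum_const, card_univ, nsmul_eq_mul, Fintype.card_prod, ZMod.card]
    push_cast; ring
  rw [h2]
  have hξ20 : 0 < ξ2 := by linarith
  have h1 := exp_torus (N := N) (β := c1 / ξ2) (by positivity)
  have e7 : 1 + 2 / (c1 / ξ2) ≤ (1 + 2 / c1) * ξ2 := by
    have : 2 / (c1 / ξ2) = 2 / c1 * ξ2 := by field_simp
    rw [this, add_mul, one_mul]; linarith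
  have h3 : (1 + 2 / (c1 / ξ2)) ^ 2 ≤ ((1 + 2 / c1) * ξ2) ^ 2 :=
    pow_le_pow_left₀ (by positivity) e7 2
  have h4 : A * ∑ x : ZMod N × ZMod N, exp (-(c1 / ξ2 * (|r1 x| + |r2 x|))) ≤
      A * ((1 + 2 / c1) * ξ2) ^ 2 := mul_le_mul_of_nonneg_left (h1.trans h3) hA
  have h5 : A * ((1 + 2 / c1) * ξ2) ^ 2 = A * (1 + 2 / c1) ^ 2 * ξ2 ^ 2 := by ring
  linarith

/-- **P#4, order zero, for a flat profile.** -/
theorem P4_zero (c0 : ℝ) (hc0 : 0 < c0) (hc01 : c0 ≤ 1) : ∃ C B κ : ℝ,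
    0 ≤ C ∧ 1 ≤ B ∧ 0 < κ ∧ ∀ (N : ℕ) [NeZero N] (ξ ξ2 a η : ℝ) (P : ZMod N × ZMod N → ℝ),
      B ≤ ξ → B * ξ ≤ ξ2 → B * ξ2 ≤ N → 0 ≤ η →
      (∀ k, c0 * EE k ≤ P k) →
      (∀ k, |P k - a * EE k| ≤ η * EE k * (1 + EE k * ξ ^ 2)) →
      |a - π / 2| * (1 + log (ξ2 / ξ)) ≤ κ →
      η * (1 + log (1 + 9 * ξ2 ^ 2)) * (N : ℝ) ^ 4 ≤ κ * ξ2 ^ 4 →
      ∑ x, |gk (GamP N (1 / ξ ^ 2) (1 / ξ2 ^ 2) P) x| ≤ C * ξ ^ 2 := by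
  obtain ⟨cs, hcs⟩ := TB2_green
  obtain ⟨B1, hB1, hmid⟩ := ref_mid hcs (1 / 2 / 120) (by norm_num)
  obtain ⟨κ, hκ0, hκ1, hκ2⟩ := kap_choice cs c0 (1 / 2) hc0 (by norm_num) (by norm_num)
  obtain ⟨K, hK⟩ : ∃ K : ℝ, K = (1 + 2 / (1 / 32 : ℝ)) ^ 2 := ⟨_, rfl⟩
  have hK0 : 0 ≤ K := by rw [hK]; positivity
  obtain ⟨D0, hD0⟩ : ∃ D0 : ℝ, D0 = 50 / c0 ^ 3 := ⟨_, rfl⟩
  have hD00 : 0 < D0 := by rw [hD0]; positivity
  obtain ⟨C1, hC10, hC1a, hC1b, hC1c⟩ : ∃ C1 : ℝ, 0 ≤ C1 ∧ 50001 + 40 * D0 ≤ C1 ∧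
      32 * B1 + 1200 + D0 ≤ C1 ∧ (32 * B1 + 1200) * K + D0 ≤ C1 := by
    refine ⟨50001 + 40 * D0 + (32 * B1 + 1200 + D0) + ((32 * B1 + 1200) * K + D0), ?_, ?_, ?_, ?_⟩
    · positivity
    · have : 0 ≤ (32 * B1 + 1200 + D0) + ((32 * B1 + 1200) * K + D0) := by positivity
      linarith
    · have : 0 ≤ ((32 * B1 + 1200) * K + D0) := by positivity
      linarith
    · have : 0 ≤ (32 * B1 + 1200 + D0) := by positivity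
      linarith
  obtain ⟨C, hC⟩ := P40 (B := B1) (c := 2 * (cs - log (π / 2))) (C1 := C1) hB1 hC10
  refine ⟨max C 0, 8 * B1 ^ 2, κ, le_max_right _ _, by nlinarith, hκ0, ?_⟩
  intro N _ ξ ξ2 a η P hξB hξξ hξN hη hP hF hκa hκη
  have hB1sq : B1 ≤ 8 * B1 ^ 2 := by nlinarith
  have hB8 : 8 ≤ 8 * B1 ^ 2 := by nlinarith
  have hξ1 : 8 ≤ ξ := by linarith
  have hξ0 : 0 < ξ := by linarith
  have hξξ' : ξ ≤ ξ2 := by nlinarith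
  have hξ20 : 0 < ξ2 := by linarith
  have hN2 : 2 * ξ2 ≤ N := by nlinarith
  have hNB : B1 * ξ2 ≤ N := by nlinarith
  obtain ⟨δ, d3, d2, d1, G0, Ga, Gc⟩ := flat_all (N := N) hB1 hmid hc0 hc01 hκ0 hκ1 hκ2
    (by linarith : 1 ≤ ξ) (by linarith) hξξ' hN2 hNB hη hP hF hκa hκη
  rw [← hD0] at d1 d2 G0 Gc
  have hP0 : ∀ k, 0 ≤ P k := fun k => le_trans (mul_nonneg hc0.le (EE_nn k)) (hP k)
  have hτ2 : 0 < 1 / ξ2 ^ 2 := by positivity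
  have hτ12 : 1 / ξ2 ^ 2 ≤ 1 / ξ ^ 2 :=
    one_div_le_one_div_of_le (by positivity) (pow_le_pow_left₀ hξ0.le hξξ' 2)
  have hδ2 : δ * (N : ℝ) ^ 2 ≤ D0 * ξ2 ^ 2 := by
    have h2 : ξ2 ^ 2 ≤ (N : ℝ) ^ 2 := pow_le_pow_left₀ hξ20.le (by linarith) 2
    have h3 : δ * (N : ℝ) ^ 2 * ξ2 ^ 2 ≤ D0 * ξ2 ^ 2 * ξ2 ^ 2 := by
      calc δ * (N : ℝ) ^ 2 * ξ2 ^ 2 ≤ δ * (N : ℝ) ^ 2 * (N : ℝ) ^ 2 :=
            mul_le_mul_of_nonneg_left h2 (by positivity)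
        _ = δ * (N : ℝ) ^ 4 := by ring
        _ ≤ D0 * ξ2 ^ 4 := d1
        _ = _ := by ring
    exact le_of_mul_le_mul_right h3 (by positivity)
  have hsum : ∑ x : ZMod N × ZMod N,
      ((32 * B1 + 1200) * exp (-((1 / 32) / ξ2 * (|r1 x| + |r2 x|))) + δ) ≤ C1 * ξ2 ^ 2 := by
    refine (sum_H0 (N := N) (A := 32 * B1 + 1200) (c1 := 1 / 32) (ξ2 := ξ2) (ϑ := δ) (by linarith)
      (by norm_num) (by linarith)).trans ?_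
    rw [← hK]
    have h3 : (32 * B1 + 1200) * K * ξ2 ^ 2 + D0 * ξ2 ^ 2 ≤ C1 * ξ2 ^ 2 := by
      rw [← add_mul]
      exact mul_le_mul_of_nonneg_right hC1c (by positivity)
    linarith
  have hfin := hC N ξ ξ2 (1 / 2) (GamP N (1 / ξ ^ 2) (1 / ξ2 ^ 2) P)
    (fun x => (32 * B1 + 1200) * exp (-((1 / 32) / ξ2 * (|r1 x| + |r2 x|))) + δ)
    (by linarith) hξξ hN2 (by norm_num) le_rfl (GamP_le hτ2 hτ12 hP0) (G0.trans hC1a) Ga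
    (fun x hx => ⟨(Gc x hx).1.trans hC1b, (Gc x hx).2⟩)
    (fun x => by have : 0 ≤ (32 * B1 + 1200) := by linarith
                 positivity) hsum
  refine hfin.trans ?_
  exact mul_le_mul_of_nonneg_right (le_max_left _ _) (by positivity)

/-- **P#4 with a multiplier**: the form used in the second derivative of the stiffness flow. -/
theorem P4_mult : ∃ A0 : ℝ, 0 < A0 ∧ ∀ c0 C0 C2 ε : ℝ, 0 < c0 → c0 ≤ 1 → 0 ≤ C0 → 0 < ε →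
    ∃ C B κ : ℝ, 0 ≤ C ∧ 1 ≤ B ∧ 0 < κ ∧ ∀ (N : ℕ) [NeZero N] (ξ ξ2 a η : ℝ)
      (P : ZMod N × ZMod N → ℝ), B ≤ ξ → B * ξ ≤ ξ2 → B * ξ2 ≤ N → 0 ≤ η →
      (∀ k, c0 * EE k ≤ P k) →
      (∀ k, |P k - a * EE k| ≤ η * EE k * (1 + EE k * ξ ^ 2)) →
      |a - π / 2| * (1 + log (ξ2 / ξ)) ≤ κ →
      η * (1 + log (1 + 9 * ξ2 ^ 2)) * (N : ℝ) ^ 4 ≤ κ * ξ2 ^ 4 →
      ∑ x, |gk (GamP N (1 / ξ ^ 2) (1 / ξ2 ^ 2) P) x| ≤ C * ξ ^ 2 ∧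
      ∀ (j : ZMod N) (s : ℝ), |pw j| * ξ2 ≤ C2 → 0 ≤ s → s ≤ 1 → 1 - s ≤ C0 * (ξ * pw j) ^ 2 →
        |∑ x, gk (GamP N (1 / ξ ^ 2) (1 / ξ2 ^ 2) P) x -
            s ^ 2 * ∑ x, gk (GamP N (1 / ξ ^ 2) (1 / ξ2 ^ 2) P) x * cN (j * x.1) -
          A0 * (ξ ^ 4 * pw j ^ 2) * log (ξ2 / ξ)| ≤
            ξ ^ 4 * pw j ^ 2 * (ε * log (ξ2 / ξ) + C) := by
  obtain ⟨A0, hA0, hflat⟩ := P4_flat
  refine ⟨A0, hA0, ?_⟩
  intro c0 C0 C2 ε hc0 hc01 hC0 hε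
  obtain ⟨Ca, Ba, κa, hCa, hBa, hκa0, ha⟩ := hflat c0 C2 ε hc0 hc01 hε
  obtain ⟨Cb, Bb, κb, hCb, hBb, hκb0, hb⟩ := P4_zero c0 hc0 hc01
  refine ⟨Ca + Cb + 2 * C0 * Cb, max Ba Bb, min κa κb, by positivity,
    hBa.trans (le_max_left _ _), by positivity, ?_⟩
  intro N _ ξ ξ2 a η P hξB hξξ hξN hη hP hF h1 h2
  have hBM : 1 ≤ max Ba Bb := hBa.trans (le_max_left _ _)
  have hξ0 : 0 < ξ := by linarith
  have hξ20 : 0 < ξ2 := by nlinarith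
  have hlog : 0 ≤ log (ξ2 / ξ) := log_nonneg (by rw [le_div_iff₀ hξ0]; nlinarith)
  have hz := hb N ξ ξ2 a η P ((le_max_right _ _).trans hξB)
    ((mul_le_mul_of_nonneg_right (le_max_right _ _) hξ0.le).trans hξξ)
    ((mul_le_mul_of_nonneg_right (le_max_right _ _) hξ20.le).trans hξN) hη hP hF
    (h1.trans (min_le_right _ _))
    (h2.trans (mul_le_mul_of_nonneg_right (min_le_right _ _) (by positivity)))
  constructor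
  · refine hz.trans (mul_le_mul_of_nonneg_right ?_ (by positivity))
    have : 0 ≤ 2 * C0 * Cb := by positivity
    linarith
  · intro j s hj hs0 hs1 hs
    have hf := ha N ξ ξ2 a η P j ((le_max_left _ _).trans hξB)
      ((mul_le_mul_of_nonneg_right (le_max_left _ _) hξ0.le).trans hξξ)
      ((mul_le_mul_of_nonneg_right (le_max_left _ _) hξ20.le).trans hξN) hj hη hP hF
      (h1.trans (min_le_left _ _))
      (h2.trans (mul_le_mul_of_nonneg_right (min_le_left _ _) (by positivity)))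
    obtain ⟨G, hG⟩ : ∃ G : ZMod N × ZMod N → ℝ, G = gk (GamP N (1 / ξ ^ 2) (1 / ξ2 ^ 2) P) :=
      ⟨_, rfl⟩
    rw [← hG] at hz hf ⊢
    obtain ⟨Sj, hSj⟩ : ∃ Sj : ℝ, Sj = ∑ x, G x * cN (j * x.1) := ⟨_, rfl⟩
    have hSjb : |Sj| ≤ Cb * ξ ^ 2 := by
      rw [hSj]
      refine (abs_sum_le_sum_abs _ _).trans (le_trans (sum_le_sum fun x _ => ?_) hz)
      rw [abs_mul]
      have hc : |cN (j * x.1)| ≤ 1 := abs_le.2 ⟨neg_one_le_cN _, cN_le_one _⟩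
      calc |G x| * |cN (j * x.1)| ≤ |G x| * 1 := mul_le_mul_of_nonneg_left hc (abs_nonneg _)
        _ = _ := mul_one _
    have e1 : ∑ x, (1 - cN (j * x.1)) * G x = ∑ x, G x - Sj := by
      rw [hSj, ← sum_sub_distrib]; exact sum_congr rfl fun x _ => by ring
    rw [e1] at hf
    rw [← hSj]
    have e2 : ∑ x, G x - s ^ 2 * Sj - A0 * (ξ ^ 4 * pw j ^ 2) * log (ξ2 / ξ) =
        (∑ x, G x - Sj - A0 * (ξ ^ 4 * pw j ^ 2) * log (ξ2 / ξ)) + (1 - s ^ 2) * Sj := by ring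
    rw [e2]
    have h3 : |(1 - s ^ 2) * Sj| ≤ (2 * (C0 * (ξ * pw j) ^ 2)) * (Cb * ξ ^ 2) := by
      rw [abs_mul]
      have h4 : |1 - s ^ 2| ≤ 2 * (C0 * (ξ * pw j) ^ 2) := by
        have h5 : 0 ≤ 1 - s ^ 2 := by nlinarith
        rw [abs_of_nonneg h5]
        nlinarith
      exact mul_le_mul h4 hSjb (abs_nonneg _) (by positivity)
    have h6 : 0 ≤ ξ ^ 4 * pw j ^ 2 * Cb := by positivity
    calc |(∑ x, G x - Sj - A0 * (ξ ^ 4 * pw j ^ 2) * log (ξ2 / ξ)) + (1 - s ^ 2) * Sj|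
        ≤ ξ ^ 4 * pw j ^ 2 * (ε * log (ξ2 / ξ) + Ca) +
          (2 * (C0 * (ξ * pw j) ^ 2)) * (Cb * ξ ^ 2) := (abs_add_le _ _).trans (add_le_add hf h3)
      _ = ξ ^ 4 * pw j ^ 2 * (ε * log (ξ2 / ξ) + (Ca + 2 * C0 * Cb)) := by ring
      _ ≤ _ := by linarith

end

end Vale.Agent.P159.H813
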