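import Vale.Agent.P159.H813.P4core

/-!
P159 / P#4: asymptotics of the second order term of the stiffness flow,
`e^{-4π²Γ(0)} ∑_x (1 - cos k x) [sinh (4π²Γ(x)) - 4π²Γ(x)] =
  (π/4) e^{-c} ξ⁴ k² (log (ξ2/ξ) (1 + O(ε)) + O(1))`.
-/

namespace Vale.Agent.P159.H813

open Finset Real
open Vale.Agent.P159.TM.H764

noncomputable section

lemma sinh_sub_half (u : ℝ) : |sinh u - u| ≤ exp |u| / 2 := by
  have key : ∀ v : ℝ, 0 ≤ v → |sinh v - v| ≤ exp v / 2 := by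
    intro v hv
    have h1 : v ≤ sinh v := self_le_sinh_iff.2 hv
    rw [abs_of_nonneg (by linarith), sinh_eq]
    have := exp_pos (-v)
    linarith
  rcases le_total 0 u with h | h
  · rw [abs_of_nonneg h]; exact key u h
  · have := key (-u) (by linarith)
    rw [sinh_neg] at this
    rw [abs_of_nonpos h]
    have e : |sinh u - u| = |-sinh u - -u| := by
      rw [← abs_neg]; congr 1; ring
    rw [e]; exact this

lemma sinh_sub_lin (u : ℝ) : |sinh u - u| ≤ |u| * exp |u| := by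
  have key : ∀ v : ℝ, 0 ≤ v → |sinh v - v| ≤ v * exp v := by
    intro v hv
    have h1 : v ≤ sinh v := self_le_sinh_iff.2 hv
    rw [abs_of_nonneg (by linarith), sinh_eq]
    have h2 : exp (-v) = exp v * exp (-(2 * v)) := by rw [← exp_add]; congr 1; ring
    have h3 := add_one_le_exp (-(2 * v))
    have h4 := exp_pos v
    have h5 : exp v * (-(2 * v) + 1) ≤ exp (-v) := by
      rw [h2]; exact mul_le_mul_of_nonneg_left h3 h4.le
    nlinarith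
  rcases le_total 0 u with h | h
  · rw [abs_of_nonneg h]; exact key u h
  · have := key (-u) (by linarith)
    rw [sinh_neg] at this
    rw [abs_of_nonpos h]
    have e : |sinh u - u| = |-sinh u - -u| := by
      rw [← abs_neg]; congr 1; ring
    rw [e]; exact this

lemma exp_sub_one_le {δ ε : ℝ} (hε : ε ≤ 1) (h : |δ| ≤ ε) : |exp (-δ) - 1| ≤ 2 * ε := by
  have h1 : |(-δ)| ≤ 1 := by rw [abs_neg]; linarith
  have h2 := abs_exp_sub_one_le h1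
  rw [abs_neg] at h2
  linarith

/-- euclidean norm -/
def en {N : ℕ} [NeZero N] (x : ZMod N × ZMod N) : ℝ := sqrt (sq2 x)

variable {N : ℕ} [NeZero N]

lemma mx_le_en (x : ZMod N × ZMod N) : (mx x : ℝ) ≤ en x := by
  unfold en
  refine le_sqrt_of_sq_le ?_
  have h1 : (mx x : ℝ) ^ 2 = max (|r1 x|) (|r2 x|) ^ 2 := by
    congr 1
    unfold mx r1 r2
    rw [Nat.cast_max]
    congr 1 <;> (rw [← Int.cast_abs, Int.abs_eq_natAbs]; simp)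
  rw [h1]
  unfold sq2
  rcases max_cases |r1 x| |r2 x| with ⟨h, -⟩ | ⟨h, -⟩
  · rw [h, sq_abs]; nlinarith [sq_nonneg (r2 x)]
  · rw [h, sq_abs]; nlinarith [sq_nonneg (r1 x)]

lemma abs_r2_le (x : ZMod N × ZMod N) : |r2 x| ≤ mx x := by
  unfold r2 mx
  have h : |((x.2.valMinAbs : ℤ) : ℝ)| = (x.2.valMinAbs.natAbs : ℝ) := by
    rw [← Int.cast_abs, Int.abs_eq_natAbs]; simp
  rw [h]
  exact_mod_cast le_max_right _ _

lemma en_le_mx (x : ZMod N × ZMod N) : en x ≤ 2 * mx x := by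
  unfold en
  rw [sqrt_le_left (by positivity)]
  unfold sq2
  have h1 := abs_r1_le x
  have h2 := abs_r2_le x
  have h3 : r1 x ^ 2 ≤ (mx x : ℝ) ^ 2 := by
    rw [← sq_abs]; exact pow_le_pow_left₀ (abs_nonneg _) h1 2
  have h4 : r2 x ^ 2 ≤ (mx x : ℝ) ^ 2 := by
    rw [← sq_abs]; exact pow_le_pow_left₀ (abs_nonneg _) h2 2
  nlinarith [sq_nonneg (mx x : ℝ)]

/-- the kernel of the second order term -/
def gk (Γ : ZMod N × ZMod N → ℝ) (x : ZMod N × ZMod N) : ℝ :=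
  exp (-(4 * π ^ 2 * Γ 0)) * (sinh (4 * π ^ 2 * Γ x) - 4 * π ^ 2 * Γ x)

lemma gk_half {Γ : ZMod N × ZMod N → ℝ} (h0 : ∀ x, |Γ x| ≤ Γ 0) (x : ZMod N × ZMod N) :
    |gk Γ x| ≤ 1 / 2 := by
  unfold gk
  rw [abs_mul, abs_exp]
  have h1 := sinh_sub_half (4 * π ^ 2 * Γ x)
  have h2 : |4 * π ^ 2 * Γ x| ≤ 4 * π ^ 2 * Γ 0 := by
    rw [abs_mul, abs_of_nonneg (by positivity)]
    exact mul_le_mul_of_nonneg_left (h0 x) (by positivity)
  have h3 : exp |4 * π ^ 2 * Γ x| ≤ exp (4 * π ^ 2 * Γ 0) := exp_le_exp.2 h2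
  calc exp (-(4 * π ^ 2 * Γ 0)) * |sinh (4 * π ^ 2 * Γ x) - 4 * π ^ 2 * Γ x|
      ≤ exp (-(4 * π ^ 2 * Γ 0)) * (exp (4 * π ^ 2 * Γ 0) / 2) :=
        mul_le_mul_of_nonneg_left (by linarith) (exp_pos _).le
    _ = 1 / 2 := by
        rw [mul_div_assoc', ← exp_add]; simp

lemma gk_mid {Γ : ZMod N × ZMod N → ℝ} {ξ ξ2 c C1 ε : ℝ} (hξ : 0 < ξ) (hξ2 : 0 < ξ2)
    (hε : 0 ≤ ε) (hε1 : ε ≤ 1) (hC1 : 0 ≤ C1) {x : ZMod N × ZMod N} (hx : 0 < mx x)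
    (hxξ : en x ≤ ξ2)
    (Ga : |4 * π ^ 2 * (Γ 0 - Γ x) - (4 * log (en x / ξ) + c)| ≤ ε)
    (G0 : |4 * π ^ 2 * Γ 0 - 4 * log (ξ2 / ξ)| ≤ C1) :
    |gk Γ x - exp (-c) / 2 * (ξ ^ 4 / sq2 x ^ 2)| ≤
      (2 * ε) * (exp (-c) / 2) * (ξ ^ 4 / sq2 x ^ 2) +
        (exp C1 * (exp (C1 + |c| + 1) / 2 + (5 + C1 + |c|))) * (ξ / ξ2) ^ 4 * (ξ2 / mx x) := by
  set u := 4 * π ^ 2 * Γ x with hu
  set u0 := 4 * π ^ 2 * Γ 0 with hu0
  have hmxp : (0 : ℝ) < mx x := by exact_mod_cast hx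
  have hen : 0 < en x := lt_of_lt_of_le hmxp (mx_le_en x)
  have hsq : en x ^ 2 = sq2 x := by unfold en; exact sq_sqrt (sq2_nonneg x)
  have hdiff : 4 * π ^ 2 * (Γ 0 - Γ x) = u0 - u := by rw [hu, hu0]; ring
  rw [hdiff] at Ga
  set δ := u0 - u - (4 * log (en x / ξ) + c) with hδ
  have he := exp_sub_one_le hε1 Ga
  have hmain : exp (-u0) * exp u = exp (-c) * (ξ ^ 4 / sq2 x ^ 2) * exp (-δ) := by
    have h1 : exp (4 * log (en x / ξ)) = (en x / ξ) ^ 4 := by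
      have : 4 * log (en x / ξ) = ((4 : ℕ) : ℝ) * log (en x / ξ) := by norm_num
      rw [this, exp_nat_mul, exp_log (by positivity)]
    have h2 : ξ ^ 4 / sq2 x ^ 2 = exp (-(4 * log (en x / ξ))) := by
      rw [exp_neg, h1, div_pow, inv_div, ← hsq]
      ring
    rw [h2, ← exp_add, ← exp_add, ← exp_add]
    congr 1
    rw [hδ]; ring
  have hdec : gk Γ x - exp (-c) / 2 * (ξ ^ 4 / sq2 x ^ 2) =
      exp (-c) / 2 * (ξ ^ 4 / sq2 x ^ 2) * (exp (-δ) - 1) - exp (-u0) * (exp (-u) / 2 + u) := by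
    unfold gk
    rw [← hu, ← hu0, sinh_eq]
    have : exp (-u0) * ((exp u - exp (-u)) / 2 - u) = exp (-u0) * exp u / 2 -
        exp (-u0) * (exp (-u) / 2 + u) := by ring
    rw [this, hmain]
    ring
  rw [hdec]
  refine (abs_sub _ _).trans (add_le_add ?_ ?_)
  · rw [abs_mul, abs_of_nonneg (by positivity : 0 ≤ exp (-c) / 2 * (ξ ^ 4 / sq2 x ^ 2))]
    calc exp (-c) / 2 * (ξ ^ 4 / sq2 x ^ 2) * |exp (-δ) - 1|
        ≤ exp (-c) / 2 * (ξ ^ 4 / sq2 x ^ 2) * (2 * ε) :=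
          mul_le_mul_of_nonneg_left he (by positivity)
      _ = _ := by ring
  · rw [abs_mul, abs_exp]
    have G0' := abs_le.1 G0
    have Ga' := abs_le.1 Ga
    have hlog : log (en x / ξ) = log (ξ2 / ξ) - log (ξ2 / en x) := by
      rw [log_div hen.ne' hξ.ne', log_div hξ2.ne' hξ.ne', log_div hξ2.ne' hen.ne']; ring
    have hge1 : 1 ≤ ξ2 / en x := by rw [le_div_iff₀ hen]; linarith
    have hlog0 : 0 ≤ log (ξ2 / en x) := log_nonneg hge1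
    have hlog1 : log (ξ2 / en x) ≤ ξ2 / en x := by
      have := log_le_sub_one_of_pos (by positivity : 0 < ξ2 / en x)
      linarith
    have hc := neg_abs_le c
    have hc' := le_abs_self c
    have hulow : -(C1 + |c| + 1) ≤ u := by
      have : u = u0 - (4 * log (en x / ξ) + c) - δ := by rw [hδ]; ring
      rw [this, hlog]
      linarith [Ga'.1, Ga'.2, G0'.1, G0'.2]
    have huup : u ≤ 4 * (ξ2 / en x) + (C1 + |c| + 1) := by
      have : u = u0 - (4 * log (en x / ξ) + c) - δ := by rw [hδ]; ring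
      rw [this, hlog]
      linarith [Ga'.1, Ga'.2, G0'.1, G0'.2]
    have habsu : |u| ≤ (5 + C1 + |c|) * (ξ2 / en x) := by
      have hc0 := abs_nonneg c
      rw [abs_le]
      constructor <;> nlinarith
    have hexpu : exp (-u) / 2 ≤ exp (C1 + |c| + 1) / 2 * (ξ2 / en x) := by
      have h1 : exp (-u) ≤ exp (C1 + |c| + 1) := exp_le_exp.2 (by linarith)
      have h2 := exp_pos (C1 + |c| + 1)
      nlinarith
    have hsum : |exp (-u) / 2 + u| ≤ (exp (C1 + |c| + 1) / 2 + (5 + C1 + |c|)) * (ξ2 / en x) := by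
      refine (abs_add_le _ _).trans ?_
      rw [abs_of_nonneg (by positivity : 0 ≤ exp (-u) / 2)]
      linarith
    have hexp0 : exp (-u0) ≤ exp C1 * (ξ / ξ2) ^ 4 := by
      have h1 : exp (-(4 * log (ξ2 / ξ))) = (ξ / ξ2) ^ 4 := by
        have : 4 * log (ξ2 / ξ) = ((4 : ℕ) : ℝ) * log (ξ2 / ξ) := by norm_num
        rw [exp_neg, this, exp_nat_mul, exp_log (by positivity), ← inv_pow, inv_div]
      rw [← h1, ← exp_add]
      exact exp_le_exp.2 (by linarith [G0'.1])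
    have hen2 : ξ2 / en x ≤ ξ2 / mx x := div_le_div_of_nonneg_left hξ2.le hmxp (mx_le_en x)
    have hpos : 0 ≤ exp (C1 + |c| + 1) / 2 + (5 + C1 + |c|) := by
      have := abs_nonneg c; positivity
    calc exp (-u0) * |exp (-u) / 2 + u|
        ≤ (exp C1 * (ξ / ξ2) ^ 4) *
          ((exp (C1 + |c| + 1) / 2 + (5 + C1 + |c|)) * (ξ2 / mx x)) := by
          refine mul_le_mul hexp0 (hsum.trans ?_) (abs_nonneg _) (by positivity)
          exact mul_le_mul_of_nonneg_left hen2 hpos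
      _ = _ := by ring

lemma gk_far {Γ : ZMod N × ZMod N → ℝ} {ξ ξ2 C1 : ℝ} (hξ : 0 < ξ) (hξ2 : 0 < ξ2)
    {x : ZMod N × ZMod N}
    (Gc : |Γ x| ≤ C1) (G0 : |4 * π ^ 2 * Γ 0 - 4 * log (ξ2 / ξ)| ≤ C1) :
    |gk Γ x| ≤ (40 * exp (41 * C1)) * (ξ / ξ2) ^ 4 * |Γ x| := by
  have hpi2 : π ^ 2 ≤ 10 := by nlinarith [pi_lt_d2, pi_pos]
  set u := 4 * π ^ 2 * Γ x with hu
  set u0 := 4 * π ^ 2 * Γ 0 with hu0
  have G0' := abs_le.1 G0
  have habs : |u| ≤ 40 * |Γ x| := by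
    rw [hu, abs_mul, abs_of_nonneg (by positivity)]
    have := abs_nonneg (Γ x)
    nlinarith
  have habs2 : |u| ≤ 40 * C1 := by linarith
  have hexp0 : exp (-u0) ≤ exp C1 * (ξ / ξ2) ^ 4 := by
    have h1 : exp (-(4 * log (ξ2 / ξ))) = (ξ / ξ2) ^ 4 := by
      have : 4 * log (ξ2 / ξ) = ((4 : ℕ) : ℝ) * log (ξ2 / ξ) := by norm_num
      rw [exp_neg, this, exp_nat_mul, exp_log (by positivity), ← inv_pow, inv_div]
    rw [← h1, ← exp_add]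
    exact exp_le_exp.2 (by linarith [G0'.1])
  unfold gk
  rw [abs_mul, abs_exp, ← hu, ← hu0]
  calc exp (-u0) * |sinh u - u| ≤ (exp C1 * (ξ / ξ2) ^ 4) * ((40 * |Γ x|) * exp (40 * C1)) := by
        refine mul_le_mul hexp0 ((sinh_sub_lin u).trans ?_) (abs_nonneg _) (by positivity)
        exact mul_le_mul habs (exp_le_exp.2 habs2) (exp_pos _).le (by positivity)
    _ = _ := by
        have : exp (41 * C1) = exp C1 * exp (40 * C1) := by rw [← exp_add]; congr 1; ring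
        rw [this]; ring

omit [NeZero N] in
lemma log_cmp {X n : ℝ} (hX : 1 ≤ X) (h1 : X ≤ n) (h2 : n ≤ X + 1) : |log n - log X| ≤ log 2 := by
  have h3 : log X ≤ log n := log_le_log (by linarith) h1
  have h4 : log n ≤ log (2 * X) := log_le_log (by linarith) (by linarith)
  rw [log_mul (by norm_num) (by positivity)] at h4
  have h5 : 0 ≤ log 2 := log_nonneg (by norm_num)
  rw [abs_le]; constructor <;> linarith

omit [NeZero N] in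
lemma log_cmp' {X n : ℝ} (hn : 1 ≤ n) (h1 : n ≤ X) (h2 : X ≤ n + 1) : |log n - log X| ≤ log 2 := by
  rw [abs_sub_comm]; exact log_cmp hn h1 h2

omit [NeZero N] in
/-- the logarithm between two boxes -/
lemma Bx_window {n1 n2 : ℕ} (hn1 : 1 ≤ n1) (hn2 : 1 ≤ n2) {X1 X2 L CB : ℝ}
    (l1 : |log n1 - log X1| ≤ log 2) (l2 : |log n2 - log X2| ≤ log 2)
    (l3 : |log X2 - log X1 - L| ≤ CB - 2 * log 2) :
    |Bx n2 - Bx n1 - 2 * π * L| ≤ 46 + 2 * π * CB := by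
  have b1 := Bx_log (n := n1) hn1
  have b2 := Bx_log (n := n2) hn2
  have hpi := pi_pos
  have e2 : |log n2 - log n1 - L| ≤ CB := by
    have h1 := abs_le.1 l1
    have h2 := abs_le.1 l2
    have h3 := abs_le.1 l3
    rw [abs_le]
    constructor <;> linarith [h1.1, h1.2, h2.1, h2.2, h3.1, h3.2]
  have e3 : |2 * π * (log n2 - log n1 - L)| ≤ 2 * π * CB := by
    rw [abs_mul, abs_of_pos (by positivity : (0 : ℝ) < 2 * π)]
    exact mul_le_mul_of_nonneg_left e2 (by positivity)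
  have b1' := abs_le.1 b1
  have b2' := abs_le.1 b2
  have e3' := abs_le.1 e3
  rw [abs_le]
  constructor <;> linarith [b1'.1, b1'.2, b2'.1, b2'.2, e3'.1, e3'.2]

omit [NeZero N] in
/-- bookkeeping of the main term -/
lemma P4_asm {S q W L D K ε R : ℝ} (hq : 0 ≤ q) (hW : 0 ≤ W) (hL : 0 ≤ L) (hK : 0 ≤ K)
    (hε : 0 ≤ ε) (hε1 : ε ≤ 1) (hD : |D - 2 * π * L| ≤ K)
    (h : |S - q / 8 * W * D| ≤ W * (2 * ε * (q / 8) * D + R)) :
    |S - π / 4 * q * W * L| ≤ W * (2 * ε * q * L + (q / 8 * K + 2 * (q / 8) * K + R)) := by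
  have hD' := abs_le.1 hD
  have hpi := pi_pos
  have hm1 : |q / 8 * W * D - π / 4 * q * W * L| ≤ W * (q / 8 * K) := by
    have : q / 8 * W * D - π / 4 * q * W * L = (W * (q / 8)) * (D - 2 * π * L) := by ring
    rw [this, abs_mul, abs_of_nonneg (by positivity : 0 ≤ W * (q / 8))]
    calc W * (q / 8) * |D - 2 * π * L| ≤ W * (q / 8) * K :=
          mul_le_mul_of_nonneg_left hD (by positivity)
      _ = _ := by ring
  have hm2 : 2 * ε * (q / 8) * D ≤ 2 * ε * q * L + 2 * (q / 8) * K := by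
    have h1 : D ≤ 2 * π * L + K := by linarith [hD'.2]
    have h2 : 2 * ε * (q / 8) * D ≤ 2 * ε * (q / 8) * (2 * π * L + K) :=
      mul_le_mul_of_nonneg_left h1 (by positivity)
    have h4 : 2 * π ≤ 8 := by linarith [pi_lt_d2]
    have h5 : (2 * ε * (q / 8) * L) * (2 * π) ≤ (2 * ε * (q / 8) * L) * 8 :=
      mul_le_mul_of_nonneg_left h4 (by positivity)
    have h6 : ε * (2 * (q / 8) * K) ≤ 1 * (2 * (q / 8) * K) :=
      mul_le_mul_of_nonneg_right hε1 (by positivity)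
    nlinarith
  refine (abs_sub_le S (q / 8 * W * D) _).trans ?_
  refine (add_le_add h hm1).trans ?_
  rw [← mul_add]
  refine mul_le_mul_of_nonneg_left ?_ hW
  linarith

/-- the middle and far regions -/
lemma P4_reg {B c C1 : ℝ} (hB : 1 ≤ B) (hC1 : 0 ≤ C1)
    {ξ ξ2 ε : ℝ} {Γ H : ZMod N × ZMod N → ℝ} (hξ : 0 < ξ) (hξ2 : 0 < ξ2) (hε : 0 ≤ ε) (hε1 : ε ≤ 1)
    (G0 : |4 * π ^ 2 * Γ 0 - 4 * log (ξ2 / ξ)| ≤ C1)
    (Ga : ∀ x, B * ξ ≤ en x → en x ≤ ξ2 / B →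
      |4 * π ^ 2 * (Γ 0 - Γ x) - (4 * log (en x / ξ) + c)| ≤ ε)
    (Gc : ∀ x, ξ2 / (2 * B) ≤ en x → |Γ x| ≤ C1 ∧ |Γ x| ≤ H x)
    {n1 n2 : ℕ} (hn1 : B * ξ ≤ n1) (hn2 : (n2 : ℝ) ≤ ξ2 / (2 * B))
    (hn2' : ξ2 / (2 * B) ≤ n2 + 1) :
    (∀ x, n1 < mx x → mx x ≤ n2 → |gk Γ x - exp (-c) / 2 * (ξ ^ 4 / sq2 x ^ 2)| ≤
      (2 * ε) * (exp (-c) / 2) * (ξ ^ 4 / sq2 x ^ 2) +
        (exp C1 * (exp (C1 + |c| + 1) / 2 + (5 + C1 + |c|))) * (ξ / ξ2) ^ 4 * (ξ2 / mx x)) ∧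
    (∀ x, n2 < mx x → |gk Γ x| ≤ (40 * exp (41 * C1)) * (ξ / ξ2) ^ 4 * H x) := by
  have hB0 : 0 < B := by linarith
  constructor
  · intro x hx1 hx2
    have e1 : (n1 : ℝ) < mx x := by exact_mod_cast hx1
    have e2 : (mx x : ℝ) ≤ n2 := by exact_mod_cast hx2
    have e3 := mx_le_en x
    have e4 := en_le_mx x
    have e5 : ξ2 / (2 * B) = ξ2 / B / 2 := by field_simp
    have e6 : ξ2 / B ≤ ξ2 := div_le_self hξ2.le hB
    have e7 : en x ≤ ξ2 / B := by linarith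
    have e8 : B * ξ ≤ en x := by linarith
    exact gk_mid hξ hξ2 hε hε1 hC1 (by omega) (by linarith) (Ga x e8 e7) G0
  · intro x hx
    have e1 : (n2 : ℝ) + 1 ≤ mx x := by exact_mod_cast hx
    have e3 := mx_le_en x
    have e4 := Gc x (by linarith)
    refine (gk_far hξ hξ2 e4.1 G0).trans ?_
    exact mul_le_mul_of_nonneg_left e4.2 (by positivity)

omit [NeZero N] in
/-- the two radii -/
lemma P4_rad {B ξ ξ2 : ℝ} (hB : 1 ≤ B) (hξ : 1 ≤ ξ) (hξξ : 8 * B ^ 2 * ξ ≤ ξ2) :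
    ∃ n1 n2 : ℕ, 1 ≤ n1 ∧ n1 ≤ n2 ∧ B * ξ ≤ n1 ∧ (n1 : ℝ) ≤ 2 * B * ξ ∧
      (n2 : ℝ) ≤ ξ2 / (2 * B) ∧ ξ2 / (2 * B) ≤ n2 + 1 ∧ ξ2 / (2 * B) ≤ ξ2 / 2 ∧
      |log n1 - log (B * ξ)| ≤ log 2 ∧ |log n2 - log (ξ2 / (2 * B))| ≤ log 2 ∧ 8 ≤ ξ2 ∧
      0 ≤ log (ξ2 / ξ) := by
  have hB0 : 0 < B := by linarith
  have hξ0 : 0 < ξ := by linarith
  have hB2 : 1 ≤ B ^ 2 := by nlinarith
  have hξ2 : 8 ≤ ξ2 := by nlinarith
  have hξ20 : 0 < ξ2 := by linarith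
  have hBξ : 1 ≤ B * ξ := by nlinarith
  have a1 : B * ξ ≤ ⌈B * ξ⌉₊ := Nat.le_ceil _
  have a2 : (⌈B * ξ⌉₊ : ℝ) < B * ξ + 1 := Nat.ceil_lt_add_one (by positivity)
  have a3 : (⌊ξ2 / (2 * B)⌋₊ : ℝ) ≤ ξ2 / (2 * B) := Nat.floor_le (by positivity)
  have a4 : ξ2 / (2 * B) < ⌊ξ2 / (2 * B)⌋₊ + 1 := Nat.lt_floor_add_one _
  have hbig : 4 * (B * ξ) ≤ ξ2 / (2 * B) := by
    rw [le_div_iff₀ (by positivity)]; nlinarith
  have h12 : (⌈B * ξ⌉₊ : ℝ) ≤ ⌊ξ2 / (2 * B)⌋₊ := by linarith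
  have hn1 : (1 : ℝ) ≤ ⌈B * ξ⌉₊ := hBξ.trans a1
  refine ⟨⌈B * ξ⌉₊, ⌊ξ2 / (2 * B)⌋₊, by exact_mod_cast hn1, by exact_mod_cast h12, a1,
    by linarith, a3, a4.le, div_le_div_of_nonneg_left hξ20.le (by norm_num) (by linarith),
    log_cmp hBξ a1 a2.le, log_cmp' (hn1.trans h12) a3 a4.le, hξ2, log_nonneg ?_⟩
  rw [le_div_iff₀ hξ0]; nlinarith

/-- **P#4.** -/
theorem P4 {B c C1 C2 : ℝ} (hB : 1 ≤ B) (hC1 : 0 ≤ C1) :
    ∃ C : ℝ, ∀ (N : ℕ) [NeZero N] (ξ ξ2 ε : ℝ) (Γ H : ZMod N × ZMod N → ℝ) (j : ZMod N),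
      1 ≤ ξ → 8 * B ^ 2 * ξ ≤ ξ2 → 2 * ξ2 ≤ N → 0 ≤ ε → ε ≤ 1 → |pw j| * ξ2 ≤ C2 →
      (∀ x, |Γ x| ≤ Γ 0) →
      |4 * π ^ 2 * Γ 0 - 4 * log (ξ2 / ξ)| ≤ C1 →
      (∀ x, B * ξ ≤ en x → en x ≤ ξ2 / B →
        |4 * π ^ 2 * (Γ 0 - Γ x) - (4 * log (en x / ξ) + c)| ≤ ε) →
      (∀ x, ξ2 / (2 * B) ≤ en x → |Γ x| ≤ C1 ∧ |Γ x| ≤ H x) →
      (∀ x, 0 ≤ H x) → ∑ x, r1 x ^ 2 * H x ≤ C1 * ξ2 ^ 4 →
      |∑ x, (1 - cN (j * x.1)) * gk Γ x - π / 4 * exp (-c) * (ξ ^ 4 * pw j ^ 2) * log (ξ2 / ξ)| ≤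
        ξ ^ 4 * pw j ^ 2 * (2 * ε * exp (-c) * log (ξ2 / ξ) + C) := by
  have hB0 : 0 < B := by linarith
  have hlB : 0 ≤ log B := log_nonneg hB
  have hl2B : 0 ≤ log (2 * B) := log_nonneg (by linarith)
  have hl2 : 0 ≤ log 2 := log_nonneg (by norm_num)
  refine ⟨exp (-c) / 8 * (46 + 2 * π * (2 * log 2 + log (2 * B) + log B)) +
    2 * (exp (-c) / 8) * (46 + 2 * π * (2 * log 2 + log (2 * B) + log B)) +
    (9 / 4 * (2 * B) ^ 4 + 9 / 2 * (exp C1 * (exp (C1 + |c| + 1) / 2 + (5 + C1 + |c|))) +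
      9 / 4 * exp (-c) * C2 ^ 2 + 20 * exp (41 * C1) * C1), ?_⟩
  intro N _ ξ ξ2 ε Γ H j hξ hξξ hξN hε hε1 hj h0 G0 Ga Gc hH0 hH
  have hξ0 : 0 < ξ := by linarith
  obtain ⟨n1, n2, hn1pos, h12, a1, a2, a3, a4, a5, l1, l2, hξ2, hlogρ⟩ := P4_rad hB hξ hξξ
  have hξ20 : 0 < ξ2 := by linarith
  have hn2N : 2 * n2 < N := by
    have : (2 * n2 : ℝ) < N := by linarith
    exact_mod_cast this
  have hreg := P4_reg hB hC1 hξ0 hξ20 hε hε1 G0 Ga Gc a1 a3 a4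
  have hHs : ∑ x, r1 x ^ 2 * (40 * exp (41 * C1) * (ξ / ξ2) ^ 4 * H x) ≤
      2 * (20 * exp (41 * C1) * C1) * ξ ^ 4 := by
    have e1 : ∑ x, r1 x ^ 2 * (40 * exp (41 * C1) * (ξ / ξ2) ^ 4 * H x) =
        40 * exp (41 * C1) * (ξ / ξ2) ^ 4 * ∑ x, r1 x ^ 2 * H x := by
      rw [mul_sum]; exact sum_congr rfl fun x _ => by ring
    rw [e1]
    calc 40 * exp (41 * C1) * (ξ / ξ2) ^ 4 * ∑ x, r1 x ^ 2 * H x
        ≤ 40 * exp (41 * C1) * (ξ / ξ2) ^ 4 * (C1 * ξ2 ^ 4) :=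
          mul_le_mul_of_nonneg_left hH (by positivity)
      _ = _ := by rw [div_pow]; field_simp; ring
  have hcore := P4_core (N := N) hn1pos h12 hn2N (ξ := ξ) (ξ2 := ξ2) (q := exp (-c)) (ε := 2 * ε)
    (B1 := 2 * B) (C2 := C2) (C5 := exp C1 * (exp (C1 + |c| + 1) / 2 + (5 + C1 + |c|)))
    (C7 := 20 * exp (41 * C1) * C1) hξ0 (by linarith) (exp_pos _).le
    (by positivity) (by have := abs_nonneg c; positivity)
    a2 (by linarith) hj (g := gk Γ) (H := fun x => 40 * exp (41 * C1) * (ξ / ξ2) ^ 4 * H x)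
    (fun x => by have := hH0 x; positivity) (fun x _ => gk_half h0 x) hreg.1 hreg.2 hHs
  have l3 : |log (ξ2 / (2 * B)) - log (B * ξ) - log (ξ2 / ξ)| ≤
      (2 * log 2 + log (2 * B) + log B) - 2 * log 2 := by
    rw [log_div hξ20.ne' (by positivity), log_mul hB0.ne' hξ0.ne', log_div hξ20.ne' hξ0.ne']
    rw [abs_le]; constructor <;> linarith
  have hBx := Bx_window hn1pos (hn1pos.trans h12) l1 l2 l3
  refine P4_asm (exp_pos _).le (by positivity) hlogρ (by positivity) hε hε1 hBx ?_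
  have e : exp (-c) / 8 * ξ ^ 4 * pw j ^ 2 * (Bx n2 - Bx n1) =
      exp (-c) / 8 * (ξ ^ 4 * pw j ^ 2) * (Bx n2 - Bx n1) := by ring
  rw [← e]
  exact hcore

/-- an exponentially decaying majorant with a small constant -/
lemma sum_H {A c1 ξ2 ϑ : ℝ} (hA : 0 ≤ A) (hc1 : 0 < c1) (hξ2 : 1 ≤ ξ2) (hϑ : 0 ≤ ϑ) :
    ∑ x : ZMod N × ZMod N, r1 x ^ 2 * (A * exp (-(c1 / ξ2 * (|r1 x| + |r2 x|))) + ϑ) ≤
      A * (16 / c1 ^ 2 * (1 + 4 / c1) * (1 + 2 / c1)) * ξ2 ^ 4 + ϑ * (N : ℝ) ^ 4 := by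
  have h1 := Et_sum (N := N) hA hc1 hξ2
  have h2 : ∑ x : ZMod N × ZMod N, r1 x ^ 2 * ϑ ≤ ϑ * (N : ℝ) ^ 4 := by
    have h3 : ∀ x : ZMod N × ZMod N, r1 x ^ 2 * ϑ ≤ (N : ℝ) ^ 2 * ϑ := by
      intro x
      refine mul_le_mul_of_nonneg_right ?_ hϑ
      rw [← sq_abs]
      refine pow_le_pow_left₀ (abs_nonneg _) ?_ 2
      refine (abs_r1_le x).trans ?_
      have h4 := ZMod.natAbs_valMinAbs_le x.1
      have h5 := ZMod.natAbs_valMinAbs_le x.2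
      have h6 : mx x ≤ N := by unfold mx; exact max_le (by omega) (by omega)
      exact_mod_cast h6
    calc ∑ x : ZMod N × ZMod N, r1 x ^ 2 * ϑ ≤ ∑ _x : ZMod N × ZMod N, (N : ℝ) ^ 2 * ϑ :=
          sum_le_sum fun x _ => h3 x
      _ = _ := by
          rw [sum_const, card_univ, nsmul_eq_mul, Fintype.card_prod, ZMod.card]
          push_cast; ring
  calc ∑ x : ZMod N × ZMod N, r1 x ^ 2 * (A * exp (-(c1 / ξ2 * (|r1 x| + |r2 x|))) + ϑ)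
      ≤ ∑ x : ZMod N × ZMod N, (Et A (c1 / ξ2) x + r1 x ^ 2 * ϑ) := by
        refine sum_le_sum fun x _ => ?_
        unfold Et
        have h3 := r1_sq_le x
        have h4 : r1 x ^ 2 * (A * exp (-(c1 / ξ2 * (|r1 x| + |r2 x|)))) ≤
            sq2 x * (A * exp (-(c1 / ξ2 * (|r1 x| + |r2 x|)))) :=
          mul_le_mul_of_nonneg_right h3 (by positivity)
        linarith
    _ = ∑ x : ZMod N × ZMod N, Et A (c1 / ξ2) x + ∑ x : ZMod N × ZMod N, r1 x ^ 2 * ϑ :=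
        sum_add_distrib
    _ ≤ _ := add_le_add h1 h2

end

end Vale.Agent.P159.H813
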