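import Vale.Agent.P159.H474.Green4
import Vale.Agent.P159.H462.In3Sum
import Vale.Agent.P159.H813.P4

/-!
P159 / P#4: the covariance with symbol `1/(τ₂+P) - 1/(τ₁+P)` is close to the one with `P = a EE`
when the profile of `P` is flat.
-/

namespace Vale.Agent.P159.H813

open Finset Real
open Vale.Agent.P159.TM.H764
open Vale.Agent.P159.H474 (GK Gi Im SN)

noncomputable section

variable {N : ℕ} [NeZero N]

/-- covariance of the annealed mean, `τ₂` mass of the prior, `τ₁` mass of the posterior -/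
def GamP (N : ℕ) [NeZero N] (τ1 τ2 : ℝ) (P : ZMod N × ZMod N → ℝ) (x : ZMod N × ZMod N) : ℝ :=
  (∑ k : ZMod N × ZMod N, cN (dt k x) * (1 / (τ2 + P k) - 1 / (τ1 + P k))) / (N : ℝ) ^ 2

lemma EE_nn (k : ZMod N × ZMod N) : 0 ≤ EE k := H462.EE_nonneg k

lemma EE_le8 (k : ZMod N × ZMod N) : EE k ≤ 8 := by
  unfold EE
  have h1 := neg_one_le_cN k.1
  have h2 := neg_one_le_cN k.2
  linarith

lemma EE_z : EE (0 : ZMod N × ZMod N) = 0 := H462.EE_zero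

/-- one momentum -/
lemma comp_k {τ1 τ2 c0 E p q η : ℝ} (hτ2 : 0 < τ2) (h12 : τ2 ≤ τ1) (hc0 : 0 < c0) (hc1 : c0 ≤ 1)
    (hE : 0 ≤ E) (hη : 0 ≤ η) (hp : c0 * E ≤ p) (hq : c0 * E ≤ q)
    (h : |p - q| ≤ η * E * (1 + E / τ1)) :
    |(1 / (τ2 + p) - 1 / (τ1 + p)) - (1 / (τ2 + q) - 1 / (τ1 + q))| ≤
      2 * η / c0 ^ 3 * (E + τ2)⁻¹ := by
  have hτ1 : 0 < τ1 := hτ2.trans_le h12
  have hp0 : 0 ≤ p := le_trans (by positivity) hp
  have hq0 : 0 ≤ q := le_trans (by positivity) hq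
  have e1 : (1 / (τ2 + p) - 1 / (τ1 + p)) - (1 / (τ2 + q) - 1 / (τ1 + q)) =
      (q - p) * ((τ1 - τ2) * (1 / ((τ2 + p) * (τ2 + q) * (τ1 + q)) +
        1 / ((τ2 + p) * (τ1 + p) * (τ1 + q)))) := by
    field_simp
    ring
  have hA : 0 < c0 * (E + τ2) := by positivity
  have hB : 0 < c0 * (E + τ1) := by positivity
  have a1 : c0 * (E + τ2) ≤ τ2 + p := by nlinarith
  have a2 : c0 * (E + τ2) ≤ τ2 + q := by nlinarith
  have a3 : c0 * (E + τ1) ≤ τ1 + p := by nlinarith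
  have a4 : c0 * (E + τ1) ≤ τ1 + q := by nlinarith
  have a5 : c0 * (E + τ2) ≤ τ1 + p := by nlinarith
  have hD : 0 < (c0 * (E + τ2)) * (c0 * (E + τ2)) * (c0 * (E + τ1)) := by positivity
  have b1 : 1 / ((τ2 + p) * (τ2 + q) * (τ1 + q)) ≤
      1 / ((c0 * (E + τ2)) * (c0 * (E + τ2)) * (c0 * (E + τ1))) := by
    refine one_div_le_one_div_of_le hD ?_
    gcongr
  have b2 : 1 / ((τ2 + p) * (τ1 + p) * (τ1 + q)) ≤
      1 / ((c0 * (E + τ2)) * (c0 * (E + τ2)) * (c0 * (E + τ1))) := by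
    refine one_div_le_one_div_of_le hD ?_
    gcongr
  have b0 : 0 ≤ 1 / ((τ2 + p) * (τ2 + q) * (τ1 + q)) := by positivity
  have b0' : 0 ≤ 1 / ((τ2 + p) * (τ1 + p) * (τ1 + q)) := by positivity
  have hσ : 0 ≤ τ1 - τ2 := by linarith
  have b00 : 0 ≤ (τ1 - τ2) * (1 / ((τ2 + p) * (τ2 + q) * (τ1 + q)) +
        1 / ((τ2 + p) * (τ1 + p) * (τ1 + q))) := mul_nonneg hσ (add_nonneg b0 b0')
  rw [e1, abs_mul, abs_sub_comm q p, abs_of_nonneg b00]
  have hX : (τ1 - τ2) * (1 / ((τ2 + p) * (τ2 + q) * (τ1 + q)) +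
        1 / ((τ2 + p) * (τ1 + p) * (τ1 + q))) ≤
      τ1 * (2 * (1 / ((c0 * (E + τ2)) * (c0 * (E + τ2)) * (c0 * (E + τ1))))) := by
    exact mul_le_mul (by linarith) (by linarith) (add_nonneg b0 b0') hτ1.le
  calc |p - q| * ((τ1 - τ2) * (1 / ((τ2 + p) * (τ2 + q) * (τ1 + q)) +
        1 / ((τ2 + p) * (τ1 + p) * (τ1 + q))))
      ≤ (η * E * (1 + E / τ1)) *
        (τ1 * (2 * (1 / ((c0 * (E + τ2)) * (c0 * (E + τ2)) * (c0 * (E + τ1)))))) :=
        mul_le_mul h hX b00 (by positivity)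
    _ = 2 * η / c0 ^ 3 * (E + τ2)⁻¹ * (E / (E + τ2)) := by
        field_simp
        ring
    _ ≤ 2 * η / c0 ^ 3 * (E + τ2)⁻¹ * 1 := by
        refine mul_le_mul_of_nonneg_left ?_ (by positivity)
        rw [div_le_one (by positivity)]
        linarith
    _ = _ := by ring

/-- the error of the replacement -/
def del (c0 η τ2 : ℝ) : ℝ := 50 * η / c0 ^ 3 * (1 + log (1 + 9 / τ2))

theorem GamP_comp {τ1 τ2 c0 a η : ℝ} {P : ZMod N × ZMod N → ℝ} (hτ2 : 0 < τ2) (h12 : τ2 ≤ τ1)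
    (hc0 : 0 < c0) (hc1 : c0 ≤ 1) (ha : c0 ≤ a) (hη : 0 ≤ η)
    (hP : ∀ k, c0 * EE k ≤ P k)
    (hF : ∀ k, |P k - a * EE k| ≤ η * EE k * (1 + EE k / τ1)) (x : ZMod N × ZMod N) :
    |GamP N τ1 τ2 P x - GamP N τ1 τ2 (fun k => a * EE k) x| ≤ del c0 η τ2 := by
  have hN : (0 : ℝ) < (N : ℝ) ^ 2 := by
    have : (0 : ℝ) < N := by exact_mod_cast NeZero.pos N
    positivity
  unfold GamP
  rw [← sub_div, ← sum_sub_distrib, abs_div, abs_of_pos hN, div_le_iff₀ hN]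
  have h1 : ∀ k : ZMod N × ZMod N, |cN (dt k x) * (1 / (τ2 + P k) - 1 / (τ1 + P k)) -
      cN (dt k x) * (1 / (τ2 + a * EE k) - 1 / (τ1 + a * EE k))| ≤
      if k ≠ 0 ∧ EE k < 9 then 2 * η / c0 ^ 3 * (EE k + τ2)⁻¹ else 0 := by
    intro k
    rcases eq_or_ne k 0 with hk | hk
    · have hP0 : P k = a * EE k := by
        have := hF k
        rw [hk, EE_z] at this
        simp only [mul_zero, sub_zero, zero_mul] at this
        rw [hk, EE_z, mul_zero]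
        exact abs_eq_zero.1 (le_antisymm this (abs_nonneg _))
      rw [hP0]
      simp [hk]
    · have h9 : EE k < 9 := lt_of_le_of_lt (EE_le8 k) (by norm_num)
      rw [if_pos ⟨hk, h9⟩, ← mul_sub, abs_mul]
      have hc := comp_k hτ2 h12 hc0 hc1 (EE_nn k) hη (hP k)
        (mul_le_mul_of_nonneg_right ha (EE_nn k)) (hF k)
      have hcN : |cN (dt k x)| ≤ 1 := abs_le.2 ⟨neg_one_le_cN _, cN_le_one _⟩
      calc _ ≤ 1 * (2 * η / c0 ^ 3 * (EE k + τ2)⁻¹) :=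
            mul_le_mul hcN hc (abs_nonneg _) zero_le_one
        _ = _ := one_mul _
  refine (abs_sum_le_sum_abs _ _).trans ((sum_le_sum fun k _ => h1 k).trans ?_)
  rw [← sum_filter, ← mul_sum]
  have h2 := H462.sum_log (N := N) (ν := 9) (m := τ2) (by norm_num) hτ2
  have h3 : ∑ k ∈ univ.filter (fun k : ZMod N × ZMod N => k ≠ 0 ∧ EE k < 9), (EE k + τ2)⁻¹ ≤
      25 * (N : ℝ) ^ 2 * (1 + log (1 + 9 / τ2)) := h2
  calc 2 * η / c0 ^ 3 * ∑ k ∈ univ.filter (fun k : ZMod N × ZMod N => k ≠ 0 ∧ EE k < 9),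
        (EE k + τ2)⁻¹ ≤ 2 * η / c0 ^ 3 * (25 * (N : ℝ) ^ 2 * (1 + log (1 + 9 / τ2))) :=
        mul_le_mul_of_nonneg_left h3 (by positivity)
    _ = _ := by unfold del; ring

/-- the reference covariance in terms of the lattice Green functions -/
lemma GamP_ref {τ1 τ2 a : ℝ} (ha : 0 < a) (x : ZMod N × ZMod N) :
    GamP N τ1 τ2 (fun k => a * EE k) x = (GK N (τ2 / a) x - GK N (τ1 / a) x) / a := by
  have h : ∀ k : ZMod N × ZMod N, cN (dt k x) * (1 / (τ2 + a * EE k) - 1 / (τ1 + a * EE k)) =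
      (cN (dt k x) / (τ2 / a + EE k) - cN (dt k x) / (τ1 / a + EE k)) / a := by
    intro k
    have e : ∀ τ : ℝ, 1 / (τ + a * EE k) = 1 / (τ / a + EE k) / a := by
      intro τ
      rw [div_div]
      congr 1
      field_simp
    rw [e, e]
    ring
  unfold GamP GK
  rw [sum_congr rfl fun k _ => h k, ← sum_div, sum_sub_distrib]
  ring

end

end Vale.Agent.P159.H813
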