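import Vale.Agent.P159.H813.Sq16
import Vale.Agent.P159.H159.Mz4
import Vale.Agent.P159.H358.Un9

/-!
P159 (helper813): (EXT0), last part: **the field `ext` of a state**, all inputs discharged (order of
constants `Ev`): helper159's tail of the kernel, helper789's block noise, helper816's typical level.
-/

set_option linter.unusedSectionVars false
set_option linter.unusedDecidableInType false

namespace Vale.Agent.P159.H813

open Finset MeasureTheory Filter Topology Matrix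
open Vale.Agent.P159.TM.Spec (V)
open Vale.Agent.P159.H37 (gau)
open Vale.Agent.P159.H552 (lft)
open Vale.Agent.P159.H864 (cl)
open Vale.Agent.P159.H114 (RW ax jm pS TB TV)
open Vale.Agent.P159.H363 (Nf acl)
open Vale.Agent.P159.H462 (qz aq Dom)
open Vale.Agent.P159.H972 (Par tn GP)
open Vale.Agent.P159.H889 (lam Lg)
open Vale.Agent.P159.H801 (Ev PS)
open Vale.Agent.P159.H816 (ev_typV ev_of_fam)
open Vale.Agent.P159.H789 (fam_apV)
open Vale.Agent.P159.H767 (Lv Sm1 sm1_ev)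
open Vale.Agent.P159.H239 (TypE)
open Vale.Agent.P159.H358 (VtIn Lvl Ls Lg_Ls D0_lo D0_up ev_sq Sq rn_typ Rn)

noncomputable section

/-- the losses of the torus are small -/
theorem ev_rho {b1 b2 pf : ℝ} (Q : ℕ) : Ev b1 b2 pf Q fun P _ =>
    P.th + 4 * P.q0 * P.thp ≤ 1 / 2 ∧ P.x1 ≤ 1 := by
  refine Ev.of ⟨0, fun W _ => ⟨1, one_pos, fun ys _ _ => ⟨0, fun X0 _ => ⟨1 / 80, by norm_num,
    fun x1 hx1 hx1' => ⟨1 / (80 * (Q + 3)), by positivity, fun thp hthp hthp' => ⟨1 / 80,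
    by norm_num, fun th hth hth' => ⟨0, fun C0 _ => ⟨1, one_pos, fun c1 _ _ => ?_⟩⟩⟩⟩⟩⟩⟩⟩
  have hthp2 : ((Q : ℝ) + 3) * thp ≤ 1 / 80 := by
    rw [le_div_iff₀ (by positivity)] at hthp'
    linarith
  have hq0 : ((Q + ⌈x1 / thp⌉₊ + 2 : ℕ) : ℝ) * thp ≤ x1 + (Q + 3) * thp := by
    push_cast
    have h3 : (⌈x1 / thp⌉₊ : ℝ) * thp ≤ x1 + thp := by
      calc (⌈x1 / thp⌉₊ : ℝ) * thp ≤ (x1 / thp + 1) * thp := by
            gcongr
            exact (Nat.ceil_lt_add_one (by positivity)).le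
        _ = x1 + thp := by field_simp
    linarith
  refine ⟨1, one_pos, fun P hP => ?_⟩
  rw [hP.eth, hP.ethp, hP.ex1, hP.eq0]
  constructor
  · rw [mul_assoc]
    linarith
  · linarith

/-- **the tail of the kernel `qz` at a state** -/
theorem tail_ev {b1 b2 b : ℝ} (hb1 : 0 < b1) (hb : b1 ≤ b) (hbb : b ≤ b2) :
    ∃ A00 : ℝ, 1 ≤ A00 ∧ ∀ (K : ℝ) (Q : ℕ), Ev b1 b2 (9 / 10) Q fun P c1 =>
      ∀ C1 : ℝ, 1 ≤ C1 → P.C0 ≤ C1 → C1 ≤ K * P.C0 → ∀ (n s : ℕ) (e y : ℝ),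
        H889.Cx P b C1 c1 n s e y → ∀ r, P.TT n e r → ∀ [NeZero (2 ^ r / 2 ^ s)],
        ∃ D : ℕ, D * lam n s ≤ 2 * A00 * Lg n s ∧
          qTl (2 ^ r) (2 ^ s) b (tn n) D ≤ lam n s ^ 4 := by
  have hb0 : 0 < b := hb1.trans_le hb
  have hb2 : 0 < b2 := hb0.trans_le hbb
  obtain ⟨A00, hA00, hvt⟩ := H159.far_ev (β₀ := 4) hb1 hb2 (c0 := 1 / b2) (by positivity)
    (by norm_num)
  refine ⟨A00, hA00, fun K Q => ?_⟩
  refine (((((hvt A00 le_rfl (9 / 10) Q).and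
    (ev_typV (b := b) (b2 := b2) hb1 hb (show (0 : ℝ) < 9 / 10 by norm_num) Q)).and
    (ev_of_fam (fam_apV (b := b) (b1 := b1) (b2 := b2) (pf := 9 / 10) hb1 hb) Q)).and
    (sm1_ev (b1 := b1) (b2 := b2) K Q)).and (ev_sq (b1 := b1) (b2 := b2) (pf := 9 / 10) Q)).mono ?_
  rintro P c1 hA ⟨⟨⟨⟨⟨hc1, hc1t, hvt⟩, htv⟩, hap⟩, hc1', hpf, hPb1, hPb2, hsm⟩, hX12, hth1, hsq⟩
  intro C1 hC1 hC0 hCK n s e y cx r hT _
  have he := cx.e0
  have L : Lv P C1 c1 n s e y := ⟨cx.e0, cx.es, cx.y0, cx.y1, cx.yL, cx.s1, cx.s2⟩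
  have hs := hsm C1 hC1 hCK e cx.e0 cx.es
  have hsn := L.sn hs hC1
  have hns := L.ns hs hC1 hc1
  have hlam := L.lam hs hC1
  have hyy := L.yy hs
  have hsE := L.sE hs hC1 hC0 P.C00.le
  have he4 := hs.a6
  have he1 : e ≤ 1 := by linarith
  have htn := H972.tn_pos n
  have hth := P.th0
  have S := hsq e cx.e0 cx.es
  have lv : Lvl P b c1 n s e (tn n) :=
    ⟨cx.e0, cx.es, cx.G, le_rfl, by linarith, hsn, cx.ns, hns, hlam⟩
  obtain ⟨τ0, a0, ht1, ht2, hGP⟩ := cx.G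
  have gp := hGP e le_rfl cx.es
  have hn12 : 12 ≤ n := by
    have h2 := (gp.rng r (Or.inl hT)).1.hX
    exact (pow_le_pow_iff_right₀ (one_lt_two : (1 : ℕ) < 2)).1 (hX12.trans h2)
  have hsr : s ≤ r := hsn.trans ((Nat.le_add_right _ _).trans hT.1)
  have hl : 2 ^ s ∣ 2 ^ r := pow_dvd_pow 2 hsr
  -- block noise
  set v : ℝ := e ^ (-(49 / 100 * P.th)) with hv
  have hv0 : 0 < v := Real.rpow_pos_of_pos he _
  have hv1 : e ^ (49 / 100 * P.th) * v = 1 := by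
    rw [hv, ← Real.rpow_add he, add_neg_cancel, Real.rpow_zero]
  have hv6 : 6 ≤ v := by
    have h3 := mul_le_mul_of_nonneg_right S.b6 hv0.le
    rw [mul_assoc, hv1] at h3
    linarith
  have hv2 : v ^ 2 * e ^ (-(P.th / 400)) ≤ 2 ^ (r - n) := by
    have h3 : e ^ (-P.th) ≤ (2 : ℝ) ^ (r - n) := by
      refine (H733.Vt.lg_ge (c := P.th) he).trans (pow_le_pow_right₀ one_le_two ?_)
      have := hT.1
      unfold H972.Par.kE at this
      omega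
    refine le_trans ?_ h3
    rw [hv, ← Real.rpow_natCast (e ^ (-(49 / 100 * P.th))), ← Real.rpow_mul he.le,
      ← Real.rpow_add he]
    refine Real.rpow_le_rpow_of_exponent_ge he he1 ?_
    push_cast
    linarith
  have hv3 : v ≤ 2 ^ P.xE e := by
    refine le_trans ?_ (H733.Vt.lg_ge (c := P.x1) he)
    refine Real.rpow_le_rpow_of_exponent_ge he he1 ?_
    have h3 := hA.hx
    have h4 := P.thp0
    have h5 := P.x10
    linarith
  have hap' := hap a0 n e τ0 he cx.es hn12 gp r hT v hv6 hv2 hv3 s hsE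
  have hX1 : e ^ (-(P.th / 4)) ≤ v / 72 := by
    rw [le_div_iff₀ (by norm_num)]
    have h3 : e ^ (-(P.th / 4)) = e ^ (49 / 100 * P.th - P.th / 4) * v := by
      rw [hv, ← Real.rpow_add he]
      congr 1
      ring
    have h4 := mul_le_mul_of_nonneg_right S.b5 hv0.le
    rw [h3]
    linarith
  have hV : VtIn P b c1 n s e (tn n) (e ^ (-(P.thp / 20)) * y) (v / 72) (2 * e ^ (1 / 8 : ℝ)) r r :=
    ⟨lv, hT, hT, cx.vy r hT, cx.vy r hT, hyy,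
      by have := Real.rpow_pos_of_pos he (1 / 8 : ℝ); positivity, S.b4, hap', hX1⟩
  -- the window
  have hLL := Lg_Ls hsn
  have hLs1 : 1 ≤ Ls n s := lv.L1 he4
  have hl0 : 0 < lam n s := lam_pos n s
  have hl1 : lam n s ≤ e := hlam
  have h2 : 2 ≤ 2 * A00 * Lg n s / lam n s := by
    rw [le_div_iff₀ hl0, hLL]
    have h3 : 1 ≤ A00 * Ls n s := by nlinarith
    nlinarith
  have hD1 := D0_lo hsn h2
  have hD2 := D0_up hsn h2
  set D : ℕ := ⌊2 * A00 * Lg n s / lam n s⌋₊ with hD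
  have e2 : 2 * A00 / 2 = A00 := by ring
  rw [e2] at hD1 hD2
  -- the typical law
  have hnR : ((n : ℝ) - s) ≤ e ^ (-(2 * c1)) := by
    rw [← Nat.cast_sub hsn]
    exact hns
  have htyp : ∀ a', 0 < a' → a' < tn n → TypE (2 ^ r) (2 ^ s) b (tn n) a' (e ^ (-(P.th / 16))) 1
      (Real.exp (-(e ^ (-(P.th / 16))))) := fun a' ha ha' =>
    htv n e τ0 a0 he cx.es gp r hT s hsE cx.ns hnR (tn n) le_rfl (by linarith) a' ha ha'
  have hdom : Dom (acl (2 ^ r) (2 ^ s) b (tn n) (tn n)) (tn n * ((2 ^ s : ℕ) : ℝ) ^ 2) (1 / b) :=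
    H375.dom_acl hb0 hl htn le_rfl
  have hf : (gau (V (2 ^ r / 2 ^ s))).real {g | 8 < Rn (2 ^ r) b (tn n)
      (lft (H864.cl : V (2 ^ r) → V (2 ^ r / 2 ^ s))
        (H363.pin (acl (2 ^ r) (2 ^ s) b (tn n) (tn n)) *ᵥ g))} ≤
      Real.exp (-(e ^ (-(P.th / 20)))) := by
    set u : ℝ := e ^ (-(P.th / 16)) with hu
    have hu0 : 0 < u := Real.rpow_pos_of_pos he _
    have h16 : 16 ≤ u := by
      have h1 := S.b2
      have h2 : e ^ (P.th / 16) * u = 1 := by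
        rw [hu, ← Real.rpow_add he, add_neg_cancel, Real.rpow_zero]
      have h3 := mul_le_mul_of_nonneg_right h1 hu0.le
      rw [mul_assoc, h2] at h3
      linarith
    have hp : Real.exp (-u) ≤ 1 / 2 := by
      rw [Real.exp_neg, inv_le_comm₀ (Real.exp_pos _) (by norm_num)]
      linarith [Real.add_one_le_exp u]
    have h1 := rn_typ hb0 hl htn (by linarith : 2 ≤ u) hp htyp
    refine le_trans ?_ (S.prob he he1 hth1 h1)
    have h3 : 0 ≤ (gau (V (2 ^ r / 2 ^ s))).real {g | 8 < Rn (2 ^ r) b (tn n)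
      (lft (H864.cl : V (2 ^ r) → V (2 ^ r / 2 ^ s))
        (H363.pin (acl (2 ^ r) (2 ^ s) b (tn n) (tn n)) *ᵥ g))} := measureReal_nonneg
    have h4 : 0 ≤ (4 : ℝ) ^ (-(1 / (2 * e ^ (22 / 25 : ℝ)))) := by positivity
    linarith
  have h5 := hvt b n s e (tn n) (e ^ (-(P.thp / 20)) * y) (v / 72) (2 * e ^ (1 / 8 : ℝ)) r r hV D
    hD1 hD2 (1 / b) hdom (one_div_le_one_div_of_le hb0 hbb) (nf_of_dom hdom) hf
  refine ⟨D, ?_, (qTl_box D).trans (h5.trans (le_of_eq ?_))⟩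
  · have h6 : (D : ℝ) * lam n s = D * 2 ^ s / 2 ^ n := by
      unfold H889.lam
      ring
    rw [h6, div_le_iff₀ (by positivity), hLL]
    exact hD2
  · show (lam n s) ^ (4 : ℝ) = lam n s ^ 4
    exact_mod_cast Real.rpow_natCast (lam n s) 4

/-- **(EXT0) AT A STATE**: the field `ext` of helper114's `LV`, no hypothesis left -/
theorem ext_ev {b1 b2 b : ℝ} (hb1 : 0 < b1) (hb : b1 ≤ b) (hbb : b ≤ b2) (K : ℝ) (Q : ℕ) :
    Ev b1 b2 (9 / 10) Q fun P c1 =>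
      ∀ C1 : ℝ, 1 ≤ C1 → P.C0 ≤ C1 → C1 ≤ K * P.C0 → ∀ (q : ℕ) (μ : Fin (q + 1) → ℝ), RW q μ →
        1 + (P.th + 4 * P.q0 * P.thp) ≤ ((q : ℝ) + 1) * P.x1 → ((q : ℝ) + 1) * P.x1 ≤ C1 →
        ∃ E : ℝ, 0 < E ∧ E ≤ 1 ∧ ∀ (n j : ℕ) (e y c : ℝ), H889.Cx P b C1 c1 n j e y → y ≤ E →
          e ≤ y ^ (9 / 5 : ℝ) → c ≤ 3 / 10 → ∀ r, TB P n e r →
          ∀ᶠ τ in 𝓝[>] (0 : ℝ), |pS q μ (2 ^ r / 2 ^ min j r)
            (xqk (2 ^ r) (2 ^ min j r) b (tn n) τ) - aq (2 ^ r) (2 ^ min j r) b (tn n)| ≤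
              y ^ (2 + c) := by
  have hb0 : 0 < b := hb1.trans_le hb
  obtain ⟨A00, hA00, ht⟩ := tail_ev hb1 hb hbb
  refine (((ht K Q).and (ev_rho (b1 := b1) (b2 := b2) (pf := 9 / 10) Q)).and
    (sm1_ev (b1 := b1) (b2 := b2) K Q)).mono ?_
  rintro P c1 hA ⟨⟨ht, hρ, -⟩, hc1', hpf, hPb1, hPb2, hsm⟩
  intro C1 hC1 hC0 hCK q μ h hq hqC
  obtain ⟨E, hE, hE1, k⟩ := ext_sd4 (P := P) h hρ hq hqC (A0 := A00) (by linarith)
  refine ⟨E, hE, hE1, fun n j e y c cx hyE hey hc r hTB => ?_⟩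
  have L : Lv P C1 c1 n j e y := ⟨cx.e0, cx.es, cx.y0, cx.y1, cx.yL, cx.s1, cx.s2⟩
  have hjn := L.sn (hsm C1 hC1 hCK e cx.e0 cx.es) hC1
  have hTT := H43.tt_of_tv hTB.1
  have hjr : j ≤ r := hjn.trans ((Nat.le_add_right _ _).trans hTT.1)
  haveI : NeZero (2 ^ r / 2 ^ j) :=
    ⟨(Nat.div_pos (Nat.pow_le_pow_right two_pos hjr) (by positivity)).ne'⟩
  obtain ⟨D, hD, hqD⟩ := ht C1 hC1 hC0 hCK n j e y cx r hTT
  exact k b n j r D e y c hb0 cx.e0 cx.y0 hyE hey cx.s1 cx.s2 hc hTB hD hqD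

end

end Vale.Agent.P159.H813
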