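import Vale.Agent.P159.H813.Ker2
import Vale.Agent.P159.H730.Bad
import Vale.Agent.P159.H612.LocTau
import Vale.Agent.P159.H114.Tor2
import Vale.Agent.P159.H159.Inst

/-!
P159 (helper813): exponential decay of the strip sums of the kernel of the mean posterior cell
covariance, and (P#5') for it.
-/

namespace Vale.Agent.P159.H813

open Finset Matrix
open Vale.Agent.P159.TM.H104 (EM Ex Cv li Gr Lg)
open Vale.Agent.P159.H37 (bf Tq Cm Cbar post Ech EchM wM wt em_post Ech_nonneg Ech_cmul Ech_const)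
open Vale.Agent.P159.H730 (ps hs2 dev wC Cbk ST chi_Cv chi_const chi_ind chi_hs2 measurable_hs2
  hs2_nonneg dev_le_hs Cv_Qt ps_wC)
open Vale.Agent.P159.H864 (cl cobV Gc sym TI Gck)
open Vale.Agent.P159.TM.Spec (V)
open Vale.Agent.P159.TM.SpecC (wT)
open Vale.Agent.P159.TM.H459 (sn sd)
open Vale.Agent.P159.TM.H764

noncomputable section

set_option linter.unusedSectionVars false

/-- locality of the covariance in every background -/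
def LB4 (N : ℕ) [NeZero N] (b t : ℝ) (ξ : ℕ) (c C : ℝ) : Prop :=
  ∀ (u v : V N → ℝ) (A B D : ℝ), 0 < A → 0 < B → 0 ≤ D →
    ∑ x, u x ^ 2 ≤ A ^ 2 * (1 / (ξ : ℝ) ^ 2) → ∑ x, v x ^ 2 ≤ B ^ 2 * (1 / (ξ : ℝ) ^ 2) →
    (∀ x z, u x ≠ 0 → v z ≠ 0 → D * ξ ≤ sd x z) → ∀ J : V N → ℝ,
    |Cv (wt N b t) J (li u) (li v)| ≤
      Real.exp (Tq (wt N b t) J / 2) * A * B * (C * Real.exp (-(c * D)))

/-- `LB4` holds in the range of the project (helper612, lb4t) -/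
theorem LB4_rng {b1 : ℝ} (hb1 : 0 < b1) (b2 a : ℝ) :
    ∃ W₀ : ℝ, ∃ c C ys : ℝ, ∃ X : ℕ, 0 < c ∧ 1 ≤ C ∧ 0 < ys ∧ 1 ≤ X ∧ ∀ W : ℝ, W₀ ≤ W →
    ∀ (N : ℕ) [NeZero N] (b : ℝ) (ξ : ℕ) (y : ℝ),
      TM.Spec.Rng b1 b2 a W ys X N b ξ y → (N : ℝ) * y ≤ c * ξ →
      ∀ t : ℝ, 1 / (ξ : ℝ) ^ 2 ≤ t → LB4 N b t ξ c C := by
  obtain ⟨W₀, c, C, ys, X, hc, hC, hys, hX, h⟩ := H612.lb4t hb1 b2 a
  refine ⟨W₀, c, C, ys, X, hc, hC, hys, hX, ?_⟩
  intro W hW N _ b ξ y hR hN t ht u v A B D hA hB hD hu hv hs J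
  exact (h W hW N b ξ y hR hN u v A B D hA hB hD hu hv hs t ht).bg J

/-! ### the deviation from the covariance at source zero -/

lemma cv_dev {V' I : Type*} [Fintype V'] [Fintype I] {μ : (V' → ℤ) → ℝ} (hμ : EM μ)
    (Q : Matrix I V' ℝ) (s : ℝ) (u v : I → ℝ) (J : V' → ℝ) :
    (Cv (ps μ Q s) J (li (Qᵀ *ᵥ u)) (li (Qᵀ *ᵥ v)) -
      Cv (ps μ Q s) 0 (li (Qᵀ *ᵥ u)) (li (Qᵀ *ᵥ v))) ^ 2 ≤
      (∑ i, u i ^ 2) * (∑ i, v i ^ 2) * hs2 μ Q s J := by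
  have hp := em_post hμ (Real.sqrt s • Q)
  rw [Cv_Qt hp, Cv_Qt hp, ← sum_sub_distrib]
  simp only [← mul_sub]
  refine (sum_mul_sq_le_sq_mul_sq _ _ _).trans ?_
  have h1 := dev_le_hs (Q := Q) hμ u s J
  unfold dev at h1
  have h2 : 0 ≤ ∑ i, v i ^ 2 := sum_nonneg fun _ _ => sq_nonneg _
  calc _ ≤ (∑ i, v i ^ 2) * ((∑ i, u i ^ 2) * hs2 μ Q s J) := mul_le_mul_of_nonneg_left h1 h2
    _ = _ := by ring

lemma cv_dev' {V' I : Type*} [Fintype V'] [Fintype I] {μ : (V' → ℤ) → ℝ} (hμ : EM μ)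
    (Q : Matrix I V' ℝ) (s : ℝ) (u v : I → ℝ) (J : V' → ℝ) {a κ : ℝ} (hκ : 0 < κ) (ha : 0 ≤ a)
    (huv : (∑ i, u i ^ 2) * (∑ i, v i ^ 2) ≤ a ^ 2) :
    |Cv (ps μ Q s) J (li (Qᵀ *ᵥ u)) (li (Qᵀ *ᵥ v))| ≤
      |Cv (ps μ Q s) 0 (li (Qᵀ *ᵥ u)) (li (Qᵀ *ᵥ v))| + a * (κ / 2 + hs2 μ Q s J / (2 * κ)) := by
  have h1 := cv_dev hμ Q s u v J
  have h0 := hs2_nonneg μ Q s J
  have h2 := h1.trans (mul_le_mul_of_nonneg_right huv h0)
  obtain ⟨x, hx⟩ : ∃ x : ℝ, x = Cv (ps μ Q s) J (li (Qᵀ *ᵥ u)) (li (Qᵀ *ᵥ v)) := ⟨_, rfl⟩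
  obtain ⟨y, hy⟩ : ∃ y : ℝ, y = Cv (ps μ Q s) 0 (li (Qᵀ *ᵥ u)) (li (Qᵀ *ᵥ v)) := ⟨_, rfl⟩
  obtain ⟨q, hq⟩ : ∃ q : ℝ, q = hs2 μ Q s J := ⟨_, rfl⟩
  rw [← hx, ← hy, ← hq] at h2 ⊢
  rw [← hq] at h0
  have h3 : |x - y| ≤ a * (κ / 2 + q / (2 * κ)) := by
    have h4 : 0 ≤ a * (κ / 2 + q / (2 * κ)) := by positivity
    refine abs_le_of_sq_le_sq (h2.trans ?_) h4
    have h5 : a ^ 2 * q ≤ a ^ 2 * (κ / 2 + q / (2 * κ)) ^ 2 := by
      refine mul_le_mul_of_nonneg_left ?_ (sq_nonneg a)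
      have e : (κ / 2 + q / (2 * κ)) ^ 2 - q = (κ / 2 - q / (2 * κ)) ^ 2 := by field_simp; ring
      nlinarith [sq_nonneg (κ / 2 - q / (2 * κ))]
    calc a ^ 2 * q ≤ a ^ 2 * (κ / 2 + q / (2 * κ)) ^ 2 := h5
      _ = _ := by ring
  have h6 := abs_add_le (x - y) y
  rw [sub_add_cancel] at h6
  linarith

variable {N l : ℕ} [NeZero N] [NeZero (N / l)] {b t τ : ℝ}

lemma ps_wt (hl : l ∣ N) (b : ℝ) (h : τ ≤ t) : ps (wC N l b t τ) (cobV N l) (t - τ) = wt N b t := by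
  rw [ps_wC hl b t (sub_nonneg.2 h), add_sub_cancel]
  unfold wC
  rw [H864.MC_self]
  rfl

/-- kernel of the mean posterior cell covariance -/
def wP (N l : ℕ) [NeZero N] [NeZero (N / l)] (b t τ : ℝ) (z : V (N / l)) : ℝ :=
  Gc l (Cbar (wC N l b t τ) 0 (Real.sqrt (t - τ) • cobV N l)) 0 z

lemma Gh_wP (hl : l ∣ N) (b t τ : ℝ) (k : V (N / l)) : Gh (wP N l b t τ) k = Cbk N l b t τ t k := by
  unfold Cbk
  rw [H864.Cbar_cob hl]
  rfl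

lemma ti_wP (hl : l ∣ N) (b t τ : ℝ) :
    TI (Gc l (Cbar (wC N l b t τ) 0 (Real.sqrt (t - τ) • cobV N l))) := by
  rw [← H864.Cbar_cob hl]
  exact H864.ti_Gc_Cbar hl (H864.cinv_MC hl b t τ) _

lemma wP_nonneg (hb : 0 ≤ b) (hl : l ∣ N) (hτ : 0 < τ) (h : τ ≤ t) (z : V (N / l)) :
    0 ≤ wP N l b t τ z := by
  unfold wP
  refine H864.Gc_nonneg (fun x y => ?_) _ _
  have hμ := H864.em_MC (N := N) (l := l) (t := t) hb hl hτ h
  unfold Cbar EchM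
  rw [Matrix.of_apply]
  refine Ech_nonneg hμ _ _ fun J => ?_
  have e : post (wC N l b t τ) (Real.sqrt (t - τ) • cobV N l) = wt N b t := ps_wt hl b h
  show 0 ≤ Cm (post (wC N l b t τ) (Real.sqrt (t - τ) • cobV N l)) J x y
  rw [e]
  exact H159.Cm_nonneg (H789.em_wt hb (hτ.trans_le h)) (H159.hol_wt hb N t) J x y

lemma form_wP (hl : l ∣ N) (hb : 0 ≤ b) (hτ : 0 < τ) (h : τ ≤ t) (u v : V (N / l) → ℝ) :
    ∑ c, ∑ c', u c * wP N l b t τ (c' - c) * v c' =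
      Ech (wC N l b t τ) 0 (Real.sqrt (t - τ) • cobV N l) fun J =>
        Cv (wt N b t) J (li ((cobV N l)ᵀ *ᵥ u)) (li ((cobV N l)ᵀ *ᵥ v)) := by
  have hμ := H864.em_MC (N := N) (l := l) (t := t) hb hl hτ h
  have e : post (wC N l b t τ) (Real.sqrt (t - τ) • cobV N l) = wt N b t := ps_wt hl b h
  have h1 := H730.bf_Cbar hμ (Real.sqrt (t - τ) • cobV N l) ((cobV N l)ᵀ *ᵥ u)
    ((cobV N l)ᵀ *ᵥ v)
  have e' : post (wM (wT b N) (H864.MC N l t τ)) (Real.sqrt (t - τ) • cobV N l) = wt N b t := e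
  rw [e', ← H864.bf_Gc] at h1
  rw [← h1]
  unfold bf
  refine sum_congr rfl fun c _ => sum_congr rfl fun c' _ => ?_
  rw [(ti_wP hl b t τ).eq c c']
  rfl

/-- indicator -/
def ind1 {α : Type*} [DecidableEq α] (S : Finset α) (x : α) : ℝ := if x ∈ S then 1 else 0

lemma ind1_sq {α : Type*} [Fintype α] [DecidableEq α] (S : Finset α) :
    ∑ x, ind1 S x ^ 2 = S.card := by
  unfold ind1
  have : ∀ x : α, (if x ∈ S then (1 : ℝ) else 0) ^ 2 = if x ∈ S then 1 else 0 := by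
    intro x; split_ifs <;> norm_num
  simp [this]

lemma ind1_form {α : Type*} [Fintype α] [DecidableEq α] (S T : Finset α) (f : α → α → ℝ) :
    ∑ c, ∑ c', ind1 S c * f c c' * ind1 T c' = ∑ c ∈ S, ∑ c' ∈ T, f c c' := by
  have e : ∀ c c', ind1 S c * f c c' * ind1 T c' = if c ∈ S then (if c' ∈ T then f c c' else 0)
      else 0 := by
    intro c c'
    unfold ind1
    split_ifs <;> simp
  simp only [e]
  rw [← sum_filter_add_sum_filter_not univ (fun c => c ∈ S)]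
  have z : ∑ c ∈ univ.filter (fun c => ¬ c ∈ S), ∑ c', (if c ∈ S then
      (if c' ∈ T then f c c' else 0) else 0) = 0 := by
    refine sum_eq_zero fun c hc => ?_
    have := (mem_filter.1 hc).2
    simp [this]
  rw [z, add_zero]
  have e2 : univ.filter (fun c => c ∈ S) = S := by ext; simp
  rw [e2]
  refine sum_congr rfl fun c hc => ?_
  simp only [hc, if_true]
  rw [← sum_filter]
  congr 1
  ext; simp

lemma sqrt6 : Real.sqrt 6 ≤ 5 / 2 := by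
  rw [Real.sqrt_le_left (by norm_num)]
  norm_num

/-- pointwise bound of the covariance of two strips -/
lemma cv_strip {θ e : ℝ} {Gd : ℝ → Set (V N → ℝ)} (h : ST N l b t τ t θ e Gd) {ξ : ℕ} {c C : ℝ}
    (hLB : LB4 N b t ξ c C) (hC : 0 ≤ C) (hξ : 0 < ξ) {m : ℕ} (hm : 0 < m) (hml : ξ ≤ m * l)
    (hmn : m ≤ N / l) {κ : ℝ} (hκ : 0 < κ) (β : ℕ) (J : V N → ℝ) :
    |Cv (wt N b t) J (li ((cobV N l)ᵀ *ᵥ ind1 (strip (N / l) m 0)))
      (li ((cobV N l)ᵀ *ᵥ ind1 (str3 (N / l) m β)))| ≤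
      (strip (N / l) m 0).card * (Real.sqrt 6 * (Real.sqrt (1 + θ) * (ξ : ℝ) ^ 2 *
        (C * Real.exp (-(c * ((β - 2 : ℕ) : ℝ))))) + Real.sqrt 6 * (κ / 2 +
        (Gd t)ᶜ.indicator (hs2 (wC N l b t τ) (cobV N l) (t - τ)) J / (2 * κ))) := by
  have hξr : (0 : ℝ) < ξ := by exact_mod_cast hξ
  have hnr : 0 < N / l := NeZero.pos _
  have hs0 : m * (N / l) ≤ (strip (N / l) m 0).card := card_strip_ge hmn
  have hs0p : 0 < (strip (N / l) m 0).card := lt_of_lt_of_le (Nat.mul_pos hm hnr) hs0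
  obtain ⟨s0, hs0d⟩ : ∃ s0 : ℝ, s0 = (strip (N / l) m 0).card := ⟨_, rfl⟩
  have hs0r : 0 < s0 := by rw [hs0d]; exact_mod_cast hs0p
  obtain ⟨s3, hs3d⟩ : ∃ s3 : ℝ, s3 = (str3 (N / l) m β).card := ⟨_, rfl⟩
  have hs30 : 0 ≤ s3 := by rw [hs3d]; positivity
  have hs36 : s3 ≤ 6 * s0 := by
    have h1 := card_str3_le (n := N / l) hm β
    have h2 : (str3 (N / l) m β).card ≤ 6 * (strip (N / l) m 0).card := by
      calc _ ≤ 6 * m * (N / l) := h1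
        _ = 6 * (m * (N / l)) := by ring
        _ ≤ _ := Nat.mul_le_mul_left 6 hs0
    rw [hs3d, hs0d]
    exact_mod_cast h2
  rw [← hs0d]
  obtain ⟨A, hA⟩ : ∃ A : ℝ, A = ξ * Real.sqrt s0 := ⟨_, rfl⟩
  obtain ⟨B, hB⟩ : ∃ B : ℝ, B = ξ * Real.sqrt (6 * s0) := ⟨_, rfl⟩
  have hA0 : 0 < A := by rw [hA]; positivity
  have hB0 : 0 < B := by rw [hB]; positivity
  have hAB : A * B = Real.sqrt 6 * ((ξ : ℝ) ^ 2 * s0) := by
    rw [hA, hB, Real.sqrt_mul (by norm_num)]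
    have := Real.mul_self_sqrt hs0r.le
    calc ξ * Real.sqrt s0 * (ξ * (Real.sqrt 6 * Real.sqrt s0)) =
        Real.sqrt 6 * ((ξ : ℝ) ^ 2 * (Real.sqrt s0 * Real.sqrt s0)) := by ring
      _ = _ := by rw [this]
  have hA2 : A ^ 2 * (1 / (ξ : ℝ) ^ 2) = s0 := by
    rw [hA, mul_pow, Real.sq_sqrt hs0r.le]; field_simp
  have hB2 : B ^ 2 * (1 / (ξ : ℝ) ^ 2) = 6 * s0 := by
    rw [hB, mul_pow, Real.sq_sqrt (by positivity)]; field_simp
  have hu : ∑ x, ((cobV N l)ᵀ *ᵥ ind1 (strip (N / l) m 0)) x ^ 2 ≤ A ^ 2 * (1 / (ξ : ℝ) ^ 2) := by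
    rw [H864.sq_cobV_tr h.dvd, ind1_sq, hA2, hs0d]
  have hv : ∑ x, ((cobV N l)ᵀ *ᵥ ind1 (str3 (N / l) m β)) x ^ 2 ≤ B ^ 2 * (1 / (ξ : ℝ) ^ 2) := by
    rw [H864.sq_cobV_tr h.dvd, ind1_sq, hB2, ← hs3d]
    exact hs36
  have hsup : ∀ x z : V N, ((cobV N l)ᵀ *ᵥ ind1 (strip (N / l) m 0)) x ≠ 0 →
      ((cobV N l)ᵀ *ᵥ ind1 (str3 (N / l) m β)) z ≠ 0 → ((β - 2 : ℕ) : ℝ) * ξ ≤ sd x z := by
    intro x z hx hz
    rw [H864.cobV_tr_mulVec] at hx hz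
    have hx' : (cl x : V (N / l)) ∈ strip (N / l) m 0 := by
      by_contra hc
      exact hx (by unfold ind1; rw [if_neg hc, mul_zero])
    have hz' : (cl z : V (N / l)) ∈ str3 (N / l) m β := by
      by_contra hc
      exact hz (by unfold ind1; rw [if_neg hc, mul_zero])
    have h1 := sep_strip (l := l) h.dvd hm (mem_filter.1 hx').2 (mem_filter.1 hz').2.1
    have h2 : (β - 2) * ξ ≤ sd x z := (Nat.mul_le_mul_left _ hml).trans h1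
    exact_mod_cast h2
  have hfar := hLB _ _ A B ((β - 2 : ℕ) : ℝ) hA0 hB0 (by positivity) hu hv hsup
  obtain ⟨r, hr⟩ : ∃ r : ℝ, r = C * Real.exp (-(c * ((β - 2 : ℕ) : ℝ))) := ⟨_, rfl⟩
  have hr0 : 0 ≤ r := by rw [hr]; positivity
  rw [← hr] at hfar ⊢
  have hθ1 : 0 ≤ 1 + θ := by linarith [h.th0]
  have hsθ : 1 ≤ Real.sqrt (1 + θ) := by rw [Real.one_le_sqrt]; linarith [h.th0]
  by_cases hJ : J ∈ Gd t
  · have h1 := h.th t ⟨h.le, le_rfl⟩ J hJ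
    have e1 : wC N l b t t = wt N b t := by
      unfold wC
      rw [H864.MC_self]
      rfl
    rw [e1] at h1
    have h2 : Real.exp (Tq (wt N b t) J / 2) ≤ Real.sqrt (1 + θ) := by
      refine Real.le_sqrt_of_sq_le ?_
      rw [← Real.exp_nat_mul]
      have : ((2 : ℕ) : ℝ) * (Tq (wt N b t) J / 2) = Tq (wt N b t) J := by push_cast; ring
      rw [this]
      linarith
    have h3 : (Gd t)ᶜ.indicator (hs2 (wC N l b t τ) (cobV N l) (t - τ)) J = 0 :=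
      Set.indicator_of_notMem (by simpa using hJ) _
    rw [h3]
    refine (hfar J).trans ?_
    have h4 : Real.exp (Tq (wt N b t) J / 2) * A * B * r ≤ Real.sqrt (1 + θ) * A * B * r := by
      gcongr
    refine h4.trans ?_
    have h5 : Real.sqrt (1 + θ) * A * B * r = s0 * (Real.sqrt 6 * (Real.sqrt (1 + θ) *
        (ξ : ℝ) ^ 2 * r)) := by
      calc Real.sqrt (1 + θ) * A * B * r = Real.sqrt (1 + θ) * (A * B) * r := by ring
        _ = _ := by rw [hAB]; ring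
    rw [h5]
    refine mul_le_mul_of_nonneg_left ?_ hs0r.le
    have : 0 ≤ Real.sqrt 6 * (κ / 2 + 0 / (2 * κ)) := by positivity
    linarith
  · have h3 : (Gd t)ᶜ.indicator (hs2 (wC N l b t τ) (cobV N l) (t - τ)) J =
        hs2 (wC N l b t τ) (cobV N l) (t - τ) J := Set.indicator_of_mem hJ _
    rw [h3]
    have hμ := H864.em_MC (N := N) (l := l) (t := t) h.b0.le h.dvd h.pos h.le
    have h4 := cv_dev' hμ (cobV N l) (t - τ) (ind1 (strip (N / l) m 0))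
      (ind1 (str3 (N / l) m β)) J (a := Real.sqrt 6 * s0) hκ (by positivity) (by
        rw [ind1_sq, ind1_sq, ← hs0d, ← hs3d, mul_pow, Real.sq_sqrt (by norm_num)]
        nlinarith)
    have e2 : ps (wM (wT b N) (H864.MC N l t τ)) (cobV N l) (t - τ) = wt N b t :=
      ps_wt h.dvd b h.le
    rw [e2] at h4
    have h5 := hfar 0
    have e3 : Tq (wt N b t) 0 = 0 := by unfold Tq; rw [smul_zero]; ring
    rw [e3, zero_div, Real.exp_zero, one_mul] at h5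
    refine h4.trans ((add_le_add h5 le_rfl).trans ?_)
    have h6 : A * B * r = s0 * (Real.sqrt 6 * (1 * (ξ : ℝ) ^ 2 * r)) := by rw [hAB]; ring
    rw [h6]
    have h7 : s0 * (Real.sqrt 6 * (1 * (ξ : ℝ) ^ 2 * r)) ≤
        s0 * (Real.sqrt 6 * (Real.sqrt (1 + θ) * (ξ : ℝ) ^ 2 * r)) := by gcongr
    refine (add_le_add h7 le_rfl).trans (le_of_eq ?_)
    have e4 : hs2 (wM (wT b N) (H864.MC N l t τ)) (cobV N l) (t - τ) J =
        hs2 (wC N l b t τ) (cobV N l) (t - τ) J := rfl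
    rw [e4]
    ring

/-- **strip sums of the mean posterior cell covariance** -/
theorem strip_wP {θ e : ℝ} {Gd : ℝ → Set (V N → ℝ)} (h : ST N l b t τ t θ e Gd) {ξ : ℕ} {c C : ℝ}
    (hLB : LB4 N b t ξ c C) (hc : 0 < c) (hC : 0 ≤ C) (hξ : 0 < ξ) (htξ : t ≤ 4 / (ξ : ℝ) ^ 2)
    {m : ℕ} (hm : 0 < m) (hml : ξ ≤ m * l) (hmn : m ≤ N / l) {κ : ℝ} (hκ : 0 < κ)
    (heκ : e ≤ κ ^ 2) (β : ℕ) :
    ∑ z ∈ strip (N / l) m β, t * wP N l b t τ z ≤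
      (10 * Real.sqrt (1 + θ) * C * Real.exp (2 * c)) * Real.exp (-(c * β)) + 3 * (t * κ) := by
  have hμ := H864.em_MC (N := N) (l := l) (t := t) h.b0.le h.dvd h.pos h.le
  have ht0 : 0 < t := h.pos.trans_le h.le
  have hξr : (0 : ℝ) < ξ := by exact_mod_cast hξ
  have hnr : 0 < N / l := NeZero.pos _
  have hs0p : 0 < (strip (N / l) m 0).card :=
    lt_of_lt_of_le (Nat.mul_pos hm hnr) (card_strip_ge hmn)
  obtain ⟨s0, hs0d⟩ : ∃ s0 : ℝ, s0 = (strip (N / l) m 0).card := ⟨_, rfl⟩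
  have hs0r : 0 < s0 := by rw [hs0d]; exact_mod_cast hs0p
  obtain ⟨K0, hK0⟩ : ∃ K0 : ℝ, K0 = Real.sqrt 6 * (Real.sqrt (1 + θ) * (ξ : ℝ) ^ 2 *
        (C * Real.exp (-(c * ((β - 2 : ℕ) : ℝ))))) := ⟨_, rfl⟩
  have h1 := strip_le_form (wP_nonneg h.b0.le h.dvd h.pos h.le) hm β
  rw [← ind1_form, form_wP h.dvd h.b0.le h.pos h.le, ← hs0d] at h1
  -- integrability
  have c1 : H663.ChI (wC N l b t τ) 0 (Real.sqrt (t - τ) • cobV N l) fun J =>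
      Cv (wt N b t) J (li ((cobV N l)ᵀ *ᵥ ind1 (strip (N / l) m 0)))
        (li ((cobV N l)ᵀ *ᵥ ind1 (str3 (N / l) m β))) := by
    have h2 := chi_Cv hμ (Real.sqrt (t - τ) • cobV N l)
      (Gr.li ((cobV N l)ᵀ *ᵥ ind1 (strip (N / l) m 0)))
      (Gr.li ((cobV N l)ᵀ *ᵥ ind1 (str3 (N / l) m β)))
    have e2 : post (wM (wT b N) (H864.MC N l t τ)) (Real.sqrt (t - τ) • cobV N l) = wt N b t :=
      ps_wt h.dvd b h.le
    rw [e2] at h2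
    exact h2
  have c2 : H663.ChI (wC N l b t τ) 0 (Real.sqrt (t - τ) • cobV N l)
      ((Gd t)ᶜ.indicator (hs2 (wC N l b t τ) (cobV N l) (t - τ))) :=
    chi_ind hμ (measurable_hs2 hμ _) (hs2_nonneg _ _ _) (chi_hs2 hμ _)
      (h.meas t ⟨h.le, le_rfl⟩).compl
  have c3 : H663.ChI (wC N l b t τ) 0 (Real.sqrt (t - τ) • cobV N l) fun J =>
      s0 * (K0 + Real.sqrt 6 * (κ / 2)) + s0 * Real.sqrt 6 / (2 * κ) *
        (Gd t)ᶜ.indicator (hs2 (wC N l b t τ) (cobV N l) (t - τ)) J :=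
    (chi_const hμ _ _ _).add (c2.cmul _)
  have h2 := H663.Ech_mono' hμ c1 c3 (fun J => by
    refine (le_abs_self _).trans ((cv_strip h hLB hC hξ hm hml hmn hκ β J).trans (le_of_eq ?_))
    rw [← hs0d, ← hK0]
    ring)
  rw [H663.Ech_add' (chi_const hμ _ _ _) (c2.cmul _), Ech_const hμ, Ech_cmul] at h2
  have h3 := h.err t ⟨h.le, le_rfl⟩
  have h4 : s0 * Real.sqrt 6 / (2 * κ) *
      Ech (wC N l b t τ) 0 (Real.sqrt (t - τ) • cobV N l)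
        ((Gd t)ᶜ.indicator (hs2 (wC N l b t τ) (cobV N l) (t - τ))) ≤
      s0 * Real.sqrt 6 / (2 * κ) * κ ^ 2 :=
    mul_le_mul_of_nonneg_left (h3.trans heκ) (by positivity)
  have h5 : s0 * Real.sqrt 6 / (2 * κ) * κ ^ 2 = s0 * (Real.sqrt 6 * (κ / 2)) := by
    field_simp
  have h6 : s0 * ∑ z ∈ strip (N / l) m β, wP N l b t τ z ≤ s0 * (K0 + Real.sqrt 6 * κ) := by
    have e : s0 * (K0 + Real.sqrt 6 * κ) = s0 * (K0 + Real.sqrt 6 * (κ / 2)) +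
        s0 * (Real.sqrt 6 * (κ / 2)) := by ring
    rw [e]
    linarith
  have h7 : ∑ z ∈ strip (N / l) m β, wP N l b t τ z ≤ K0 + Real.sqrt 6 * κ :=
    le_of_mul_le_mul_left h6 hs0r
  have htξ2 : t * (ξ : ℝ) ^ 2 ≤ 4 := by
    calc t * (ξ : ℝ) ^ 2 ≤ 4 / (ξ : ℝ) ^ 2 * (ξ : ℝ) ^ 2 :=
          mul_le_mul_of_nonneg_right htξ (by positivity)
      _ = 4 := by field_simp
  have h8 : Real.exp (-(c * ((β - 2 : ℕ) : ℝ))) ≤ Real.exp (2 * c) * Real.exp (-(c * β)) := by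
    rw [← Real.exp_add]
    refine Real.exp_le_exp.2 ?_
    have h9 : (β : ℝ) ≤ ((β - 2 : ℕ) : ℝ) + 2 := by
      have : β ≤ (β - 2) + 2 := by omega
      exact_mod_cast this
    nlinarith
  have h10 : t * K0 ≤ (10 * Real.sqrt (1 + θ) * C * Real.exp (2 * c)) * Real.exp (-(c * β)) := by
    have e1 : t * K0 = Real.sqrt 6 * (t * (ξ : ℝ) ^ 2) * (Real.sqrt (1 + θ) * C) *
        Real.exp (-(c * ((β - 2 : ℕ) : ℝ))) := by rw [hK0]; ring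
    rw [e1]
    have h11 : Real.sqrt 6 * (t * (ξ : ℝ) ^ 2) ≤ 10 := by
      calc Real.sqrt 6 * (t * (ξ : ℝ) ^ 2) ≤ 5 / 2 * 4 :=
            mul_le_mul sqrt6 htξ2 (by positivity) (by norm_num)
        _ = 10 := by norm_num
    calc Real.sqrt 6 * (t * (ξ : ℝ) ^ 2) * (Real.sqrt (1 + θ) * C) *
        Real.exp (-(c * ((β - 2 : ℕ) : ℝ)))
        ≤ 10 * (Real.sqrt (1 + θ) * C) * (Real.exp (2 * c) * Real.exp (-(c * β))) :=
          mul_le_mul (mul_le_mul_of_nonneg_right h11 (by positivity)) h8 (by positivity)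
            (by positivity)
      _ = _ := by ring
  have h12 : t * (Real.sqrt 6 * κ) ≤ 3 * (t * κ) := by
    have h13 := sqrt6
    have h14 : 0 < t * κ := by positivity
    nlinarith
  rw [← mul_sum]
  calc t * ∑ z ∈ strip (N / l) m β, wP N l b t τ z ≤ t * (K0 + Real.sqrt 6 * κ) :=
        mul_le_mul_of_nonneg_left h7 ht0.le
    _ = t * K0 + t * (Real.sqrt 6 * κ) := by ring
    _ ≤ _ := add_le_add h10 h12

end

end Vale.Agent.P159.H813
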