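import Vale.Agent.P159.H813.Sq6

/-!
P159 (helper813): (STAR0), part 7: the state `St0` and **(i) uniformly in the prior mass**.
-/

namespace Vale.Agent.P159.H813

open Finset MeasureTheory Matrix
open Vale.Agent.P159.TM.H104 (EM Ex Cv K3 Lg li nh Gr)
open Vale.Agent.P159.H37
open Vale.Agent.P159.TM.Spec (V)
open Vale.Agent.P159.TM.SpecC (Tor wT)
open Vale.Agent.P159.TM.H764 (EE cN sN dt Gh grd)
open Vale.Agent.P159.H864 (TI sym MC cobV lapM)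
open Vale.Agent.P159.H462 (hk St Dom ms Phl Bfl V0l Smf Dtot oT oB)
open Vale.Agent.P159.H363 (Nf acl ti_acl Rcl)
open Vale.Agent.P159.H896 (srcF srcM pinK kap)
open Vale.Agent.P159.H963 (Pn Gnc nM nMC obsN ntr Neu gw_wT mf_MC MF)
open Vale.Agent.P159.H859 (Rk)
open Vale.Agent.P159.H663 (ChI)
open Vale.Agent.P159.H730 (RL)
open Vale.Agent.P159.H889 (tn2)
open scoped Real

noncomputable section

set_option linter.unusedSectionVars false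

variable {N l : ℕ} [NeZero N] [NeZero (N / l)] {b T τ ηR δ dT c : ℝ} {z : ℂ}

/-- the loss of the fourth moment -/
def Wk (N l : ℕ) [NeZero N] [NeZero (N / l)] (b T : ℝ) (k : V (N / l)) : ℝ :=
  1 + T * (l : ℝ) ^ 2 / (kq b * EE k)

lemma EE_pos0 {n : ℕ} [NeZero n] {k : V n} (hk : k ≠ 0) : 0 < EE k := H462.EE_pos hk

lemma one_le_Wk (hb : 0 ≤ b) (hT : 0 ≤ T) {k : V (N / l)} (hk : k ≠ 0) : 1 ≤ Wk N l b T k := by
  unfold Wk
  have h1 := kq_pos hb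
  have h2 := EE_pos0 hk
  have : 0 ≤ T * (l : ℝ) ^ 2 / (kq b * EE k) := by positivity
  linarith

lemma sz1 {T τ r : ℝ} (hτ : 0 < τ) (h : τ < T) (hr : 0 ≤ r) :
    ((T - τ) + (T - τ) ^ 2 * r) / T ≤ 1 + T * r := by
  have hT : 0 < T := hτ.trans h
  rw [div_le_iff₀ hT]
  have h9 : (T - τ) ^ 2 ≤ T ^ 2 := pow_le_pow_left₀ (sub_nonneg.2 h.le) (by linarith) 2
  have h10 := mul_le_mul_of_nonneg_right h9 hr
  have e : (1 + T * r) * T = T + T ^ 2 * r := by ring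
  rw [e]
  linarith

lemma sz2 {T τ r κ l : ℝ} (hl : 0 < l) (hτ : 0 < τ) (h : τ < T) (hr : 0 ≤ r)
    (hκ : κ ≤ 2 * (T * l ^ 2)) :
    κ * (((T * l)⁻¹) ^ 2 * ((T - τ) + (T - τ) ^ 2 * r)) ≤ 2 * (1 + T * r) := by
  have hT : 0 < T := hτ.trans h
  have hq : 0 < T - τ := sub_pos.2 h
  have h7 : κ * (((T * l)⁻¹) ^ 2 * ((T - τ) + (T - τ) ^ 2 * r)) ≤
      2 * (T * l ^ 2) * (((T * l)⁻¹) ^ 2 * ((T - τ) + (T - τ) ^ 2 * r)) :=
    mul_le_mul_of_nonneg_right hκ (by positivity)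
  refine h7.trans ?_
  have e2 : 2 * (T * l ^ 2) * (((T * l)⁻¹) ^ 2 * ((T - τ) + (T - τ) ^ 2 * r)) =
      2 * (((T - τ) + (T - τ) ^ 2 * r) / T) := by
    field_simp
  rw [e2]
  have := sz1 hτ h hr
  linarith

lemma sz3 (a X Y : ℝ) : (a * (X ^ 2 + Y ^ 2) - 1) ^ 2 ≤ 4 * a ^ 2 * (X ^ 4 + Y ^ 4) + 2 := by
  have h1 := sq_nonneg (a * (X ^ 2 + Y ^ 2) + 1)
  have h2 := sq_nonneg (a * (X ^ 2 - Y ^ 2))
  have e1 : (a * (X ^ 2 + Y ^ 2) - 1) ^ 2 + (a * (X ^ 2 + Y ^ 2) + 1) ^ 2 +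
      2 * (a * (X ^ 2 - Y ^ 2)) ^ 2 = 4 * a ^ 2 * (X ^ 4 + Y ^ 4) + 2 := by ring
  linarith

/-- **the second moment, uniform in the prior mass** -/
theorem Ech_Fk_sq' (hb : 0 ≤ b) (hl : l ∣ N) (hτ : 0 < τ) (h : τ < T) {k : V (N / l)} (hk : k ≠ 0)
    (hA0 : 0 ≤ sym (acl N l b T T) k) (hA : sym (acl N l b T T) k + kap l T τ ≤ 2 * (T * l ^ 2)) :
    Ech (nMC N l b T τ 0) 0 (obsN N l (T - τ)) (fun J => Fk N l b T τ k J ^ 2) ≤
      2562 * Wk N l b T k ^ 2 := by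
  have hT : 0 < T := hτ.trans h
  have hq : 0 < T - τ := sub_pos.2 h
  have hlp : (0 : ℝ) < l := by exact_mod_cast H864.l_pos hl
  have hμ := H963.em_nMC hb hl hτ h.le (0 : V N)
  have hn : 0 < ((N / l : ℕ) : ℝ) ^ 2 := H864.N_pos
  have hκ := H896.kap_pos hl hτ h
  have hkq := kq_pos hb
  have hE := EE_pos0 hk
  set κ := sym (acl N l b T T) k + kap l T τ with hκd
  have hκ0 : 0 ≤ κ := by positivity
  have g4 : ∀ φ : V (N / l) → ℝ, EGr fun J : V N → ℝ => (tv N l T φ ⬝ᵥ J) ^ 4 := fun φ => by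
    have h1 := H663.EGr.dot (tv N l T φ)
    have h2 := (h1.mul h1).mul (h1.mul h1)
    have e : (fun J : V N → ℝ => (tv N l T φ ⬝ᵥ J) * (tv N l T φ ⬝ᵥ J) *
        ((tv N l T φ ⬝ᵥ J) * (tv N l T φ ⬝ᵥ J))) = fun J => (tv N l T φ ⬝ᵥ J) ^ 4 := by
      funext J; ring
    rwa [e] at h2
  set a := κ * (((N / l : ℕ) : ℝ) ^ 2)⁻¹ with ha
  have ha0 : 0 ≤ a := by positivity
  have hle : ∀ J : V N → ℝ, Fk N l b T τ k J ^ 2 ≤
      4 * a ^ 2 * ((tv N l T (fun x => cN (dt k x)) ⬝ᵥ J) ^ 4 +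
        (tv N l T (fun x => sN (dt k x)) ⬝ᵥ J) ^ 4) + 2 := by
    intro J
    unfold Fk
    rw [← hκd, ← mul_assoc κ]
    exact sz3 a _ _
  have hEm := Ech_mono hμ 0 (obsN N l (T - τ)) (by
    have h1 := (egr_Fk (N := N) (l := l) (b := b) (T := T) (τ := τ) k).mul
      (egr_Fk (N := N) (l := l) (b := b) (T := T) (τ := τ) k)
    simpa only [← pow_two] using h1)
    ((((g4 fun x => cN (dt k x)).add (g4 fun x => sN (dt k x))).cmul (4 * a ^ 2)).add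
      (EGr.const 2)) hle
  refine hEm.trans ?_
  rw [Ech_add hμ _ _ (((g4 _).add (g4 _)).cmul _) (EGr.const 2), Ech_const hμ, Ech_cmul,
    Ech_add hμ _ _ (g4 _) (g4 _)]
  have h4 := sum_cs_sq k
  have c0 : 0 ≤ ∑ x : V (N / l), cN (dt k x) ^ 2 := sum_nonneg fun _ _ => sq_nonneg _
  have s0 : 0 ≤ ∑ x : V (N / l), sN (dt k x) ^ 2 := sum_nonneg fun _ _ => sq_nonneg _
  set r := rk l b τ (EE k) with hr
  have hr0 : 0 ≤ r := by
    rw [hr]; unfold rk; positivity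
  have m1 := Ech_tv4' hb hl hτ h (H963.neu_cN hk) hn (by linarith) hr0 (qf_Rk_c hb hτ k)
  have m2 := Ech_tv4' hb hl hτ h (H963.neu_sN k) hn (by linarith) hr0 (qf_Rk_s hb hτ k)
  set E1 := Ech (nMC N l b T τ 0) 0 (obsN N l (T - τ))
    (fun J => (tv N l T (fun x => cN (dt k x)) ⬝ᵥ J) ^ 4)
  set E2 := Ech (nMC N l b T τ 0) 0 (obsN N l (T - τ))
    (fun J => (tv N l T (fun x => sN (dt k x)) ⬝ᵥ J) ^ 4)
  set s := ((T * l)⁻¹) ^ 2 * ((T - τ) + (T - τ) ^ 2 * r) * ((N / l : ℕ) : ℝ) ^ 2 with hs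
  have h5 : 4 * a ^ 2 * (E1 + E2) ≤ 4 * a ^ 2 * (80 * s ^ 2 + 80 * s ^ 2) :=
    mul_le_mul_of_nonneg_left (add_le_add m1 m2) (by positivity)
  have hW1 := one_le_Wk (N := N) (l := l) hb hT.le hk
  have h6 : a * s ≤ 2 * Wk N l b T k := by
    have e : a * s = κ * (((T * l)⁻¹) ^ 2 * ((T - τ) + (T - τ) ^ 2 * r)) := by
      rw [hs, ha]
      generalize ((T * l)⁻¹) ^ 2 * ((T - τ) + (T - τ) ^ 2 * r) = a'
      rw [mul_assoc, mul_comm a', inv_mul_cancel_left₀ hn.ne']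
    rw [e]
    refine (sz2 hlp hτ h hr0 hA).trans ?_
    have h11 : T * r ≤ T * (l : ℝ) ^ 2 / (kq b * EE k) := by
      have h12 : r ≤ (kq b / (l : ℝ) ^ 2 * EE k)⁻¹ := by
        rw [hr]; unfold rk
        exact inv_anti₀ (by positivity) (by linarith)
      refine (mul_le_mul_of_nonneg_left h12 hT.le).trans (le_of_eq ?_)
      field_simp
    unfold Wk
    linarith
  have hs0 : 0 ≤ s := by positivity
  have h10 : (a * s) ^ 2 ≤ (2 * Wk N l b T k) ^ 2 :=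
    pow_le_pow_left₀ (mul_nonneg ha0 hs0) h6 2
  have e3 : 4 * a ^ 2 * (80 * s ^ 2 + 80 * s ^ 2) = 640 * (a * s) ^ 2 := by ring
  rw [e3] at h5
  have e4 : (2 * Wk N l b T k) ^ 2 = 4 * Wk N l b T k ^ 2 := by ring
  rw [e4] at h10
  have h13 : 1 ≤ Wk N l b T k ^ 2 := one_le_pow₀ hW1
  linarith

/-- **the state** at the scalar mass `T`, prior mass `τ` (no condition on `z`) -/
structure St0 (N l : ℕ) [NeZero N] [NeZero (N / l)] (b T τ : ℝ) (z : ℂ) (ηR δ dT c : ℝ) :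
    Prop where
  hb : 0 < b
  hl : l ∣ N
  hτ : 0 < τ
  lt : τ < T
  dom : Dom (acl N l b T T) (T * (l : ℝ) ^ 2) c
  ho : oT N l b T ≤ 1 / 2
  η0 : 0 ≤ ηR
  η1 : ηR + 2 * oT N l b T ≤ 1
  bad : Ech (nMC N l b T τ 0) 0 (obsN N l (T - τ))
    ({J | ηR < Rs (nMC N l b T T 0) J}.indicator fun _ => 1) ≤ δ
  dev : tn2 (acl N l b T T) (Dtot N l b T z) ≤ dT
  tiny : ms τ T l * (T * (l : ℝ) ^ 2 + ms τ T l) / 2 *
    (((N / l : ℕ) : ℝ) ^ 4 / c ^ 2 + 2 * ((N / l : ℕ) : ℝ) ^ 2 / (T * (l : ℝ) ^ 2) ^ 2) ≤ 1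

lemma st0_of (h : St N l b T τ z ηR δ dT c) : St0 N l b T τ z ηR δ dT c :=
  ⟨h.hb, h.hl, h.hτ, h.lt, h.dom, h.ho, h.η0, h.η1, h.bad, h.dev, h.tiny⟩

/-- auxiliary state with `z = 0` -/
lemma St0.aux (h : St0 N l b T τ z ηR δ dT c) :
    St N l b T τ 0 ηR δ (tn2 (acl N l b T T) (Dtot N l b T 0)) c :=
  ⟨h.hb, h.hl, h.hτ, h.lt, h.dom, h.ho, h.η0, h.η1, h.bad, le_rfl, h.tiny, by simp, by simp⟩

lemma St0.T0 (h : St0 N l b T τ z ηR δ dT c) : 0 < T := h.hτ.trans h.lt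

lemma St0.kap_le (h : St0 N l b T τ z ηR δ dT c) : kap l T τ ≤ T * (l : ℝ) ^ 2 := st_kap h.aux

lemma St0.δ0 (h : St0 N l b T τ z ηR δ dT c) : 0 ≤ δ := st_δ0 h.aux

lemma St0.Fk_sqrt (h : St0 N l b T τ z ηR δ dT c) {k : V (N / l)} (hk : k ≠ 0) :
    Real.sqrt ((Ech (nMC N l b T τ 0) 0 (obsN N l (T - τ)) fun J => Fk N l b T τ k J ^ 2) * δ) ≤
      51 * Wk N l b T k * Real.sqrt δ := by
  have hT := h.T0
  have hτ := h.hτ
  have hW := one_le_Wk (N := N) (l := l) h.hb.le hT.le hk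
  have h1 := Ech_Fk_sq' (N := N) (l := l) h.hb.le h.hl h.hτ h.lt hk (h.dom.nn k)
    (by have := h.dom.le k; have := h.kap_le; linarith)
  have h2 : (Ech (nMC N l b T τ 0) 0 (obsN N l (T - τ)) fun J => Fk N l b T τ k J ^ 2) * δ ≤
      (51 * Wk N l b T k) ^ 2 * δ := by
    refine mul_le_mul_of_nonneg_right (h1.trans ?_) h.δ0
    nlinarith [sq_nonneg (Wk N l b T k)]
  refine (Real.sqrt_le_sqrt h2).trans (le_of_eq ?_)
  rw [Real.sqrt_mul (sq_nonneg _), Real.sqrt_sq (by positivity)]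

/-- the law: reference covariance of the cell channel -/
def CK (N l : ℕ) [NeZero N] [NeZero (N / l)] (b T τ : ℝ) : Matrix (V (N / l)) (V (N / l)) ℝ :=
  pinK (acl N l b T T) (kap l T τ)

/-- first order quantity: the error of (i) -/
def E1i (ηR δ W : ℝ) : ℝ := 4 * ηR ^ 2 + 2 * ηR * δ + 360 * W * Real.sqrt δ

/-- **(STAR0) (i), uniformly in the prior mass** -/
theorem St0.star_i (h : St0 N l b T τ z ηR δ dT c) (hδ : δ ≤ 1 / 2) {k : V (N / l)} (hk : k ≠ 0) :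
    |rho N l b T τ k - H462.mh (CK N l b T τ) (Rcl N l b T T) k| ≤ E1i ηR δ (Wk N l b T k) ∧
      |H462.mh (CK N l b T τ) (Rcl N l b T T) k| ≤
        2 * ηR + 310 * Wk N l b T k * Real.sqrt δ := by
  have hb := h.hb
  have hl := h.hl
  have hτ := h.hτ
  have hT := h.T0
  have hδ0 := h.δ0
  have hη0 := h.η0
  have hη1 : ηR ≤ 1 := by
    have h1 := h.η1
    have h2 := H462.oT_nonneg (N := N) (l := l) hb.le hl hT
    linarith
  have hA := nf_of_dom h.dom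
  have hX := H896.rl_cell hb.le hl hτ h.lt (le_refl T) hA
  have hpost : post (nMC N l b T τ 0) (obsN N l (T - τ)) = nMC N l b T T 0 :=
    H963.post_nMC hl b h.lt.le 0
  have mG := meas_Gds (N := N) (l := l) hb.le hl hT ηR
  have hR : ∀ J ∈ Gds N l b T ηR,
      Rs (post (nMC N l b T τ 0) (obsN N l (T - τ))) J ≤ ηR := by
    intro J hJ
    rw [hpost]
    exact hJ
  have hbad : Ech (nMC N l b T τ 0) 0 (obsN N l (T - τ))
      ((Gds N l b T ηR)ᶜ.indicator fun _ => (1 : ℝ)) ≤ δ := by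
    rw [Gds_compl]
    exact h.bad
  obtain ⟨c1, c2⟩ := st_chi h.aux k
  have mF := (egr_Fk (N := N) (l := l) (b := b) (T := T) (τ := τ) k).meas
  have hsrc : ∀ g : V (N / l) → ℝ, Fk N l b T τ k
      ((srcM N l T * pinK (acl N l b T T) (kap l T τ)) *ᵥ g) = H462.hk k g := fun g =>
    Fk_src hl hτ h.lt hA hk g
  have h0 : ∫ g, Fk N l b T τ k ((srcM N l T * pinK (acl N l b T T) (kap l T τ)) *ᵥ g)
      ∂(gau (V (N / l))) = 0 := by
    simp only [hsrc]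
    exact int_hk k
  have k1 := law2 hX mG hR hη0 hη1 hδ0 hδ hbad mF c1 c2 h0
  have k2 := law2_lin hX mG hR hη0 hη1 hδ0 hδ hbad mF c1 c2
  rw [hpost] at k1 k2
  have hRs : ∀ g : V (N / l) → ℝ, Rs (nMC N l b T T 0)
      ((srcM N l T * pinK (acl N l b T T) (kap l T τ)) *ᵥ g) =
      Rcl N l b T T (pinK (acl N l b T T) (kap l T τ) *ᵥ g) := by
    intro g
    rw [H896.Rcl_eq, H896.srcF_eq hl hT (le_refl T), mulVec_mulVec]
  simp only [hsrc, hRs] at k1 k2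
  rw [Ech_Fk hb.le hl hτ h.lt.le hk] at k1
  have e : ∫ g, H462.hk k g * Rcl N l b T T (pinK (acl N l b T T) (kap l T τ) *ᵥ g)
      ∂(gau (V (N / l))) = H462.mh (CK N l b T τ) (Rcl N l b T T) k := by
    unfold H462.mh CK
    exact integral_congr_ae (Filter.Eventually.of_forall fun g => mul_comm _ _)
  rw [e] at k1 k2
  have m2 := int_hk_abs k
  have m0 : 0 ≤ ∫ g, |H462.hk k g| ∂(gau (V (N / l))) := integral_nonneg fun _ => abs_nonneg _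
  have s1 := h.Fk_sqrt hk
  have hW := one_le_Wk (N := N) (l := l) h.hb.le hT.le hk
  have hs : 0 ≤ Wk N l b T k * Real.sqrt δ := by positivity
  refine ⟨k1.trans ?_, k2.trans ?_⟩
  · have h1 : (2 * ηR ^ 2 + ηR * δ) * ∫ g, |H462.hk k g| ∂(gau (V (N / l))) ≤
        (2 * ηR ^ 2 + ηR * δ) * 2 := mul_le_mul_of_nonneg_left m2 (by positivity)
    unfold E1i
    nlinarith
  · have h1 : ηR * ∫ g, |H462.hk k g| ∂(gau (V (N / l))) ≤ ηR * 2 :=
      mul_le_mul_of_nonneg_left m2 hη0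
    nlinarith

end

end Vale.Agent.P159.H813
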