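import Vale.Agent.P159.H813.Sq9

/-!
P159 (helper813): **(STAR0)**: `St0.star`, `St0.near`.
-/

namespace Vale.Agent.P159.H813

open Finset MeasureTheory Matrix
open Vale.Agent.P159.H37
open Vale.Agent.P159.TM.Spec (V)
open Vale.Agent.P159.TM.SpecC (Tor wT)
open Vale.Agent.P159.TM.H764 (EE cN sN dt Gh grd)
open Vale.Agent.P159.H864 (TI sym MC cobV lapM)
open Vale.Agent.P159.H462 (hk Dom ms cm cm_cst Phl Bfl V0l Smf Dtot oT oB Pst)
open Vale.Agent.P159.H363 (Nf acl ti_acl Rcl Ch pin mainf ee)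
open Vale.Agent.P159.H896 (srcM pinK kap om)
open Vale.Agent.P159.H963 (Gnc nMC obsN PinC)
open Vale.Agent.P159.H889 (tn2)
open Vale.Agent.P159.H114 (Pc Sig)
open scoped Real

noncomputable section

set_option linter.unusedSectionVars false

variable {N l : ℕ} [NeZero N] [NeZero (N / l)] {b T τ ηR δ dT c : ℝ} {z : ℂ}

/-- exact relation of the self energy of the channel and `rho` -/
theorem St0.Pc_eq (h : St0 N l b T τ z ηR δ dT c) {k : V (N / l)} (hk : k ≠ 0) :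
    (Pc N l b T τ k + τ * (l : ℝ) ^ 2) *
      (1 + rho N l b T τ k * gP (T * (l : ℝ) ^ 2) (τ * (l : ℝ) ^ 2) (Pst N l b T k)) =
      Pst N l b T k + τ * (l : ℝ) ^ 2 := by
  have hb := h.hb
  have hl := h.hl
  have hT := h.T0
  have hτ := h.hτ
  have hq : 0 < T - τ := sub_pos.2 h.lt
  have hlp : (0 : ℝ) < l := by exact_mod_cast H864.l_pos hl
  have hP := H462.Pst_nonneg hb hl hT k
  have hG := H963.sym_Gnc_pos hb hl hτ h.lt.le hk
  unfold H114.Pc H963.PinC rho gP H896.kap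
  rw [acl_P hb hl hT]
  set P := Pst N l b T k
  set G := sym (Gnc N l b T τ) k
  have h1 : T * (l : ℝ) ^ 2 + P ≠ 0 := by positivity
  have h2 : T * (l : ℝ) ^ 2 - τ * (l : ℝ) ^ 2 ≠ 0 := by
    have : T * (l : ℝ) ^ 2 - τ * (l : ℝ) ^ 2 = (T - τ) * (l : ℝ) ^ 2 := by ring
    rw [this]
    positivity
  have e3 : T * (l : ℝ) ^ 2 * P / (T * (l : ℝ) ^ 2 + P) + (l : ℝ) ^ 2 * T * τ / (T - τ) =
      T ^ 2 * (l : ℝ) ^ 2 * (τ * (l : ℝ) ^ 2 + P) / ((T * (l : ℝ) ^ 2 + P) * (T - τ)) := by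
    field_simp
    ring
  rw [e3]
  have e4 : T * (l : ℝ) ^ 2 - τ * (l : ℝ) ^ 2 = (T - τ) * (l : ℝ) ^ 2 := by ring
  rw [e4]
  field_simp
  ring

/-- relation of `xqk` and `vh` -/
theorem St0.xqk_eq (h : St0 N l b T τ z ηR δ dT c) {k : V (N / l)}
    (hv : 0 < 1 + vh N l b T τ k *
      (gP (T * (l : ℝ) ^ 2) (τ * (l : ℝ) ^ 2) (Pst N l b T k) - 1)) :
    (xqk N l b T τ k + τ * (l : ℝ) ^ 2) * (1 + vh N l b T τ k *
      (gP (T * (l : ℝ) ^ 2) (τ * (l : ℝ) ^ 2) (Pst N l b T k) - 1)) =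
      (Pst N l b T k + τ * (l : ℝ) ^ 2) * (1 - vh N l b T τ k) := by
  have hb := h.hb
  have hl := h.hl
  have hT := h.T0
  have hτ := h.hτ
  have hq : 0 < T - τ := sub_pos.2 h.lt
  have hlp : (0 : ℝ) < l := by exact_mod_cast H864.l_pos hl
  have hP := H462.Pst_nonneg hb hl hT k
  unfold xqk qk H896.kap
  rw [acl_P hb hl hT]
  set P := Pst N l b T k
  set v := vh N l b T τ k
  unfold gP at hv ⊢
  have h1 : T * (l : ℝ) ^ 2 + P ≠ 0 := by positivity
  have e3 : T * (l : ℝ) ^ 2 * P / (T * (l : ℝ) ^ 2 + P) + (l : ℝ) ^ 2 * T * τ / (T - τ) =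
      T ^ 2 * (l : ℝ) ^ 2 * (τ * (l : ℝ) ^ 2 + P) / ((T * (l : ℝ) ^ 2 + P) * (T - τ)) := by
    field_simp
    ring
  have e4 : T * (l : ℝ) ^ 2 - τ * (l : ℝ) ^ 2 = (T - τ) * (l : ℝ) ^ 2 := by ring
  rw [e4] at hv ⊢
  have e5 : (T * (l : ℝ) ^ 2 + P) / ((T - τ) * (l : ℝ) ^ 2) - 1 =
      (τ * (l : ℝ) ^ 2 + P) / ((T - τ) * (l : ℝ) ^ 2) := by
    field_simp
    ring
  rw [e5] at hv ⊢
  rw [e3]
  set D := 1 + v * ((τ * (l : ℝ) ^ 2 + P) / ((T - τ) * (l : ℝ) ^ 2)) with hD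
  have e6 : T * (l : ℝ) ^ 2 - (T * (l : ℝ) ^ 2 * P / (T * (l : ℝ) ^ 2 + P) -
      T ^ 2 * (l : ℝ) ^ 2 * (τ * (l : ℝ) ^ 2 + P) / ((T * (l : ℝ) ^ 2 + P) * (T - τ)) * v) =
      (T * (l : ℝ) ^ 2) ^ 2 / (T * (l : ℝ) ^ 2 + P) * D := by
    rw [hD]
    field_simp
    ring
  rw [e6]
  have e7 : v = (D - 1) * ((T - τ) * (l : ℝ) ^ 2) / (τ * (l : ℝ) ^ 2 + P) := by
    rw [hD]
    field_simp
    ring
  have h3 : τ * (l : ℝ) ^ 2 + P ≠ 0 := by positivity
  have h4 : D ≠ 0 := hv.ne'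
  clear_value D
  rw [e7]
  field_simp
  ring

lemma St0.R_int (h : St0 N l b T τ z ηR δ dT c) {k : V (N / l)} (hk : k ≠ 0) :
    Integrable (fun g => Rcl N l b T T (CK N l b T τ *ᵥ g) * H462.hk k g) (gau (V (N / l))) := by
  have hb := h.hb
  have hl := h.hl
  have hτ := h.hτ
  have hT := h.T0
  have hA := nf_of_dom h.dom
  have hX := H896.rl_cell hb.le hl hτ h.lt (le_refl T) hA
  have hpost : post (nMC N l b T τ 0) (obsN N l (T - τ)) = nMC N l b T T 0 :=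
    H963.post_nMC hl b h.lt.le 0
  obtain ⟨c1, c2⟩ := st_chi h.aux k
  have mF := (egr_Fk (N := N) (l := l) (b := b) (T := T) (τ := τ) k).meas
  have hsrc : ∀ g : V (N / l) → ℝ, Fk N l b T τ k
      ((srcM N l T * pinK (acl N l b T T) (kap l T τ)) *ᵥ g) = H462.hk k g := fun g =>
    Fk_src hl hτ h.lt hA hk g
  have i2 := (hX.chi_iff mF).1 c1
  rw [hpost] at i2
  have hRs : ∀ g : V (N / l) → ℝ, Rs (nMC N l b T T 0)
      ((srcM N l T * pinK (acl N l b T T) (kap l T τ)) *ᵥ g) =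
      Rcl N l b T T (CK N l b T τ *ᵥ g) := by
    intro g
    rw [H896.Rcl_eq, H896.srcF_eq hl hT (le_refl T), mulVec_mulVec]
    rfl
  simp only [hsrc, hRs] at i2
  have mC : Measurable fun g : V (N / l) → ℝ => CK N l b T τ *ᵥ g := H363.measurable_mulVec _
  have mR := (H363.continuous_Rcl (b := b) (N := N) (l := l) hb.le hl hT (le_refl T)).measurable
  refine i2.mono ((mR.comp mC).mul (egr_hk k).meas).aestronglyMeasurable
    (Filter.Eventually.of_forall fun g => ?_)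
  have hR0 := H363.Rcl_nonneg (b := b) hb.le hl hT (le_refl T) (CK N l b T τ *ᵥ g)
  rw [norm_mul, norm_mul, mul_comm]
  refine mul_le_mul_of_nonneg_left ?_ (norm_nonneg _)
  rw [Real.norm_eq_abs, Real.norm_eq_abs, abs_of_nonneg hR0, abs_of_pos (Real.exp_pos _)]
  have := Real.add_one_le_exp (Rcl N l b T T (CK N l b T τ *ᵥ g))
  linarith

lemma St0.B_int (h : St0 N l b T τ z ηR δ dT c) (k : V (N / l)) :
    Integrable (fun g => Bfl N l b T (CK N l b T τ *ᵥ g) * H462.hk k g) (gau (V (N / l))) := by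
  have hb := h.hb
  have hl := h.hl
  have hT := h.T0
  have ho := h.ho
  have mC : Measurable fun g : V (N / l) → ℝ => CK N l b T τ *ᵥ g := H363.measurable_mulVec _
  have mB := (H462.continuous_Bfl (N := N) (l := l) hb.le hl hT).measurable.comp mC
  refine (int_hk_i k).bdd_mul (c := 2 * oT N l b T ^ 2) mB.aestronglyMeasurable
    (Filter.Eventually.of_forall fun g => ?_)
  rw [Real.norm_eq_abs, abs_of_nonneg (H462.Bfl_nonneg hb.le hl hT ho _)]
  exact H462.Bfl_le hb.le hl hT ho _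

/-- `vh = mh R - mh B` -/
theorem St0.vh_eq (h : St0 N l b T τ z ηR δ dT c) {k : V (N / l)} (hk : k ≠ 0) :
    vh N l b T τ k = H462.mh (CK N l b T τ) (Rcl N l b T T) k -
      H462.mh (CK N l b T τ) (Bfl N l b T) k := by
  have hb := h.hb
  have hl := h.hl
  have hT := h.T0
  have i1 := h.R_int hk
  have i2 := h.B_int k
  have i3 : Integrable (fun g : V (N / l) → ℝ => Bfl N l b T 0 * H462.hk k g)
      (gau (V (N / l))) := (int_hk_i k).const_mul _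
  unfold vh H462.mh
  have e : (fun g => V0l N l b T (CK N l b T τ *ᵥ g) * H462.hk k g) = fun g =>
      (Rcl N l b T T (CK N l b T τ *ᵥ g) * H462.hk k g -
        Bfl N l b T (CK N l b T τ *ᵥ g) * H462.hk k g) + Bfl N l b T 0 * H462.hk k g := by
    funext g
    rw [H462.V0l_eq hb.le hl hT]
    ring
  have i12 : Integrable (fun g => Rcl N l b T T (CK N l b T τ *ᵥ g) * H462.hk k g -
      Bfl N l b T (CK N l b T τ *ᵥ g) * H462.hk k g) (gau (V (N / l))) := i1.sub i2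
  rw [e, integral_add i12 i3, integral_sub i1 i2, integral_const_mul, int_hk, mul_zero,
    add_zero]

/-- size of the mean of `B` -/
lemma St0.mhB_le (h : St0 N l b T τ z ηR δ dT c) (k : V (N / l)) :
    |H462.mh (CK N l b T τ) (Bfl N l b T) k| ≤ 4 * oT N l b T ^ 2 := by
  have hb := h.hb
  have hl := h.hl
  have hT := h.T0
  have ho := h.ho
  unfold H462.mh
  refine (abs_integral_le_integral_abs).trans ?_
  have h1 : ∫ g, |Bfl N l b T (CK N l b T τ *ᵥ g) * H462.hk k g| ∂(gau (V (N / l))) ≤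
      ∫ g, 2 * oT N l b T ^ 2 * |H462.hk k g| ∂(gau (V (N / l))) := by
    refine integral_mono (h.B_int k).abs ((int_hk_i k).abs.const_mul _) fun g => ?_
    simp only
    rw [abs_mul, abs_of_nonneg (H462.Bfl_nonneg hb.le hl hT ho _)]
    exact mul_le_mul_of_nonneg_right (H462.Bfl_le hb.le hl hT ho _) (abs_nonneg _)
  refine h1.trans ?_
  rw [integral_const_mul]
  have h2 := mul_le_mul_of_nonneg_left (int_hk_abs k) (by positivity : 0 ≤ 2 * oT N l b T ^ 2)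
  linarith

/-- the sizes -/
theorem St0.size (h : St0 N l b T τ z ηR δ dT c) (hδ : δ ≤ 1 / 2) {k : V (N / l)} (hk : k ≠ 0) :
    |vh N l b T τ k| ≤ Sz ηR δ (Wk N l b T k) (oT N l b T) ∧
      |rho N l b T τ k| ≤ Sz ηR δ (Wk N l b T k) (oT N l b T) := by
  obtain ⟨h1, h2⟩ := h.star_i hδ hk
  have h3 := h.mhB_le k
  have hη0 := h.η0
  have hδ0 := h.δ0
  have hη1 : ηR ≤ 1 := by
    have h1 := h.η1
    have h2 := H462.oT_nonneg (N := N) (l := l) h.hb.le h.hl h.T0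
    linarith
  have hW := one_le_Wk (N := N) (l := l) h.hb.le h.T0.le hk
  have hs : 0 ≤ Wk N l b T k * Real.sqrt δ := by positivity
  have ho : 0 ≤ oT N l b T ^ 2 := sq_nonneg _
  unfold Sz
  unfold E1i at h1
  constructor
  · rw [h.vh_eq hk]
    refine (abs_sub _ _).trans ?_
    linarith
  · have e : rho N l b T τ k = (rho N l b T τ k -
        H462.mh (CK N l b T τ) (Rcl N l b T T) k) +
        H462.mh (CK N l b T τ) (Rcl N l b T T) k := by ring
    rw [e]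
    refine (abs_add_le _ _).trans ?_
    have h4 : ηR ^ 2 ≤ ηR := by nlinarith
    have h5 : ηR * δ ≤ ηR * (1 / 2) := mul_le_mul_of_nonneg_left hδ hη0
    linarith

/-- mass data -/
lemma St0.t2_le (h : St0 N l b T τ z ηR δ dT c) : τ * (l : ℝ) ^ 2 ≤ T * (l : ℝ) ^ 2 / 2 := by
  have h1 := h.kap_le
  have hq : 0 < T - τ := sub_pos.2 h.lt
  have hlp : (0 : ℝ) < l := by exact_mod_cast H864.l_pos h.hl
  have hT := h.T0
  unfold H896.kap at h1
  rw [div_le_iff₀ hq] at h1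
  have h2 : (l : ℝ) ^ 2 * T * τ ≤ (l : ℝ) ^ 2 * T * (T - τ) := by linarith
  have h3 : τ ≤ T - τ := le_of_mul_le_mul_left h2 (by positivity)
  have h4 : τ ≤ T / 2 := by linarith
  have h5 := mul_le_mul_of_nonneg_right h4 (sq_nonneg (l : ℝ))
  linarith

/-- the second order error of (ii) -/
def E2z (N l : ℕ) [NeZero N] [NeZero (N / l)] (b T : ℝ) (z : ℂ) (dT : ℝ) : ℝ :=
  2 * oB N l b T + 4 * dT * (om (wT b N) (MC N l T T) 1 + ‖z‖ * ((N / l : ℕ) : ℝ) ^ 2)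

/-- **(STAR0)** -/
theorem St0.star (h : St0 N l b T τ z ηR δ dT c) (hδ : δ ≤ 1 / 2) {k : V (N / l)} (hk : k ≠ 0)
    (hPν : Pst N l b T k ≤ T * (l : ℝ) ^ 2)
    (hS : Sz ηR δ (Wk N l b T k) (oT N l b T) ≤ 1 / 16) :
    |Pc N l b T τ k - xqk N l b T τ k - 8 * π ^ 2 * ‖z‖ ^ 2 *
      Sig (N / l) (T * (l : ℝ) ^ 2) (τ * (l : ℝ) ^ 2) (Pst N l b T) k| ≤
      (Pst N l b T k + τ * (l : ℝ) ^ 2) *
        E0z ηR δ (Wk N l b T k) (oT N l b T) (E2z N l b T z dT) := by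
  have hb := h.hb
  have hl := h.hl
  have hT := h.T0
  have hτ := h.hτ
  have hlp : (0 : ℝ) < l := by exact_mod_cast H864.l_pos hl
  have hP := H462.Pst_nonneg hb hl hT k
  obtain ⟨s1, s2⟩ := h.size hδ hk
  obtain ⟨g1, g4⟩ := gP_bd (ν := T * (l : ℝ) ^ 2) (t := τ * (l : ℝ) ^ 2) (P := Pst N l b T k)
    (by positivity) h.t2_le (by positivity) hP hPν
  have hp0 : 0 ≤ Pst N l b T k + τ * (l : ℝ) ^ 2 := by positivity
  have hvpos : 0 < 1 + vh N l b T τ k *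
      (gP (T * (l : ℝ) ^ 2) (τ * (l : ℝ) ^ 2) (Pst N l b T k) - 1) := by
    have h1 := abs_le.1 (s1.trans hS)
    have h2 : -(3 / 16 : ℝ) ≤ vh N l b T τ k *
        (gP (T * (l : ℝ) ^ 2) (τ * (l : ℝ) ^ 2) (Pst N l b T k) - 1) := by
      nlinarith [h1.1, h1.2]
    linarith
  have e1 := h.Pc_eq hk
  have e2 := h.xqk_eq hvpos
  obtain ⟨i1, -⟩ := h.star_i hδ hk
  have i2 := h.star_ii k
  rw [SigB_eq h, sym_B h hk] at i2
  set ν := T * (l : ℝ) ^ 2 with hν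
  set t2 := τ * (l : ℝ) ^ 2 with ht2
  set P := Pst N l b T k with hPd
  set Sg := Sig (N / l) ν t2 (Pst N l b T) k with hSg
  set β := -(8 * π ^ 2 * ‖z‖ ^ 2 * ((1 / (t2 + P) - 1 / (ν + P)) * Sg)) with hβ
  have hν0 : 0 < ν := by positivity
  have ht0 : 0 < t2 := by positivity
  have hlt : t2 < ν := by
    have := h.t2_le
    linarith
  have he : |vh N l b T τ k - rho N l b T τ k + β| ≤
      E1i ηR δ (Wk N l b T k) + E2z N l b T z dT := by
    rw [h.vh_eq hk]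
    have e3 : H462.mh (CK N l b T τ) (Rcl N l b T T) k -
        H462.mh (CK N l b T τ) (Bfl N l b T) k - rho N l b T τ k + β =
        -(rho N l b T τ k - H462.mh (CK N l b T τ) (Rcl N l b T T) k) +
        -(H462.mh (CK N l b T τ) (Bfl N l b T) k + 8 * π ^ 2 * ‖z‖ ^ 2 *
          ((1 / (t2 + P) - 1 / (ν + P)) * Sg)) := by
      rw [hβ]; ring
    rw [e3]
    refine (abs_add_le _ _).trans ?_
    rw [abs_neg, abs_neg]
    exact add_le_add i1 i2
  have key := star_alg hp0 g1 g4 e1 e2 s1 s2 hS he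
  have e4 : (P + t2) * gP ν t2 P * β = -(8 * π ^ 2 * ‖z‖ ^ 2 * Sg) := by
    have h3 : (P + t2) * gP ν t2 P * (1 / (t2 + P) - 1 / (ν + P)) = 1 := by
      unfold gP
      have h4 : ν - t2 ≠ 0 := (sub_pos.2 hlt).ne'
      have h5 : t2 + P ≠ 0 := by positivity
      have h6 : ν + P ≠ 0 := by positivity
      field_simp
      ring
    rw [hβ]
    calc (P + t2) * gP ν t2 P * -(8 * π ^ 2 * ‖z‖ ^ 2 * ((1 / (t2 + P) - 1 / (ν + P)) * Sg)) =
        -(8 * π ^ 2 * ‖z‖ ^ 2 * Sg) *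
          ((P + t2) * gP ν t2 P * (1 / (t2 + P) - 1 / (ν + P))) := by ring
      _ = _ := by rw [h3, mul_one]
  have e5 : Pc N l b T τ k + t2 - (xqk N l b T τ k + t2) + (P + t2) * gP ν t2 P * β =
      Pc N l b T τ k - xqk N l b T τ k - 8 * π ^ 2 * ‖z‖ ^ 2 * Sg := by
    rw [e4]; ring
  rw [e5] at key
  refine key.trans (le_of_eq ?_)
  unfold E0z
  ring

/-- **near** -/
theorem St0.near (h : St0 N l b T τ z ηR δ dT c) (hδ : δ ≤ 1 / 2) {k : V (N / l)} (hk : k ≠ 0)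
    (hPν : Pst N l b T k ≤ T * (l : ℝ) ^ 2)
    (hS : Sz ηR δ (Wk N l b T k) (oT N l b T) ≤ 1 / 16) :
    |xqk N l b T τ k - Pst N l b T k| ≤
      5 * (Pst N l b T k + τ * (l : ℝ) ^ 2) * Sz ηR δ (Wk N l b T k) (oT N l b T) := by
  have hb := h.hb
  have hl := h.hl
  have hT := h.T0
  have hτ := h.hτ
  have hlp : (0 : ℝ) < l := by exact_mod_cast H864.l_pos hl
  have hP := H462.Pst_nonneg hb hl hT k
  obtain ⟨s1, s2⟩ := h.size hδ hk
  obtain ⟨g1, g4⟩ := gP_bd (ν := T * (l : ℝ) ^ 2) (t := τ * (l : ℝ) ^ 2) (P := Pst N l b T k)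
    (by positivity) h.t2_le (by positivity) hP hPν
  have hp0 : 0 ≤ Pst N l b T k + τ * (l : ℝ) ^ 2 := by positivity
  have hvpos : 0 < 1 + vh N l b T τ k *
      (gP (T * (l : ℝ) ^ 2) (τ * (l : ℝ) ^ 2) (Pst N l b T k) - 1) := by
    have h1 := abs_le.1 (s1.trans hS)
    have h2 : -(3 / 16 : ℝ) ≤ vh N l b T τ k *
        (gP (T * (l : ℝ) ^ 2) (τ * (l : ℝ) ^ 2) (Pst N l b T k) - 1) := by
      nlinarith [h1.1, h1.2]
    linarith
  have key := near_alg hp0 g1 g4 (h.xqk_eq hvpos) s1 hS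
  have e : xqk N l b T τ k + τ * (l : ℝ) ^ 2 - (Pst N l b T k + τ * (l : ℝ) ^ 2) =
      xqk N l b T τ k - Pst N l b T k := by ring
  rwa [e] at key

end

end Vale.Agent.P159.H813
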