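import Vale.Agent.P159.H813.Ker1

/-!
P159 (helper813): extrapolation weights, and the second Taylor coefficient of the inverse of the
transform of an exponentially decaying kernel.
-/

namespace Vale.Agent.P159.H813

open Finset Polynomial
open Vale.Agent.P159.TM.H764

noncomputable section

/-! ### weights -/

/-- the weights of the extrapolation, nodes `1, …, q+1` -/
structure WtS (q : ℕ) (μ : ℕ → ℝ) : Prop where
  z : ∑ i ∈ range (q + 1), μ i = 0
  o : ∑ i ∈ range (q + 1), μ i * ((i : ℝ) + 1) ^ 2 = 1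
  h : ∀ p, 2 ≤ p → p ≤ q → ∑ i ∈ range (q + 1), μ i * ((i : ℝ) + 1) ^ (2 * p) = 0

lemma exists_wt {q : ℕ} (hq : 1 ≤ q) : ∃ μ : ℕ → ℝ, WtS q μ := by
  have hinj : Set.InjOn (fun i : ℕ => ((i : ℝ) + 1) ^ 2) (range (q + 1) : Set ℕ) := by
    intro i _ j _ hij
    have h1 : ((i : ℝ) + 1) ^ 2 = ((j : ℝ) + 1) ^ 2 := hij
    have h2 : (i : ℝ) + 1 = (j : ℝ) + 1 := by
      have hi : (0 : ℝ) ≤ (i : ℝ) + 1 := by positivity
      have hj : (0 : ℝ) ≤ (j : ℝ) + 1 := by positivity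
      exact (pow_left_inj₀ hi hj (by norm_num)).1 h1
    have h3 : (i : ℝ) = j := by linarith
    exact_mod_cast h3
  have key : ∀ p : ℕ, p ≤ q → ∑ i ∈ range (q + 1),
      (Lagrange.basis (range (q + 1)) (fun i : ℕ => ((i : ℝ) + 1) ^ 2) i).coeff 1 *
        (((i : ℝ) + 1) ^ 2) ^ p = if p = 1 then 1 else 0 := by
    intro p hp
    have hdeg : (X ^ p : ℝ[X]).degree < (range (q + 1)).card := by
      rw [card_range, degree_X_pow]
      exact_mod_cast Nat.lt_succ_of_le hp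
    have h1 := Lagrange.eq_interpolate hinj hdeg
    have h2 : (X ^ p : ℝ[X]).coeff 1 = ∑ i ∈ range (q + 1),
        (Lagrange.basis (range (q + 1)) (fun i : ℕ => ((i : ℝ) + 1) ^ 2) i).coeff 1 *
        (((i : ℝ) + 1) ^ 2) ^ p := by
      conv_lhs => rw [h1]
      rw [Lagrange.interpolate_apply, finset_sum_coeff]
      refine sum_congr rfl fun i _ => ?_
      rw [eval_pow, eval_X, coeff_C_mul, mul_comm]
    rw [← h2, coeff_X_pow]
    by_cases h : p = 1
    · rw [if_pos h, if_pos h.symm]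
    · rw [if_neg h, if_neg fun h' => h h'.symm]
  refine ⟨fun i => (Lagrange.basis (range (q + 1)) (fun i : ℕ => ((i : ℝ) + 1) ^ 2) i).coeff 1,
    ?_, ?_, ?_⟩
  · have h1 := key 0 (Nat.zero_le q)
    simpa using h1
  · have h1 := key 1 hq
    simpa using h1
  · intro p h2 hp
    have h1 := key p hp
    rw [if_neg (by omega)] at h1
    rw [← h1]
    refine sum_congr rfl fun i _ => ?_
    rw [pow_mul]

/-! ### even analytic functions -/

lemma even_sum (a : ℕ → ℂ) (x : ℂ) (m : ℕ) :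
    ∑ k ∈ range (2 * m), a k * x ^ k + ∑ k ∈ range (2 * m), a k * (-x) ^ k =
      2 * ∑ p ∈ range m, a (2 * p) * x ^ (2 * p) := by
  induction m with
  | zero => simp
  | succ m ih =>
    rw [show 2 * (m + 1) = 2 * m + 1 + 1 by ring, sum_range_succ, sum_range_succ, sum_range_succ,
      sum_range_succ, sum_range_succ]
    have h1 : (-x) ^ (2 * m) = x ^ (2 * m) := by rw [pow_mul, neg_sq, ← pow_mul]
    have h2 : (-x) ^ (2 * m + 1) = -x ^ (2 * m + 1) := by rw [pow_succ, h1, pow_succ]; ring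
    rw [h1, h2]
    linear_combination ih

/-- Taylor expansion of an even function -/
lemma even_taylor {F : ℂ → ℂ} {r ρ B : ℝ} (hρ : 0 < ρ) (hρr : ρ < r)
    (hF : DifferentiableOn ℂ F (Metric.ball 0 r)) (hB : ∀ z, ‖z‖ ≤ ρ → ‖F z‖ ≤ B)
    (hev : ∀ z, F (-z) = F z) (m : ℕ) {z : ℂ} (hz : ‖z‖ ≤ ρ / 2) :
    ‖F z - ∑ p ∈ range m, tc F (2 * p) * z ^ (2 * p)‖ ≤ 2 * B * (‖z‖ / ρ) ^ (2 * m) := by
  have h1 := taylor_tail hρ hρr hF hB (2 * m) hz
  have h2 := taylor_tail hρ hρr hF hB (2 * m) (z := -z) (by rw [norm_neg]; exact hz)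
  rw [hev, norm_neg] at h2
  have h3 := even_sum (tc F) z m
  have e : F z - ∑ p ∈ range m, tc F (2 * p) * z ^ (2 * p) =
      (1 / 2 : ℂ) * ((F z - ∑ i ∈ range (2 * m), tc F i * z ^ i) +
        (F z - ∑ i ∈ range (2 * m), tc F i * (-z) ^ i)) := by
    linear_combination (-(1 / 2 : ℂ)) * (-h3)
  rw [e, norm_mul]
  have h4 : ‖(1 / 2 : ℂ)‖ = 1 / 2 := by simp
  rw [h4]
  have h5 := norm_add_le (F z - ∑ i ∈ range (2 * m), tc F i * z ^ i)
    (F z - ∑ i ∈ range (2 * m), tc F i * (-z) ^ i)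
  linarith

/-- the extrapolation -/
lemma rich {q : ℕ} (hq : 1 ≤ q) {μ : ℕ → ℝ} (hμ : WtS q μ) {F : ℂ → ℂ} {r ρ B : ℝ} (hρ : 0 < ρ)
    (hρr : ρ < r) (hF : DifferentiableOn ℂ F (Metric.ball 0 r)) (hB : ∀ z, ‖z‖ ≤ ρ → ‖F z‖ ≤ B)
    (hev : ∀ z, F (-z) = F z) {θ : ℝ} (hθ : 0 ≤ θ) (hθρ : ((q : ℝ) + 1) * θ ≤ ρ / 2) :
    ‖∑ i ∈ range (q + 1), (μ i : ℂ) * F (((((i : ℝ) + 1) * θ : ℝ)) : ℂ) - tc F 2 * (θ : ℂ) ^ 2‖ ≤
      (∑ i ∈ range (q + 1), |μ i|) * (2 * B * (((q : ℝ) + 1) * θ / ρ) ^ (2 * (q + 1))) := by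
  have hB0 : 0 ≤ B := (norm_nonneg _).trans (hB 0 (by simpa using hρ.le))
  have hmain : ∑ i ∈ range (q + 1), (μ i : ℂ) *
      (∑ p ∈ range (q + 1), tc F (2 * p) * ((((((i : ℝ) + 1) * θ : ℝ)) : ℂ)) ^ (2 * p)) =
      tc F 2 * (θ : ℂ) ^ 2 := by
    simp_rw [mul_sum]
    rw [sum_comm]
    have h1 : ∀ p ∈ range (q + 1), ∑ i ∈ range (q + 1), (μ i : ℂ) *
        (tc F (2 * p) * ((((((i : ℝ) + 1) * θ : ℝ)) : ℂ)) ^ (2 * p)) =
        if p = 1 then tc F 2 * (θ : ℂ) ^ 2 else 0 := by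
      intro p hp
      have hp' : p ≤ q := by
        have := mem_range.1 hp
        omega
      have h2 : ∑ i ∈ range (q + 1), (μ i : ℂ) *
          (tc F (2 * p) * ((((((i : ℝ) + 1) * θ : ℝ)) : ℂ)) ^ (2 * p)) =
          tc F (2 * p) * (θ : ℂ) ^ (2 * p) *
            ((∑ i ∈ range (q + 1), μ i * ((i : ℝ) + 1) ^ (2 * p) : ℝ) : ℂ) := by
        rw [Complex.ofReal_sum, mul_sum]
        refine sum_congr rfl fun i _ => ?_
        push_cast
        rw [mul_pow]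
        ring
      rw [h2]
      rcases Nat.lt_or_ge p 2 with h | h
      · rcases Nat.lt_or_ge p 1 with h' | h'
        · have : p = 0 := by omega
          subst this
          rw [if_neg (by norm_num)]
          have h3 := hμ.z
          simp only [mul_zero, pow_zero, mul_one]
          rw [h3]
          simp
        · have : p = 1 := by omega
          subst this
          rw [if_pos rfl, mul_one, hμ.o]
          simp
      · rw [if_neg (by omega), hμ.h p h hp']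
        simp
    rw [sum_congr rfl h1, sum_ite_eq']
    rw [if_pos (mem_range.2 (by omega))]
  rw [← hmain, ← sum_sub_distrib, sum_mul]
  refine (norm_sum_le _ _).trans (sum_le_sum fun i hi => ?_)
  rw [← mul_sub, norm_mul, Complex.norm_real, Real.norm_eq_abs]
  refine mul_le_mul_of_nonneg_left ?_ (abs_nonneg _)
  have hi' : (i : ℝ) + 1 ≤ q + 1 := by
    have h1 : i ≤ q := by
      have := mem_range.1 hi
      omega
    have : (i : ℝ) ≤ q := by exact_mod_cast h1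
    linarith
  have hn : ‖(((((i : ℝ) + 1) * θ : ℝ)) : ℂ)‖ = ((i : ℝ) + 1) * θ := by
    rw [Complex.norm_real, Real.norm_eq_abs, abs_of_nonneg (by positivity)]
  have hle : ((i : ℝ) + 1) * θ ≤ ((q : ℝ) + 1) * θ := mul_le_mul_of_nonneg_right hi' hθ
  have h3 := even_taylor hρ hρr hF hB hev (q + 1) (z := (((((i : ℝ) + 1) * θ : ℝ)) : ℂ))
    (by rw [hn]; linarith)
  rw [hn] at h3
  refine h3.trans (mul_le_mul_of_nonneg_left ?_ (by positivity))
  exact pow_le_pow_left₀ (by positivity) (div_le_div_of_nonneg_right hle hρ.le) _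

/-! ### the transform along an axis as a function of the angle -/

section

variable {N : ℕ} [NeZero N]

/-- `∑ w cos (x₁ θ)` -/
def Gax (w : ZMod N × ZMod N → ℝ) (θ : ℂ) : ℂ :=
  ∑ x, (w x : ℂ) * Complex.cos ((x.1.valMinAbs : ℂ) * θ)

lemma Gax_neg (w : ZMod N × ZMod N → ℝ) (θ : ℂ) : Gax w (-θ) = Gax w θ := by
  unfold Gax
  refine sum_congr rfl fun x _ => ?_
  rw [mul_neg, Complex.cos_neg]

lemma Gax_diff (w : ZMod N × ZMod N → ℝ) : Differentiable ℂ (Gax w) := by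
  unfold Gax
  refine Differentiable.fun_sum fun x _ => ?_
  refine (differentiable_const _).mul ?_
  exact Complex.differentiable_cos.comp (by fun_prop)

lemma Gax_bound (w : ZMod N × ZMod N → ℝ) {S A : ℝ}
    (hA : ∑ x, |w x| * Real.exp (|(x.1.valMinAbs : ℝ)| * S) ≤ A) {θ : ℂ}
    (hθ : ‖θ‖ ≤ S) : ‖Gax w θ‖ ≤ A := by
  refine le_trans ?_ hA
  unfold Gax
  refine (norm_sum_le _ _).trans (sum_le_sum fun x _ => ?_)
  rw [norm_mul, Complex.norm_real, Real.norm_eq_abs]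
  refine mul_le_mul_of_nonneg_left ?_ (abs_nonneg _)
  refine (norm_cos_le _).trans (Real.exp_le_exp.2 ?_)
  have h1 : ((x.1.valMinAbs : ℂ) * θ).im = (x.1.valMinAbs : ℝ) * θ.im := by
    rw [Complex.mul_im]; simp
  rw [h1, abs_mul]
  exact mul_le_mul_of_nonneg_left ((Complex.abs_im_le_norm θ).trans hθ) (abs_nonneg _)

/-- real values -/
def gax (w : ZMod N × ZMod N → ℝ) (θ : ℝ) : ℝ := ∑ x, w x * Real.cos ((x.1.valMinAbs : ℝ) * θ)

lemma Gax_real (w : ZMod N × ZMod N → ℝ) (θ : ℝ) : Gax w (θ : ℂ) = ((gax w θ : ℝ) : ℂ) := by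
  unfold Gax gax
  rw [Complex.ofReal_sum]
  refine sum_congr rfl fun x _ => ?_
  push_cast
  rfl

lemma gax_zero (w : ZMod N × ZMod N → ℝ) : gax w 0 = ∑ x, w x := by
  unfold gax
  simp

lemma Gh_gax0 (w : ZMod N × ZMod N → ℝ) : Gh w 0 = gax w 0 := by
  rw [gax_zero, Gh_dt]
  refine sum_congr rfl fun x _ => ?_
  have h1 : dt (0 : ZMod N × ZMod N) x = 0 := by unfold dt; simp
  rw [h1, cN_zero, mul_one]

lemma Gh_gax (w : ZMod N × ZMod N → ℝ) (j : ℕ) :
    Gh w ((j : ZMod N), 0) = gax w (j * (2 * Real.pi / N)) := by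
  rw [Gh_axis]
  unfold gax
  refine sum_congr rfl fun x _ => ?_
  congr 1
  have h3 : ((x.1.valMinAbs : ℤ) : ZMod N) = x.1 := ZMod.coe_valMinAbs x.1
  have h4 : (j : ZMod N) = ((j : ℤ) : ZMod N) := by push_cast; rfl
  conv_lhs => rw [← h3, h4]
  rw [← Int.cast_mul, cN_int]
  congr 1
  push_cast
  ring

end

end

end Vale.Agent.P159.H813
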