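import Vale.Agent.P159.H813.Ext0

/-!
P159 (helper813): the inverse of the transform along an axis: analyticity and second coefficient.
-/

namespace Vale.Agent.P159.H813

open Finset Polynomial
open Vale.Agent.P159.TM.H764

noncomputable section

variable {N : ℕ} [NeZero N]

/-- second moment along the axis -/
def mom2 (w : ZMod N × ZMod N → ℝ) : ℝ := ∑ x, w x * (x.1.valMinAbs : ℝ) ^ 2

/-- the transform does not vanish near zero -/
lemma Gax_low (w : ZMod N × ZMod N → ℝ) {S A c : ℝ} (hS : 0 < S) (hc : 0 < c)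
    (hA : ∑ x, |w x| * Real.exp (|(x.1.valMinAbs : ℝ)| * S) ≤ A)
    (h0 : c ≤ gax w 0) {θ : ℂ} (hθ : ‖θ‖ ≤ S * c / (4 * A)) : c / 2 ≤ ‖Gax w θ‖ := by
  have hz0 : Gax w 0 = ((gax w 0 : ℝ) : ℂ) := by
    rw [← Gax_real]; simp
  have hcA : c ≤ A := by
    have h1 : ‖Gax w 0‖ ≤ A := Gax_bound w hA (by simpa using hS.le)
    rw [hz0, Complex.norm_real] at h1
    exact h0.trans ((le_abs_self _).trans h1)
  have hA0 : 0 < A := by linarith
  have hzR : ‖θ‖ ≤ S / 2 := by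
    refine hθ.trans ?_
    rw [div_le_div_iff₀ (by positivity) (by norm_num)]
    nlinarith
  have h := taylor_tail (F := Gax w) (r := 2 * S) (ρ := S) (B := A) hS (by linarith)
    (Gax_diff w).differentiableOn (fun w' hw => Gax_bound w hA hw) 1 hzR
  rw [sum_range_one, tc_zero, pow_zero, mul_one, pow_one] at h
  have h2 : 2 * A * (‖θ‖ / S) ≤ c / 2 := by
    have h3 : ‖θ‖ / S ≤ c / (4 * A) := by
      rw [div_le_iff₀ hS]
      calc ‖θ‖ ≤ S * c / (4 * A) := hθ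
        _ = c / (4 * A) * S := by ring
    calc 2 * A * (‖θ‖ / S) ≤ 2 * A * (c / (4 * A)) := mul_le_mul_of_nonneg_left h3 (by positivity)
      _ = c / 2 := by field_simp; ring
  have h4 : ‖Gax w 0‖ ≤ ‖Gax w θ‖ + ‖Gax w θ - Gax w 0‖ := by
    have : Gax w 0 = Gax w θ - (Gax w θ - Gax w 0) := by ring
    conv_lhs => rw [this]
    exact norm_sub_le _ _
  rw [hz0, Complex.norm_real, Real.norm_eq_abs] at h4
  rw [hz0] at h
  have h5 := le_abs_self (gax w 0)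
  linarith

/-- the inverse of the transform -/
def Hax (w : ZMod N × ZMod N → ℝ) (θ : ℂ) : ℂ := (Gax w θ)⁻¹

lemma Hax_neg (w : ZMod N × ZMod N → ℝ) (θ : ℂ) : Hax w (-θ) = Hax w θ := by
  unfold Hax; rw [Gax_neg]

lemma Hax_facts (w : ZMod N × ZMod N → ℝ) {S A c r : ℝ} (hS : 0 < S) (hc : 0 < c)
    (hA : ∑ x, |w x| * Real.exp (|(x.1.valMinAbs : ℝ)| * S) ≤ A)
    (h0 : c ≤ gax w 0) (hr : r = S * c / (4 * A)) :
    DifferentiableOn ℂ (Hax w) (Metric.ball 0 r) ∧ ∀ z, ‖z‖ ≤ r → ‖Hax w z‖ ≤ 2 / c := by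
  have hlow : ∀ z, ‖z‖ ≤ r → c / 2 ≤ ‖Gax w z‖ := fun z hz =>
    Gax_low w hS hc hA h0 (by rw [← hr]; exact hz)
  constructor
  · intro z hz
    have h1 := hlow z (mem_ball_zero_iff.1 hz).le
    have h2 : Gax w z ≠ 0 := by
      intro h3
      rw [h3, norm_zero] at h1
      linarith
    exact ((Gax_diff w z).inv h2).differentiableWithinAt
  · intro z hz
    have h1 := hlow z hz
    unfold Hax
    rw [norm_inv, inv_le_comm₀ (by linarith) (by positivity)]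
    rw [inv_div]
    exact h1

/-- a quadratic coefficient which is `O(x³)` vanishes -/
lemma coef_zero {d : ℂ} {K x0 : ℝ} (hx0 : 0 < x0)
    (h : ∀ x : ℝ, 0 < x → x ≤ x0 → ‖d‖ * x ^ 2 ≤ K * x ^ 3) : d = 0 := by
  by_contra hd
  have hd0 : 0 < ‖d‖ := norm_pos_iff.2 hd
  obtain ⟨x, hx⟩ : ∃ x : ℝ, x = min x0 (‖d‖ / (2 * (|K| + 1))) := ⟨_, rfl⟩
  have hK : 0 < |K| + 1 := by positivity
  have hxp : 0 < x := by rw [hx]; positivity
  have h1 := h x hxp (by rw [hx]; exact min_le_left _ _)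
  have h2 : x ≤ ‖d‖ / (2 * (|K| + 1)) := by rw [hx]; exact min_le_right _ _
  rw [le_div_iff₀ (by positivity)] at h2
  have h3 : ‖d‖ ≤ K * x := by
    have h4 : ‖d‖ * x ^ 2 ≤ K * x * x ^ 2 := by
      calc ‖d‖ * x ^ 2 ≤ K * x ^ 3 := h1
        _ = K * x * x ^ 2 := by ring
    exact le_of_mul_le_mul_right h4 (by positivity)
  have h5 : K * x ≤ (|K| + 1) * x := mul_le_mul_of_nonneg_right (by linarith [le_abs_self K]) hxp.le
  linarith

/-- real expansion of the transform -/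
lemma gax_exp (w : ZMod N × ZMod N → ℝ) {x : ℝ} (hx0 : 0 ≤ x) (hx : (N : ℝ) * x ≤ 1) :
    |gax w x - (gax w 0 - mom2 w / 2 * x ^ 2)| ≤ (∑ y, |w y|) * (N : ℝ) ^ 4 * x ^ 4 := by
  have hN : (0 : ℝ) < N := by exact_mod_cast NeZero.pos N
  have e : gax w x - (gax w 0 - mom2 w / 2 * x ^ 2) =
      ∑ y, w y * (Real.cos ((y.1.valMinAbs : ℝ) * x) -
        (1 - ((y.1.valMinAbs : ℝ) * x) ^ 2 / 2)) := by
    rw [gax_zero]
    unfold gax mom2
    rw [div_mul_eq_mul_div, sum_mul, sum_div, ← sum_sub_distrib, ← sum_sub_distrib]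
    refine sum_congr rfl fun y _ => ?_
    ring
  rw [e, sum_mul, sum_mul]
  refine (abs_sum_le_sum_abs _ _).trans (sum_le_sum fun y _ => ?_)
  rw [abs_mul, mul_assoc]
  refine mul_le_mul_of_nonneg_left ?_ (abs_nonneg _)
  have h1 : |(y.1.valMinAbs : ℝ)| ≤ N := by
    have h2 : |(y.1.valMinAbs : ℝ)| = (y.1.valMinAbs.natAbs : ℝ) := by
      rw [← Int.cast_abs, Int.abs_eq_natAbs]; simp
    rw [h2]
    have h3 := ZMod.natAbs_valMinAbs_le y.1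
    have h4 : y.1.valMinAbs.natAbs ≤ N := by omega
    exact_mod_cast h4
  have h2 : |(y.1.valMinAbs : ℝ) * x| ≤ N * x := by
    rw [abs_mul, abs_of_nonneg hx0]
    exact mul_le_mul_of_nonneg_right h1 hx0
  have h3 := Real.cos_bound (x := (y.1.valMinAbs : ℝ) * x) (h2.trans hx)
  refine h3.trans ?_
  have h4 : |(y.1.valMinAbs : ℝ) * x| ^ 4 ≤ (N * x) ^ 4 := pow_le_pow_left₀ (abs_nonneg _) h2 4
  calc |(y.1.valMinAbs : ℝ) * x| ^ 4 * (5 / 96) ≤ (N * x) ^ 4 * 1 :=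
        mul_le_mul h4 (by norm_num) (by norm_num) (by positivity)
    _ = _ := by ring

/-- algebra of the inverse -/
lemma inv_exp {G M b e c x K : ℝ} (hc : 0 < c) (hG : c / 2 ≤ |G|) (hM : c ≤ M)
    (he : G = M - b * x ^ 2 + e) (hK : |e| ≤ K * x ^ 4) (hx0 : 0 ≤ x) (hx1 : x ≤ 1) :
    |G⁻¹ - (M⁻¹ + b / M ^ 2 * x ^ 2)| ≤
      (K * M + b ^ 2 + |b| * K) * (2 / c ^ 3) * x ^ 4 := by
  have hM0 : 0 < M := by linarith
  have hG0 : G ≠ 0 := by
    intro h; rw [h, abs_zero] at hG; linarith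
  have h1 : G⁻¹ - (M⁻¹ + b / M ^ 2 * x ^ 2) = (-e * M + b ^ 2 * x ^ 4 - b * x ^ 2 * e) /
      (G * M ^ 2) := by
    field_simp
    rw [he]
    ring
  rw [h1, abs_div, abs_mul]
  have hx4 : 0 ≤ x ^ 4 := by positivity
  have hK0 : 0 ≤ K * x ^ 4 := (abs_nonneg e).trans hK
  have h2 : |-e * M + b ^ 2 * x ^ 4 - b * x ^ 2 * e| ≤ (K * M + b ^ 2 + |b| * K) * x ^ 4 := by
    have a1 : |-e * M| ≤ K * x ^ 4 * M := by
      rw [abs_mul, abs_neg, abs_of_pos hM0]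
      exact mul_le_mul_of_nonneg_right hK hM0.le
    have a2 : |b * x ^ 2 * e| ≤ |b| * (K * x ^ 4) := by
      rw [abs_mul, abs_mul, abs_of_nonneg (by positivity : 0 ≤ x ^ 2)]
      have hx2 : x ^ 2 ≤ 1 := pow_le_one₀ hx0 hx1
      calc |b| * x ^ 2 * |e| ≤ |b| * 1 * (K * x ^ 4) :=
            mul_le_mul (mul_le_mul_of_nonneg_left hx2 (abs_nonneg _)) hK (abs_nonneg _)
              (by positivity)
        _ = _ := by ring
    have a3 : |b ^ 2 * x ^ 4| = b ^ 2 * x ^ 4 := abs_of_nonneg (by positivity)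
    calc |-e * M + b ^ 2 * x ^ 4 - b * x ^ 2 * e| ≤ |-e * M + b ^ 2 * x ^ 4| + |b * x ^ 2 * e| :=
          abs_sub _ _
      _ ≤ (|-e * M| + |b ^ 2 * x ^ 4|) + |b * x ^ 2 * e| := add_le_add (abs_add_le _ _) le_rfl
      _ ≤ (K * x ^ 4 * M + b ^ 2 * x ^ 4) + |b| * (K * x ^ 4) := by linarith
      _ = _ := by ring
  have h3 : c ^ 3 / 2 ≤ |G| * |M ^ 2| := by
    rw [abs_of_pos (by positivity : 0 < M ^ 2)]
    calc c ^ 3 / 2 = (c / 2) * c ^ 2 := by ring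
      _ ≤ |G| * M ^ 2 := mul_le_mul hG (pow_le_pow_left₀ hc.le hM 2) (by positivity) (abs_nonneg _)
  calc |-e * M + b ^ 2 * x ^ 4 - b * x ^ 2 * e| / (|G| * |M ^ 2|)
      ≤ ((K * M + b ^ 2 + |b| * K) * x ^ 4) / (c ^ 3 / 2) :=
        div_le_div₀ ((abs_nonneg _).trans h2) h2 (by positivity) h3
    _ = _ := by field_simp

/-- **the second Taylor coefficient of the inverse** -/
lemma Hax_two (w : ZMod N × ZMod N → ℝ) {S A c r : ℝ} (hS : 0 < S) (hc : 0 < c)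
    (hA : ∑ x, |w x| * Real.exp (|(x.1.valMinAbs : ℝ)| * S) ≤ A)
    (h0 : c ≤ gax w 0) (hr : r = S * c / (4 * A)) :
    tc (Hax w) 2 = ((mom2 w / 2 / gax w 0 ^ 2 : ℝ) : ℂ) := by
  have hcA : 0 < A := by
    have hz0 : Gax w 0 = ((gax w 0 : ℝ) : ℂ) := by rw [← Gax_real]; simp
    have h1 : ‖Gax w 0‖ ≤ A := Gax_bound w hA (by simpa using hS.le)
    rw [hz0, Complex.norm_real] at h1
    have := h0.trans ((le_abs_self _).trans h1)
    linarith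
  have hr0 : 0 < r := by rw [hr]; positivity
  obtain ⟨hd, hb⟩ := Hax_facts w hS hc hA h0 hr
  have hN : (0 : ℝ) < N := by exact_mod_cast NeZero.pos N
  obtain ⟨K, hK⟩ : ∃ K : ℝ, K = (∑ y, |w y|) * (N : ℝ) ^ 4 := ⟨_, rfl⟩
  obtain ⟨b, hbd⟩ : ∃ b : ℝ, b = mom2 w / 2 := ⟨_, rfl⟩
  obtain ⟨M, hM⟩ : ∃ M : ℝ, M = gax w 0 := ⟨_, rfl⟩
  obtain ⟨K2, hK2⟩ : ∃ K2 : ℝ, K2 = (K * M + b ^ 2 + |b| * K) * (2 / c ^ 3) := ⟨_, rfl⟩
  have hK0 : 0 ≤ K := by rw [hK]; positivity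
  have hMc : c ≤ M := by rw [hM]; exact h0
  have hM0 : 0 < M := by linarith
  have hK20 : 0 ≤ K2 := by rw [hK2]; positivity
  rw [← hbd, ← hM]
  obtain ⟨K3, hK3⟩ : ∃ K3 : ℝ, K3 = 2 * (2 / c) / (r / 2) ^ 4 := ⟨_, rfl⟩
  refine sub_eq_zero.1 (coef_zero (K := K3 + K2) (x0 := min (r / 4) (min (1 / N) 1)) ?_ ?_)
  · positivity
  intro x hx hxx
  have hx1 : x ≤ r / 4 := hxx.trans (min_le_left _ _)
  have hx2 : x ≤ 1 / N := hxx.trans ((min_le_right _ _).trans (min_le_left _ _))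
  have hx3 : x ≤ 1 := hxx.trans ((min_le_right _ _).trans (min_le_right _ _))
  have hNx : (N : ℝ) * x ≤ 1 := by
    rw [le_div_iff₀ hN] at hx2
    linarith
  have hnx : ‖((x : ℝ) : ℂ)‖ = x := by
    rw [Complex.norm_real, Real.norm_eq_abs, abs_of_pos hx]
  -- Taylor
  have t1 := even_taylor (F := Hax w) (r := r) (ρ := r / 2) (B := 2 / c) (by positivity)
    (by linarith) hd (fun z hz => hb z (by linarith)) (Hax_neg w) 2 (z := ((x : ℝ) : ℂ))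
    (by rw [hnx]; linarith)
  have e1 : ∑ p ∈ range 2, tc (Hax w) (2 * p) * ((x : ℝ) : ℂ) ^ (2 * p) =
      Hax w 0 + tc (Hax w) 2 * ((x : ℝ) : ℂ) ^ 2 := by
    rw [sum_range_succ, sum_range_one, mul_zero, tc_zero, pow_zero, mul_one, mul_one]
  rw [e1, hnx] at t1
  have t1' : 2 * (2 / c) * (x / (r / 2)) ^ (2 * 2) ≤ K3 * x ^ 3 := by
    have h4 : 2 * (2 / c) * (x / (r / 2)) ^ (2 * 2) = K3 * x ^ 4 := by
      rw [hK3, div_pow]
      ring
    rw [h4]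
    have h5 : x ^ 4 ≤ x ^ 3 := pow_le_pow_of_le_one hx.le hx3 (by norm_num)
    exact mul_le_mul_of_nonneg_left h5 (by rw [hK3]; positivity)
  -- direct
  have hHx : Hax w ((x : ℝ) : ℂ) = (((gax w x)⁻¹ : ℝ) : ℂ) := by
    unfold Hax; rw [Gax_real, Complex.ofReal_inv]
  have hH0 : Hax w 0 = ((M⁻¹ : ℝ) : ℂ) := by
    have h := Gax_real w 0
    rw [Complex.ofReal_zero] at h
    unfold Hax; rw [h, Complex.ofReal_inv, hM]
  have hlow : c / 2 ≤ |gax w x| := by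
    have h := Gax_low w hS hc hA h0 (θ := ((x : ℝ) : ℂ)) (by rw [hnx, ← hr]; linarith)
    rw [Gax_real, Complex.norm_real, Real.norm_eq_abs] at h
    exact h
  have t2 := inv_exp (G := gax w x) (M := M) (b := b) (e := gax w x - (M - b * x ^ 2)) (c := c)
    (x := x) (K := K) hc hlow hMc (by ring) (by
      have h := gax_exp w hx.le hNx
      rw [← hM, ← hbd, ← hK] at h
      exact h) hx.le hx3
  rw [← hK2] at t2
  have t2' : K2 * x ^ 4 ≤ K2 * x ^ 3 :=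
    mul_le_mul_of_nonneg_left (pow_le_pow_of_le_one hx.le hx3 (by norm_num)) hK20
  have e2 : (tc (Hax w) 2 - ((b / M ^ 2 : ℝ) : ℂ)) * ((x : ℝ) : ℂ) ^ 2 =
      (((gax w x)⁻¹ - (M⁻¹ + b / M ^ 2 * x ^ 2) : ℝ) : ℂ) -
        (Hax w ((x : ℝ) : ℂ) - (Hax w 0 + tc (Hax w) 2 * ((x : ℝ) : ℂ) ^ 2)) := by
    rw [hHx, hH0]
    push_cast
    ring
  have e3 : ‖tc (Hax w) 2 - ((b / M ^ 2 : ℝ) : ℂ)‖ * x ^ 2 =
      ‖(tc (Hax w) 2 - ((b / M ^ 2 : ℝ) : ℂ)) * ((x : ℝ) : ℂ) ^ 2‖ := by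
    rw [norm_mul, norm_pow, hnx]
  rw [e3, e2]
  refine (norm_sub_le _ _).trans ?_
  rw [Complex.norm_real, Real.norm_eq_abs]
  calc |(gax w x)⁻¹ - (M⁻¹ + b / M ^ 2 * x ^ 2)| +
        ‖Hax w ((x : ℝ) : ℂ) - (Hax w 0 + tc (Hax w) 2 * ((x : ℝ) : ℂ) ^ 2)‖
      ≤ K2 * x ^ 3 + K3 * x ^ 3 := add_le_add (t2.trans t2') (t1.trans t1')
    _ = _ := by ring

/-- **extrapolation for a kernel with an exponential moment** -/
theorem ext_core {q : ℕ} (hq : 1 ≤ q) {μ : ℕ → ℝ} (hμ : WtS q μ) (w : ZMod N × ZMod N → ℝ)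
    {S A c r θ : ℝ} (hS : 0 < S) (hc : 0 < c)
    (hA : ∑ x, |w x| * Real.exp (|(x.1.valMinAbs : ℝ)| * S) ≤ A)
    (h0 : c ≤ gax w 0) (hr : r = S * c / (4 * A)) (hθ : 0 ≤ θ)
    (hθr : 4 * (((q : ℝ) + 1) * θ) ≤ r) :
    |∑ i ∈ range (q + 1), μ i * (gax w (((i : ℝ) + 1) * θ))⁻¹ -
      mom2 w / 2 / gax w 0 ^ 2 * θ ^ 2| ≤
      (∑ i ∈ range (q + 1), |μ i|) *
        (4 / c * (2 * (((q : ℝ) + 1) * θ) / r) ^ (2 * (q + 1))) := by
  have hcA : 0 < A := by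
    have hz0 : Gax w 0 = ((gax w 0 : ℝ) : ℂ) := by rw [← Gax_real]; simp
    have h1 : ‖Gax w 0‖ ≤ A := Gax_bound w hA (by simpa using hS.le)
    rw [hz0, Complex.norm_real] at h1
    have := h0.trans ((le_abs_self _).trans h1)
    linarith
  have hr0 : 0 < r := by rw [hr]; positivity
  obtain ⟨hd, hb⟩ := Hax_facts w hS hc hA h0 hr
  have h1 := rich hq hμ (F := Hax w) (r := r) (ρ := r / 2) (B := 2 / c) (by positivity)
    (by linarith) hd (fun z hz => hb z (by linarith)) (Hax_neg w) hθ (by linarith)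
  rw [Hax_two w hS hc hA h0 hr] at h1
  have e : ∑ i ∈ range (q + 1), (μ i : ℂ) * Hax w (((((i : ℝ) + 1) * θ : ℝ)) : ℂ) -
      ((mom2 w / 2 / gax w 0 ^ 2 : ℝ) : ℂ) * (θ : ℂ) ^ 2 =
      ((∑ i ∈ range (q + 1), μ i * (gax w (((i : ℝ) + 1) * θ))⁻¹ -
        mom2 w / 2 / gax w 0 ^ 2 * θ ^ 2 : ℝ) : ℂ) := by
    rw [Complex.ofReal_sub, Complex.ofReal_sum]
    congr 1
    · refine sum_congr rfl fun i _ => ?_
      unfold Hax
      rw [Gax_real, Complex.ofReal_mul, Complex.ofReal_inv]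
    · push_cast
      ring
  rw [e, Complex.norm_real, Real.norm_eq_abs] at h1
  refine h1.trans (le_of_eq ?_)
  have e2 : ((q : ℝ) + 1) * θ / (r / 2) = 2 * (((q : ℝ) + 1) * θ) / r := by
    field_simp
  rw [e2]
  ring

end

end Vale.Agent.P159.H813
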