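import Vale.Agent.P159.H813.Ext1

/-!
P159 (helper813): extrapolation for a nonnegative kernel given by its strip sums, with a floor.
-/

namespace Vale.Agent.P159.H813

open Finset
open Vale.Agent.P159.TM.H764

noncomputable section

variable {N : ℕ} [NeZero N]

/-- number of strips -/
def nst (N m : ℕ) : ℕ := N / (2 * m) + 1

lemma bi_lt' (m : ℕ) (x : ZMod N × ZMod N) : bi m x < nst N m := by
  unfold bi nst
  have h := ZMod.natAbs_valMinAbs_le x.1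
  have h1 : x.1.valMinAbs.natAbs / m ≤ N / 2 / m := Nat.div_le_div_right h
  rw [Nat.div_div_eq_div_mul] at h1
  omega

lemma sum_strips' (m : ℕ) (f : ZMod N × ZMod N → ℝ) :
    ∑ x, f x = ∑ β ∈ range (nst N m), ∑ x ∈ strip N m β, f x := by
  unfold strip
  rw [Finset.sum_fiberwise_of_maps_to]
  intro x _
  exact mem_range.2 (bi_lt' m x)

/-- the tail, with the number of strips -/
lemma wK_tail' {w : ZMod N × ZMod N → ℝ} (hw0 : ∀ x, 0 ≤ w x) {m K : ℕ}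
    {c1 A1 ϑ : ℝ} (hc1 : 0 < c1) (hA1 : 0 ≤ A1) (hϑ : 0 ≤ ϑ)
    (hB : ∀ β, ∑ x ∈ strip N m β, w x ≤ A1 * Real.exp (-(c1 * β)) + ϑ) (k : ZMod N × ZMod N) :
    |Gh w k - Gh (wK m K w) k| ≤
      A1 * (Real.exp (-(c1 * K)) * (1 + 1 / c1)) + (nst N m : ℝ) * ϑ := by
  rw [Gh_dt, Gh_dt, ← sum_sub_distrib]
  have h1 : ∀ x : ZMod N × ZMod N, |w x * cN (dt k x) - wK m K w x * cN (dt k x)| ≤
      if K ≤ bi m x then w x else 0 := by
    intro x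
    rw [← sub_mul, abs_mul]
    have hc : |cN (dt k x)| ≤ 1 := abs_le.2 ⟨neg_one_le_cN _, cN_le_one _⟩
    unfold wK
    rcases lt_or_ge (bi m x) K with h | h
    · rw [if_pos h, if_neg (not_le.2 h)]; simp
    · rw [if_neg (not_lt.2 h), if_pos h, sub_zero, abs_of_nonneg (hw0 x)]
      calc w x * |cN (dt k x)| ≤ w x * 1 := mul_le_mul_of_nonneg_left hc (hw0 x)
        _ = w x := mul_one _
  refine (abs_sum_le_sum_abs _ _).trans ((sum_le_sum fun x _ => h1 x).trans ?_)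
  rw [sum_strips' m]
  have h2 : ∀ β ∈ range (nst N m), ∑ x ∈ strip N m β, (if K ≤ bi m x then w x else 0) ≤
      A1 * (if K ≤ β then Real.exp (-(c1 * β)) else 0) + ϑ := by
    intro β _
    have h3 : ∑ x ∈ strip N m β, (if K ≤ bi m x then w x else 0) =
        if K ≤ β then ∑ x ∈ strip N m β, w x else 0 := by
      split_ifs with h
      · refine sum_congr rfl fun x hx => ?_
        have h4 : bi m x = β := (mem_filter.1 hx).2
        rw [h4, if_pos h]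
      · refine sum_eq_zero fun x hx => ?_
        have h4 : bi m x = β := (mem_filter.1 hx).2
        rw [h4, if_neg h]
    rw [h3]
    split_ifs
    · exact hB β
    · linarith
  refine (sum_le_sum h2).trans ?_
  rw [sum_add_distrib, ← mul_sum, sum_const, card_range, nsmul_eq_mul]
  have h5 := geo_exp hc1 K (nst N m)
  have h6 := mul_le_mul_of_nonneg_left h5 hA1
  linarith

lemma Gh_mono0 {w v : ZMod N × ZMod N → ℝ} (h : ∀ x, v x ≤ w x) : Gh v 0 ≤ Gh w 0 := by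
  rw [Gh_gax0, Gh_gax0, gax_zero, gax_zero]
  exact sum_le_sum fun x _ => h x

lemma wK_le {w : ZMod N × ZMod N → ℝ} (hw0 : ∀ x, 0 ≤ w x) (m K : ℕ) (x : ZMod N × ZMod N) :
    wK m K w x ≤ w x := by
  unfold wK
  split_ifs
  · exact le_rfl
  · exact hw0 x

lemma wK_nonneg {w : ZMod N × ZMod N → ℝ} (hw0 : ∀ x, 0 ≤ w x) (m K : ℕ) (x : ZMod N × ZMod N) :
    0 ≤ wK m K w x := by
  unfold wK
  split_ifs
  · exact hw0 x
  · exact le_rfl

lemma x1_sq_le (x : ZMod N × ZMod N) : (x.1.valMinAbs : ℝ) ^ 2 ≤ (N : ℝ) ^ 2 / 4 := by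
  have h2 : |(x.1.valMinAbs : ℝ)| = (x.1.valMinAbs.natAbs : ℝ) := by
    rw [← Int.cast_abs, Int.abs_eq_natAbs]; simp
  have h3 := ZMod.natAbs_valMinAbs_le x.1
  have h4 : 2 * x.1.valMinAbs.natAbs ≤ N := by omega
  have h5 : 2 * (x.1.valMinAbs.natAbs : ℝ) ≤ N := by exact_mod_cast h4
  rw [← sq_abs, h2]
  have h6 : 0 ≤ (x.1.valMinAbs.natAbs : ℝ) := by positivity
  nlinarith

/-- second moments: truncation -/
lemma mom2_tail {w : ZMod N × ZMod N → ℝ} (hw0 : ∀ x, 0 ≤ w x) {m K : ℕ} {ϑ2 : ℝ}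
    (ht : Gh w 0 - Gh (wK m K w) 0 ≤ ϑ2) :
    0 ≤ mom2 w - mom2 (wK m K w) ∧ mom2 w - mom2 (wK m K w) ≤ (N : ℝ) ^ 2 / 4 * ϑ2 := by
  have e : mom2 w - mom2 (wK m K w) = ∑ x, (w x - wK m K w x) * (x.1.valMinAbs : ℝ) ^ 2 := by
    unfold mom2
    rw [← sum_sub_distrib]
    exact sum_congr rfl fun x _ => by ring
  have hd : ∀ x, 0 ≤ w x - wK m K w x := fun x => sub_nonneg.2 (wK_le hw0 m K x)
  rw [e]
  refine ⟨sum_nonneg fun x _ => mul_nonneg (hd x) (sq_nonneg _), ?_⟩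
  have h1 : ∑ x, (w x - wK m K w x) * (x.1.valMinAbs : ℝ) ^ 2 ≤
      ∑ x, (w x - wK m K w x) * ((N : ℝ) ^ 2 / 4) :=
    sum_le_sum fun x _ => mul_le_mul_of_nonneg_left (x1_sq_le x) (hd x)
  refine h1.trans ?_
  rw [← sum_mul, mul_comm]
  refine mul_le_mul_of_nonneg_left ?_ (by positivity)
  rw [Gh_gax0, Gh_gax0, gax_zero, gax_zero, ← sum_sub_distrib] at ht
  exact ht

/-- second moment of a kernel with an exponential moment -/
lemma mom2_exp {w : ZMod N × ZMod N → ℝ} (hw0 : ∀ x, 0 ≤ w x) {S A : ℝ} (hS : 0 < S)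
    (hA : ∑ x, |w x| * Real.exp (|(x.1.valMinAbs : ℝ)| * S) ≤ A) : mom2 w ≤ 2 * A / S ^ 2 := by
  have h1 : ∀ x : ZMod N × ZMod N, w x * (x.1.valMinAbs : ℝ) ^ 2 ≤
      2 / S ^ 2 * (|w x| * Real.exp (|(x.1.valMinAbs : ℝ)| * S)) := by
    intro x
    have h2 := Real.quadratic_le_exp_of_nonneg (x := |(x.1.valMinAbs : ℝ)| * S) (by positivity)
    have h3 : (|(x.1.valMinAbs : ℝ)| * S) ^ 2 / 2 ≤ Real.exp (|(x.1.valMinAbs : ℝ)| * S) := by
      have : 0 ≤ |(x.1.valMinAbs : ℝ)| * S := by positivity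
      linarith
    rw [abs_of_nonneg (hw0 x)]
    have h4 : (x.1.valMinAbs : ℝ) ^ 2 ≤ 2 / S ^ 2 * Real.exp (|(x.1.valMinAbs : ℝ)| * S) := by
      rw [mul_pow, sq_abs] at h3
      calc (x.1.valMinAbs : ℝ) ^ 2 = 2 / S ^ 2 * ((x.1.valMinAbs : ℝ) ^ 2 * S ^ 2 / 2) := by
            field_simp
        _ ≤ _ := mul_le_mul_of_nonneg_left h3 (by positivity)
    calc w x * (x.1.valMinAbs : ℝ) ^ 2 ≤ w x * (2 / S ^ 2 *
          Real.exp (|(x.1.valMinAbs : ℝ)| * S)) := mul_le_mul_of_nonneg_left h4 (hw0 x)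
      _ = _ := by ring
  unfold mom2
  refine (sum_le_sum fun x _ => h1 x).trans ?_
  rw [← mul_sum]
  calc 2 / S ^ 2 * ∑ x, |w x| * Real.exp (|(x.1.valMinAbs : ℝ)| * S) ≤ 2 / S ^ 2 * A :=
        mul_le_mul_of_nonneg_left hA (by positivity)
    _ = _ := by ring

omit [NeZero N] in
/-- change of the coefficient -/
lemma coef_change {a aK M MK c ϑ2 A S θ n : ℝ} (hc : 0 < c) (hM : 2 * c ≤ M) (hMK : c ≤ MK)
    (h1 : 0 ≤ M - MK) (h2 : M - MK ≤ ϑ2) (a1 : 0 ≤ a - aK) (a2 : a - aK ≤ n ^ 2 / 4 * ϑ2)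
    (a3 : 0 ≤ aK) (a4 : aK ≤ 2 * A / S ^ 2) (hS : 0 < S) (hθ0 : 0 ≤ θ) (hθS : θ ≤ S)
    (hA : 0 ≤ A) (hn : θ * n = 2 * Real.pi) (hϑ : 0 ≤ ϑ2) :
    |a / 2 / M ^ 2 * θ ^ 2 - aK / 2 / MK ^ 2 * θ ^ 2| ≤ ϑ2 * (2 / c ^ 2 + A / c ^ 3) := by
  have hM0 : 0 < M := by linarith
  have hMK0 : 0 < MK := by linarith
  have hpi : Real.pi ^ 2 ≤ 10 := by nlinarith [Real.pi_lt_d2, Real.pi_pos]
  have e : a / 2 / M ^ 2 * θ ^ 2 - aK / 2 / MK ^ 2 * θ ^ 2 =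
      (a - aK) / 2 / M ^ 2 * θ ^ 2 - aK * θ ^ 2 / 2 * (1 / MK ^ 2 - 1 / M ^ 2) := by ring
  have b1 : 0 ≤ (a - aK) / 2 / M ^ 2 * θ ^ 2 := by positivity
  have b2 : (a - aK) / 2 / M ^ 2 * θ ^ 2 ≤ ϑ2 * (2 / c ^ 2) := by
    have h5 : 1 / M ^ 2 ≤ 1 / (4 * c ^ 2) := by
      refine one_div_le_one_div_of_le (by positivity) ?_
      calc 4 * c ^ 2 = (2 * c) ^ 2 := by ring
        _ ≤ M ^ 2 := pow_le_pow_left₀ (by positivity) hM 2
    calc (a - aK) / 2 / M ^ 2 * θ ^ 2 = (a - aK) * (1 / M ^ 2) * (θ ^ 2 / 2) := by ring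
      _ ≤ (n ^ 2 / 4 * ϑ2) * (1 / (4 * c ^ 2)) * (θ ^ 2 / 2) := by
          refine mul_le_mul_of_nonneg_right ?_ (by positivity)
          exact mul_le_mul a2 h5 (by positivity) (by positivity)
      _ = ϑ2 * (1 / c ^ 2) * ((θ * n) ^ 2 / 32) := by field_simp; ring
      _ ≤ ϑ2 * (1 / c ^ 2) * 2 := by
          refine mul_le_mul_of_nonneg_left ?_ (by positivity)
          rw [hn]
          nlinarith
      _ = _ := by ring
  have b3 : 0 ≤ 1 / MK ^ 2 - 1 / M ^ 2 := by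
    rw [sub_nonneg]
    exact one_div_le_one_div_of_le (by positivity) (pow_le_pow_left₀ hMK0.le (by linarith) 2)
  have b4 : 1 / MK ^ 2 - 1 / M ^ 2 ≤ ϑ2 / c ^ 3 := by
    have e2 : 1 / MK ^ 2 - 1 / M ^ 2 = (M - MK) * (1 / (M * MK ^ 2) + 1 / (M ^ 2 * MK)) := by
      field_simp
      ring
    have c1 : 1 / (M * MK ^ 2) ≤ 1 / (2 * c * c ^ 2) := by
      refine one_div_le_one_div_of_le (by positivity) ?_
      exact mul_le_mul hM (pow_le_pow_left₀ hc.le hMK 2) (by positivity) hM0.le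
    have c2 : 1 / (M ^ 2 * MK) ≤ 1 / ((2 * c) ^ 2 * c) := by
      refine one_div_le_one_div_of_le (by positivity) ?_
      exact mul_le_mul (pow_le_pow_left₀ (by positivity) hM 2) hMK hc.le (by positivity)
    rw [e2]
    calc (M - MK) * (1 / (M * MK ^ 2) + 1 / (M ^ 2 * MK)) ≤
          ϑ2 * (1 / (2 * c * c ^ 2) + 1 / ((2 * c) ^ 2 * c)) :=
          mul_le_mul h2 (add_le_add c1 c2) (by positivity) hϑ
      _ = ϑ2 / c ^ 3 * (3 / 4) := by field_simp; ring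
      _ ≤ ϑ2 / c ^ 3 * 1 := mul_le_mul_of_nonneg_left (by norm_num) (by positivity)
      _ = _ := mul_one _
  have b5 : aK * θ ^ 2 / 2 * (1 / MK ^ 2 - 1 / M ^ 2) ≤ ϑ2 * (A / c ^ 3) := by
    have h6 : aK * θ ^ 2 / 2 ≤ A := by
      have h7 : θ ^ 2 ≤ S ^ 2 := pow_le_pow_left₀ hθ0 hθS 2
      calc aK * θ ^ 2 / 2 ≤ 2 * A / S ^ 2 * S ^ 2 / 2 := by
            have := mul_le_mul a4 h7 (sq_nonneg θ) (by positivity)
            linarith
        _ = A := by field_simp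
    calc aK * θ ^ 2 / 2 * (1 / MK ^ 2 - 1 / M ^ 2) ≤ A * (ϑ2 / c ^ 3) :=
          mul_le_mul h6 b4 b3 hA
      _ = _ := by ring
  have b6 : 0 ≤ aK * θ ^ 2 / 2 * (1 / MK ^ 2 - 1 / M ^ 2) := by positivity
  rw [e, abs_le]
  have b7 : 0 ≤ ϑ2 * (2 / c ^ 2) := by positivity
  have b8 : 0 ≤ ϑ2 * (A / c ^ 3) := by positivity
  rw [mul_add]
  constructor <;> linarith

/-- **extrapolation for a nonnegative kernel** -/
theorem EXK {q : ℕ} (hq : 1 ≤ q) {μ : ℕ → ℝ} (hμ : WtS q μ)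
    {w : ZMod N × ZMod N → ℝ} (hw0 : ∀ x, 0 ≤ w x) {m K : ℕ} (hm : 0 < m)
    {c1 A1 ϑ ϑ2 A S c r θ m1 : ℝ} (hc1 : 0 < c1) (hA1 : 0 < A1) (hϑ : 0 ≤ ϑ)
    (hB : ∀ β, ∑ x ∈ strip N m β, w x ≤ A1 * Real.exp (-(c1 * β)) + ϑ)
    (hK : ϑ * K * Real.exp (c1 * (K + 1) / 2) ≤ A1)
    (hϑ2 : A1 * (Real.exp (-(c1 * K)) * (1 + 1 / c1)) + (nst N m : ℝ) * ϑ ≤ ϑ2)
    (hc : 0 < c) (h0 : 2 * c ≤ Gh w 0) (hϑc : 8 * ϑ2 ≤ c)
    (hS : S = c1 / (2 * m)) (hA : A = A1 * (1 + Real.exp (c1 / 2) * (1 + 2 / c1)))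
    (hr : r = S * c / (4 * A)) (hθ : θ = 2 * Real.pi / N) (hθr : 4 * (((q : ℝ) + 1) * θ) ≤ r)
    (hm1 : m1 = ∑ i ∈ range (q + 1), |μ i|) :
    |∑ i ∈ range (q + 1), μ i * (Gh w (((i + 1 : ℕ) : ZMod N), 0))⁻¹ -
      mom2 w / 2 / Gh w 0 ^ 2 * θ ^ 2| ≤
      m1 * (4 / c * (2 * (((q : ℝ) + 1) * θ) / r) ^ (2 * (q + 1))) +
        ϑ2 * (8 * m1 / c ^ 2 + 2 / c ^ 2 + A / c ^ 3) := by
  have hN : (0 : ℝ) < N := by exact_mod_cast NeZero.pos N
  have hmr : (0 : ℝ) < m := by exact_mod_cast hm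
  have hS0 : 0 < S := by rw [hS]; positivity
  have hA0 : 0 < A := by rw [hA]; positivity
  have hθ0 : 0 < θ := by rw [hθ]; positivity
  have hr0 : 0 < r := by rw [hr]; positivity
  have hexp : ∑ x, |wK m K w x| * Real.exp (|(x.1.valMinAbs : ℝ)| * S) ≤ A := by
    have h := wK_exp hw0 hm hc1 hA1.le hϑ hB hK
    rw [Real.sqrt_sq (by positivity : 0 ≤ c1 / (2 * m)), ← hS, ← hA] at h
    exact h
  have htail : ∀ k, |Gh w k - Gh (wK m K w) k| ≤ ϑ2 := fun k =>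
    (wK_tail' hw0 hc1 hA1.le hϑ hB k).trans hϑ2
  have hϑ20 : 0 ≤ ϑ2 := (abs_nonneg _).trans (htail 0)
  have h0' : c ≤ Gh (wK m K w) 0 := by
    have := (abs_le.1 (htail 0)).2
    linarith
  have h0g : c ≤ gax (wK m K w) 0 := by rw [← Gh_gax0]; exact h0'
  have hcA : c ≤ A := by
    have h1 : gax (wK m K w) 0 ≤ A := by
      rw [gax_zero]
      refine le_trans (sum_le_sum fun x _ => ?_) hexp
      have h2 : 1 ≤ Real.exp (|(x.1.valMinAbs : ℝ)| * S) := Real.one_le_exp (by positivity)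
      calc wK m K w x ≤ |wK m K w x| * 1 := by rw [mul_one]; exact le_abs_self _
        _ ≤ _ := mul_le_mul_of_nonneg_left h2 (abs_nonneg _)
    linarith
  have hθS : θ ≤ S := by
    have h1 : r ≤ S := by
      rw [hr, div_le_iff₀ (by positivity)]
      nlinarith
    have h2 : θ ≤ 4 * (((q : ℝ) + 1) * θ) := by
      have h3 : 0 ≤ (q : ℝ) * θ := by positivity
      nlinarith
    linarith
  -- closeness of the inverses
  have hclose : ∀ i ∈ range (q + 1), |(Gh w (((i + 1 : ℕ) : ZMod N), 0))⁻¹ -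
      (gax (wK m K w) (((i : ℝ) + 1) * θ))⁻¹| ≤ 8 * ϑ2 / c ^ 2 := by
    intro i hi
    have hiq : (i : ℝ) + 1 ≤ q + 1 := by
      have h1 : i ≤ q := by
        have := mem_range.1 hi
        omega
      have : (i : ℝ) ≤ q := by exact_mod_cast h1
      linarith
    have eθ : ((i : ℝ) + 1) * θ = ((i + 1 : ℕ) : ℝ) * (2 * Real.pi / N) := by
      rw [hθ]; push_cast; ring
    have hle : ((i : ℝ) + 1) * θ ≤ r := by
      have h1 : ((i : ℝ) + 1) * θ ≤ ((q : ℝ) + 1) * θ := mul_le_mul_of_nonneg_right hiq hθ0.le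
      have h2 : 0 ≤ ((q : ℝ) + 1) * θ := by positivity
      linarith
    have h1 := Gax_low (wK m K w) hS0 hc hexp h0g (θ := ((((i : ℝ) + 1) * θ : ℝ) : ℂ)) (by
      rw [Complex.norm_real, Real.norm_eq_abs, abs_of_nonneg (by positivity), ← hr]
      exact hle)
    rw [Gax_real, Complex.norm_real, Real.norm_eq_abs] at h1
    have h2 := htail (((i + 1 : ℕ) : ZMod N), 0)
    have h3 : Gh (wK m K w) (((i + 1 : ℕ) : ZMod N), 0) = gax (wK m K w) (((i : ℝ) + 1) * θ) := by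
      rw [Gh_gax, eθ]
    rw [h3] at h2
    refine inv_close hc h1 ?_ h2
    have h4 : |gax (wK m K w) (((i : ℝ) + 1) * θ)| ≤ |Gh w (((i + 1 : ℕ) : ZMod N), 0)| +
        |Gh w (((i + 1 : ℕ) : ZMod N), 0) - gax (wK m K w) (((i : ℝ) + 1) * θ)| := by
      have := abs_sub (Gh w (((i + 1 : ℕ) : ZMod N), 0))
        (Gh w (((i + 1 : ℕ) : ZMod N), 0) - gax (wK m K w) (((i : ℝ) + 1) * θ))
      rwa [sub_sub_cancel] at this
    linarith
  have hmain := ext_core hq hμ (wK m K w) hS0 hc hexp h0g hr hθ0.le hθr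
  rw [← hm1, ← Gh_gax0] at hmain
  have htl0 := abs_le.1 (htail 0)
  have hd0 : 0 ≤ Gh w 0 - Gh (wK m K w) 0 :=
    sub_nonneg.2 (Gh_mono0 fun x => wK_le hw0 m K x)
  have hmt := mom2_tail hw0 (m := m) (K := K) htl0.2
  have hch := coef_change (a := mom2 w) (aK := mom2 (wK m K w)) (M := Gh w 0)
    (MK := Gh (wK m K w) 0) (n := N) hc h0 h0' hd0 htl0.2 hmt.1 hmt.2
    (sum_nonneg fun x _ => mul_nonneg (wK_nonneg hw0 m K x) (sq_nonneg _))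
    (mom2_exp (fun x => wK_nonneg hw0 m K x) hS0 hexp) hS0 hθ0.le hθS hA0.le
    (by rw [hθ]; field_simp) hϑ20
  have e : ∑ i ∈ range (q + 1), μ i * (Gh w (((i + 1 : ℕ) : ZMod N), 0))⁻¹ -
      mom2 w / 2 / Gh w 0 ^ 2 * θ ^ 2 =
      ∑ i ∈ range (q + 1), μ i * ((Gh w (((i + 1 : ℕ) : ZMod N), 0))⁻¹ -
        (gax (wK m K w) (((i : ℝ) + 1) * θ))⁻¹) +
      (∑ i ∈ range (q + 1), μ i * (gax (wK m K w) (((i : ℝ) + 1) * θ))⁻¹ -
        mom2 (wK m K w) / 2 / Gh (wK m K w) 0 ^ 2 * θ ^ 2) -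
      (mom2 w / 2 / Gh w 0 ^ 2 * θ ^ 2 - mom2 (wK m K w) / 2 / Gh (wK m K w) 0 ^ 2 * θ ^ 2) := by
    simp_rw [mul_sub]
    rw [sum_sub_distrib]
    ring
  have h7 : |∑ i ∈ range (q + 1), μ i * ((Gh w (((i + 1 : ℕ) : ZMod N), 0))⁻¹ -
        (gax (wK m K w) (((i : ℝ) + 1) * θ))⁻¹)| ≤ m1 * (8 * ϑ2 / c ^ 2) := by
    rw [hm1, sum_mul]
    refine (abs_sum_le_sum_abs _ _).trans (sum_le_sum fun i hi => ?_)
    rw [abs_mul]
    exact mul_le_mul_of_nonneg_left (hclose i hi) (abs_nonneg _)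
  rw [e]
  refine (abs_sub _ _).trans ((add_le_add ((abs_add_le _ _).trans (add_le_add h7 hmain)) hch).trans
    (le_of_eq ?_))
  ring

end

end Vale.Agent.P159.H813
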