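import Vale.Agent.P159.H813.Ker6
import Vale.Agent.P159.H813.Ext2
import Vale.Agent.P159.H114.Chain1

/-!
P159 (helper813): extrapolation of the stiffness of the mean posterior cell covariance from axis
momenta `1, …, q+1` (no profile), and the one-level form of the good set.
-/

namespace Vale.Agent.P159.H813

open Finset Matrix
open Vale.Agent.P159.TM.H104 (EM Ex Cv li Gr Lg)
open Vale.Agent.P159.H37 (bf Tq Cm Cbar post Ech EchM wM wt em_post Ech_nonneg Ech_cmul Ech_const)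
open Vale.Agent.P159.H730 (ps hs2 dev wC Cbk ST chi_Cv chi_const chi_ind chi_hs2 measurable_hs2
  hs2_nonneg dev_le_hs Cv_Qt ps_wC)
open Vale.Agent.P159.H864 (cl cobV Gc sym TI Gck MC)
open Vale.Agent.P159.TM.Spec (V)
open Vale.Agent.P159.TM.SpecC (wT)
open Vale.Agent.P159.TM.H459 (sn sd)
open Vale.Agent.P159.TM.H764

noncomputable section

set_option linter.unusedSectionVars false

/-- the good set at one level: prior `τ` on the cell functions, `t0` off them, level `t` -/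
structure S1 (N l : ℕ) [NeZero N] [NeZero (N / l)] (b t0 τ t θ e : ℝ) (Gd : Set (V N → ℝ)) :
    Prop where
  b0 : 0 < b
  dvd : l ∣ N
  pos : 0 < τ
  le : τ ≤ t
  le' : t ≤ t0
  th0 : 0 ≤ θ
  e0 : 0 ≤ e
  meas : MeasurableSet Gd
  th : ∀ J ∈ Gd, Real.exp (Tq (wM (wT b N) (MC N l t0 t)) J) - 1 ≤ θ
  err : Ech (wC N l b t0 τ) 0 (Real.sqrt (t - τ) • cobV N l)
    (Gdᶜ.indicator (hs2 (wC N l b t0 τ) (cobV N l) (t - τ))) ≤ e

variable {N l : ℕ} [NeZero N] [NeZero (N / l)] {b t0 t τ : ℝ}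

/-- pointwise bound of the covariance of two strips -/
lemma cv_strip1 {θ e : ℝ} {Gd : Set (V N → ℝ)} (h : S1 N l b t0 τ t θ e Gd) {ξ : ℕ} {c C : ℝ}
    {δ : ℝ} (hLB : LBC N l b t0 t ξ c C δ) (hδ : 0 ≤ δ) (hC : 0 ≤ C) (hξ : 0 < ξ) {m : ℕ}
    (hm : 0 < m) (hml : ξ ≤ m * l)
    (hmn : m ≤ N / l) {κ : ℝ} (hκ : 0 < κ) (β : ℕ) (J : V N → ℝ) :
    |Cv (wM (wT b N) (MC N l t0 t)) J (li ((cobV N l)ᵀ *ᵥ ind1 (strip (N / l) m 0)))
      (li ((cobV N l)ᵀ *ᵥ ind1 (str3 (N / l) m β)))| ≤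
      (strip (N / l) m 0).card * (Real.sqrt 6 * (Real.sqrt (1 + θ) * (ξ : ℝ) ^ 2 *
        (C * (Real.exp (-(c * ((β - 2 : ℕ) : ℝ))) + δ))) + Real.sqrt 6 * (κ / 2 +
        Gdᶜ.indicator (hs2 (wC N l b t0 τ) (cobV N l) (t - τ)) J / (2 * κ))) := by
  have hξr : (0 : ℝ) < ξ := by exact_mod_cast hξ
  have hnr : 0 < N / l := NeZero.pos _
  have hs0 : m * (N / l) ≤ (strip (N / l) m 0).card := card_strip_ge hmn
  have hs0p : 0 < (strip (N / l) m 0).card := lt_of_lt_of_le (Nat.mul_pos hm hnr) hs0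
  obtain ⟨s0, hs0d⟩ : ∃ s0 : ℝ, s0 = (strip (N / l) m 0).card := ⟨_, rfl⟩
  have hs0r : 0 < s0 := by rw [hs0d]; exact_mod_cast hs0p
  obtain ⟨s3, hs3d⟩ : ∃ s3 : ℝ, s3 = (str3 (N / l) m β).card := ⟨_, rfl⟩
  have hs30 : 0 ≤ s3 := by rw [hs3d]; positivity
  have hs36 : s3 ≤ 6 * s0 := by
    have h1 := card_str3_le (n := N / l) hm β
    have h2 : (str3 (N / l) m β).card ≤ 6 * (strip (N / l) m 0).card := by
      calc _ ≤ 6 * m * (N / l) := h1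
        _ = 6 * (m * (N / l)) := by ring
        _ ≤ _ := Nat.mul_le_mul_left 6 hs0
    rw [hs3d, hs0d]
    exact_mod_cast h2
  rw [← hs0d]
  obtain ⟨A, hA⟩ : ∃ A : ℝ, A = ξ * Real.sqrt s0 := ⟨_, rfl⟩
  obtain ⟨B, hB⟩ : ∃ B : ℝ, B = ξ * Real.sqrt (6 * s0) := ⟨_, rfl⟩
  have hA0 : 0 < A := by rw [hA]; positivity
  have hB0 : 0 < B := by rw [hB]; positivity
  have hAB : A * B = Real.sqrt 6 * ((ξ : ℝ) ^ 2 * s0) := by
    rw [hA, hB, Real.sqrt_mul (by norm_num)]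
    have := Real.mul_self_sqrt hs0r.le
    calc ξ * Real.sqrt s0 * (ξ * (Real.sqrt 6 * Real.sqrt s0)) =
        Real.sqrt 6 * ((ξ : ℝ) ^ 2 * (Real.sqrt s0 * Real.sqrt s0)) := by ring
      _ = _ := by rw [this]
  have hA2 : A ^ 2 * (1 / (ξ : ℝ) ^ 2) = s0 := by
    rw [hA, mul_pow, Real.sq_sqrt hs0r.le]; field_simp
  have hB2 : B ^ 2 * (1 / (ξ : ℝ) ^ 2) = 6 * s0 := by
    rw [hB, mul_pow, Real.sq_sqrt (by positivity)]; field_simp
  have hu : ∑ x, ((cobV N l)ᵀ *ᵥ ind1 (strip (N / l) m 0)) x ^ 2 ≤ A ^ 2 * (1 / (ξ : ℝ) ^ 2) := by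
    rw [H864.sq_cobV_tr h.dvd, ind1_sq, hA2, hs0d]
  have hv : ∑ x, ((cobV N l)ᵀ *ᵥ ind1 (str3 (N / l) m β)) x ^ 2 ≤ B ^ 2 * (1 / (ξ : ℝ) ^ 2) := by
    rw [H864.sq_cobV_tr h.dvd, ind1_sq, hB2, ← hs3d]
    exact hs36
  have hsup : ∀ x z : V N, ((cobV N l)ᵀ *ᵥ ind1 (strip (N / l) m 0)) x ≠ 0 →
      ((cobV N l)ᵀ *ᵥ ind1 (str3 (N / l) m β)) z ≠ 0 → ((β - 2 : ℕ) : ℝ) * ξ ≤ sd x z := by
    intro x z hx hz
    rw [H864.cobV_tr_mulVec] at hx hz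
    have hx' : (cl x : V (N / l)) ∈ strip (N / l) m 0 := by
      by_contra hc
      exact hx (by unfold ind1; rw [if_neg hc, mul_zero])
    have hz' : (cl z : V (N / l)) ∈ str3 (N / l) m β := by
      by_contra hc
      exact hz (by unfold ind1; rw [if_neg hc, mul_zero])
    have h1 := sep_strip (l := l) h.dvd hm (mem_filter.1 hx').2 (mem_filter.1 hz').2.1
    have h2 : (β - 2) * ξ ≤ sd x z := (Nat.mul_le_mul_left _ hml).trans h1
    exact_mod_cast h2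
  have hfar := hLB _ _ A B ((β - 2 : ℕ) : ℝ) hA0 hB0 (by positivity) hu hv hsup
  obtain ⟨r, hr⟩ : ∃ r : ℝ, r = C * (Real.exp (-(c * ((β - 2 : ℕ) : ℝ))) + δ) := ⟨_, rfl⟩
  have hr0 : 0 ≤ r := by rw [hr]; positivity
  rw [← hr] at hfar ⊢
  have hθ1 : 0 ≤ 1 + θ := by linarith [h.th0]
  have hsθ : 1 ≤ Real.sqrt (1 + θ) := by rw [Real.one_le_sqrt]; linarith [h.th0]
  by_cases hJ : J ∈ Gd
  · have h1 : Real.exp (Tq (wM (wT b N) (MC N l t0 t)) J) - 1 ≤ θ :=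
      h.th J hJ
    have h2 : Real.exp (Tq (wM (wT b N) (MC N l t0 t)) J / 2) ≤ Real.sqrt (1 + θ) := by
      refine Real.le_sqrt_of_sq_le ?_
      rw [← Real.exp_nat_mul]
      have : ((2 : ℕ) : ℝ) * (Tq (wM (wT b N) (MC N l t0 t)) J / 2) =
          Tq (wM (wT b N) (MC N l t0 t)) J := by push_cast; ring
      rw [this]
      linarith
    have h3 : Gdᶜ.indicator (hs2 (wC N l b t0 τ) (cobV N l) (t - τ)) J = 0 :=
      Set.indicator_of_notMem (by simpa using hJ) _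
    rw [h3]
    refine (hfar J).trans ?_
    have h4 : Real.exp (Tq (wM (wT b N) (MC N l t0 t)) J / 2) * A * B * r ≤
        Real.sqrt (1 + θ) * A * B * r := by
      gcongr
    refine h4.trans ?_
    have h5 : Real.sqrt (1 + θ) * A * B * r = s0 * (Real.sqrt 6 * (Real.sqrt (1 + θ) *
        (ξ : ℝ) ^ 2 * r)) := by
      calc Real.sqrt (1 + θ) * A * B * r = Real.sqrt (1 + θ) * (A * B) * r := by ring
        _ = _ := by rw [hAB]; ring
    rw [h5]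
    refine mul_le_mul_of_nonneg_left ?_ hs0r.le
    have : 0 ≤ Real.sqrt 6 * (κ / 2 + 0 / (2 * κ)) := by positivity
    linarith
  · have h3 : Gdᶜ.indicator (hs2 (wC N l b t0 τ) (cobV N l) (t - τ)) J =
        hs2 (wC N l b t0 τ) (cobV N l) (t - τ) J := Set.indicator_of_mem hJ _
    rw [h3]
    have hμ := H864.em_MC (N := N) (l := l) (t := t0) h.b0.le h.dvd h.pos (h.le.trans h.le')
    have h4 := cv_dev' hμ (cobV N l) (t - τ) (ind1 (strip (N / l) m 0))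
      (ind1 (str3 (N / l) m β)) J (a := Real.sqrt 6 * s0) hκ (by positivity) (by
        rw [ind1_sq, ind1_sq, ← hs0d, ← hs3d, mul_pow, Real.sq_sqrt (by norm_num)]
        nlinarith)
    have e2 : ps (wM (wT b N) (H864.MC N l t0 τ)) (cobV N l) (t - τ) =
        wM (wT b N) (MC N l t0 t) := ps_wt0 h.dvd b t0 h.le
    rw [e2] at h4
    have h5 := hfar 0
    have e3 : Tq (wM (wT b N) (MC N l t0 t)) 0 = 0 := by unfold Tq; rw [smul_zero]; ring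
    rw [e3, zero_div, Real.exp_zero, one_mul] at h5
    refine h4.trans ((add_le_add h5 le_rfl).trans ?_)
    have h6 : A * B * r = s0 * (Real.sqrt 6 * (1 * (ξ : ℝ) ^ 2 * r)) := by rw [hAB]; ring
    rw [h6]
    have h7 : s0 * (Real.sqrt 6 * (1 * (ξ : ℝ) ^ 2 * r)) ≤
        s0 * (Real.sqrt 6 * (Real.sqrt (1 + θ) * (ξ : ℝ) ^ 2 * r)) := by gcongr
    refine (add_le_add h7 le_rfl).trans (le_of_eq ?_)
    have e4 : hs2 (wM (wT b N) (H864.MC N l t0 τ)) (cobV N l) (t - τ) J =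
        hs2 (wC N l b t0 τ) (cobV N l) (t - τ) J := rfl
    rw [e4]
    ring

/-- **strip sums of the mean posterior cell covariance** -/
theorem strip_wP1 {θ e : ℝ} {Gd : Set (V N → ℝ)} (h : S1 N l b t0 τ t θ e Gd) {ξ : ℕ} {c C : ℝ}
    {δ : ℝ} (hLB : LBC N l b t0 t ξ c C δ) (hδ : 0 ≤ δ) (hc : 0 < c) (hC : 0 ≤ C) (hξ : 0 < ξ)
    (htξ : t ≤ 4 / (ξ : ℝ) ^ 2)
    {m : ℕ} (hm : 0 < m) (hml : ξ ≤ m * l) (hmn : m ≤ N / l) {κ : ℝ} (hκ : 0 < κ)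
    (heκ : e ≤ κ ^ 2) (β : ℕ) :
    ∑ z ∈ strip (N / l) m β, t * wP0 N l b t0 t τ z ≤
      (10 * Real.sqrt (1 + θ) * C * Real.exp (2 * c)) * Real.exp (-(c * β)) +
        (10 * Real.sqrt (1 + θ) * C * δ + 3 * (t * κ)) := by
  have hμ := H864.em_MC (N := N) (l := l) (t := t0) h.b0.le h.dvd h.pos (h.le.trans h.le')
  have ht0 : 0 < t := h.pos.trans_le h.le
  have hξr : (0 : ℝ) < ξ := by exact_mod_cast hξ
  have hnr : 0 < N / l := NeZero.pos _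
  have hs0p : 0 < (strip (N / l) m 0).card :=
    lt_of_lt_of_le (Nat.mul_pos hm hnr) (card_strip_ge hmn)
  obtain ⟨s0, hs0d⟩ : ∃ s0 : ℝ, s0 = (strip (N / l) m 0).card := ⟨_, rfl⟩
  have hs0r : 0 < s0 := by rw [hs0d]; exact_mod_cast hs0p
  obtain ⟨K0, hK0⟩ : ∃ K0 : ℝ, K0 = Real.sqrt 6 * (Real.sqrt (1 + θ) * (ξ : ℝ) ^ 2 *
        (C * (Real.exp (-(c * ((β - 2 : ℕ) : ℝ))) + δ))) := ⟨_, rfl⟩
  have h1 := strip_le_form (wP0_nonneg h.b0.le h.dvd h.pos h.le h.le') hm β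
  rw [← ind1_form, form_wP0 h.dvd h.b0.le h.pos h.le h.le', ← hs0d] at h1
  -- integrability
  have c1 : H663.ChI (wC N l b t0 τ) 0 (Real.sqrt (t - τ) • cobV N l) fun J =>
      Cv (wM (wT b N) (MC N l t0 t)) J (li ((cobV N l)ᵀ *ᵥ ind1 (strip (N / l) m 0)))
        (li ((cobV N l)ᵀ *ᵥ ind1 (str3 (N / l) m β))) := by
    have h2 := chi_Cv hμ (Real.sqrt (t - τ) • cobV N l)
      (Gr.li ((cobV N l)ᵀ *ᵥ ind1 (strip (N / l) m 0)))
      (Gr.li ((cobV N l)ᵀ *ᵥ ind1 (str3 (N / l) m β)))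
    have e2 : post (wM (wT b N) (H864.MC N l t0 τ)) (Real.sqrt (t - τ) • cobV N l) =
        wM (wT b N) (MC N l t0 t) := ps_wt0 h.dvd b t0 h.le
    rw [e2] at h2
    exact h2
  have c2 : H663.ChI (wC N l b t0 τ) 0 (Real.sqrt (t - τ) • cobV N l)
      (Gdᶜ.indicator (hs2 (wC N l b t0 τ) (cobV N l) (t - τ))) :=
    chi_ind hμ (measurable_hs2 hμ _) (hs2_nonneg _ _ _) (chi_hs2 hμ _)
      (h.meas).compl
  have c3 : H663.ChI (wC N l b t0 τ) 0 (Real.sqrt (t - τ) • cobV N l) fun J =>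
      s0 * (K0 + Real.sqrt 6 * (κ / 2)) + s0 * Real.sqrt 6 / (2 * κ) *
        Gdᶜ.indicator (hs2 (wC N l b t0 τ) (cobV N l) (t - τ)) J :=
    (chi_const hμ _ _ _).add (c2.cmul _)
  have h2 := H663.Ech_mono' hμ c1 c3 (fun J => by
    refine (le_abs_self _).trans ((cv_strip1 h hLB hδ hC hξ hm hml hmn hκ β J).trans (le_of_eq ?_))
    rw [← hs0d, ← hK0]
    ring)
  rw [H663.Ech_add' (chi_const hμ _ _ _) (c2.cmul _), Ech_const hμ, Ech_cmul] at h2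
  have h3 := h.err
  have h4 : s0 * Real.sqrt 6 / (2 * κ) *
      Ech (wC N l b t0 τ) 0 (Real.sqrt (t - τ) • cobV N l)
        (Gdᶜ.indicator (hs2 (wC N l b t0 τ) (cobV N l) (t - τ))) ≤
      s0 * Real.sqrt 6 / (2 * κ) * κ ^ 2 :=
    mul_le_mul_of_nonneg_left (h3.trans heκ) (by positivity)
  have h5 : s0 * Real.sqrt 6 / (2 * κ) * κ ^ 2 = s0 * (Real.sqrt 6 * (κ / 2)) := by
    field_simp
  have h6 : s0 * ∑ z ∈ strip (N / l) m β, wP0 N l b t0 t τ z ≤ s0 * (K0 + Real.sqrt 6 * κ) := by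
    have e : s0 * (K0 + Real.sqrt 6 * κ) = s0 * (K0 + Real.sqrt 6 * (κ / 2)) +
        s0 * (Real.sqrt 6 * (κ / 2)) := by ring
    rw [e]
    linarith
  have h7 : ∑ z ∈ strip (N / l) m β, wP0 N l b t0 t τ z ≤ K0 + Real.sqrt 6 * κ :=
    le_of_mul_le_mul_left h6 hs0r
  have htξ2 : t * (ξ : ℝ) ^ 2 ≤ 4 := by
    calc t * (ξ : ℝ) ^ 2 ≤ 4 / (ξ : ℝ) ^ 2 * (ξ : ℝ) ^ 2 :=
          mul_le_mul_of_nonneg_right htξ (by positivity)
      _ = 4 := by field_simp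
  have h8 : Real.exp (-(c * ((β - 2 : ℕ) : ℝ))) ≤ Real.exp (2 * c) * Real.exp (-(c * β)) := by
    rw [← Real.exp_add]
    refine Real.exp_le_exp.2 ?_
    have h9 : (β : ℝ) ≤ ((β - 2 : ℕ) : ℝ) + 2 := by
      have : β ≤ (β - 2) + 2 := by omega
      exact_mod_cast this
    nlinarith
  have h10 : t * K0 ≤ (10 * Real.sqrt (1 + θ) * C * Real.exp (2 * c)) * Real.exp (-(c * β)) +
      10 * Real.sqrt (1 + θ) * C * δ := by
    have e1 : t * K0 = Real.sqrt 6 * (t * (ξ : ℝ) ^ 2) * (Real.sqrt (1 + θ) * C) *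
        (Real.exp (-(c * ((β - 2 : ℕ) : ℝ))) + δ) := by rw [hK0]; ring
    rw [e1]
    have h11 : Real.sqrt 6 * (t * (ξ : ℝ) ^ 2) ≤ 10 := by
      calc Real.sqrt 6 * (t * (ξ : ℝ) ^ 2) ≤ 5 / 2 * 4 :=
            mul_le_mul sqrt6 htξ2 (by positivity) (by norm_num)
        _ = 10 := by norm_num
    calc Real.sqrt 6 * (t * (ξ : ℝ) ^ 2) * (Real.sqrt (1 + θ) * C) *
        (Real.exp (-(c * ((β - 2 : ℕ) : ℝ))) + δ)
        ≤ 10 * (Real.sqrt (1 + θ) * C) * (Real.exp (2 * c) * Real.exp (-(c * β)) + δ) :=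
          mul_le_mul (mul_le_mul_of_nonneg_right h11 (by positivity)) (add_le_add h8 le_rfl)
            (by positivity) (by positivity)
      _ = _ := by ring
  have h12 : t * (Real.sqrt 6 * κ) ≤ 3 * (t * κ) := by
    have h13 := sqrt6
    have h14 : 0 < t * κ := by positivity
    nlinarith
  rw [← mul_sum]
  calc t * ∑ z ∈ strip (N / l) m β, wP0 N l b t0 t τ z ≤ t * (K0 + Real.sqrt 6 * κ) :=
        mul_le_mul_of_nonneg_left h7 ht0.le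
    _ = t * K0 + t * (Real.sqrt 6 * κ) := by ring
    _ ≤ _ := by linarith


end

end Vale.Agent.P159.H813
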