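import Vale.Agent.P159.H813.Ker6
import Vale.Agent.P159.H114.Chain1

/-!
P159 (helper813): (P#5') in slope letters: the slope of the mean posterior stiffness does not depend
on the axis momentum.
-/

namespace Vale.Agent.P159.H813

open Finset
open Vale.Agent.P159.H730 (Cbk ST)
open Vale.Agent.P159.H114 (PbC sX ax)
open Vale.Agent.P159.TM.Spec (V)
open Vale.Agent.P159.TM.H764

noncomputable section

set_option linter.unusedSectionVars false

/-! ### axis energies -/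

lemma ej_le_sq (n j : ℕ) : ej n j ≤ (2 * Real.pi * j / n) ^ 2 := by
  unfold ej
  have := Real.one_sub_sq_div_two_le_cos (x := 2 * Real.pi * j / n)
  linarith

lemma sq_le_ej {n j : ℕ} (hn : 0 < n) (h : 2 * j ≤ n) :
    (2 * Real.pi * j / n) ^ 2 ≤ 5 / 2 * ej n j := by
  have hnr : (0 : ℝ) < n := by exact_mod_cast hn
  have hjr : (2 : ℝ) * j ≤ n := by exact_mod_cast h
  have hpi := Real.pi_gt_three
  have hpi2 := Real.pi_lt_d2
  obtain ⟨x, hx⟩ : ∃ x : ℝ, x = Real.pi * j / n := ⟨_, rfl⟩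
  have hx0 : 0 ≤ x := by rw [hx]; positivity
  have hx1 : x ≤ Real.pi / 2 := by
    rw [hx, div_le_div_iff₀ hnr (by norm_num)]
    nlinarith
  have e1 : 2 * Real.pi * j / n = 2 * x := by rw [hx]; ring
  have e2 : ej n j = 4 * Real.sin x ^ 2 := by
    unfold ej
    rw [e1, Real.cos_two_mul, Real.cos_sq']
    ring
  have h2 := Real.mul_le_sin hx0 hx1
  have h3 : (2 / Real.pi * x) ^ 2 ≤ Real.sin x ^ 2 :=
    pow_le_pow_left₀ (by positivity) h2 2
  rw [e1, e2]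
  have h4 : x ^ 2 ≤ 5 / 2 * Real.sin x ^ 2 := by
    have h5 : x ^ 2 = (Real.pi ^ 2 / 4) * (2 / Real.pi * x) ^ 2 := by
      field_simp; norm_num
    rw [h5]
    have h6 : Real.pi ^ 2 / 4 ≤ 5 / 2 := by nlinarith
    exact mul_le_mul h6 h3 (sq_nonneg _) (by norm_num)
  nlinarith

lemma ej_near {n j : ℕ} (h : 2 * Real.pi * j / n ≤ 1) :
    |ej n j - (2 * Real.pi * j / n) ^ 2| ≤ (2 * Real.pi * j / n) ^ 4 / 9 := by
  have h0 : 0 ≤ 2 * Real.pi * j / n := by positivity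
  have h1 := Real.cos_bound (x := 2 * Real.pi * j / n) (by rw [abs_of_nonneg h0]; exact h)
  rw [abs_of_nonneg h0] at h1
  unfold ej
  have e : 2 * (1 - Real.cos (2 * Real.pi * j / n)) - (2 * Real.pi * j / n) ^ 2 =
      -2 * (Real.cos (2 * Real.pi * j / n) - (1 - (2 * Real.pi * j / n) ^ 2 / 2)) := by ring
  rw [e, abs_mul]
  have h2 : 0 ≤ (2 * Real.pi * j / n) ^ 4 := by positivity
  have h3 : |(-2 : ℝ)| = 2 := by norm_num
  rw [h3]
  linarith

/-! ### reduction of the momentum -/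

section

variable {n : ℕ} [NeZero n]

lemma Gh_even (w : ZMod n × ZMod n → ℝ) (k : ZMod n × ZMod n) : Gh w (-k) = Gh w k := by
  rw [Gh_dt, Gh_dt]
  refine sum_congr rfl fun x _ => ?_
  have e : dt (-k) x = -dt k x := by unfold dt; simp; ring
  rw [e, cN_neg]

/-- every axis momentum is `±` a small one -/
lemma red_j (j : ℕ) : ∃ v : ℕ, 2 * v ≤ n ∧
    ((j : ZMod n) = (v : ZMod n) ∨ (j : ZMod n) = -(v : ZMod n)) := by
  refine ⟨(j : ZMod n).valMinAbs.natAbs, ?_, ?_⟩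
  · have := ZMod.natAbs_valMinAbs_le (j : ZMod n)
    omega
  · have h1 : (((j : ZMod n).valMinAbs : ℤ) : ZMod n) = (j : ZMod n) := ZMod.coe_valMinAbs _
    rcases Int.natAbs_eq (j : ZMod n).valMinAbs with h | h
    · left
      rw [← h1]
      conv_lhs => rw [h]
      push_cast
      simp
    · right
      rw [← h1]
      conv_lhs => rw [h]
      push_cast
      simp

lemma red_ej {j v : ℕ} (h : (j : ZMod n) = (v : ZMod n) ∨ (j : ZMod n) = -(v : ZMod n)) :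
    ej n j = ej n v := by
  rw [ej_cN, ej_cN]
  rcases h with h | h
  · rw [h]
  · rw [h, cN_neg]

end

section

variable {N l : ℕ} [NeZero N] [NeZero (N / l)] {b t0 t τ : ℝ}

lemma Cbk_even (hl : l ∣ N) (b t0 t τ : ℝ) (k : V (N / l)) :
    Cbk N l b t0 τ t (-k) = Cbk N l b t0 τ t k := by
  rw [← Gh_wP0 hl, ← Gh_wP0 hl, Gh_even]

/-- difference of stiffnesses, in units of the mass -/
def dX (N l : ℕ) [NeZero N] [NeZero (N / l)] (b t0 t τ : ℝ) (j : ℕ) : ℝ :=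
  ((Cbk N l b t0 τ t ((j : ZMod (N / l)), 0))⁻¹ - (Cbk N l b t0 τ t 0)⁻¹) / t

lemma dX_red (hl : l ∣ N) {j v : ℕ} (h : (j : ZMod (N / l)) = (v : ZMod (N / l)) ∨
    (j : ZMod (N / l)) = -(v : ZMod (N / l))) : dX N l b t0 t τ j = dX N l b t0 t τ v := by
  unfold dX
  rcases h with h | h
  · rw [h]
  · have e : ((-(v : ZMod (N / l)), 0) : V (N / l)) = -((v : ZMod (N / l)), 0) := by
      rw [Prod.neg_mk, neg_zero]
    rw [h, e, Cbk_even hl]

lemma dX_zero : dX N l b t0 t τ 0 = 0 := by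
  unfold dX
  rw [Nat.cast_zero]
  have : ((0 : ZMod (N / l)), (0 : ZMod (N / l))) = (0 : V (N / l)) := rfl
  rw [this, sub_self, zero_div]

lemma sX_dX (ht : 0 < t) {j : ℕ} (hj : 0 < j) :
    sX N l b t0 t τ j * (H114.KK N j / t) = dX N l b t0 t τ j := by
  have h1 := H114.KK_pos (NeZero.pos N) hj
  unfold sX dX H114.PbC ax
  field_simp
  ring

lemma KK_phi (hl : l ∣ N) (j : ℕ) : (2 * Real.pi * j / (N / l : ℕ)) ^ 2 = H114.KK N j * (l : ℝ) ^ 2 := by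
  have hlp : 0 < l := Nat.pos_of_ne_zero fun h => by
    have := NeZero.ne (N / l)
    rw [h, Nat.div_zero] at this
    exact this rfl
  have hlr : (0 : ℝ) < l := by exact_mod_cast hlp
  have hN : (0 : ℝ) < N := by exact_mod_cast NeZero.pos N
  rw [Nat.cast_div hl hlr.ne']
  unfold H114.KK
  field_simp

/-! ### constants -/

lemma A_ge {c C A : ℝ} (hc : 0 < c) (hC : 1 ≤ C)
    (hA : A = 15 * C * Real.exp (2 * c) * (1 + Real.exp (c / 2) * (1 + 2 / c))) :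
    15 ≤ A ∧ 30 * c ^ 2 ≤ A := by
  have h1 : 1 ≤ 1 + Real.exp (c / 2) * (1 + 2 / c) := by
    have : 0 ≤ Real.exp (c / 2) * (1 + 2 / c) := by positivity
    linarith
  have h2 : Real.exp (2 * c) ≤ C * Real.exp (2 * c) :=
    le_mul_of_one_le_left (Real.exp_pos _).le hC
  have h3 : 15 * Real.exp (2 * c) ≤ A := by
    rw [hA]
    have h4 : 15 * C * Real.exp (2 * c) * 1 ≤
        15 * C * Real.exp (2 * c) * (1 + Real.exp (c / 2) * (1 + 2 / c)) :=
      mul_le_mul_of_nonneg_left h1 (by positivity)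
    linarith
  have h5 : 1 ≤ Real.exp (2 * c) := Real.one_le_exp (by positivity)
  have h6 : (2 * c) ^ 2 / 2 ≤ Real.exp (2 * c) := by
    have := Real.quadratic_le_exp_of_nonneg (by positivity : 0 ≤ 2 * c)
    nlinarith
  constructor
  · linarith
  · nlinarith

/-- the width of the strips -/
lemma width {N l ξ : ℕ} (hl : l ∣ N) (hlp : 0 < l) (hlξ : l ≤ ξ) (hξN : 2 * ξ ≤ N) :
    ∃ m : ℕ, 0 < m ∧ ξ ≤ m * l ∧ m * l ≤ 2 * ξ ∧ m ≤ N / l ∧ 2 ≤ N / l := by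
  have h1 : ξ / l * l ≤ ξ := Nat.div_mul_le_self ξ l
  have h2 : ξ < (ξ / l + 1) * l := by
    have := Nat.lt_mul_div_succ ξ hlp
    rw [mul_comm] at this
    exact this
  have h3 : (ξ / l + 1) * l ≤ 2 * ξ := by
    have : (ξ / l + 1) * l = ξ / l * l + l := by ring
    omega
  refine ⟨ξ / l + 1, Nat.succ_pos _, h2.le, h3, ?_, ?_⟩
  · rw [Nat.le_div_iff_mul_le hlp]
    omega
  · rw [Nat.le_div_iff_mul_le hlp]
    omega

/-- the radius of the domain of momenta -/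
lemma radius {A Q c t m l ξ z r : ℝ} (hc : 0 < c) (hAc : 30 * c ^ 2 ≤ A) (hA0 : 0 < A)
    (hQ : Q = 4096 * A / c ^ 2) (ht : 0 < t) (hm : 0 < m) (hl : 0 < l) (hξ : 0 < ξ)
    (h1 : 1 ≤ t * ξ ^ 2) (h4 : t * ξ ^ 2 ≤ 4) (hml : ξ ≤ m * l) (hml2 : m * l ≤ 2 * ξ)
    (hz : z = t * l ^ 2) (hr : r = c ^ 2 / (64 * A * m ^ 2)) :
    r ≤ z ∧ 4 * z ≤ Q * r := by
  have e1 : z * m ^ 2 = t * (m * l) ^ 2 := by rw [hz]; ring
  have a1 : 1 ≤ z * m ^ 2 := by
    rw [e1]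
    exact h1.trans (mul_le_mul_of_nonneg_left (pow_le_pow_left₀ hξ.le hml 2) ht.le)
  have a2 : z * m ^ 2 ≤ 16 := by
    rw [e1]
    have h5 : t * (m * l) ^ 2 ≤ t * (2 * ξ) ^ 2 :=
      mul_le_mul_of_nonneg_left (pow_le_pow_left₀ (by positivity) hml2 2) ht.le
    have h6 : t * (2 * ξ) ^ 2 = 4 * (t * ξ ^ 2) := by ring
    linarith
  constructor
  · rw [hr, div_le_iff₀ (by positivity)]
    have h2 : z * (64 * A * m ^ 2) = (64 * A) * (z * m ^ 2) := by ring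
    rw [h2]
    have h3 : 64 * A * 1 ≤ 64 * A * (z * m ^ 2) := mul_le_mul_of_nonneg_left a1 (by positivity)
    have h7 : 0 ≤ c ^ 2 := sq_nonneg c
    linarith
  · have h2 : Q * r = 64 / m ^ 2 := by
      rw [hQ, hr]
      field_simp
      norm_num
    rw [h2, le_div_iff₀ (by positivity)]
    have h3 : 4 * z * m ^ 2 = 4 * (z * m ^ 2) := by ring
    rw [h3]
    linarith

/-- the size of `u` -/
lemma u_small {A Q c u : ℝ} (hc : 0 < c) (hAc : 30 * c ^ 2 ≤ A) (hQ : Q = 4096 * A / c ^ 2)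
    (hu : 0 < u) (hQu : Q * u ≤ 1) : 0 < Q ∧ u ≤ 1 / 122880 := by
  have hQ1 : 122880 ≤ Q := by
    rw [hQ, le_div_iff₀ (by positivity)]
    linarith
  refine ⟨by linarith, ?_⟩
  rw [le_div_iff₀ (by norm_num)]
  have h1 : 122880 * u ≤ Q * u := mul_le_mul_of_nonneg_right hQ1 hu.le
  linarith

/-- from `KK` letters to `ej` letters -/
lemma dX_of (hl : l ∣ N) {u z α δ : ℝ} (ht : 0 < t) (hz0 : 0 < z) (hz : z = t * (l : ℝ) ^ 2)
    (hz4 : z ≤ 4) (hu : 0 < u) (hu1 : u ≤ 1 / 40) (hδ0 : 0 ≤ δ)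
    (hδ : ∀ j : ℕ, 0 < j → 2 * j < N / l → H114.KK N j ≤ 5 / 2 * u * t →
      |sX N l b t0 t τ j - α| * (H114.KK N j / t) ≤ δ) (j : ℕ) (hj : ej (N / l) j ≤ u * z) :
    |dX N l b t0 t τ j - α / z * ej (N / l) j| ≤ δ + |α| * u ^ 2 * z := by
  have hn : 0 < N / l := NeZero.pos _
  have hlp : 0 < l := Nat.pos_of_ne_zero fun h => by
    have := NeZero.ne (N / l)
    rw [h, Nat.div_zero] at this
    exact this rfl
  have hlr : (0 : ℝ) < l := by exact_mod_cast hlp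
  obtain ⟨v, hv2, hv⟩ := red_j (n := N / l) j
  rw [dX_red hl hv]
  rw [red_ej hv] at hj ⊢
  rcases Nat.eq_zero_or_pos v with h0 | h0
  · rw [h0, dX_zero]
    have : ej (N / l) 0 = 0 := by unfold ej; simp
    rw [this, mul_zero, sub_zero, abs_zero]
    positivity
  have hK0 := H114.KK_pos (NeZero.pos N) h0
  obtain ⟨φ, hφ⟩ : ∃ φ : ℝ, φ = 2 * Real.pi * v / (N / l : ℕ) := ⟨_, rfl⟩
  have hφ0 : 0 ≤ φ := by rw [hφ]; positivity
  have hφK : φ ^ 2 = H114.KK N v * (l : ℝ) ^ 2 := by rw [hφ]; exact KK_phi hl v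
  have s1 : φ ^ 2 ≤ 5 / 2 * ej (N / l) v := by rw [hφ]; exact sq_le_ej hn hv2
  have huz : u * z ≤ 1 / 10 := by
    calc u * z ≤ 1 / 40 * 4 := mul_le_mul hu1 hz4 hz0.le (by norm_num)
      _ = 1 / 10 := by norm_num
  have s2 : φ ^ 2 ≤ 5 / 2 * (u * z) := s1.trans (by linarith)
  have hφ1 : φ ≤ 1 := by
    by_contra hcon
    have h1 : 1 < φ := not_le.1 hcon
    have : 1 < φ ^ 2 := by nlinarith
    linarith
  have s3 : |ej (N / l) v - φ ^ 2| ≤ φ ^ 4 / 9 := by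
    rw [hφ]; exact ej_near (by rw [← hφ]; exact hφ1)
  have h2v : 2 * v < N / l := by
    rcases hv2.lt_or_eq with h | h
    · exact h
    exfalso
    have h3 : φ = Real.pi := by
      rw [hφ, ← h]
      have : (v : ℝ) ≠ 0 := by exact_mod_cast h0.ne'
      push_cast
      field_simp
    have := Real.pi_gt_three
    linarith
  have hKu : H114.KK N v ≤ 5 / 2 * u * t := by
    have h4 : H114.KK N v * (l : ℝ) ^ 2 ≤ (5 / 2 * u * t) * (l : ℝ) ^ 2 := by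
      rw [← hφK]
      refine s2.trans (le_of_eq ?_)
      rw [hz]; ring
    exact le_of_mul_le_mul_right h4 (by positivity)
  have h5 := hδ v h0 h2v hKu
  have e1 : dX N l b t0 t τ v - α / z * ej (N / l) v =
      (sX N l b t0 t τ v - α) * (H114.KK N v / t) - α / z * (ej (N / l) v - φ ^ 2) := by
    rw [sub_mul, sX_dX ht h0]
    have e2 : α * (H114.KK N v / t) = α / z * φ ^ 2 := by
      rw [hφK, hz]
      generalize H114.KK N v = K
      field_simp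
    rw [e2]
    ring
  rw [e1]
  refine (abs_sub _ _).trans (add_le_add ?_ ?_)
  · rw [abs_mul, abs_of_nonneg (by positivity : 0 ≤ H114.KK N v / t)]
    exact h5
  · rw [abs_mul, abs_div, abs_of_pos hz0]
    have h6 : φ ^ 4 ≤ (5 / 2 * (u * z)) ^ 2 := by
      have : φ ^ 4 = (φ ^ 2) ^ 2 := by ring
      rw [this]
      exact pow_le_pow_left₀ (sq_nonneg _) s2 2
    calc |α| / z * |ej (N / l) v - φ ^ 2| ≤ |α| / z * ((5 / 2 * (u * z)) ^ 2 / 9) :=
          mul_le_mul_of_nonneg_left (s3.trans (by linarith)) (by positivity)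
      _ = |α| * u ^ 2 * z * (25 / 36) := by field_simp; ring
      _ ≤ |α| * u ^ 2 * z * 1 := mul_le_mul_of_nonneg_left (by norm_num) (by positivity)
      _ = _ := by ring

/-- back from `ej` letters to slopes -/
lemma sX_of (hl : l ∣ N) {u z a E F : ℝ} (ht : 0 < t) (hz0 : 0 < z) (hz : z = t * (l : ℝ) ^ 2)
    (huz : u * z ≤ 1) (hu : 0 < u) (hE : 0 ≤ E) {j : ℕ} (hj0 : 0 < j)
    (hj : H114.KK N j ≤ u * t / 2)
    (h : |dX N l b t0 t τ j - a / z * ej (N / l) j| ≤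
      2 * E * (ej (N / l) j / (u * z)) ^ 2 + F) :
    |sX N l b t0 t τ j - a| ≤ 2 * E * (H114.KK N j / t) / u ^ 2 +
        F * (t / H114.KK N j) + |a| * H114.KK N j * (l : ℝ) ^ 2 / 9 := by
  have hlp : 0 < l := Nat.pos_of_ne_zero fun h => by
    have := NeZero.ne (N / l)
    rw [h, Nat.div_zero] at this
    exact this rfl
  have hlr : (0 : ℝ) < l := by exact_mod_cast hlp
  have hK0 := H114.KK_pos (NeZero.pos N) hj0
  obtain ⟨K, hK⟩ : ∃ K : ℝ, K = H114.KK N j := ⟨_, rfl⟩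
  obtain ⟨φ, hφ⟩ : ∃ φ : ℝ, φ = 2 * Real.pi * j / (N / l : ℕ) := ⟨_, rfl⟩
  have hφ0 : 0 ≤ φ := by rw [hφ]; positivity
  have hφK : φ ^ 2 = K * (l : ℝ) ^ 2 := by rw [hφ, hK]; exact KK_phi hl j
  have he1 : ej (N / l) j ≤ φ ^ 2 := by rw [hφ]; exact ej_le_sq _ _
  have he0 : 0 ≤ ej (N / l) j := by
    unfold ej
    have := Real.cos_le_one (2 * Real.pi * j / (N / l : ℕ))
    linarith
  have s := sX_dX (N := N) (l := l) (b := b) (t0 := t0) (τ := τ) ht hj0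
  rw [← hK] at s hj hK0 ⊢
  have hφu : φ ^ 2 ≤ u * z / 2 := by
    rw [hφK]
    calc K * (l : ℝ) ^ 2 ≤ u * t / 2 * (l : ℝ) ^ 2 :=
          mul_le_mul_of_nonneg_right hj (by positivity)
      _ = u * z / 2 := by rw [hz]; ring
  have hφ1 : φ ≤ 1 := by
    by_contra hcon
    have h1 : 1 < φ := not_le.1 hcon
    have : 1 < φ ^ 2 := by nlinarith
    linarith
  have s3 : |ej (N / l) j - φ ^ 2| ≤ φ ^ 4 / 9 := by
    rw [hφ]; exact ej_near (by rw [← hφ]; exact hφ1)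
  have h1 : (ej (N / l) j / (u * z)) ^ 2 ≤ (K / (t * u)) ^ 2 := by
    refine pow_le_pow_left₀ (by positivity) ?_ 2
    rw [div_le_div_iff₀ (by positivity) (by positivity)]
    calc ej (N / l) j * (t * u) ≤ (K * (l : ℝ) ^ 2) * (t * u) :=
          mul_le_mul_of_nonneg_right (he1.trans hφK.le) (by positivity)
      _ = K * (u * z) := by rw [hz]; ring
  have h2 : |a / z * (ej (N / l) j - φ ^ 2)| ≤ |a| * K ^ 2 * (l : ℝ) ^ 2 / (9 * t) := by
    rw [abs_mul, abs_div, abs_of_pos hz0]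
    have h3 : φ ^ 4 = K ^ 2 * (l : ℝ) ^ 4 := by
      have : φ ^ 4 = (φ ^ 2) ^ 2 := by ring
      rw [this, hφK]; ring
    calc |a| / z * |ej (N / l) j - φ ^ 2| ≤ |a| / z * (φ ^ 4 / 9) :=
          mul_le_mul_of_nonneg_left s3 (by positivity)
      _ = _ := by rw [h3, hz]; field_simp
  have e1 : (sX N l b t0 t τ j - a) * (K / t) =
      (dX N l b t0 t τ j - a / z * ej (N / l) j) + a / z * (ej (N / l) j - φ ^ 2) := by
    rw [sub_mul, s]
    have e2 : a * (K / t) = a / z * φ ^ 2 := by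
      rw [hφK, hz]
      field_simp
    rw [e2]
    ring
  have h4 : |sX N l b t0 t τ j - a| * (K / t) ≤
      2 * E * (K / (t * u)) ^ 2 + F + |a| * K ^ 2 * (l : ℝ) ^ 2 / (9 * t) := by
    have e3 : |sX N l b t0 t τ j - a| * (K / t) = |(sX N l b t0 t τ j - a) * (K / t)| := by
      rw [abs_mul, abs_of_nonneg (by positivity : 0 ≤ K / t)]
    rw [e3, e1]
    refine (abs_add_le _ _).trans (add_le_add (h.trans (add_le_add ?_ le_rfl)) h2)
    exact mul_le_mul_of_nonneg_left h1 (by positivity)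
  have h5 := mul_le_mul_of_nonneg_right h4 (by positivity : 0 ≤ t / K)
  have e4 : |sX N l b t0 t τ j - a| * (K / t) * (t / K) = |sX N l b t0 t τ j - a| := by
    field_simp
  have e5 : (2 * E * (K / (t * u)) ^ 2 + F + |a| * K ^ 2 * (l : ℝ) ^ 2 / (9 * t)) * (t / K) =
      2 * E * (K / t) / u ^ 2 + F * (t / K) + |a| * K * (l : ℝ) ^ 2 / 9 := by
    field_simp
  rw [e4, e5] at h5
  exact h5


/-- **(P#5') in slope letters**: `sX` is constant in the axis momentum. -/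
theorem R4 (nn : ℕ) {θ e : ℝ} {Gd : ℝ → Set (V N → ℝ)} (h : ST N l b t0 τ t θ e Gd) (hθ : θ ≤ 1)
    {ξ : ℕ} {c C : ℝ} {δf : ℝ} (hLB : LBC N l b t0 t ξ c C δf) (hδf : 0 ≤ δf) (hc : 0 < c)
    (hC : 1 ≤ C) (hξ : 0 < ξ) (htξ1 : 1 ≤ t * (ξ : ℝ) ^ 2) (htξ : t * (ξ : ℝ) ^ 2 ≤ 4)
    (hlξ : l ≤ ξ) (hξN : 2 * ξ ≤ N) {κ ϑ2 : ℝ} (hκ : 0 < κ) (heκ : e ≤ κ ^ 2) (hϑ2 : 0 < ϑ2)
    (hϑ21 : ϑ2 ≤ 1 / 32)
    (hϑ : ((N / l : ℕ) : ℝ) * (15 * C * δf + 3 * (t * κ)) *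
      (2 * (1 + 1 / c) * (1 + 2 / c) * Real.exp c) ≤ ϑ2)
    (h0 : 1 / 2 ≤ t * Cbk N l b t0 τ t 0) {A Q u α δ E : ℝ}
    (hA : A = 15 * C * Real.exp (2 * c) * (1 + Real.exp (c / 2) * (1 + 2 / c)))
    (hQ : Q = 4096 * A / c ^ 2) (hu : 0 < u) (hQu : Q * u ≤ 1)
    (hNu : 16 * Real.pi * (nn + 1) ≤ N * Real.sqrt t * Real.sqrt u) (hδ0 : 0 ≤ δ)
    (hδ : ∀ j : ℕ, 0 < j → 2 * j < N / l → H114.KK N j ≤ 5 / 2 * u * t →
      |sX N l b t0 t τ j - α| * (H114.KK N j / t) ≤ δ)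
    (hE : E = (LC nn + 1) * (δ + |α| * u ^ 2 * (t * (l : ℝ) ^ 2) + 256 * ϑ2 +
      2 * (16 + |α|) * (Q * u) ^ (nn + 1))) :
    ∃ a : ℝ, |a - α| ≤ E / u ∧ ∀ j : ℕ, 0 < j → H114.KK N j ≤ u * t / 2 →
      |sX N l b t0 t τ j - a| ≤ 2 * E * (H114.KK N j / t) / u ^ 2 +
        256 * ϑ2 * (t / H114.KK N j) + |a| * H114.KK N j * (l : ℝ) ^ 2 / 9 := by
  have ht0 : 0 < t := h.pos.trans_le h.le
  have hl := h.dvd
  have hlp : 0 < l := Nat.pos_of_ne_zero fun h => by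
    have := NeZero.ne (N / l)
    rw [h, Nat.div_zero] at this
    exact this rfl
  have hlr : (0 : ℝ) < l := by exact_mod_cast hlp
  have hξr : (0 : ℝ) < ξ := by exact_mod_cast hξ
  have hNr : (0 : ℝ) < N := by exact_mod_cast NeZero.pos N
  obtain ⟨hA15, hAc⟩ := A_ge hc hC hA
  have hA0 : 0 < A := by linarith
  obtain ⟨hQ0, hu1⟩ := u_small hc hAc hQ hu hQu
  have hlx : (l : ℝ) ≤ ξ := by exact_mod_cast hlξ
  have htl4 : t * (l : ℝ) ^ 2 ≤ 4 :=
    (mul_le_mul_of_nonneg_left (pow_le_pow_left₀ hlr.le hlx 2) ht0.le).trans htξ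
  obtain ⟨z, hz⟩ : ∃ z : ℝ, z = t * (l : ℝ) ^ 2 := ⟨_, rfl⟩
  have hz0 : 0 < z := by rw [hz]; positivity
  rw [← hz] at htl4 hE
  obtain ⟨m, hm, hml, hml2, hmn, hN2⟩ := width hl hlp hlξ hξN
  have hmr : (0 : ℝ) < m := by exact_mod_cast hm
  obtain ⟨r, hr⟩ : ∃ r : ℝ, r = c ^ 2 / (64 * A * (m : ℝ) ^ 2) := ⟨_, rfl⟩
  have hr0 : 0 < r := by rw [hr]; positivity
  obtain ⟨hr1, hr2⟩ := radius hc hAc hA0 hQ ht0 hmr hlr hξr htξ1 htξ (by exact_mod_cast hml)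
    (by exact_mod_cast hml2) hz hr
  obtain ⟨U, hU⟩ : ∃ U : ℝ, U = u * z := ⟨_, rfl⟩
  have hU0 : 0 < U := by rw [hU]; positivity
  have hUr : 4 * U ≤ r := by
    have h1 : Q * (4 * U) ≤ Q * r := by
      calc Q * (4 * U) = (Q * u) * (4 * z) := by rw [hU]; ring
        _ ≤ 1 * (4 * z) := mul_le_mul_of_nonneg_right hQu (by positivity)
        _ ≤ Q * r := by linarith
    exact le_of_mul_le_mul_left h1 hQ0
  have hU1 : U ≤ 1 := by
    rw [hU]
    calc u * z ≤ 1 / 122880 * 4 := mul_le_mul hu1 htl4 hz0.le (by norm_num)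
      _ ≤ 1 := by norm_num
  have hUr2 : 2 * U / r ≤ Q * u := by
    rw [div_le_iff₀ hr0, hU]
    have h1 : u * (4 * z) ≤ u * (Q * r) := mul_le_mul_of_nonneg_left hr2 hu.le
    have h2 : 0 < u * z := by positivity
    linarith
  have hLC : 0 ≤ LC nn + 1 := by
    unfold LC
    positivity
  have hE0 : 0 ≤ E := by
    rw [hE]
    positivity
  have hNU : 16 * Real.pi * (nn + 1) ≤ ((N / l : ℕ) : ℝ) * Real.sqrt U := by
    refine hNu.trans (le_of_eq ?_)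
    rw [hU, hz, Real.sqrt_mul hu.le, Real.sqrt_mul ht0.le, Real.sqrt_sq hlr.le,
      Nat.cast_div hl hlr.ne']
    field_simp
  have hαr : |α / z| * r ≤ |α| := by
    rw [abs_div, abs_of_pos hz0, div_mul_eq_mul_div, div_le_iff₀ hz0]
    exact mul_le_mul_of_nonneg_left hr1 (abs_nonneg α)
  have hdj : ∀ j : ℕ, ej (N / l) j ≤ U →
      |((Cbk N l b t0 τ t ((j : ZMod (N / l)), 0))⁻¹ - (Cbk N l b t0 τ t 0)⁻¹) / t -
        α / z * ej (N / l) j| ≤ δ + |α| * u ^ 2 * z := by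
    intro j hj
    exact dX_of hl ht0 hz0 hz htl4 hu (hu1.trans (by norm_num)) hδ0 hδ j (by rw [← hU]; exact hj)
  obtain ⟨E', hE'⟩ : ∃ E' : ℝ, E' = (LC nn + 1) * ((δ + |α| * u ^ 2 * z) + 256 * ϑ2 +
      2 * (16 + |α / z| * r) * (2 * U / r) ^ (nn + 1)) := ⟨_, rfl⟩
  have hEE : E' ≤ E := by
    rw [hE', hE]
    refine mul_le_mul_of_nonneg_left (add_le_add le_rfl ?_) hLC
    exact mul_le_mul (by linarith) (pow_le_pow_left₀ (by positivity) hUr2 _) (by positivity)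
      (by positivity)
  have hE'0 : 0 ≤ E' := by rw [hE']; positivity
  obtain ⟨a', ha1, ha2⟩ := P5C0 nn h hθ hLB hδf hc hC hξ
    (by rw [le_div_iff₀ (by positivity)]; exact htξ) hm hml hmn hκ heκ hϑ2 hϑ21 hϑ h0 hA hr hU0
    hUr hU1 hN2 hNU hdj hE'
  refine ⟨a' * z, ?_, fun j hj0 hj => ?_⟩
  · have e1 : a' * z - α = (a' - α / z) * z := by field_simp
    rw [e1, abs_mul, abs_of_pos hz0, le_div_iff₀ hu]
    rw [le_div_iff₀ hU0, hU] at ha1
    calc |a' - α / z| * z * u = |a' - α / z| * (u * z) := by ring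
      _ ≤ E' := ha1
      _ ≤ E := hEE
  · have huz : u * z ≤ 1 := by rw [← hU]; exact hU1
    refine sX_of hl ht0 hz0 hz huz hu hE0 hj0 hj ?_
    have e1 : a' * z / z = a' := by field_simp
    rw [e1, ← hU]
    have hej : ej (N / l) j ≤ U / 2 := by
      refine (ej_le_sq _ _).trans ?_
      rw [KK_phi hl, hU]
      calc H114.KK N j * (l : ℝ) ^ 2 ≤ u * t / 2 * (l : ℝ) ^ 2 :=
            mul_le_mul_of_nonneg_right hj (by positivity)
        _ = u * z / 2 := by rw [hz]; ring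
    refine (ha2 j hej).trans (add_le_add ?_ le_rfl)
    exact mul_le_mul_of_nonneg_right (by linarith) (by positivity)

end

end

end Vale.Agent.P159.H813
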