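import Vale.Agent.P159.H813.Ext3
import Vale.Agent.P159.H813.Ker7

/-!
P159 (helper813): (EXT), the extrapolated stiffness of the mean posterior cell covariance.
-/

namespace Vale.Agent.P159.H813

open Finset
open Vale.Agent.P159.H730 (Cbk)
open Vale.Agent.P159.H114 (PbC ax)
open Vale.Agent.P159.TM.Spec (V)
open Vale.Agent.P159.TM.H764

noncomputable section

set_option linter.unusedSectionVars false

variable {N l : ℕ} [NeZero N] [NeZero (N / l)] {b t0 t τ : ℝ}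

/-- the extrapolated stiffness `l² M₂ / (2 M₀²)` -/
def aL (N l : ℕ) [NeZero N] [NeZero (N / l)] (b t0 t τ : ℝ) : ℝ :=
  (l : ℝ) ^ 2 * mom2 (wP0 N l b t0 t τ) / (2 * (∑ z, wP0 N l b t0 t τ z) ^ 2)

lemma sum_wP0 (hl : l ∣ N) (b t0 t τ : ℝ) : ∑ z, wP0 N l b t0 t τ z = Cbk N l b t0 τ t 0 := by
  rw [← Gh_wP0 hl, Gh_gax0, gax_zero]

lemma mom2_mul {n : ℕ} [NeZero n] (a : ℝ) (w : ZMod n × ZMod n → ℝ) :
    mom2 (fun z => a * w z) = a * mom2 w := by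
  unfold mom2
  rw [mul_sum]
  exact sum_congr rfl fun _ _ => by ring

/-- ratio of the strip width to the torus -/
lemma ratio_m {m n l N ξ t L : ℝ} (hn : 0 < n) (hl : 0 < l) (hN : 0 < N) (hnl : n = N / l)
    (ht : 0 < t) (hξ : 0 < ξ) (htξ : t * ξ ^ 2 ≤ 4) (hml : m * l ≤ 2 * ξ)
    (hL : L = N * Real.sqrt t) : m / n ≤ 4 / L := by
  have hst : 0 < Real.sqrt t := Real.sqrt_pos.2 ht
  have hL0 : 0 < L := by rw [hL]; positivity
  have h1 : ξ * Real.sqrt t ≤ 2 := by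
    refine (abs_le_of_sq_le_sq' ?_ (by norm_num)).2
    rw [mul_pow, Real.sq_sqrt ht.le]
    linarith
  rw [div_le_div_iff₀ hn hL0, hL, hnl]
  calc m * (N * Real.sqrt t) = (m * l) * Real.sqrt t * (N / l) := by field_simp
    _ ≤ (2 * ξ) * Real.sqrt t * (N / l) := by gcongr
    _ = 2 * (ξ * Real.sqrt t) * (N / l) := by ring
    _ ≤ 2 * 2 * (N / l) := by gcongr
    _ = 4 * (N / l) := by ring

/-- number of strips -/
lemma nst_le {n m l N ξ : ℕ} {t L : ℝ} (hl : 0 < l) (hm : 0 < m) (hnl : (n : ℝ) = N / l)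
    (ht : 0 < t) (hξ : 0 < ξ) (htξ : 1 ≤ t * (ξ : ℝ) ^ 2) (hml : ξ ≤ m * l)
    (hL : L = N * Real.sqrt t) (hL2 : 2 ≤ L) : (nst n m : ℝ) ≤ L := by
  have hlr : (0 : ℝ) < l := by exact_mod_cast hl
  have hmr : (0 : ℝ) < m := by exact_mod_cast hm
  have hξr : (0 : ℝ) < ξ := by exact_mod_cast hξ
  have hst : 0 < Real.sqrt t := Real.sqrt_pos.2 ht
  have h1 : 1 ≤ ξ * Real.sqrt t := by
    refine (abs_le_of_sq_le_sq' ?_ (by positivity)).2
    rw [mul_pow, Real.sq_sqrt ht.le]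
    linarith
  unfold nst
  push_cast
  have h2 : ((n / (2 * m) : ℕ) : ℝ) ≤ n / (2 * m) := by
    have := @Nat.cast_div_le ℝ _ _ _ n (2 * m)
    push_cast at this
    exact this
  have h3 : (n : ℝ) / (2 * m) ≤ L / 2 := by
    have hmlr : (ξ : ℝ) ≤ m * l := by exact_mod_cast hml
    have hN0 : (0 : ℝ) ≤ N := by positivity
    rw [div_le_div_iff₀ (by positivity) (by norm_num), hL, hnl]
    calc (N : ℝ) / l * 2 = 2 * (N / l) * 1 := by ring
      _ ≤ 2 * (N / l) * (ξ * Real.sqrt t) := by gcongr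
      _ ≤ 2 * (N / l) * ((m * l) * Real.sqrt t) := by gcongr
      _ = N * Real.sqrt t * (2 * m) := by field_simp
  linarith

/-- one configuration -/
theorem ext_one {q : ℕ} (hq : 1 ≤ q) {μ : ℕ → ℝ} (hμ : WtS q μ) {θ e : ℝ} {Gd : Set (V N → ℝ)}
    (h : S1 N l b t0 τ t θ e Gd) (hθ : θ ≤ 1) {ξ : ℕ} {c C : ℝ} {δf : ℝ}
    (hLB : LBC N l b t0 t ξ c C δf) (hδf : 0 ≤ δf) (hc : 0 < c) (hC : 1 ≤ C) (hξ : 0 < ξ)
    (htξ1 : 1 ≤ t * (ξ : ℝ) ^ 2) (htξ : t * (ξ : ℝ) ^ 2 ≤ 4) (hlξ : l ≤ ξ) (hξN : 2 * ξ ≤ N)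
    {κ ϑ2 : ℝ} (hκ : 0 < κ) (heκ : e ≤ κ ^ 2) (hϑ2 : 0 < ϑ2) (hϑ21 : ϑ2 ≤ 1 / 32)
    (h0 : 1 / 2 ≤ t * Cbk N l b t0 τ t 0) {A L m1 Q : ℝ}
    (hA : A = 15 * C * Real.exp (2 * c) * (1 + Real.exp (c / 2) * (1 + 2 / c)))
    (hL : L = N * Real.sqrt t) (hL2 : 2 ≤ L)
    (hϑ : L * (15 * C * δf + 3 * (t * κ)) * (2 * (1 + 1 / c) * (1 + 2 / c) * Real.exp c) ≤ ϑ2)
    (hQ : Q = 512 * Real.pi * A * (q + 1) / c) (hQL : 2 * Q ≤ L)
    (hm1 : m1 = ∑ i ∈ range (q + 1), |μ i|) :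
    |(∑ i ∈ range (q + 1), μ i * PbC N l b t0 t τ (ax ((i + 1 : ℕ) : ZMod (N / l)))) /
        H114.KK N 1 - aL N l b t0 t τ| ≤
      L ^ 2 * (16 * m1 * (Q / L) ^ (2 * (q + 1)) + ϑ2 * (128 * m1 + 32 + 64 * A)) := by
  have ht0 : 0 < t := h.pos.trans_le h.le
  have hl := h.dvd
  have hlp : 0 < l := Nat.pos_of_ne_zero fun h => by
    have := NeZero.ne (N / l)
    rw [h, Nat.div_zero] at this
    exact this rfl
  have hlr : (0 : ℝ) < l := by exact_mod_cast hlp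
  have hNr : (0 : ℝ) < N := by exact_mod_cast NeZero.pos N
  have hξr : (0 : ℝ) < ξ := by exact_mod_cast hξ
  have hnl : ((N / l : ℕ) : ℝ) = N / l := Nat.cast_div hl hlr.ne'
  have hn0 : (0 : ℝ) < ((N / l : ℕ) : ℝ) := by rw [hnl]; positivity
  obtain ⟨m, hm, hml, hml2, hmn, hN2⟩ := width hl hlp hlξ hξN
  have hmr : (0 : ℝ) < m := by exact_mod_cast hm
  obtain ⟨A1, hA1⟩ : ∃ A1 : ℝ, A1 = 15 * C * Real.exp (2 * c) := ⟨_, rfl⟩
  have hA11 : 1 ≤ A1 := by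
    rw [hA1]
    have := Real.one_le_exp (by positivity : 0 ≤ 2 * c)
    nlinarith
  have hA0 : 0 < A := by rw [hA]; positivity
  have hL0 : 0 < L := by linarith
  obtain ⟨ϑ, hϑd⟩ : ∃ ϑ : ℝ, ϑ = 15 * C * δf + 3 * (t * κ) := ⟨_, rfl⟩
  have hϑ0 : 0 ≤ ϑ := by rw [hϑd]; positivity
  rw [← hϑd] at hϑ
  have hw0 : ∀ z, 0 ≤ t * wP0 N l b t0 t τ z := fun z =>
    mul_nonneg ht0.le (wP0_nonneg h.b0.le h.dvd h.pos h.le h.le' z)
  have hB : ∀ β, ∑ z ∈ strip (N / l) m β, t * wP0 N l b t0 t τ z ≤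
      A1 * Real.exp (-(c * β)) + ϑ := by
    intro β
    refine (strip_wP1 h hLB hδf hc (by linarith) hξ (by rw [le_div_iff₀ (by positivity)]; exact htξ)
      hm hml hmn hκ heκ β).trans ?_
    have h1 : Real.sqrt (1 + θ) ≤ 3 / 2 := by
      rw [Real.sqrt_le_left (by norm_num)]
      linarith
    rw [hA1, hϑd]
    refine add_le_add (mul_le_mul_of_nonneg_right ?_ (Real.exp_pos _).le)
      (add_le_add ?_ le_rfl)
    · calc 10 * Real.sqrt (1 + θ) * C * Real.exp (2 * c) =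
            (10 * Real.sqrt (1 + θ)) * (C * Real.exp (2 * c)) := by ring
        _ ≤ 15 * (C * Real.exp (2 * c)) := mul_le_mul_of_nonneg_right (by linarith) (by positivity)
        _ = _ := by ring
    · calc 10 * Real.sqrt (1 + θ) * C * δf = (10 * Real.sqrt (1 + θ)) * (C * δf) := by ring
        _ ≤ 15 * (C * δf) := mul_le_mul_of_nonneg_right (by linarith) (by positivity)
        _ = _ := by ring
  have hns := nst_le (n := N / l) (N := N) hlp hm hnl ht0 hξ htξ1 hml hL hL2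
  have hns1 : 1 ≤ nst (N / l) m := Nat.le_add_left 1 _
  obtain ⟨K, hK1, hK2⟩ := K_choice (n := nst (N / l) m) hns1 hc hA11 hϑ0 hϑ2 (by linarith)
    (le_trans (by gcongr) hϑ)
  have hG : ∀ k, Gh (fun z => t * wP0 N l b t0 t τ z) k = t * Cbk N l b t0 τ t k := by
    intro k
    rw [Gh_mul, Gh_wP0 h.dvd]
  have hrat := ratio_m hn0 hlr hNr hnl ht0 hξr htξ (m := m) (by exact_mod_cast hml2) hL
  obtain ⟨S, hS⟩ : ∃ S : ℝ, S = c / (2 * m) := ⟨_, rfl⟩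
  obtain ⟨r, hr⟩ : ∃ r : ℝ, r = S * (1 / 4) / (4 * A) := ⟨_, rfl⟩
  obtain ⟨θ1, hθ1⟩ : ∃ θ1 : ℝ, θ1 = 2 * Real.pi / (N / l : ℕ) := ⟨_, rfl⟩
  have hr' : r = c / (32 * A * m) := by rw [hr, hS]; field_simp; norm_num
  have hr0 : 0 < r := by rw [hr']; positivity
  have hratio : 2 * (((q : ℝ) + 1) * θ1) / r ≤ Q / L := by
    have e1 : 2 * (((q : ℝ) + 1) * θ1) / r = (128 * Real.pi * A * (q + 1) / c) *
        (m / (N / l : ℕ)) := by
      rw [hr', hθ1]; field_simp; norm_num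
    rw [e1, hQ]
    calc 128 * Real.pi * A * (q + 1) / c * (m / (N / l : ℕ)) ≤
          128 * Real.pi * A * (q + 1) / c * (4 / L) :=
          mul_le_mul_of_nonneg_left hrat (by positivity)
      _ = _ := by ring
  have hθr : 4 * (((q : ℝ) + 1) * θ1) ≤ r := by
    have h1 : Q / L ≤ 1 / 2 := by
      rw [div_le_div_iff₀ hL0 (by norm_num)]; linarith
    have h2 := hratio.trans h1
    rw [div_le_iff₀ hr0] at h2
    linarith
  have hA' : A = A1 * (1 + Real.exp (c / 2) * (1 + 2 / c)) := by rw [hA, hA1]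
  have key := EXK (N := N / l) hq hμ hw0 (m := m) (K := K) hm (c1 := c) (A1 := A1) (ϑ := ϑ)
    (ϑ2 := ϑ2) (A := A) (S := S) (c := 1 / 4) (r := r) (θ := θ1) (m1 := m1) hc (by linarith) hϑ0 hB
    hK1 hK2 (by norm_num) (by rw [hG]; linarith) (by linarith) hS hA' hr hθ1 hθr hm1
  have hm10 : 0 ≤ m1 := by rw [hm1]; positivity
  have hθ10 : 0 ≤ θ1 := by rw [hθ1]; positivity
  -- right side
  have hR : m1 * (4 / (1 / 4 : ℝ) * (2 * (((q : ℝ) + 1) * θ1) / r) ^ (2 * (q + 1))) +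
        ϑ2 * (8 * m1 / (1 / 4 : ℝ) ^ 2 + 2 / (1 / 4 : ℝ) ^ 2 + A / (1 / 4 : ℝ) ^ 3) ≤
      16 * m1 * (Q / L) ^ (2 * (q + 1)) + ϑ2 * (128 * m1 + 32 + 64 * A) := by
    have h1 : (2 * (((q : ℝ) + 1) * θ1) / r) ^ (2 * (q + 1)) ≤ (Q / L) ^ (2 * (q + 1)) :=
      pow_le_pow_left₀ (by positivity) hratio _
    refine add_le_add ?_ (le_of_eq ?_)
    · calc m1 * (4 / (1 / 4 : ℝ) * (2 * (((q : ℝ) + 1) * θ1) / r) ^ (2 * (q + 1))) =
            16 * m1 * (2 * (((q : ℝ) + 1) * θ1) / r) ^ (2 * (q + 1)) := by ring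
        _ ≤ _ := mul_le_mul_of_nonneg_left h1 (by positivity)
    · have e2 : 8 * m1 / (1 / 4 : ℝ) ^ 2 + 2 / (1 / 4 : ℝ) ^ 2 + A / (1 / 4 : ℝ) ^ 3 =
          128 * m1 + 32 + 64 * A := by ring
      rw [e2]
  have key2 := key.trans hR
  -- left side
  obtain ⟨KN, hKN⟩ : ∃ KN : ℝ, KN = H114.KK N 1 := ⟨_, rfl⟩
  have hKN0 : 0 < KN := by rw [hKN]; exact H114.KK_pos (NeZero.pos N) one_pos
  have hθK : θ1 ^ 2 = KN * (l : ℝ) ^ 2 := by
    have := KK_phi (N := N) (l := l) hl 1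
    rw [Nat.cast_one, mul_one] at this
    rw [hθ1, hKN]; exact this
  have hC0 : 0 < Cbk N l b t0 τ t 0 := by
    by_contra hcon
    have : t * Cbk N l b t0 τ t 0 ≤ 0 := mul_nonpos_of_nonneg_of_nonpos ht0.le (not_lt.1 hcon)
    linarith
  have e1 : (∑ i ∈ range (q + 1), μ i * PbC N l b t0 t τ (ax ((i + 1 : ℕ) : ZMod (N / l)))) / KN -
      aL N l b t0 t τ = (t / KN) * (∑ i ∈ range (q + 1), μ i *
        (Gh (fun z => t * wP0 N l b t0 t τ z) (((i + 1 : ℕ) : ZMod (N / l)), 0))⁻¹ -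
        mom2 (fun z => t * wP0 N l b t0 t τ z) / 2 /
          Gh (fun z => t * wP0 N l b t0 t τ z) 0 ^ 2 * θ1 ^ 2) := by
    have a1 : ∑ i ∈ range (q + 1), μ i * PbC N l b t0 t τ (ax ((i + 1 : ℕ) : ZMod (N / l))) =
        t * ∑ i ∈ range (q + 1), μ i *
          (Gh (fun z => t * wP0 N l b t0 t τ z) (((i + 1 : ℕ) : ZMod (N / l)), 0))⁻¹ := by
      have a2 : ∀ i ∈ range (q + 1), μ i * PbC N l b t0 t τ (ax ((i + 1 : ℕ) : ZMod (N / l))) =
          t * (μ i * (Gh (fun z => t * wP0 N l b t0 t τ z)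
            (((i + 1 : ℕ) : ZMod (N / l)), 0))⁻¹) - μ i * t := by
        intro i _
        rw [hG]
        unfold H114.PbC ax
        rw [mul_inv]
        field_simp
      rw [sum_congr rfl a2, sum_sub_distrib, ← mul_sum, ← sum_mul, hμ.z, zero_mul, sub_zero]
    rw [a1, mom2_mul, hG, hθK]
    unfold aL
    rw [sum_wP0 hl]
    field_simp
  rw [← hKN, e1, abs_mul, abs_of_pos (by positivity : 0 < t / KN)]
  have hpi := Real.pi_gt_three
  have htK : t / KN ≤ L ^ 2 := by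
    have h1 := H114.KK_ge (N := N) (j := 1) (NeZero.pos N) one_pos
    rw [← hKN] at h1
    rw [div_le_iff₀ hKN0, hL, mul_pow, Real.sq_sqrt ht0.le]
    rw [div_le_iff₀ (by positivity)] at h1
    have h2 : t * 36 ≤ t * (KN * (N : ℝ) ^ 2) := mul_le_mul_of_nonneg_left h1 ht0.le
    linarith
  exact mul_le_mul htK key2 (abs_nonneg _) (by positivity)

end

end Vale.Agent.P159.H813
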