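import Vale.Agent.P159.H813.Ext4

/-!
P159 (helper813): (EXT), final form.
-/

namespace Vale.Agent.P159.H813

open Finset
open Vale.Agent.P159.H730 (Cbk)
open Vale.Agent.P159.H114 (PbC ax)
open Vale.Agent.P159.TM.Spec (V)
open Vale.Agent.P159.TM.H764

noncomputable section

set_option linter.unusedSectionVars false

/-- numbers -/
lemma ext_num {c C A Q m1 K L δ x : ℝ} {q : ℕ} (hc : 0 < c) (hC : 1 ≤ C) (hδ : 0 ≤ δ) (hx : 0 ≤ x)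
    (hQ : 0 ≤ Q) (hm1 : 0 ≤ m1) (hA : 0 ≤ A)
    (hK : K = 32 + 2 * Q + 15 * C * (2 * (1 + 1 / c) * (1 + 2 / c) * Real.exp c) +
      (16 * m1 * Q ^ (2 * (q + 1)) + (128 * m1 + 32 + 64 * A)))
    (hL : K ≤ L) (hfl : (δ + x) * K * L ^ (2 * q + 3) ≤ 1) :
    1 / L ^ (2 * q + 2) ≤ 1 / 32 ∧
    L * (15 * C * δ + 3 * x) * (2 * (1 + 1 / c) * (1 + 2 / c) * Real.exp c) ≤
      1 / L ^ (2 * q + 2) ∧
    L ^ 2 * (16 * m1 * (Q / L) ^ (2 * (q + 1)) + 1 / L ^ (2 * q + 2) * (128 * m1 + 32 + 64 * A)) ≤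
      K / L ^ (2 * q) := by
  obtain ⟨cc, hcc⟩ : ∃ cc : ℝ, cc = 2 * (1 + 1 / c) * (1 + 2 / c) * Real.exp c := ⟨_, rfl⟩
  have hcc0 : 0 < cc := by rw [hcc]; positivity
  rw [← hcc] at hK ⊢
  have hp1 : 0 ≤ 16 * m1 * Q ^ (2 * (q + 1)) := by positivity
  have hp2 : 0 ≤ 15 * C * cc := by positivity
  have hK32 : 32 ≤ K := by rw [hK]; linarith
  have hL32 : 32 ≤ L := by linarith
  have hL0 : 0 < L := by linarith
  refine ⟨?_, ?_, ?_⟩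
  · refine one_div_le_one_div_of_le (by norm_num) ?_
    have h1 : L ^ 1 ≤ L ^ (2 * q + 2) := pow_le_pow_right₀ (by linarith) (by omega)
    rw [pow_one] at h1
    linarith
  · rw [le_div_iff₀ (by positivity)]
    have h1 : 15 * C * δ + 3 * x ≤ 15 * C * (δ + x) := by
      have : 3 * x ≤ 15 * C * x := mul_le_mul_of_nonneg_right (by linarith) hx
      linarith
    have h2 : 15 * C * cc ≤ K := by rw [hK]; linarith
    calc L * (15 * C * δ + 3 * x) * cc * L ^ (2 * q + 2) =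
          (15 * C * δ + 3 * x) * (cc * L ^ (2 * q + 3)) := by ring
      _ ≤ (15 * C * (δ + x)) * (cc * L ^ (2 * q + 3)) :=
          mul_le_mul_of_nonneg_right h1 (by positivity)
      _ = (δ + x) * (15 * C * cc) * L ^ (2 * q + 3) := by ring
      _ ≤ (δ + x) * K * L ^ (2 * q + 3) := by gcongr
      _ ≤ 1 := hfl
  · have e1 : L ^ 2 * (16 * m1 * (Q / L) ^ (2 * (q + 1)) +
        1 / L ^ (2 * q + 2) * (128 * m1 + 32 + 64 * A)) =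
        (16 * m1 * Q ^ (2 * (q + 1)) + (128 * m1 + 32 + 64 * A)) / L ^ (2 * q) := by
      rw [div_pow]
      have e2 : L ^ (2 * (q + 1)) = L ^ 2 * L ^ (2 * q) := by ring
      have e3 : L ^ (2 * q + 2) = L ^ 2 * L ^ (2 * q) := by ring
      rw [e2, e3]
      field_simp
    rw [e1]
    refine div_le_div_of_nonneg_right ?_ (by positivity)
    rw [hK]
    linarith

/-- **(EXT)**: extrapolation of the stiffness of the mean posterior cell covariance. -/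
theorem EXT {c C : ℝ} (hc : 0 < c) (hC : 1 ≤ C) {q : ℕ} (hq : 1 ≤ q) {μ : ℕ → ℝ}
    (hμ : WtS q μ) : ∃ K : ℝ, 1 ≤ K ∧ ∀ (N l : ℕ) [NeZero N] [NeZero (N / l)]
      (b t0 t τ θ e : ℝ) (Gd : Set (V N → ℝ)) (ξ : ℕ) (δf κ L : ℝ), S1 N l b t0 τ t θ e Gd →
      θ ≤ 1 → LBC N l b t0 t ξ c C δf → 0 ≤ δf → 0 < ξ → 1 ≤ t * (ξ : ℝ) ^ 2 →
      t * (ξ : ℝ) ^ 2 ≤ 4 → l ≤ ξ → 2 * ξ ≤ N → 0 < κ → e ≤ κ ^ 2 →
      1 / 2 ≤ t * Cbk N l b t0 τ t 0 → L = N * Real.sqrt t → K ≤ L →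
      (δf + t * κ) * K * L ^ (2 * q + 3) ≤ 1 →
      |(∑ i ∈ range (q + 1), μ i * PbC N l b t0 t τ (ax ((i + 1 : ℕ) : ZMod (N / l)))) /
        H114.KK N 1 - aL N l b t0 t τ| ≤ K / L ^ (2 * q) := by
  obtain ⟨A, hA⟩ : ∃ A : ℝ, A = 15 * C * Real.exp (2 * c) *
    (1 + Real.exp (c / 2) * (1 + 2 / c)) := ⟨_, rfl⟩
  have hA0 : 0 < A := by rw [hA]; positivity
  obtain ⟨Q, hQ⟩ : ∃ Q : ℝ, Q = 512 * Real.pi * A * (q + 1) / c := ⟨_, rfl⟩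
  have hQ0 : 0 < Q := by rw [hQ]; positivity
  obtain ⟨m1, hm1⟩ : ∃ m1 : ℝ, m1 = ∑ i ∈ range (q + 1), |μ i| := ⟨_, rfl⟩
  have hm10 : 0 ≤ m1 := by rw [hm1]; positivity
  obtain ⟨K, hK⟩ : ∃ K : ℝ, K = 32 + 2 * Q +
      15 * C * (2 * (1 + 1 / c) * (1 + 2 / c) * Real.exp c) +
      (16 * m1 * Q ^ (2 * (q + 1)) + (128 * m1 + 32 + 64 * A)) := ⟨_, rfl⟩
  have hp1 : 0 ≤ 16 * m1 * Q ^ (2 * (q + 1)) := by positivity
  have hp2 : 0 ≤ 15 * C * (2 * (1 + 1 / c) * (1 + 2 / c) * Real.exp c) := by positivity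
  have hK1 : 32 + 2 * Q ≤ K := by rw [hK]; linarith
  refine ⟨K, by linarith, ?_⟩
  intro N l _ _ b t0 t τ θ e Gd ξ δf κ L h hθ hLB hδf hξ htξ1 htξ hlξ hξN hκ heκ h0 hL hKL hfl
  have ht0 : 0 < t := h.pos.trans_le h.le
  have hL0 : 0 < L := by linarith
  obtain ⟨n1, n2, n3⟩ := ext_num (q := q) hc hC hδf (by positivity : 0 ≤ t * κ) hQ0.le hm10 hA0.le
    hK hKL hfl
  exact (ext_one hq hμ h hθ hLB hδf hc hC hξ htξ1 htξ hlξ hξN hκ heκ (by positivity) n1 h0 hA hL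
    (by linarith) n2 hQ (by linarith) hm1).trans n3

end

end Vale.Agent.P159.H813
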