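import Vale.Agent.P159.H813.Ext5
import Vale.Agent.P159.H114.LetA
import Vale.Agent.P159.H114.Rich

/-!
P159 (helper813): (EXT) in the letters of helper114 (`H114.aL`, weights of `H114.rich`).
-/

namespace Vale.Agent.P159.H813

open Finset
open Vale.Agent.P159.TM.Spec (V)
open Vale.Agent.P159.H730 (Cbk)
open Vale.Agent.P159.H114 (PbC ax)
open Vale.Agent.P159.TM.H764

noncomputable section

lemma aL_eq (N l : ℕ) [NeZero N] [NeZero (N / l)] (b t0 t τ : ℝ) :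
    H114.aL N l b t0 t τ = aL N l b t0 t τ := by
  unfold H114.aL aL H114.mo2 H114.mo0 mom2
  congr 2
  exact sum_congr rfl fun z _ => mul_comm _ _

/-- weights on `Fin (q + 1)` as weights on `ℕ` -/
def exw (q : ℕ) (μ : Fin (q + 1) → ℝ) (i : ℕ) : ℝ := if h : i < q + 1 then μ ⟨i, h⟩ else 0

lemma exw_sum {q : ℕ} (μ : Fin (q + 1) → ℝ) (f : ℕ → ℝ) :
    ∑ i ∈ range (q + 1), exw q μ i * f i = ∑ i : Fin (q + 1), μ i * f i := by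
  rw [← Fin.sum_univ_eq_sum_range (fun i => exw q μ i * f i)]
  refine sum_congr rfl fun i _ => ?_
  unfold exw
  rw [dif_pos i.2]

lemma WtS_rich {q : ℕ} (hq : 1 ≤ q) {μ : Fin (q + 1) → ℝ}
    (hμ : ∀ p : ℕ, p ≤ q → ∑ i, μ i * H114.nd q i ^ p = if p = 1 then 1 else 0) :
    WtS q (exw q μ) := by
  refine ⟨?_, ?_, ?_⟩
  · have h := hμ 0 (Nat.zero_le _)
    have h2 := exw_sum μ (fun _ => (1 : ℝ))
    simp only [mul_one] at h2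
    rw [h2]
    simpa using h
  · have h := hμ 1 hq
    rw [exw_sum μ (fun i => ((i : ℝ) + 1) ^ 2)]
    simpa [H114.nd] using h
  · intro p hp hpq
    have h := hμ p hpq
    rw [exw_sum μ (fun i => ((i : ℝ) + 1) ^ (2 * p))]
    rw [if_neg (by omega)] at h
    rw [← h]
    refine sum_congr rfl fun i _ => ?_
    rw [H114.nd, ← pow_mul]

/-- **(EXT)** in the letters of helper114. -/
theorem EXTr {c C : ℝ} (hc : 0 < c) (hC : 1 ≤ C) {q : ℕ} (hq : 1 ≤ q) {μ : Fin (q + 1) → ℝ}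
    (hμ : ∀ p : ℕ, p ≤ q → ∑ i, μ i * H114.nd q i ^ p = if p = 1 then 1 else 0) :
    ∃ K : ℝ, 1 ≤ K ∧ ∀ (N l : ℕ) [NeZero N] [NeZero (N / l)]
      (b t0 t τ θ e : ℝ) (Gd : Set (V N → ℝ)) (ξ : ℕ) (δf κ L : ℝ), S1 N l b t0 τ t θ e Gd →
      θ ≤ 1 → LBC N l b t0 t ξ c C δf → 0 ≤ δf → 0 < ξ → 1 ≤ t * (ξ : ℝ) ^ 2 →
      t * (ξ : ℝ) ^ 2 ≤ 4 → l ≤ ξ → 2 * ξ ≤ N → 0 < κ → e ≤ κ ^ 2 →
      1 / 2 ≤ t * Cbk N l b t0 τ t 0 → L = N * Real.sqrt t → K ≤ L →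
      (δf + t * κ) * K * L ^ (2 * q + 3) ≤ 1 →
      |(∑ i : Fin (q + 1), μ i * PbC N l b t0 t τ (ax ((i + 1 : ℕ) : ZMod (N / l)))) /
        H114.KK N 1 - H114.aL N l b t0 t τ| ≤ K / L ^ (2 * q) := by
  obtain ⟨K, hK1, hK⟩ := EXT hc hC hq (WtS_rich hq hμ)
  refine ⟨K, hK1, ?_⟩
  intro N l _ _ b t0 t τ θ e Gd ξ δf κ L h1 h2 h3 h4 h5 h6 h7 h8 h9 h10 h11 h12 h13 h14 h15
  have h := hK N l b t0 t τ θ e Gd ξ δf κ L h1 h2 h3 h4 h5 h6 h7 h8 h9 h10 h11 h12 h13 h14 h15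
  rw [exw_sum μ (fun i => PbC N l b t0 t τ (ax ((i + 1 : ℕ) : ZMod (N / l))))] at h
  rwa [aL_eq]

end

end Vale.Agent.P159.H813
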