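import Vale.Agent.P159.H864.Cel4
import Vale.Agent.P159.H375.FineM
import Vale.Agent.P159.H114.Star0

/-!
P159 (helper813): the self energy of the prior does not depend on the fine masses: comparison of
`PiCk N l b t τ` (cells `l`, mass `t` off the cell functions, `τ` on them) with `Pik N b τ`.
-/

namespace Vale.Agent.P159.H813

open Finset Matrix
open Vale.Agent.P159.H37
open Vale.Agent.P159.H864
open Vale.Agent.P159.TM.Spec (V)
open Vale.Agent.P159.TM.SpecC (wT)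
open Vale.Agent.P159.TM.H764 (EE pw)

noncomputable section

set_option linter.unusedSectionVars false

variable {N l : ℕ} [NeZero N] [NeZero (N / l)] {b t τ : ℝ}

lemma MC_split (N l : ℕ) [NeZero N] (t τ : ℝ) :
    MC N l t τ = MC N l τ τ + (t - τ) • (1 - cellP N l) := by
  rw [MC_eq, MC_self]
  simp only [smul_sub, sub_smul]
  abel

/-- change of the fine masses, cell covariance -/
theorem fixG (hb : 0 < b) : ∃ C c : ℝ, 0 < C ∧ 0 < c ∧ ∀ (N l : ℕ) [NeZero N] [NeZero (N / l)]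
    (t τ : ℝ), l ∣ N → 0 < τ → τ ≤ t → 9 ≤ t * (N : ℝ) ^ 2 → t * (l : ℝ) ^ 2 ≤ 1 →
    ∀ k : V (N / l), Gck N l b t τ k ≤ Gck N l b τ τ k ∧
      Gck N l b τ τ k ≤ Gck N l b t τ k +
        C / τ * Real.sqrt (t * (N : ℝ) ^ 2) * (t * (l : ℝ) ^ 2) ^ c := by
  obtain ⟨C, c, hC, hc, h⟩ := H375.fine_G (b := b) hb.le
  refine ⟨C, c, hC, hc, ?_⟩
  intro N l _ _ t τ hl hτ hτt htN htl k
  have ht : 0 < t := hτ.trans_le hτt
  have key := fun u => h N t ht htN l hl htl τ (t - τ) (MC N l τ τ) (MC N l t τ) hτ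
    (sub_nonneg.2 hτt) (by linarith) (MC_split N l t τ)
    ⟨MC_tr N l τ τ, MC_tr N l t τ, qf_MC_ge hl le_rfl, fun u => by
      rw [MC_split N l t τ, H37.qf_add_mat, qf_smul_mat, qf_one_sub_cellP hl]
      have : 0 ≤ (t - τ) * ∑ x, (u x - (cellP N l *ᵥ u) x) ^ 2 :=
        mul_nonneg (sub_nonneg.2 hτt) (sum_nonneg fun _ _ => sq_nonneg _)
      linarith, qf_MC_le hl hτt⟩ u
  have hA := ti_Gc_GM (N := N) hl b t τ
  have hB := ti_Gc_GM (N := N) hl b τ τ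
  obtain ⟨δ, hδ⟩ : ∃ δ : ℝ, δ = C / τ * Real.sqrt (t * (N : ℝ) ^ 2) * (t * (l : ℝ) ^ 2) ^ c :=
    ⟨_, rfl⟩
  rw [← hδ]
  constructor
  · refine (qf_le_iff hA hB).1 (fun φ => ?_) k
    rw [qf_Gc, qf_Gc]
    have := (key ((cobV N l)ᵀ *ᵥ φ)).1
    unfold GM
    linarith
  · have h1 := (qf_le_iff hB (hA.add (ti_smul_one (N := N / l) δ))).1 (fun φ => by
      rw [H37.qf_add_mat, qf_smul_one, qf_Gc, qf_Gc]
      have h2 := (key ((cobV N l)ᵀ *ᵥ φ)).2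
      rw [sq_cobV_tr hl] at h2
      have h3 : C * ((∑ c, φ c ^ 2) / τ) * Real.sqrt (t * (N : ℝ) ^ 2) *
          (t * (l : ℝ) ^ 2) ^ c = δ * ∑ c, φ c ^ 2 := by
        rw [hδ]; ring
      rw [h3] at h2
      unfold GM
      linarith) k
    rw [sym_add, sym_smul_one] at h1
    exact h1

/-- from covariances to self energies -/
lemma inv_fix {g1 g0 δ X : ℝ} (h1 : 0 < g1) (h0 : 0 < g0) (h10 : g1 ≤ g0) (h01 : g0 ≤ g1 + δ)
    (hX : g0⁻¹ ≤ X) (hδ : 2 * δ * X ≤ 1) :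
    0 ≤ g1⁻¹ - g0⁻¹ ∧ g1⁻¹ - g0⁻¹ ≤ 2 * δ * X ^ 2 := by
  have hδ0 : 0 ≤ δ := by linarith
  have hX0 : 0 < X := (inv_pos.2 h0).trans_le hX
  have h2 : g0 ≤ 2 * g1 := by
    have h3 : 2 * δ ≤ g0 := by
      have h4 : 1 ≤ g0 * X := by
        have := mul_le_mul_of_nonneg_left hX h0.le
        rwa [mul_inv_cancel₀ h0.ne'] at this
      have h5 : 2 * δ * X ≤ g0 * X := hδ.trans h4
      exact le_of_mul_le_mul_right h5 hX0
    linarith
  have h4 : g1⁻¹ ≤ 2 * X := by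
    have h5 : g1⁻¹ ≤ 2 * g0⁻¹ := by
      rw [inv_eq_one_div, inv_eq_one_div, mul_one_div, div_le_div_iff₀ h1 h0]
      linarith
    linarith
  refine ⟨sub_nonneg.2 (inv_anti₀ h1 h10), ?_⟩
  have e : g1⁻¹ - g0⁻¹ = (g0 - g1) * (g1⁻¹ * g0⁻¹) := by field_simp
  rw [e]
  have h5 : g1⁻¹ * g0⁻¹ ≤ 2 * X * X := mul_le_mul h4 hX (by positivity) (by positivity)
  calc (g0 - g1) * (g1⁻¹ * g0⁻¹) ≤ δ * (2 * X * X) :=
        mul_le_mul (by linarith) h5 (by positivity) hδ0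
    _ = _ := by ring

/-- **the self energy of the prior with fine masses `t` against the homogeneous model `τ`.** -/
theorem fixP (hb : 0 < b) : ∃ C c : ℝ, 0 < C ∧ 0 < c ∧ ∀ (N l : ℕ) [NeZero N] [NeZero (N / l)]
    (t τ c0 : ℝ) (p : V N), l ∣ N → 0 < τ → τ ≤ t → 9 ≤ t * (N : ℝ) ^ 2 → t * (l : ℝ) ^ 2 ≤ 1 →
    0 < c0 → (∀ q : V N, Ght N b τ q ≤ (τ + c0 * EE q)⁻¹) → cen l p →
    216 * (l : ℝ) ^ 2 / c0 * (τ + Pik N b τ p) ≤ 1 →
    4 * (C / τ * Real.sqrt (t * (N : ℝ) ^ 2) * (t * (l : ℝ) ^ 2) ^ c) * (τ + Pik N b τ p) ≤ 1 →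
    |PiCk N l b t τ (rd p) - Pik N b τ p| ≤ (216 * (l : ℝ) ^ 2 / c0 +
      8 * (C / τ * Real.sqrt (t * (N : ℝ) ^ 2) * (t * (l : ℝ) ^ 2) ^ c)) *
        (τ + Pik N b τ p) ^ 2 := by
  obtain ⟨C, c, hC, hc, hG⟩ := fixG hb
  refine ⟨C, c, hC, hc, ?_⟩
  intro N l _ _ t τ c0 p hl hτ hτt htN htl hc0 hdom hp h1 h2
  obtain ⟨δ, hδ⟩ : ∃ δ : ℝ, δ = C / τ * Real.sqrt (t * (N : ℝ) ^ 2) * (t * (l : ℝ) ^ 2) ^ c :=
    ⟨_, rfl⟩
  obtain ⟨X, hX⟩ : ∃ X : ℝ, X = τ + Pik N b τ p := ⟨_, rfl⟩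
  obtain ⟨E, hE⟩ : ∃ E : ℝ, E = 216 * (l : ℝ) ^ 2 / c0 := ⟨_, rfl⟩
  have ht : 0 < t := hτ.trans_le hτt
  have hδ0 : 0 ≤ δ := by rw [hδ]; positivity
  have hE0 : 0 ≤ E := by rw [hE]; positivity
  have hXp : 0 < X := by
    have h3 : X = (Ght N b τ p)⁻¹ := by
      rw [hX]; unfold Pik; ring
    rw [h3]
    exact inv_pos.2 (Ght_pos (N := N) hb hτ p)
  have h3 := abs_PiCk_sub_le hb hl hτ hc0 hdom hp
  have h4 := hG N l t τ hl hτ hτt htN htl (rd p)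
  rw [← hδ] at h4 h2 ⊢
  rw [← hX] at h1 h2 h3 ⊢
  rw [← hE] at h1 h3 ⊢
  have hg1 := Gck_pos (N := N) (l := l) hb hl hτ hτt (rd p)
  have hg0 := Gck_pos (N := N) (l := l) hb hl hτ le_rfl (rd p)
  have h5 : (Gck N l b τ τ (rd p))⁻¹ = τ + PiCk N l b τ τ (rd p) := by
    unfold PiCk; ring
  have h6 : (Gck N l b τ τ (rd p))⁻¹ ≤ 2 * X := by
    have h7 := (abs_le.1 h3).2
    have h8 : E * X ^ 2 ≤ X := by
      calc E * X ^ 2 = (E * X) * X := by ring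
        _ ≤ 1 * X := mul_le_mul_of_nonneg_right h1 hXp.le
        _ = X := one_mul X
    rw [h5]
    linarith
  have h9 := inv_fix hg1 hg0 h4.1 h4.2 h6 (by linarith)
  have h10 : PiCk N l b t τ (rd p) - PiCk N l b τ τ (rd p) =
      (Gck N l b t τ (rd p))⁻¹ - (Gck N l b τ τ (rd p))⁻¹ := by
    unfold PiCk; ring
  have h11 : PiCk N l b t τ (rd p) - Pik N b τ p =
      (PiCk N l b t τ (rd p) - PiCk N l b τ τ (rd p)) +
        (PiCk N l b τ τ (rd p) - Pik N b τ p) := by ring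
  rw [h11, h10]
  refine (abs_add_le _ _).trans ?_
  rw [abs_of_nonneg h9.1]
  have h12 : 2 * δ * (2 * X) ^ 2 = 8 * δ * X ^ 2 := by ring
  rw [h12] at h9
  have h13 : (E + 8 * δ) * X ^ 2 = E * X ^ 2 + 8 * δ * X ^ 2 := by ring
  rw [h13]
  linarith [h9.2]

/-- reduction of an axis momentum -/
lemma rd_ax (hl : l ∣ N) (m : ℤ) :
    (rd (((m : ℤ) : ZMod N), (0 : ZMod N)) : V (N / l)) = H114.ax ((m : ℤ) : ZMod (N / l)) := by
  unfold rd H114.ax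
  refine Prod.ext (rd1_intCast hl m) ?_
  show rd1 (0 : ZMod N) = 0
  rw [rd1_eq hl, map_zero]

/-- small integers are central -/
lemma cen_int (m : ℤ) (h : 2 * l * m.natAbs ≤ N) :
    cen l (((m : ℤ) : ZMod N), (0 : ZMod N)) := by
  constructor
  · refine le_trans (Nat.mul_le_mul_left _ ?_) h
    exact ZMod.natAbs_min_of_le_div_two N _ m (by rw [ZMod.coe_valMinAbs])
      (ZMod.natAbs_valMinAbs_le _)
  · simp

end

end Vale.Agent.P159.H813
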