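import Vale.Agent.P159.H767.Vol4
import Vale.Agent.P159.H114.Star0

/-!
P159 (helper813): bare torus change for axis momenta (from helper767's vol_range).
-/

namespace Vale.Agent.P159.H813

open Vale.Agent.P159.TM
open Vale.Agent.P159.TM.Spec (V)
open Vale.Agent.P159.TM.H764 (pw)
open Vale.Agent.P159.H37 (Pik)

noncomputable section

set_option linter.unusedSectionVars false

lemma pw_int {N : ℕ} [NeZero N] (m : ℤ) (h : 2 * m.natAbs < N) :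
    pw ((m : ℤ) : ZMod N) = 2 * Real.pi * m / N := by
  unfold pw
  have h1 : ((m : ℤ) : ZMod N).valMinAbs = m := by
    rw [ZMod.valMinAbs_spec]
    refine ⟨rfl, ?_⟩
    rw [Set.mem_Ioc]
    omega
  rw [h1]

lemma pw_z {N : ℕ} [NeZero N] : pw (0 : ZMod N) = 0 := by
  unfold pw
  simp

/-- **torus change of the bare self energy, axis momenta.** -/
theorem R3 {b1 : ℝ} (hb1 : 0 < b1) (b2 a : ℝ) :
    ∃ W₀ : ℝ, 0 ≤ W₀ ∧ ∀ W : ℝ, W₀ ≤ W → ∃ c C ys : ℝ, ∃ X : ℕ, 0 < c ∧ 0 < C ∧ 0 < ys ∧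
      1 ≤ X ∧ ∀ (N m : ℕ) [NeZero N] [NeZero (m * N)] (b : ℝ) (ξ K : ℕ) (y y' : ℝ),
      Spec.Rng b1 b2 a W ys X N b ξ y → Spec.Rng b1 b2 a W ys X (m * N) b ξ y' →
      8 ≤ K → K * ξ ≤ N → (N : ℝ) * y ≤ c * ξ → ((m * N : ℕ) : ℝ) * y' ≤ c * ξ →
      ∀ j : ℤ, 2 * j.natAbs < N → |2 * Real.pi * j / N| ≤ W / ξ →
        |(Pik N b (1 / (ξ : ℝ) ^ 2) (((j : ℤ) : ZMod N), (0 : ZMod N)) -
            Pik N b (1 / (ξ : ℝ) ^ 2) 0) -
          (Pik (m * N) b (1 / (ξ : ℝ) ^ 2) (((m * j : ℤ) : ZMod (m * N)), (0 : ZMod (m * N))) -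
            Pik (m * N) b (1 / (ξ : ℝ) ^ 2) 0)| ≤
          C * (2 * Real.pi * j / N) ^ 2 * Real.exp (-(c * K)) := by
  obtain ⟨W₀, hW₀, h⟩ := H767.vol_range hb1 b2 a
  refine ⟨W₀, hW₀, fun W hW => ?_⟩
  obtain ⟨c, C, ys, X, hc, hC, hys, hX, h⟩ := h W hW
  refine ⟨c, C, ys, X, hc, hC, hys, hX, ?_⟩
  intro N m _ _ b ξ K y y' hR hR' hK hKN hNy hNy' j hj hjW
  have hm : 0 < m := Nat.pos_of_ne_zero fun h0 => by
    have := NeZero.ne (m * N)
    rw [h0, zero_mul] at this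
    exact this rfl
  have hNp : (0 : ℝ) < N := by exact_mod_cast NeZero.pos N
  have hmp : (0 : ℝ) < m := by exact_mod_cast hm
  have hKM : K * ξ ≤ m * N := hKN.trans (Nat.le_mul_of_pos_left N hm)
  have p1 : pw ((j : ℤ) : ZMod N) = 2 * Real.pi * j / N := pw_int j hj
  have p2 : pw ((m * j : ℤ) : ZMod (m * N)) = 2 * Real.pi * j / N := by
    rw [pw_int (N := m * N) (m * j) (by
      rw [Int.natAbs_mul, Int.natAbs_natCast]
      calc 2 * (m * j.natAbs) = m * (2 * j.natAbs) := by ring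
        _ < m * N := Nat.mul_lt_mul_of_pos_left hj hm)]
    push_cast
    field_simp
  have hξ0 : 0 ≤ W / (ξ : ℝ) := (abs_nonneg _).trans hjW
  have key := ((h N (m * N) b ξ K y y' hR hR' hK hKN hKM hNy hNy').2
    (((j : ℤ) : ZMod N), (0 : ZMod N)) (((m * j : ℤ) : ZMod (m * N)), (0 : ZMod (m * N)))
    (by rw [p1, p2]) (by rw [pw_z, pw_z]) (by rw [p1]; exact hjW)
    (by rw [pw_z, abs_zero]; exact hξ0)).2
  rw [p1, pw_z, abs_zero, add_zero, sq_abs] at key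
  exact key

end

end Vale.Agent.P159.H813
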