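import Vale.Agent.P159.H813.Interp
import Vale.Agent.P159.TM.H764.Hyp

/-!
P159 / P#5': the self energy of an exponentially decaying kernel on the torus, along an axis, is a
quadratic polynomial in the momentum up to a small quartic term as soon as it is close to one on a
fine mesh of a short interval.
-/

namespace Vale.Agent.P159.H813

open Finset Polynomial
open Vale.Agent.P159.TM.H764

noncomputable section

/-! ### Chebyshev polynomials -/

lemma norm_cos_le (w : ℂ) : ‖Complex.cos w‖ ≤ Real.exp |w.im| := by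
  rw [Complex.cos, norm_div, Complex.norm_ofNat]
  have h1 : ‖Complex.exp (w * Complex.I)‖ = Real.exp (-w.im) := by
    rw [Complex.norm_exp]; simp
  have h2 : ‖Complex.exp (-w * Complex.I)‖ = Real.exp w.im := by
    rw [Complex.norm_exp]; simp
  have h3 := norm_add_le (Complex.exp (w * Complex.I)) (Complex.exp (-w * Complex.I))
  rw [h1, h2] at h3
  have h4 : Real.exp (-w.im) ≤ Real.exp |w.im| := Real.exp_le_exp.2 (neg_le_abs _)
  have h5 : Real.exp w.im ≤ Real.exp |w.im| := Real.exp_le_exp.2 (le_abs_self _)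
  linarith

lemma im_le_norm_sin (w : ℂ) : |w.im| ≤ ‖Complex.sin w‖ := by
  rw [Complex.sin, norm_div, Complex.norm_ofNat, norm_mul, Complex.norm_I, mul_one]
  have h1 : ‖Complex.exp (w * Complex.I)‖ = Real.exp (-w.im) := by
    rw [Complex.norm_exp]; simp
  have h2 : ‖Complex.exp (-w * Complex.I)‖ = Real.exp w.im := by
    rw [Complex.norm_exp]; simp
  have h3 := abs_norm_sub_norm_le (Complex.exp (-w * Complex.I)) (Complex.exp (w * Complex.I))
  rw [h1, h2] at h3
  refine le_trans ?_ (div_le_div_of_nonneg_right h3 (by norm_num))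
  have h4 : (Real.exp w.im - Real.exp (-w.im)) / 2 = Real.sinh w.im := (Real.sinh_eq _).symm
  have h5 : |Real.exp w.im - Real.exp (-w.im)| / 2 = |Real.sinh w.im| := by
    rw [← h4, abs_div]; norm_num
  rw [h5]
  rcases le_total 0 w.im with h | h
  · rw [abs_of_nonneg h, abs_of_nonneg (Real.sinh_nonneg_iff.2 h)]
    exact Real.self_le_sinh_iff.2 h
  · rw [abs_of_nonpos h, abs_of_nonpos (Real.sinh_nonpos_iff.2 h)]
    have := Real.sinh_le_self_iff.2 h
    linarith

/-- growth of the Chebyshev polynomials near `1` -/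
lemma T_growth (m : ℤ) (z : ℂ) :
    ‖(Chebyshev.T ℂ m).eval (1 - z / 2)‖ ≤ Real.exp (|(m : ℝ)| * Real.sqrt ‖z‖) := by
  obtain ⟨θ, hθ⟩ := Complex.cos_surjective (1 - z / 2)
  rw [← hθ, Chebyshev.T_complex_cos]
  refine (norm_cos_le _).trans (Real.exp_le_exp.2 ?_)
  have h1 : (((m : ℂ)) * θ).im = m * θ.im := by
    rw [Complex.mul_im]; simp
  rw [h1, abs_mul]
  refine mul_le_mul_of_nonneg_left ?_ (abs_nonneg _)
  have h2 : z = 4 * Complex.sin (θ / 2) ^ 2 := by
    have h3 : z = 2 - 2 * Complex.cos θ := by rw [hθ]; ring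
    have h4 : Complex.cos θ = 1 - 2 * Complex.sin (θ / 2) ^ 2 := by
      have : θ = 2 * (θ / 2) := by ring
      conv_lhs => rw [this]
      rw [Complex.cos_two_mul, Complex.cos_sq']
      ring
    rw [h3, h4]; ring
  have h5 := im_le_norm_sin (θ / 2)
  have h6 : (θ / 2).im = θ.im / 2 := by simp
  rw [h6, abs_div, abs_two] at h5
  refine Real.le_sqrt_of_sq_le ?_
  rw [h2, norm_mul, norm_pow]
  have h7 : ‖(4 : ℂ)‖ = 4 := by simp
  rw [h7]
  have h8 : |θ.im| ≤ 2 * ‖Complex.sin (θ / 2)‖ := by linarith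
  have h9 : 0 ≤ |θ.im| := abs_nonneg _
  nlinarith

/-! ### the analytic continuation of the transform along an axis -/

variable {N : ℕ} [NeZero N]

/-- continuation of `j ↦ Gh w (j, 0)` in the variable `2 (1 - cos)` -/
def Cx (w : ZMod N × ZMod N → ℝ) (z : ℂ) : ℂ :=
  ∑ x, (w x : ℂ) * (Chebyshev.T ℂ x.1.valMinAbs).eval (1 - z / 2)

lemma Cx_mom (w : ZMod N × ZMod N → ℝ) (j : ZMod N) :
    Cx w ((2 * (1 - cN j) : ℝ) : ℂ) = ((Gh w (j, 0) : ℝ) : ℂ) := by
  unfold Cx
  rw [Gh_axis, Complex.ofReal_sum]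
  refine sum_congr rfl fun x _ => ?_
  rw [Complex.ofReal_mul (w x)]
  congr 1
  have h1 : (1 : ℂ) - ((2 * (1 - cN j) : ℝ) : ℂ) / 2 = Complex.cos ((pw j : ℝ) : ℂ) := by
    rw [cN_pw]
    push_cast
    ring
  rw [h1, Chebyshev.T_complex_cos]
  have h2 : ((j.valMinAbs : ℤ) : ZMod N) = j := ZMod.coe_valMinAbs j
  have h3 : ((x.1.valMinAbs : ℤ) : ZMod N) = x.1 := ZMod.coe_valMinAbs x.1
  have h4 : cN (j * x.1) = Real.cos ((x.1.valMinAbs : ℝ) * pw j) := by
    conv_lhs => rw [← h2, ← h3]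
    rw [← Int.cast_mul, cN_int]
    unfold pw
    congr 1
    push_cast
    ring
  rw [h4]
  push_cast
  rfl

lemma Cx_diff (w : ZMod N × ZMod N → ℝ) : Differentiable ℂ (Cx w) := by
  unfold Cx
  refine Differentiable.fun_sum fun x _ => ?_
  refine (differentiable_const _).mul ?_
  have h : Differentiable ℂ fun z : ℂ => 1 - z / 2 := by fun_prop
  exact (Polynomial.differentiable _).comp h

lemma Cx_bound (w : ZMod N × ZMod N → ℝ) {R A : ℝ}
    (hA : ∑ x, |w x| * Real.exp (|(x.1.valMinAbs : ℝ)| * Real.sqrt R) ≤ A) {z : ℂ}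
    (hz : ‖z‖ ≤ R) : ‖Cx w z‖ ≤ A := by
  refine le_trans ?_ hA
  unfold Cx
  refine (norm_sum_le _ _).trans (sum_le_sum fun x _ => ?_)
  rw [norm_mul, Complex.norm_real, Real.norm_eq_abs]
  refine mul_le_mul_of_nonneg_left ?_ (abs_nonneg _)
  refine (T_growth _ _).trans (Real.exp_le_exp.2 ?_)
  exact mul_le_mul_of_nonneg_left (Real.sqrt_le_sqrt hz) (abs_nonneg _)

lemma Cx_zero (w : ZMod N × ZMod N → ℝ) : Cx w 0 = ((Gh w 0 : ℝ) : ℂ) := by
  have h := Cx_mom w 0
  rw [cN_zero] at h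
  have h2 : ((2 * (1 - 1) : ℝ) : ℂ) = 0 := by norm_num
  rw [h2] at h
  exact h

/-- the kernel transform does not vanish near zero momentum -/
lemma Cx_low (w : ZMod N × ZMod N → ℝ) {R A c : ℝ} (hR : 0 < R) (hc : 0 < c)
    (hA : ∑ x, |w x| * Real.exp (|(x.1.valMinAbs : ℝ)| * Real.sqrt R) ≤ A)
    (h0 : c ≤ Gh w 0) {z : ℂ} (hz : ‖z‖ ≤ R * c / (4 * A)) : c / 2 ≤ ‖Cx w z‖ := by
  have hcA : c ≤ A := by
    have h1 : ‖Cx w 0‖ ≤ A := Cx_bound w hA (by simpa using hR.le)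
    rw [Cx_zero, Complex.norm_real] at h1
    exact h0.trans ((le_abs_self _).trans h1)
  have hA0 : 0 < A := by linarith
  have hzR : ‖z‖ ≤ R / 2 := by
    refine hz.trans ?_
    rw [div_le_div_iff₀ (by positivity) (by norm_num)]
    nlinarith
  have h := taylor_tail (F := Cx w) (r := 2 * R) (ρ := R) (B := A) hR (by linarith)
    (Cx_diff w).differentiableOn (fun w' hw => Cx_bound w hA hw) 1 hzR
  rw [sum_range_one, tc_zero, pow_zero, mul_one, pow_one] at h
  have h2 : 2 * A * (‖z‖ / R) ≤ c / 2 := by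
    have h3 : ‖z‖ / R ≤ c / (4 * A) := by
      rw [div_le_iff₀ hR]
      calc ‖z‖ ≤ R * c / (4 * A) := hz
        _ = c / (4 * A) * R := by ring
    calc 2 * A * (‖z‖ / R) ≤ 2 * A * (c / (4 * A)) := mul_le_mul_of_nonneg_left h3 (by positivity)
      _ = c / 2 := by field_simp; ring
  have h4 : ‖Cx w 0‖ ≤ ‖Cx w z‖ + ‖Cx w z - Cx w 0‖ := by
    have : Cx w 0 = Cx w z - (Cx w z - Cx w 0) := by ring
    conv_lhs => rw [this]
    exact norm_sub_le _ _
  rw [Cx_zero, Complex.norm_real, Real.norm_eq_abs] at h4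
  have h5 := le_abs_self (Gh w 0)
  rw [Cx_zero] at h
  linarith

/-! ### a mesh of momenta -/

/-- axis momentum energy -/
def ej (N : ℕ) (j : ℕ) : ℝ := 2 * (1 - Real.cos (2 * Real.pi * j / N))

lemma ej_cN (j : ℕ) : ej N j = 2 * (1 - cN ((j : ℕ) : ZMod N)) := by
  unfold ej
  have h := cN_int (N := N) (j : ℤ)
  push_cast at h
  rw [h]

lemma ej_step (j : ℕ) {a : ℝ} (ha : 0 ≤ a) (hj : 2 * Real.pi * j / N ≤ Real.pi)
    (h : ej N j ≤ a) :
    ej N (j + 1) ≤ ej N j + 4 * Real.pi / N * Real.sqrt a + (2 * Real.pi / N) ^ 2 := by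
  have hNr : (0 : ℝ) < N := by exact_mod_cast Nat.pos_of_ne_zero (NeZero.ne N)
  have hpi := Real.pi_pos
  set θ : ℝ := 2 * Real.pi * j / N with hθ
  set δ : ℝ := 2 * Real.pi / N with hδ
  have hθ0 : 0 ≤ θ := by positivity
  have hδ0 : 0 ≤ δ := by positivity
  have h1 : 2 * Real.pi * ((j + 1 : ℕ) : ℝ) / N = θ + δ := by
    rw [hθ, hδ]; push_cast; field_simp
  unfold ej at h ⊢
  rw [h1]
  have h2 : Real.cos θ - Real.cos (θ + δ) ≤ δ * (Real.sin θ) + δ ^ 2 / 2 := by
    rw [Real.cos_add]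
    have h3 := Real.one_sub_sq_div_two_le_cos (x := δ)
    have h4 : Real.sin δ ≤ δ := Real.sin_le hδ0
    have h5 : 0 ≤ Real.sin θ := Real.sin_nonneg_of_nonneg_of_le_pi hθ0 hj
    have h6 : Real.cos θ ≤ 1 := Real.cos_le_one _
    have h7 : Real.cos δ ≤ 1 := Real.cos_le_one _
    nlinarith
  have h8 : Real.sin θ ≤ Real.sqrt a := by
    refine Real.le_sqrt_of_sq_le ?_
    have h9 := Real.sin_sq_add_cos_sq θ
    have h10 : Real.cos θ ≤ 1 := Real.cos_le_one _
    have h11 : -1 ≤ Real.cos θ := Real.neg_one_le_cos _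
    nlinarith
  have h12 : 4 * Real.pi / N = 2 * δ := by rw [hδ]; ring
  rw [h12]
  have h13 : δ * Real.sin θ ≤ δ * Real.sqrt a := mul_le_mul_of_nonneg_left h8 hδ0
  nlinarith

/-- some axis momentum has its energy in `[a, a + h]` -/
lemma mesh {a h : ℝ} (ha : 0 ≤ a) (ha2 : a ≤ 1) (hN : 2 ≤ N)
    (hh : 4 * Real.pi / N * Real.sqrt a + (2 * Real.pi / N) ^ 2 ≤ h) :
    ∃ j : ℕ, a ≤ ej N j ∧ ej N j ≤ a + h := by
  have hNr : (0 : ℝ) < N := by exact_mod_cast Nat.pos_of_ne_zero (NeZero.ne N)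
  have hpi := Real.pi_pos
  have hex : ∃ j : ℕ, a ≤ ej N j := by
    refine ⟨N / 2, ?_⟩
    have h1 : (N : ℝ) ≤ 4 * ((N / 2 : ℕ) : ℝ) := by
      have : N ≤ 4 * (N / 2) := by omega
      exact_mod_cast this
    have h2 : 2 * ((N / 2 : ℕ) : ℝ) ≤ N := by
      have : 2 * (N / 2) ≤ N := by omega
      exact_mod_cast this
    have h3 : Real.pi / 2 ≤ 2 * Real.pi * ((N / 2 : ℕ) : ℝ) / N := by
      rw [div_le_div_iff₀ (by norm_num) hNr]; nlinarith
    have h4 : 2 * Real.pi * ((N / 2 : ℕ) : ℝ) / N ≤ Real.pi + Real.pi / 2 := by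
      rw [div_le_iff₀ hNr]; nlinarith
    have h5 := Real.cos_nonpos_of_pi_div_two_le_of_le h3 h4
    unfold ej
    linarith
  classical
  set j := Nat.find hex with hj
  have hj1 : a ≤ ej N j := Nat.find_spec hex
  refine ⟨j, hj1, ?_⟩
  have hh0 : 0 ≤ h := le_trans (by positivity) hh
  rcases Nat.eq_zero_or_pos j with h0 | hpos
  · rw [h0]
    have : ej N 0 = 0 := by simp [ej]
    rw [this]; linarith
  · obtain ⟨i, hi⟩ : ∃ i, j = i + 1 := ⟨j - 1, by omega⟩
    have hlt : ej N i < a := by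
      have := Nat.find_min hex (m := i) (by omega)
      exact not_le.1 this
    have hjN : j ≤ N / 2 := by
      refine Nat.find_min' hex ?_
      have h1 : (N : ℝ) ≤ 4 * ((N / 2 : ℕ) : ℝ) := by
        have : N ≤ 4 * (N / 2) := by omega
        exact_mod_cast this
      have h2 : 2 * ((N / 2 : ℕ) : ℝ) ≤ N := by
        have : 2 * (N / 2) ≤ N := by omega
        exact_mod_cast this
      have h3 : Real.pi / 2 ≤ 2 * Real.pi * ((N / 2 : ℕ) : ℝ) / N := by
        rw [div_le_div_iff₀ (by norm_num) hNr]; nlinarith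
      have h4 : 2 * Real.pi * ((N / 2 : ℕ) : ℝ) / N ≤ Real.pi + Real.pi / 2 := by
        rw [div_le_iff₀ hNr]; nlinarith
      have h5 := Real.cos_nonpos_of_pi_div_two_le_of_le h3 h4
      unfold ej
      linarith
    have hiN : 2 * Real.pi * i / N ≤ Real.pi := by
      rw [div_le_iff₀ hNr]
      have : 2 * i ≤ N := by omega
      have h2 : 2 * (i : ℝ) ≤ N := by exact_mod_cast this
      nlinarith
    have h6 := ej_step (N := N) i ha hiN hlt.le
    rw [hi]
    linarith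

/-- **P#5'.** `w` a kernel on the torus of side `N` with exponential decay (`R ~ t`, `A ~ 1/t`) and
total mass at least `c ~ 1/t`. If the self energy `1 / Gh w (j,0) - 1 / Gh w 0` is within `δ` of
`α` times the energy `ej N j` for all axis momenta of energy at most `U`, then it is a multiple of
the energy up to a quartic term of size `E (ej/U)^2`, `E ~ δ + t (U/t)^(n+1)`. -/
theorem P5 (n : ℕ) {w : ZMod N × ZMod N → ℝ} {R A c U δ α r E : ℝ} (hR : 0 < R) (hc : 0 < c)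
    (hA : ∑ x, |w x| * Real.exp (|(x.1.valMinAbs : ℝ)| * Real.sqrt R) ≤ A)
    (h0 : c ≤ Gh w 0) (hr : r = R * c / (4 * A)) (hU : 0 < U) (hUr : 4 * U ≤ r) (hU1 : U ≤ 1)
    (hN2 : 2 ≤ N) (hNU : 16 * Real.pi * (n + 1) ≤ N * Real.sqrt U)
    (hδ : ∀ j : ℕ, ej N j ≤ U →
      |(Gh w ((j : ZMod N), 0))⁻¹ - (Gh w 0)⁻¹ - α * ej N j| ≤ δ)
    (hE : E = (LC n + 1) * (δ + 2 * (4 / c + |α| * r) * (2 * U / r) ^ (n + 1))) :
    ∃ a : ℝ, |a - α| ≤ E / U ∧ ∀ j : ℕ, ej N j ≤ U / 2 →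
      |(Gh w ((j : ZMod N), 0))⁻¹ - (Gh w 0)⁻¹ - a * ej N j| ≤ 2 * E * (ej N j / U) ^ 2 := by
  have hNr : (0 : ℝ) < N := by exact_mod_cast Nat.pos_of_ne_zero (NeZero.ne N)
  have hpi := Real.pi_pos
  have hr0 : 0 < r := by linarith
  have hlow : ∀ z : ℂ, ‖z‖ < r → c / 2 ≤ ‖Cx w z‖ := fun z hz =>
    Cx_low w hR hc hA h0 (by rw [← hr]; exact hz.le)
  have hne : ∀ z : ℂ, ‖z‖ < r → Cx w z ≠ 0 := by
    intro z hz h
    have := hlow z hz
    rw [h, norm_zero] at this
    linarith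
  set F : ℂ → ℂ := fun z => (Cx w z)⁻¹ - (Cx w 0)⁻¹ - (α : ℂ) * z with hF
  have hFd : DifferentiableOn ℂ F (Metric.ball 0 r) := by
    refine DifferentiableOn.sub (DifferentiableOn.sub ?_ (differentiableOn_const _)) ?_
    · refine DifferentiableOn.fun_inv (Cx_diff w).differentiableOn fun z hz => ?_
      exact hne z (by rwa [mem_ball_zero_iff] at hz)
    · exact (differentiableOn_const _).mul differentiableOn_id
  have hinv : ∀ z : ℂ, ‖z‖ < r → ‖(Cx w z)⁻¹‖ ≤ 2 / c := by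
    intro z hz
    rw [norm_inv, inv_le_comm₀ (lt_of_lt_of_le (by positivity) (hlow z hz)) (by positivity),
      inv_div]
    exact hlow z hz
  have hFB : ∀ z : ℂ, ‖z‖ < r → ‖F z‖ ≤ 4 / c + |α| * r := by
    intro z hz
    have h1 := hinv z hz
    have h2 := hinv 0 (by simpa using hr0)
    have h3 : ‖(α : ℂ) * z‖ ≤ |α| * r := by
      rw [norm_mul, Complex.norm_real, Real.norm_eq_abs]
      exact mul_le_mul_of_nonneg_left hz.le (abs_nonneg _)
    calc ‖F z‖ ≤ ‖(Cx w z)⁻¹ - (Cx w 0)⁻¹‖ + ‖(α : ℂ) * z‖ := norm_sub_le _ _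
      _ ≤ (‖(Cx w z)⁻¹‖ + ‖(Cx w 0)⁻¹‖) + ‖(α : ℂ) * z‖ := by
          gcongr; exact norm_sub_le _ _
      _ ≤ 4 / c + |α| * r := by
          have : 4 / c = 2 / c + 2 / c := by ring
          linarith
  have hFj : ∀ j : ℕ, F ((ej N j : ℝ) : ℂ) =
      (((Gh w ((j : ZMod N), 0))⁻¹ - (Gh w 0)⁻¹ - α * ej N j : ℝ) : ℂ) := by
    intro j
    rw [hF]
    simp only
    rw [ej_cN, Cx_mom, Cx_zero]
    push_cast
    ring
  -- the nodes
  have hn1 : (0 : ℝ) < n + 1 := by positivity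
  have hsU : 0 < Real.sqrt U := Real.sqrt_pos.2 hU
  have hsq : Real.sqrt U ^ 2 = U := Real.sq_sqrt hU.le
  have hmesh : ∀ i : Fin (n + 1), ∃ j : ℕ, (i : ℝ) * (U / (n + 1)) ≤ ej N j ∧
      ej N j ≤ (i : ℝ) * (U / (n + 1)) + U / (2 * (n + 1)) := by
    intro i
    have hi : (i : ℝ) ≤ n := by exact_mod_cast Nat.lt_succ_iff.1 i.2
    have hiU : (i : ℝ) * (U / (n + 1)) ≤ U := by
      rw [mul_div_assoc', div_le_iff₀ hn1]; nlinarith
    refine mesh (by positivity) (hiU.trans hU1) hN2 ?_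
    have h1 : Real.sqrt ((i : ℝ) * (U / (n + 1))) ≤ Real.sqrt U := Real.sqrt_le_sqrt hiU
    have h2 : 4 * Real.pi / N * Real.sqrt U ≤ U / (4 * (n + 1)) := by
      rw [div_mul_eq_mul_div, div_le_div_iff₀ hNr (by positivity)]
      calc 4 * Real.pi * Real.sqrt U * (4 * (n + 1)) = Real.sqrt U * (16 * Real.pi * (n + 1)) := by
            ring
        _ ≤ Real.sqrt U * (N * Real.sqrt U) := mul_le_mul_of_nonneg_left hNU hsU.le
        _ = U * N := by rw [mul_comm (N : ℝ), ← mul_assoc, Real.mul_self_sqrt hU.le]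
    have h3 : (2 * Real.pi / N) ^ 2 ≤ U / (4 * (n + 1)) := by
      have h4 : 2 * Real.pi / N ≤ Real.sqrt U / (8 * (n + 1)) := by
        rw [div_le_div_iff₀ hNr (by positivity)]
        nlinarith
      have h5 : 0 ≤ 2 * Real.pi / N := by positivity
      calc (2 * Real.pi / N) ^ 2 ≤ (Real.sqrt U / (8 * (n + 1))) ^ 2 := pow_le_pow_left₀ h5 h4 2
        _ = U / (64 * (n + 1) ^ 2) := by rw [div_pow, hsq]; ring
        _ ≤ _ := by
            refine div_le_div_of_nonneg_left hU.le (by positivity) ?_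
            nlinarith
    have h6 : U / (2 * (n + 1)) = U / (4 * (n + 1)) + U / (4 * (n + 1)) := by field_simp; ring
    have h7 : 4 * Real.pi / N * Real.sqrt ((i : ℝ) * (U / (n + 1))) ≤
        4 * Real.pi / N * Real.sqrt U := mul_le_mul_of_nonneg_left h1 (by positivity)
    linarith
  choose jj hj1 hj2 using hmesh
  have hvU : ∀ i, ej N (jj i) ≤ U := by
    intro i
    have hi : (i : ℝ) ≤ n := by exact_mod_cast Nat.lt_succ_iff.1 i.2
    refine (hj2 i).trans ?_
    have : (i : ℝ) * (U / (n + 1)) + U / (2 * (n + 1)) = U * ((2 * i + 1) / (2 * (n + 1))) := by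
      field_simp
    rw [this]
    have h2 : (2 * (i : ℝ) + 1) / (2 * (n + 1)) ≤ 1 := by
      rw [div_le_one (by positivity)]; linarith
    nlinarith
  have hej0 : ∀ j, 0 ≤ ej N j := by
    intro j
    unfold ej
    linarith [Real.cos_le_one (2 * Real.pi * j / N)]
  have hsep : ∀ i j : Fin (n + 1), i ≠ j → U / (4 * (n + 1)) ≤ |ej N (jj i) - ej N (jj j)| := by
    have key : ∀ i j : Fin (n + 1), i < j → U / (4 * (n + 1)) ≤ ej N (jj j) - ej N (jj i) := by
      intro i j hij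
      have h1 : ((i : ℕ) : ℝ) + 1 ≤ j := by exact_mod_cast hij
      have h2 := hj2 i
      have h3 := hj1 j
      have h4 : ((i : ℕ) : ℝ) * (U / (n + 1)) + U / (n + 1) ≤ (j : ℝ) * (U / (n + 1)) := by
        have : 0 < U / (n + 1) := by positivity
        nlinarith
      have h5 : U / (n + 1) = U / (2 * (n + 1)) + U / (2 * (n + 1)) := by field_simp; ring
      have h6 : U / (4 * ((n : ℝ) + 1)) ≤ U / (2 * (n + 1)) :=
        div_le_div_of_nonneg_left hU.le (by positivity) (by linarith)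
      linarith
    intro i j hij
    rcases lt_or_gt_of_ne hij with h | h
    · rw [abs_sub_comm]
      exact (key i j h).trans (le_abs_self _)
    · exact (key j i h).trans (le_abs_self _)
  obtain ⟨-, hd, hq⟩ := interp n hFd hFB hU hUr (fun i => ej N (jj i)) (fun i => hej0 _) hvU hsep
    (δ := δ) (fun i => by
      rw [hFj, Complex.norm_real, Real.norm_eq_abs]
      exact hδ _ (hvU i))
  rw [← hE] at hd hq
  have hF0 : F 0 = 0 := by simp [hF]
  refine ⟨α + (deriv F 0).re, ?_, fun j hj => ?_⟩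
  · have : α + (deriv F 0).re - α = (deriv F 0).re := by ring
    rw [this]
    exact (Complex.abs_re_le_norm _).trans hd
  · have h1 : ‖((ej N j : ℝ) : ℂ)‖ = ej N j := by
      rw [Complex.norm_real, Real.norm_eq_abs, abs_of_nonneg (hej0 j)]
    have h2 := hq ((ej N j : ℝ) : ℂ) (by rw [h1]; exact hj)
    rw [h1, hF0, sub_zero, hFj] at h2
    refine le_trans ?_ h2
    refine le_trans (le_of_eq ?_) (Complex.abs_re_le_norm _)
    congr 1
    rw [Complex.sub_re, Complex.ofReal_re, Complex.re_mul_ofReal]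
    ring

end

end Vale.Agent.P159.H813
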