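import Vale.Agent.P159.H813.Ring
import Vale.Agent.P159.H813.P5

/-!
P159 / P#4: the second order sum `∑_x (1 - cos k x) g(x)` for a kernel with the tail
`g(x) ~ (1/2) e^{-c} (ξ/|x|)^4` between the scales `ξ` and `ξ2`.
-/

namespace Vale.Agent.P159.H813

open Finset Real
open Vale.Agent.P159.TM.H764

noncomputable section

/-! ### exponential sums -/

lemma exp_sum_In {β : ℝ} (hβ : 0 < β) (n : ℕ) :
    ∑ a ∈ In n, exp (-(β * |(a : ℝ)|)) ≤ 1 + 2 / β := by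
  have h1 : ∀ m : ℕ, ∑ a ∈ In m, exp (-(β * |(a : ℝ)|)) =
      1 + 2 * ∑ i ∈ range m, exp (-(β * ((i : ℝ) + 1))) := by
    intro m
    induction m with
    | zero => unfold In; simp
    | succ m ih =>
      rw [sum_In_succ, ih, sum_range_succ]
      have h2 : |(((m : ℤ) + 1 : ℤ) : ℝ)| = (m : ℝ) + 1 := by
        push_cast; rw [abs_of_nonneg (by positivity)]
      have h3 : |((-((m : ℤ) + 1) : ℤ) : ℝ)| = (m : ℝ) + 1 := by
        push_cast; rw [abs_neg, abs_of_nonneg (by positivity)]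
      rw [h2, h3]
      ring
  rw [h1]
  have h4 : ∀ m : ℕ, ∑ i ∈ range m, exp (-(β * ((i : ℝ) + 1))) ≤ 1 / β * (1 - exp (-(β * m))) := by
    intro m
    induction m with
    | zero => simp
    | succ m ih =>
      rw [sum_range_succ]
      push_cast
      have h5 : exp (-(β * m)) = exp (-(β * ((m : ℝ) + 1))) * exp β := by
        rw [← exp_add]; congr 1; ring
      have h6 := add_one_le_exp β
      have h7 := exp_pos (-(β * ((m : ℝ) + 1)))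
      have h8 : exp (-(β * ((m : ℝ) + 1))) ≤ 1 / β * (exp (-(β * m)) -
          exp (-(β * ((m : ℝ) + 1)))) := by
        rw [h5, div_mul_eq_mul_div, le_div_iff₀ hβ]
        nlinarith
      nlinarith
  have h5 := h4 n
  have h6 := exp_pos (-(β * n))
  have h7 : 1 / β * (1 - exp (-(β * n))) ≤ 1 / β := by
    have : 0 < 1 / β := by positivity
    nlinarith
  have h8 : 2 / β = 2 * (1 / β) := by ring
  linarith

lemma exp_sq_sum_In {β : ℝ} (hβ : 0 < β) (n : ℕ) :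
    ∑ a ∈ In n, (a : ℝ) ^ 2 * exp (-(β * |(a : ℝ)|)) ≤ 8 / β ^ 2 * (1 + 4 / β) := by
  have h1 := exp_sum_In (β := β / 2) (by positivity) n
  have h2 : 2 / (β / 2) = 4 / β := by field_simp; norm_num
  rw [h2] at h1
  calc ∑ a ∈ In n, (a : ℝ) ^ 2 * exp (-(β * |(a : ℝ)|))
      ≤ ∑ a ∈ In n, 8 / β ^ 2 * exp (-(β / 2 * |(a : ℝ)|)) := by
        refine sum_le_sum fun a _ => ?_
        have h3 := pow_div_factorial_le_exp (β * |(a : ℝ)| / 2) (by positivity) 2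
        norm_num [Nat.factorial] at h3
        have h4 : exp (-(β / 2 * |(a : ℝ)|)) = exp (-(β * |(a : ℝ)|)) *
            exp (β * |(a : ℝ)| / 2) := by
          rw [← exp_add]; congr 1; ring
        rw [h4]
        have h5 := exp_pos (-(β * |(a : ℝ)|))
        have h6 : (a : ℝ) ^ 2 ≤ 8 / β ^ 2 * exp (β * |(a : ℝ)| / 2) := by
          rw [div_mul_eq_mul_div, le_div_iff₀ (by positivity)]
          have h7 : (β * |(a : ℝ)| / 2) ^ 2 = β ^ 2 * (a : ℝ) ^ 2 / 4 := by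
            rw [div_pow, mul_pow, sq_abs]; norm_num
          rw [h7] at h3
          linarith
        calc (a : ℝ) ^ 2 * exp (-(β * |(a : ℝ)|))
            ≤ (8 / β ^ 2 * exp (β * |(a : ℝ)| / 2)) * exp (-(β * |(a : ℝ)|)) :=
              mul_le_mul_of_nonneg_right h6 h5.le
          _ = _ := by ring
    _ = 8 / β ^ 2 * ∑ a ∈ In n, exp (-(β / 2 * |(a : ℝ)|)) := by rw [mul_sum]
    _ ≤ _ := mul_le_mul_of_nonneg_left h1 (by positivity)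

/-! ### sums over the torus -/

variable {N : ℕ} [NeZero N]

/-- first representative -/
def r1 (x : ZMod N × ZMod N) : ℝ := (x.1.valMinAbs : ℝ)
/-- second representative -/
def r2 (x : ZMod N × ZMod N) : ℝ := (x.2.valMinAbs : ℝ)
/-- squared euclidean norm -/
def sq2 (x : ZMod N × ZMod N) : ℝ := r1 x ^ 2 + r2 x ^ 2
/-- sup norm -/
def mx (x : ZMod N × ZMod N) : ℕ := max x.1.valMinAbs.natAbs x.2.valMinAbs.natAbs

lemma sum_torus (F : ℤ → ℤ → ℝ) :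
    ∑ x : ZMod N × ZMod N, F x.1.valMinAbs x.2.valMinAbs = ∑ a ∈ Wn N, ∑ b ∈ Wn N, F a b := by
  rw [Fintype.sum_prod_type, ← sum_Wn N fun a => ∑ b ∈ Wn N, F a b]
  refine sum_congr rfl fun a _ => ?_
  rw [← sum_Wn N fun b => F a.valMinAbs b]

lemma Wn_sub : Wn N ⊆ In N := by
  intro a ha
  have h := Wn_mem ha
  have hNr : (0 : ℝ) < N := by exact_mod_cast Nat.pos_of_ne_zero (NeZero.ne N)
  have hpi := pi_pos
  rw [mem_In]
  rw [abs_div, abs_mul, abs_of_pos (by positivity : (0 : ℝ) < 2 * π), abs_of_pos hNr,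
    div_le_iff₀ hNr] at h
  have h2 : |(a : ℝ)| ≤ N := by nlinarith
  exact_mod_cast h2

lemma In_sub {n : ℕ} (hn : 2 * n < N) : In n ⊆ Wn N := by
  intro a ha
  by_contra hcon
  have h := Wn_notMem hcon
  have hNr : (0 : ℝ) < N := by exact_mod_cast Nat.pos_of_ne_zero (NeZero.ne N)
  have hpi := pi_pos
  rw [abs_div, abs_mul, abs_of_pos (by positivity : (0 : ℝ) < 2 * π), abs_of_pos hNr,
    le_div_iff₀ hNr] at h
  rw [mem_In] at ha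
  have h2 : |(a : ℝ)| ≤ n := by exact_mod_cast ha
  have h3 : 2 * (n : ℝ) < N := by exact_mod_cast hn
  nlinarith

/-- sums over a box, nonnegative function -/
lemma sum_box_le (n : ℕ) (F : ℤ → ℤ → ℝ) (hF : ∀ a b, 0 ≤ F a b) :
    ∑ x ∈ (univ : Finset (ZMod N × ZMod N)).filter (fun x => mx x ≤ n),
      F x.1.valMinAbs x.2.valMinAbs ≤ ∑ a ∈ In n, ∑ b ∈ In n, F a b := by
  rw [sum_filter]
  have h := sum_torus (N := N) fun a b => if max a.natAbs b.natAbs ≤ n then F a b else 0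
  unfold mx
  rw [h]
  have h2 : ∀ a b : ℤ, (if max a.natAbs b.natAbs ≤ n then F a b else 0) =
      if a ∈ In n then (if b ∈ In n then F a b else 0) else 0 := by
    intro a b
    have ha : a ∈ In n ↔ a.natAbs ≤ n := by rw [mem_In, Int.abs_eq_natAbs]; omega
    have hb : b ∈ In n ↔ b.natAbs ≤ n := by rw [mem_In, Int.abs_eq_natAbs]; omega
    by_cases h1 : a.natAbs ≤ n <;> by_cases h2 : b.natAbs ≤ n <;> simp [ha, hb, h1, h2]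
  simp_rw [h2]
  calc ∑ a ∈ Wn N, ∑ b ∈ Wn N, (if a ∈ In n then (if b ∈ In n then F a b else 0) else 0)
      ≤ ∑ a ∈ Wn N, (if a ∈ In n then ∑ b ∈ In n, F a b else 0) := by
        refine sum_le_sum fun a _ => ?_
        split_ifs with ha
        · rw [← sum_filter, ]
          refine sum_le_sum_of_subset_of_nonneg ?_ fun b _ _ => hF a b
          intro b hb
          exact (mem_filter.1 hb).2
        · simp
    _ ≤ _ := by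
        rw [← sum_filter]
        refine sum_le_sum_of_subset_of_nonneg ?_ fun a _ _ => sum_nonneg fun b _ => hF a b
        intro a ha
        exact (mem_filter.1 ha).2

/-- sums over a box which fits in the torus -/
lemma sum_box_eq {n : ℕ} (hn : 2 * n < N) (F : ℤ → ℤ → ℝ) :
    ∑ x ∈ (univ : Finset (ZMod N × ZMod N)).filter (fun x => mx x ≤ n),
      F x.1.valMinAbs x.2.valMinAbs = ∑ a ∈ In n, ∑ b ∈ In n, F a b := by
  rw [sum_filter]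
  have h := sum_torus (N := N) fun a b => if max a.natAbs b.natAbs ≤ n then F a b else 0
  unfold mx
  rw [h]
  have h2 : ∀ a b : ℤ, (if max a.natAbs b.natAbs ≤ n then F a b else 0) =
      if a ∈ In n then (if b ∈ In n then F a b else 0) else 0 := by
    intro a b
    have ha : a ∈ In n ↔ a.natAbs ≤ n := by rw [mem_In, Int.abs_eq_natAbs]; omega
    have hb : b ∈ In n ↔ b.natAbs ≤ n := by rw [mem_In, Int.abs_eq_natAbs]; omega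
    by_cases h1 : a.natAbs ≤ n <;> by_cases h2 : b.natAbs ≤ n <;> simp [ha, hb, h1, h2]
  simp_rw [h2]
  have hs := In_sub (N := N) hn
  have h3 : ∀ G : ℤ → ℝ, ∑ a ∈ Wn N, (if a ∈ In n then G a else 0) = ∑ a ∈ In n, G a := by
    intro G
    rw [← sum_filter]
    congr 1
    ext a
    simp only [mem_filter]
    exact ⟨fun h => h.2, fun h => ⟨hs h, h⟩⟩
  have h4 : ∀ a : ℤ, ∑ b ∈ Wn N, (if a ∈ In n then (if b ∈ In n then F a b else 0) else 0) =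
      if a ∈ In n then ∑ b ∈ In n, F a b else 0 := by
    intro a
    split_ifs
    · exact h3 _
    · simp
  simp_rw [h4]
  exact h3 _

/-- exponentially decaying second moments over the torus -/
lemma exp_sq_torus {β : ℝ} (hβ : 0 < β) :
    ∑ x : ZMod N × ZMod N, sq2 x * exp (-(β * (|r1 x| + |r2 x|))) ≤
      16 / β ^ 2 * (1 + 4 / β) * (1 + 2 / β) := by
  have h := sum_torus (N := N) fun a b => ((a : ℝ) ^ 2 + (b : ℝ) ^ 2) *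
    exp (-(β * (|(a : ℝ)| + |(b : ℝ)|)))
  unfold sq2 r1 r2
  rw [h]
  have h1 : ∀ a b : ℤ, ((a : ℝ) ^ 2 + (b : ℝ) ^ 2) * exp (-(β * (|(a : ℝ)| + |(b : ℝ)|))) =
      ((a : ℝ) ^ 2 * exp (-(β * |(a : ℝ)|))) * exp (-(β * |(b : ℝ)|)) +
        exp (-(β * |(a : ℝ)|)) * ((b : ℝ) ^ 2 * exp (-(β * |(b : ℝ)|))) := by
    intro a b
    have : exp (-(β * (|(a : ℝ)| + |(b : ℝ)|))) = exp (-(β * |(a : ℝ)|)) *
        exp (-(β * |(b : ℝ)|)) := by rw [← exp_add]; congr 1; ring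
    rw [this]; ring
  simp_rw [h1, sum_add_distrib, ← mul_sum, ← sum_mul]
  set A := ∑ a ∈ Wn N, (a : ℝ) ^ 2 * exp (-(β * |(a : ℝ)|)) with hA
  set D := ∑ a ∈ Wn N, exp (-(β * |(a : ℝ)|)) with hD
  have hA1 : A ≤ 8 / β ^ 2 * (1 + 4 / β) :=
    (sum_le_sum_of_subset_of_nonneg Wn_sub fun a _ _ => by positivity).trans (exp_sq_sum_In hβ N)
  have hD1 : D ≤ 1 + 2 / β :=
    (sum_le_sum_of_subset_of_nonneg Wn_sub fun a _ _ => by positivity).trans (exp_sum_In hβ N)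
  have hA0 : 0 ≤ A := sum_nonneg fun a _ => by positivity
  have hD0 : 0 ≤ D := sum_nonneg fun a _ => by positivity
  have h2 : A * D ≤ 8 / β ^ 2 * (1 + 4 / β) * (1 + 2 / β) :=
    mul_le_mul hA1 hD1 hD0 (by positivity)
  have h3 : 16 / β ^ 2 * (1 + 4 / β) * (1 + 2 / β) =
      2 * (8 / β ^ 2 * (1 + 4 / β) * (1 + 2 / β)) := by ring
  rw [h3, mul_comm D A]
  linarith

/-! ### the core estimate -/

lemma cN_mul (j : ZMod N) (x : ZMod N × ZMod N) : cN (j * x.1) = cos (r1 x * pw j) := by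
  have h2 : ((j.valMinAbs : ℤ) : ZMod N) = j := ZMod.coe_valMinAbs j
  have h3 : ((x.1.valMinAbs : ℤ) : ZMod N) = x.1 := ZMod.coe_valMinAbs x.1
  conv_lhs => rw [← h2, ← h3]
  rw [← Int.cast_mul, cN_int]
  unfold pw r1
  congr 1
  push_cast
  ring

lemma box_card (n : ℕ) : ∑ _a ∈ In n, ∑ _b ∈ In n, (1 : ℝ) = (2 * (n : ℝ) + 1) ^ 2 := by
  have h : (In n).card = 2 * n + 1 := by
    unfold In
    rw [Int.card_Icc]
    omega
  rw [sum_const, sum_const, h]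
  simp only [nsmul_eq_mul, mul_one]
  push_cast
  ring

lemma box_half (n : ℕ) : ∑ a ∈ In n, ∑ b ∈ In n, (a : ℝ) ^ 2 / ((a : ℝ) ^ 2 + (b : ℝ) ^ 2) ^ 2 =
    Bx n / 2 := by
  set S := ∑ a ∈ In n, ∑ b ∈ In n, (a : ℝ) ^ 2 / ((a : ℝ) ^ 2 + (b : ℝ) ^ 2) ^ 2 with hS
  have h1 : S = ∑ a ∈ In n, ∑ b ∈ In n, (b : ℝ) ^ 2 / ((a : ℝ) ^ 2 + (b : ℝ) ^ 2) ^ 2 := by
    rw [hS, sum_comm]
    refine sum_congr rfl fun b _ => sum_congr rfl fun a _ => ?_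
    rw [add_comm]
  have h2 : S + S = Bx n := by
    nth_rewrite 2 [h1]
    rw [hS, ← sum_add_distrib]
    unfold Bx iv
    refine sum_congr rfl fun a _ => ?_
    rw [← sum_add_distrib]
    refine sum_congr rfl fun b _ => ?_
    rw [← add_div]
    rcases eq_or_ne ((a : ℝ) ^ 2 + (b : ℝ) ^ 2) 0 with h | h
    · rw [h]; simp
    · field_simp
  linarith

lemma abs_r1_le (x : ZMod N × ZMod N) : |r1 x| ≤ mx x := by
  unfold r1 mx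
  have h : |((x.1.valMinAbs : ℤ) : ℝ)| = (x.1.valMinAbs.natAbs : ℝ) := by
    rw [← Int.cast_abs, Int.abs_eq_natAbs]; simp
  rw [h]
  exact_mod_cast le_max_left _ _

lemma r1_sq_le (x : ZMod N × ZMod N) : r1 x ^ 2 ≤ sq2 x := by
  unfold sq2; nlinarith [sq_nonneg (r2 x)]

lemma sq2_nonneg (x : ZMod N × ZMod N) : 0 ≤ sq2 x := by unfold sq2; positivity

/-- `|1 - cos u - u²/2| ≤ u⁴/2` and `0 ≤ 1 - cos u ≤ u²/2` -/
lemma one_sub_cos_bd (u : ℝ) : 0 ≤ 1 - cos u ∧ 1 - cos u ≤ u ^ 2 / 2 ∧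
    |1 - cos u - u ^ 2 / 2| ≤ u ^ 4 / 2 := by
  have h1 := cos_le_one u
  have h2 := one_sub_sq_div_two_le_cos (x := u)
  have h3 := cos_quart u
  refine ⟨by linarith, by linarith, ?_⟩
  rw [abs_le]
  have : 0 ≤ u ^ 4 := by positivity
  constructor <;> linarith

/-- main term -/
def Mt (n1 n2 : ℕ) (A : ℝ) (x : ZMod N × ZMod N) : ℝ :=
  if n1 < mx x ∧ mx x ≤ n2 then A * (r1 x ^ 2 / sq2 x ^ 2) else 0

lemma Mt_sum {n1 n2 : ℕ} (h12 : n1 ≤ n2) (hn2 : 2 * n2 < N) (A : ℝ) :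
    ∑ x : ZMod N × ZMod N, Mt n1 n2 A x = A / 2 * (Bx n2 - Bx n1) := by
  have hn1N : 2 * n1 < N := by omega
  have e2 := sum_box_eq (N := N) hn2 fun a b => (a : ℝ) ^ 2 / ((a : ℝ) ^ 2 + (b : ℝ) ^ 2) ^ 2
  have e1 := sum_box_eq (N := N) hn1N fun a b => (a : ℝ) ^ 2 / ((a : ℝ) ^ 2 + (b : ℝ) ^ 2) ^ 2
  rw [box_half] at e1 e2
  have e3 : ∑ x : ZMod N × ZMod N, Mt n1 n2 A x = A * (∑ x : ZMod N × ZMod N, ((if mx x ≤ n2 then
      r1 x ^ 2 / sq2 x ^ 2 else 0) - (if mx x ≤ n1 then r1 x ^ 2 / sq2 x ^ 2 else 0))) := by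
    rw [mul_sum]
    refine sum_congr rfl fun x _ => ?_
    unfold Mt
    by_cases ha : mx x ≤ n1
    · have hb : mx x ≤ n2 := ha.trans h12
      have hc : ¬ (n1 < mx x) := not_lt.2 ha
      simp [ha, hb, hc]
    · have hc : n1 < mx x := not_le.1 ha
      by_cases hb : mx x ≤ n2 <;> simp [ha, hb, hc]
  rw [e3, sum_sub_distrib, ← sum_filter, ← sum_filter]
  have e4 : ∑ x ∈ (univ : Finset (ZMod N × ZMod N)).filter (fun x => mx x ≤ n2),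
      r1 x ^ 2 / sq2 x ^ 2 = Bx n2 / 2 := e2
  have e5 : ∑ x ∈ (univ : Finset (ZMod N × ZMod N)).filter (fun x => mx x ≤ n1),
      r1 x ^ 2 / sq2 x ^ 2 = Bx n1 / 2 := e1
  rw [e4, e5]
  ring

lemma Mt_nonneg (n1 n2 : ℕ) {A : ℝ} (hA : 0 ≤ A) (x : ZMod N × ZMod N) : 0 ≤ Mt n1 n2 A x := by
  unfold Mt
  split_ifs
  · have := sq2_nonneg x; positivity
  · exact le_rfl

/-- indicator of a box -/
def Ib (n : ℕ) (A : ℝ) (x : ZMod N × ZMod N) : ℝ := if mx x ≤ n then A else 0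

lemma Ib_nonneg (n : ℕ) {A : ℝ} (hA : 0 ≤ A) (x : ZMod N × ZMod N) : 0 ≤ Ib n A x := by
  unfold Ib; split_ifs <;> [exact hA; exact le_rfl]

lemma Ib_sum (n : ℕ) {A : ℝ} (hA : 0 ≤ A) :
    ∑ x : ZMod N × ZMod N, Ib n A x ≤ A * (2 * (n : ℝ) + 1) ^ 2 := by
  have e : ∑ x : ZMod N × ZMod N, Ib n A x = A *
      ∑ x ∈ (univ : Finset (ZMod N × ZMod N)).filter (fun x => mx x ≤ n), (1 : ℝ) := by
    rw [mul_sum, sum_filter]
    refine sum_congr rfl fun x _ => ?_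
    unfold Ib; split_ifs <;> simp
  have e2 := sum_box_le (N := N) n (fun _ _ => (1 : ℝ)) (fun _ _ => zero_le_one)
  rw [box_card] at e2
  rw [e]
  exact mul_le_mul_of_nonneg_left e2 hA

/-- exponentially decaying error -/
def Et (A β : ℝ) (x : ZMod N × ZMod N) : ℝ := A * (sq2 x * exp (-(β * (|r1 x| + |r2 x|))))

lemma Et_nonneg {A : ℝ} (hA : 0 ≤ A) (β : ℝ) (x : ZMod N × ZMod N) : 0 ≤ Et A β x := by
  unfold Et
  have := sq2_nonneg x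
  positivity

lemma Et_sum {A c1 ξ2 : ℝ} (hA : 0 ≤ A) (hc1 : 0 < c1) (hξ2 : 1 ≤ ξ2) :
    ∑ x : ZMod N × ZMod N, Et A (c1 / ξ2) x ≤
      A * (16 / c1 ^ 2 * (1 + 4 / c1) * (1 + 2 / c1)) * ξ2 ^ 4 := by
  have hξ20 : 0 < ξ2 := by linarith
  unfold Et
  rw [← mul_sum, mul_assoc]
  refine mul_le_mul_of_nonneg_left ?_ hA
  refine (exp_sq_torus (N := N) (β := c1 / ξ2) (by positivity)).trans ?_
  have e6 : 1 + 4 / (c1 / ξ2) ≤ (1 + 4 / c1) * ξ2 := by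
    have : 4 / (c1 / ξ2) = 4 / c1 * ξ2 := by field_simp
    rw [this, add_mul, one_mul]; linarith
  have e7 : 1 + 2 / (c1 / ξ2) ≤ (1 + 2 / c1) * ξ2 := by
    have : 2 / (c1 / ξ2) = 2 / c1 * ξ2 := by field_simp
    rw [this, add_mul, one_mul]; linarith
  have e8 : 16 / (c1 / ξ2) ^ 2 = 16 / c1 ^ 2 * ξ2 ^ 2 := by field_simp
  rw [e8]
  calc 16 / c1 ^ 2 * ξ2 ^ 2 * (1 + 4 / (c1 / ξ2)) * (1 + 2 / (c1 / ξ2))
      ≤ 16 / c1 ^ 2 * ξ2 ^ 2 * ((1 + 4 / c1) * ξ2) * ((1 + 2 / c1) * ξ2) := by gcongr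
    _ = _ := by ring

/-- pointwise bound in the annulus -/
lemma pt_mid {n2 : ℕ} {x : ZMod N × ZMod N} {θ ξ ξ2 q ε C5 G : ℝ} (hmxp : 0 < mx x)
    (hb : mx x ≤ n2) (hξ : 0 < ξ) (hξ2 : 0 < ξ2) (hq : 0 ≤ q) (hε : 0 ≤ ε) (hC5 : 0 ≤ C5)
    (hg : |G - q / 2 * (ξ ^ 4 / sq2 x ^ 2)| ≤
      ε * (q / 2) * (ξ ^ 4 / sq2 x ^ 2) + C5 * (ξ / ξ2) ^ 4 * (ξ2 / mx x)) :
    |(1 - cos (r1 x * θ)) * G - q / 4 * ξ ^ 4 * θ ^ 2 * (r1 x ^ 2 / sq2 x ^ 2)| ≤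
      ε * (q / 4 * ξ ^ 4 * θ ^ 2 * (r1 x ^ 2 / sq2 x ^ 2)) +
        (θ ^ 2 / 2 * C5 * (ξ / ξ2) ^ 4 * ξ2 * n2 + θ ^ 4 / 4 * q * ξ ^ 4) := by
  have hc := one_sub_cos_bd (r1 x * θ)
  have hr1 := abs_r1_le x
  have hmx0 : (0 : ℝ) < mx x := by exact_mod_cast hmxp
  have hr1sq : r1 x ^ 2 ≤ (mx x : ℝ) ^ 2 := by
    rw [← sq_abs]; exact pow_le_pow_left₀ (abs_nonneg _) hr1 2
  have hs0 := sq2_nonneg x
  have hdec : (1 - cos (r1 x * θ)) * G - q / 4 * ξ ^ 4 * θ ^ 2 * (r1 x ^ 2 / sq2 x ^ 2) =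
      (1 - cos (r1 x * θ)) * (G - q / 2 * (ξ ^ 4 / sq2 x ^ 2)) +
      (1 - cos (r1 x * θ) - (r1 x * θ) ^ 2 / 2) * (q / 2 * (ξ ^ 4 / sq2 x ^ 2)) := by ring
  have hmain0 : 0 ≤ q / 2 * (ξ ^ 4 / sq2 x ^ 2) := by positivity
  have h7 : |(1 - cos (r1 x * θ)) * G - q / 4 * ξ ^ 4 * θ ^ 2 * (r1 x ^ 2 / sq2 x ^ 2)| ≤
      ((r1 x * θ) ^ 2 / 2) * (ε * (q / 2) * (ξ ^ 4 / sq2 x ^ 2) +
      C5 * (ξ / ξ2) ^ 4 * (ξ2 / mx x)) + ((r1 x * θ) ^ 4 / 2) *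
        (q / 2 * (ξ ^ 4 / sq2 x ^ 2)) := by
    rw [hdec]
    refine (abs_add_le _ _).trans (add_le_add ?_ ?_)
    · rw [abs_mul, abs_of_nonneg hc.1]
      exact mul_le_mul hc.2.1 hg (abs_nonneg _) (by positivity)
    · rw [abs_mul, abs_of_nonneg hmain0]
      exact mul_le_mul_of_nonneg_right hc.2.2 hmain0
  have h8 : r1 x ^ 2 / mx x ≤ n2 := by
    rw [div_le_iff₀ hmx0]
    have : (mx x : ℝ) ≤ n2 := by exact_mod_cast hb
    nlinarith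
  have h9 : r1 x ^ 4 / sq2 x ^ 2 ≤ 1 := by
    rcases eq_or_lt_of_le hs0 with h | h
    · rw [← h]; simp
    · rw [div_le_one (by positivity)]
      have := r1_sq_le x
      have h10 : r1 x ^ 4 = (r1 x ^ 2) ^ 2 := by ring
      rw [h10]
      exact pow_le_pow_left₀ (by positivity) this 2
  have h11 : ((r1 x * θ) ^ 2 / 2) * (ε * (q / 2) * (ξ ^ 4 / sq2 x ^ 2) +
      C5 * (ξ / ξ2) ^ 4 * (ξ2 / mx x)) + ((r1 x * θ) ^ 4 / 2) *
        (q / 2 * (ξ ^ 4 / sq2 x ^ 2)) =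
      ε * (q / 4 * ξ ^ 4 * θ ^ 2 * (r1 x ^ 2 / sq2 x ^ 2)) + θ ^ 2 / 2 * C5 * (ξ / ξ2) ^ 4 * ξ2 *
        (r1 x ^ 2 / mx x) + θ ^ 4 / 4 * q * ξ ^ 4 * (r1 x ^ 4 / sq2 x ^ 2) := by
    ring
  rw [h11] at h7
  have h12 : θ ^ 2 / 2 * C5 * (ξ / ξ2) ^ 4 * ξ2 * (r1 x ^ 2 / mx x) ≤
      θ ^ 2 / 2 * C5 * (ξ / ξ2) ^ 4 * ξ2 * n2 :=
    mul_le_mul_of_nonneg_left h8 (by positivity)
  have h13 : θ ^ 4 / 4 * q * ξ ^ 4 * (r1 x ^ 4 / sq2 x ^ 2) ≤ θ ^ 4 / 4 * q * ξ ^ 4 * 1 :=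
    mul_le_mul_of_nonneg_left h9 (by positivity)
  linarith

lemma pt_near {n1 : ℕ} {x : ZMod N × ZMod N} {θ G : ℝ} (ha : mx x ≤ n1) (hg : |G| ≤ 1 / 2) :
    |(1 - cos (r1 x * θ)) * G| ≤ θ ^ 2 / 4 * n1 ^ 2 := by
  have hc := one_sub_cos_bd (r1 x * θ)
  have hr1 := abs_r1_le x
  have hr1sq : r1 x ^ 2 ≤ (mx x : ℝ) ^ 2 := by
    rw [← sq_abs]; exact pow_le_pow_left₀ (abs_nonneg _) hr1 2
  have h6 : (mx x : ℝ) ^ 2 ≤ (n1 : ℝ) ^ 2 := by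
    have : (mx x : ℝ) ≤ n1 := by exact_mod_cast ha
    exact pow_le_pow_left₀ (by positivity) this 2
  rw [abs_mul, abs_of_nonneg hc.1]
  calc (1 - cos (r1 x * θ)) * |G| ≤ ((r1 x * θ) ^ 2 / 2) * (1 / 2) :=
        mul_le_mul hc.2.1 hg (abs_nonneg _) (by positivity)
    _ = θ ^ 2 / 4 * r1 x ^ 2 := by ring
    _ ≤ _ := mul_le_mul_of_nonneg_left (hr1sq.trans h6) (by positivity)

lemma pt_far {x : ZMod N × ZMod N} {θ G H : ℝ} (hg : |G| ≤ H) :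
    |(1 - cos (r1 x * θ)) * G| ≤ θ ^ 2 / 2 * (r1 x ^ 2 * H) := by
  have hc := one_sub_cos_bd (r1 x * θ)
  rw [abs_mul, abs_of_nonneg hc.1]
  calc (1 - cos (r1 x * θ)) * |G| ≤ ((r1 x * θ) ^ 2 / 2) * H :=
        mul_le_mul hc.2.1 hg (abs_nonneg _) (by positivity)
    _ = _ := by ring

theorem P4_core {n1 n2 : ℕ} (hn1 : 1 ≤ n1) (h12 : n1 ≤ n2) (hn2 : 2 * n2 < N)
    {ξ ξ2 q ε B1 C2 C5 C7 : ℝ} (hξ : 0 < ξ) (hξ2 : 1 ≤ ξ2) (hq : 0 ≤ q) (hε : 0 ≤ ε)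
    (hC5 : 0 ≤ C5)
    (hB1 : (n1 : ℝ) ≤ B1 * ξ) (hn2ξ : (n2 : ℝ) ≤ ξ2) {j : ZMod N} (hj : |pw j| * ξ2 ≤ C2)
    {g H : ZMod N × ZMod N → ℝ} (hH0 : ∀ x, 0 ≤ H x)
    (h1 : ∀ x, mx x ≤ n1 → |g x| ≤ 1 / 2)
    (h2 : ∀ x, n1 < mx x → mx x ≤ n2 → |g x - q / 2 * (ξ ^ 4 / sq2 x ^ 2)| ≤
      ε * (q / 2) * (ξ ^ 4 / sq2 x ^ 2) + C5 * (ξ / ξ2) ^ 4 * (ξ2 / mx x))
    (h3 : ∀ x, n2 < mx x → |g x| ≤ H x) (hH : ∑ x, r1 x ^ 2 * H x ≤ 2 * C7 * ξ ^ 4) :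
    |∑ x, (1 - cN (j * x.1)) * g x - q / 8 * ξ ^ 4 * pw j ^ 2 * (Bx n2 - Bx n1)| ≤
      ξ ^ 4 * pw j ^ 2 * (ε * (q / 8) * (Bx n2 - Bx n1) +
        (9 / 4 * B1 ^ 4 + 9 / 2 * C5 + 9 / 4 * q * C2 ^ 2 + C7)) := by
  set θ := pw j with hθ
  have hξ20 : 0 < ξ2 := by linarith
  set A := q / 4 * ξ ^ 4 * θ ^ 2 with hA
  have hA0 : 0 ≤ A := by positivity
  set A1 := θ ^ 2 / 4 * (n1 : ℝ) ^ 2 with hA1
  set A3 := θ ^ 2 / 2 * C5 * (ξ / ξ2) ^ 4 * ξ2 * n2 + θ ^ 4 / 4 * q * ξ ^ 4 with hA3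
  have hA10 : 0 ≤ A1 := by positivity
  have hA30 : 0 ≤ A3 := by positivity
  have hpt : ∀ x : ZMod N × ZMod N, |(1 - cN (j * x.1)) * g x - Mt n1 n2 A x| ≤
      Ib n1 A1 x + ε * Mt n1 n2 A x + Ib n2 A3 x + θ ^ 2 / 2 * (r1 x ^ 2 * H x) := by
    intro x
    rw [cN_mul, ← hθ]
    have e1 := Ib_nonneg n1 hA10 x
    have e2 := mul_nonneg hε (Mt_nonneg n1 n2 hA0 x)
    have e3 := Ib_nonneg n2 hA30 x
    have e4 : 0 ≤ θ ^ 2 / 2 * (r1 x ^ 2 * H x) := by have := hH0 x; positivity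
    by_cases ha : mx x ≤ n1
    · have hMx : Mt n1 n2 A x = 0 := by
        unfold Mt; rw [if_neg]; intro h; omega
      have hE1x : Ib n1 A1 x = A1 := by unfold Ib; simp [ha]
      have h5 := pt_near (θ := θ) ha (h1 x ha)
      rw [hMx] at e2 ⊢
      rw [sub_zero, hE1x]
      linarith
    · have ha' : n1 < mx x := not_le.1 ha
      by_cases hb : mx x ≤ n2
      · have hMx : Mt n1 n2 A x = A * (r1 x ^ 2 / sq2 x ^ 2) := by
          unfold Mt; rw [if_pos ⟨ha', hb⟩]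
        have hE3x : Ib n2 A3 x = A3 := by unfold Ib; simp [hb]
        have h5 := pt_mid (θ := θ) (by omega) hb hξ hξ20 hq hε hC5 (h2 x ha' hb)
        rw [← hA, ← hA3] at h5
        rw [hMx] at e2 ⊢
        rw [hE3x]
        linarith
      · have hb' : n2 < mx x := not_le.1 hb
        have hMx : Mt n1 n2 A x = 0 := by
          unfold Mt; rw [if_neg]; intro h; omega
        have h5 := pt_far (x := x) (θ := θ) (h3 x hb')
        rw [hMx] at e2 ⊢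
        rw [sub_zero]
        linarith
  have hsum : |∑ x : ZMod N × ZMod N, (1 - cN (j * x.1)) * g x -
      ∑ x : ZMod N × ZMod N, Mt n1 n2 A x| ≤
      ∑ x : ZMod N × ZMod N, Ib n1 A1 x + ε * ∑ x : ZMod N × ZMod N, Mt n1 n2 A x +
        ∑ x : ZMod N × ZMod N, Ib n2 A3 x +
        θ ^ 2 / 2 * ∑ x : ZMod N × ZMod N, r1 x ^ 2 * H x := by
    rw [← sum_sub_distrib, mul_sum, mul_sum, ← sum_add_distrib, ← sum_add_distrib,
      ← sum_add_distrib]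
    refine (abs_sum_le_sum_abs _ _).trans (sum_le_sum fun x _ => ?_)
    exact hpt x
  rw [Mt_sum h12 hn2] at hsum
  have hn1r : (1 : ℝ) ≤ n1 := by exact_mod_cast hn1
  have hn2r : (1 : ℝ) ≤ n2 := by exact_mod_cast hn1.trans h12
  have hS1 : ∑ x : ZMod N × ZMod N, Ib n1 A1 x ≤ 9 / 4 * B1 ^ 4 * (ξ ^ 4 * θ ^ 2) := by
    refine (Ib_sum n1 hA10).trans ?_
    have e3 : (2 * (n1 : ℝ) + 1) ^ 2 ≤ 9 * n1 ^ 2 := by nlinarith
    have e4 : (n1 : ℝ) ^ 4 ≤ (B1 * ξ) ^ 4 := pow_le_pow_left₀ (by positivity) hB1 4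
    calc A1 * (2 * (n1 : ℝ) + 1) ^ 2 ≤ A1 * (9 * n1 ^ 2) := mul_le_mul_of_nonneg_left e3 hA10
      _ = 9 / 4 * θ ^ 2 * (n1 : ℝ) ^ 4 := by rw [hA1]; ring
      _ ≤ 9 / 4 * θ ^ 2 * (B1 * ξ) ^ 4 := mul_le_mul_of_nonneg_left e4 (by positivity)
      _ = _ := by ring
  have hS3 : ∑ x : ZMod N × ZMod N, Ib n2 A3 x ≤
      (9 / 2 * C5 + 9 / 4 * q * C2 ^ 2) * (ξ ^ 4 * θ ^ 2) := by
    refine (Ib_sum n2 hA30).trans ?_
    have e3 : (2 * (n2 : ℝ) + 1) ^ 2 ≤ 9 * ξ2 ^ 2 := by nlinarith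
    have e5 : θ ^ 2 * ξ2 ^ 2 ≤ C2 ^ 2 := by
      have : (|θ| * ξ2) ^ 2 ≤ C2 ^ 2 := pow_le_pow_left₀ (by positivity) hj 2
      rwa [mul_pow, sq_abs] at this
    have e6 : A3 ≤ θ ^ 2 / 2 * C5 * (ξ / ξ2) ^ 4 * ξ2 * ξ2 + θ ^ 4 / 4 * q * ξ ^ 4 := by
      rw [hA3]
      have : θ ^ 2 / 2 * C5 * (ξ / ξ2) ^ 4 * ξ2 * n2 ≤
          θ ^ 2 / 2 * C5 * (ξ / ξ2) ^ 4 * ξ2 * ξ2 :=
        mul_le_mul_of_nonneg_left hn2ξ (by positivity)
      linarith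
    calc A3 * (2 * (n2 : ℝ) + 1) ^ 2
        ≤ (θ ^ 2 / 2 * C5 * (ξ / ξ2) ^ 4 * ξ2 * ξ2 + θ ^ 4 / 4 * q * ξ ^ 4) * (9 * ξ2 ^ 2) :=
          mul_le_mul e6 e3 (by positivity) (hA30.trans e6)
      _ = 9 / 2 * C5 * (ξ ^ 4 * θ ^ 2) + 9 / 4 * q * (ξ ^ 4 * θ ^ 2) * (θ ^ 2 * ξ2 ^ 2) := by
          field_simp
      _ ≤ 9 / 2 * C5 * (ξ ^ 4 * θ ^ 2) + 9 / 4 * q * (ξ ^ 4 * θ ^ 2) * C2 ^ 2 := by
          have := mul_le_mul_of_nonneg_left e5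
            (by positivity : 0 ≤ 9 / 4 * q * (ξ ^ 4 * θ ^ 2))
          linarith
      _ = _ := by ring
  have hS4 : θ ^ 2 / 2 * ∑ x : ZMod N × ZMod N, r1 x ^ 2 * H x ≤ C7 * (ξ ^ 4 * θ ^ 2) := by
    calc θ ^ 2 / 2 * ∑ x : ZMod N × ZMod N, r1 x ^ 2 * H x
        ≤ θ ^ 2 / 2 * (2 * C7 * ξ ^ 4) := mul_le_mul_of_nonneg_left hH (by positivity)
      _ = _ := by ring
  have hm : A / 2 = q / 8 * ξ ^ 4 * θ ^ 2 := by rw [hA]; ring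
  rw [hm] at hsum
  refine hsum.trans ?_
  have : ξ ^ 4 * θ ^ 2 * (ε * (q / 8) * (Bx n2 - Bx n1) +
        (9 / 4 * B1 ^ 4 + 9 / 2 * C5 + 9 / 4 * q * C2 ^ 2 + C7)) =
      9 / 4 * B1 ^ 4 * (ξ ^ 4 * θ ^ 2) + ε * (q / 8 * ξ ^ 4 * θ ^ 2 * (Bx n2 - Bx n1)) +
      (9 / 2 * C5 + 9 / 4 * q * C2 ^ 2) * (ξ ^ 4 * θ ^ 2) + C7 * (ξ ^ 4 * θ ^ 2) := by ring
  rw [this]
  linarith

end

end Vale.Agent.P159.H813
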