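import Vale.Agent.P159.H813.P5
import Vale.Agent.P159.H813.P4core

/-!
P159 / P#5', two dimensional form: the self energy of an exponentially decaying symmetric kernel is
`a EE k` up to a quartic term for ALL small momenta, as soon as it is close to `α EE k` for them.
-/

namespace Vale.Agent.P159.H813

open Finset
open Vale.Agent.P159.TM.H764

noncomputable section

/-! ### even functions -/

lemma tc_odd {F : ℂ → ℂ} (hF : ∀ z, F (-z) = F z) {i : ℕ} (hi : Odd i) : tc F i = 0 := by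
  unfold tc
  have h : (fun z => F (-z)) = F := funext hF
  have h2 := iteratedDeriv_comp_neg i F 0
  rw [h, neg_zero, hi.neg_one_pow, neg_smul, one_smul] at h2
  have h3 : iteratedDeriv i F 0 = 0 := by
    have h4 : iteratedDeriv i F 0 + iteratedDeriv i F 0 = 0 := by
      nth_rewrite 1 [h2]
      exact neg_add_cancel _
    have h5 : (2 : ℂ) * iteratedDeriv i F 0 = 0 := by rw [two_mul]; exact h4
    simpa using h5
  rw [h3, mul_zero]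

lemma even_rem {F : ℂ → ℂ} {r T E : ℝ} (hT : 0 < T) (hTr : T < r)
    (hF : DifferentiableOn ℂ F (Metric.ball 0 r)) (hE : ∀ z, ‖z‖ ≤ T → ‖F z‖ ≤ E)
    (hev : ∀ z, F (-z) = F z) (h0 : F 0 = 0) :
    ‖tc F 2‖ ≤ E / T ^ 2 ∧ ∀ z, ‖z‖ ≤ T / 2 → ‖F z - tc F 2 * z ^ 2‖ ≤ 2 * E * (‖z‖ / T) ^ 4 := by
  refine ⟨tc_le hT hTr hF hE 2, fun z hz => ?_⟩
  have h := taylor_tail hT hTr hF hE 4 hz
  have h1 : tc F 1 = 0 := tc_odd hev (by decide)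
  have h3 : tc F 3 = 0 := tc_odd hev (by decide)
  rw [Finset.sum_range_succ, Finset.sum_range_succ, Finset.sum_range_succ,
    Finset.sum_range_one, tc_zero, h0, h1, h3] at h
  simpa using h

lemma zero_of_small {x K t0 : ℝ} (ht0 : 0 < t0) (hx : 0 ≤ x)
    (h : ∀ t : ℝ, 0 < t → t ≤ t0 → x ≤ K * t ^ 2) : x = 0 := by
  by_contra hne
  have hx0 : 0 < x := lt_of_le_of_ne hx (Ne.symm hne)
  have hK : 0 < 2 * |K| + 1 := by positivity
  set s := Real.sqrt (x / (2 * |K| + 1)) with hs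
  have hs0 : 0 < s := Real.sqrt_pos.2 (by positivity)
  have h1 := h (min t0 s) (lt_min ht0 hs0) (min_le_left _ _)
  have h2 : (min t0 s) ^ 2 ≤ x / (2 * |K| + 1) := by
    have h3 : (min t0 s) ^ 2 ≤ s ^ 2 :=
      pow_le_pow_left₀ (lt_min ht0 hs0).le (min_le_right _ _) 2
    rwa [hs, Real.sq_sqrt (by positivity)] at h3
  have h4 : K * (min t0 s) ^ 2 ≤ |K| * (x / (2 * |K| + 1)) :=
    mul_le_mul (le_abs_self K) h2 (by positivity) (abs_nonneg K)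
  have h5 : |K| * (x / (2 * |K| + 1)) < x := by
    rw [mul_div_assoc', div_lt_iff₀ hK]
    nlinarith [abs_nonneg K]
  linarith

lemma tc2_eq {F : ℂ → ℂ} {r T E : ℝ} (hT : 0 < T) (hTr : T < r)
    (hF : DifferentiableOn ℂ F (Metric.ball 0 r)) (hE : ∀ z, ‖z‖ ≤ T → ‖F z‖ ≤ E)
    (hev : ∀ z, F (-z) = F z) (h0 : F 0 = 0) {b : ℂ} {K t0 : ℝ} (ht0 : 0 < t0)
    (h : ∀ t : ℝ, 0 < t → t ≤ t0 → ‖F (t : ℂ) - b * (t : ℂ) ^ 2‖ ≤ K * t ^ 4) : tc F 2 = b := by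
  obtain ⟨-, h2⟩ := even_rem hT hTr hF hE hev h0
  have h3 : ‖tc F 2 - b‖ = 0 := by
    refine zero_of_small (K := K + 2 * E / T ^ 4) (t0 := min t0 (T / 2))
      (lt_min ht0 (by positivity)) (norm_nonneg _) fun t ht htt => ?_
    have a1 := h t ht (htt.trans (min_le_left _ _))
    have hn : ‖(t : ℂ)‖ = t := by rw [Complex.norm_real, Real.norm_eq_abs, abs_of_pos ht]
    have a2 := h2 (t : ℂ) (by rw [hn]; exact htt.trans (min_le_right _ _))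
    rw [hn] at a2
    have a3 : ‖(tc F 2 - b) * (t : ℂ) ^ 2‖ ≤ K * t ^ 4 + 2 * E * (t / T) ^ 4 := by
      have e : (tc F 2 - b) * (t : ℂ) ^ 2 =
          (F (t : ℂ) - b * (t : ℂ) ^ 2) - (F (t : ℂ) - tc F 2 * (t : ℂ) ^ 2) := by ring
      rw [e]
      exact (norm_sub_le _ _).trans (add_le_add a1 a2)
    rw [norm_mul, norm_pow, hn] at a3
    have a4 : K * t ^ 4 + 2 * E * (t / T) ^ 4 = (K + 2 * E / T ^ 4) * t ^ 2 * t ^ 2 := by
      rw [div_pow]; ring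
    rw [a4] at a3
    exact le_of_mul_le_mul_right a3 (by positivity)
  exact sub_eq_zero.1 (norm_eq_zero.1 h3)

/-! ### the transform along a line of momenta -/

variable {N : ℕ} [NeZero N]

/-- phase -/
def lin (θ : ℝ × ℝ) (x : ZMod N × ZMod N) : ℝ := θ.1 * r1 x + θ.2 * r2 x

/-- the transform along the line `t θ` -/
def Gc (w : ZMod N × ZMod N → ℝ) (θ : ℝ × ℝ) (t : ℂ) : ℂ :=
  ∑ x, (w x : ℂ) * Complex.cos (t * (lin θ x : ℂ))

/-- real version -/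
def gR (w : ZMod N × ZMod N → ℝ) (θ : ℝ × ℝ) (t : ℝ) : ℝ := ∑ x, w x * Real.cos (t * lin θ x)

lemma Gc_ofReal (w : ZMod N × ZMod N → ℝ) (θ : ℝ × ℝ) (t : ℝ) :
    Gc w θ (t : ℂ) = ((gR w θ t : ℝ) : ℂ) := by
  unfold Gc gR
  rw [Complex.ofReal_sum]
  refine sum_congr rfl fun x _ => ?_
  rw [Complex.ofReal_mul, Complex.ofReal_cos, Complex.ofReal_mul]

lemma Gc_even (w : ZMod N × ZMod N → ℝ) (θ : ℝ × ℝ) (t : ℂ) : Gc w θ (-t) = Gc w θ t := by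
  unfold Gc
  refine sum_congr rfl fun x _ => ?_
  rw [neg_mul, Complex.cos_neg]

lemma Gc_diff (w : ZMod N × ZMod N → ℝ) (θ : ℝ × ℝ) : Differentiable ℂ (Gc w θ) := by
  unfold Gc
  refine Differentiable.fun_sum fun x _ => ?_
  fun_prop

lemma gR_zero (w : ZMod N × ZMod N → ℝ) (θ : ℝ × ℝ) : gR w θ 0 = Gh w 0 := by
  unfold gR
  rw [Gh_zero]
  refine sum_congr rfl fun x _ => ?_
  simp

/-- momenta of the line -/
def nk (m : ℕ) (p : ZMod N × ZMod N) : ZMod N × ZMod N := ((m : ZMod N) * p.1, (m : ZMod N) * p.2)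

/-- wave vector -/
def pv (p : ZMod N × ZMod N) : ℝ × ℝ := (pw p.1, pw p.2)

lemma cN_dt_nk (m : ℕ) (p x : ZMod N × ZMod N) :
    cN (dt (nk m p) x) = Real.cos (m * lin (pv p) x) := by
  have h : dt (nk m p) x = (((m : ℤ) * (p.1.valMinAbs * x.1.valMinAbs +
      p.2.valMinAbs * x.2.valMinAbs) : ℤ) : ZMod N) := by
    unfold dt nk
    push_cast
    ring
  rw [h, cN_int]
  congr 1
  unfold lin pv pw r1 r2
  push_cast
  ring

lemma gR_nk (w : ZMod N × ZMod N → ℝ) (m : ℕ) (p : ZMod N × ZMod N) :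
    gR w (pv p) m = Gh w (nk m p) := by
  rw [Gh_dt]
  unfold gR
  refine sum_congr rfl fun x _ => ?_
  rw [cN_dt_nk]

/-- energy along the line -/
def Ec (θ : ℝ × ℝ) (t : ℂ) : ℂ :=
  2 * (1 - Complex.cos (t * (θ.1 : ℂ))) + 2 * (1 - Complex.cos (t * (θ.2 : ℂ)))

/-- real version -/
def eR (θ : ℝ × ℝ) (t : ℝ) : ℝ := 2 * (1 - Real.cos (t * θ.1)) + 2 * (1 - Real.cos (t * θ.2))

omit [NeZero N] in
lemma Ec_ofReal (θ : ℝ × ℝ) (t : ℝ) : Ec θ (t : ℂ) = ((eR θ t : ℝ) : ℂ) := by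
  unfold Ec eR
  push_cast
  rfl

omit [NeZero N] in
lemma Ec_even (θ : ℝ × ℝ) (t : ℂ) : Ec θ (-t) = Ec θ t := by
  unfold Ec
  rw [neg_mul, neg_mul, Complex.cos_neg, Complex.cos_neg]

omit [NeZero N] in
lemma Ec_diff (θ : ℝ × ℝ) : Differentiable ℂ (Ec θ) := by
  unfold Ec
  fun_prop

lemma cN_mul_pw (m : ℕ) (a : ZMod N) : cN ((m : ZMod N) * a) = Real.cos (m * pw a) := by
  have h : (m : ZMod N) * a = (((m : ℤ) * a.valMinAbs : ℤ) : ZMod N) := by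
    push_cast
    ring
  rw [h, cN_int]
  congr 1
  unfold pw
  push_cast
  ring

lemma eR_nk (m : ℕ) (p : ZMod N × ZMod N) : eR (pv p) m = EE (nk m p) := by
  unfold eR EE nk pv
  simp only
  rw [cN_mul_pw, cN_mul_pw]

/-- squared length -/
def nsq (θ : ℝ × ℝ) : ℝ := θ.1 ^ 2 + θ.2 ^ 2

lemma sq_cos (u : ℝ) : 2 * (1 - Real.cos u) ≤ u ^ 2 ∧ u ^ 2 - u ^ 4 ≤ 2 * (1 - Real.cos u) := by
  have h1 := Real.one_sub_sq_div_two_le_cos (x := u)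
  have h2 := cos_quart u
  constructor <;> linarith

omit [NeZero N] in
lemma eR_le (θ : ℝ × ℝ) (t : ℝ) : eR θ t ≤ nsq θ * t ^ 2 := by
  unfold eR nsq
  have h1 := (sq_cos (t * θ.1)).1
  have h2 := (sq_cos (t * θ.2)).1
  nlinarith

omit [NeZero N] in
lemma eR_quart {θ : ℝ × ℝ} {ϑ : ℝ} (h1 : |θ.1| ≤ ϑ) (h2 : |θ.2| ≤ ϑ) (t : ℝ) :
    |eR θ t - nsq θ * t ^ 2| ≤ 2 * ϑ ^ 4 * t ^ 4 := by
  have hϑ : 0 ≤ ϑ := (abs_nonneg _).trans h1
  have a1 := sq_cos (t * θ.1)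
  have a2 := sq_cos (t * θ.2)
  have b1 : (t * θ.1) ^ 4 ≤ ϑ ^ 4 * t ^ 4 := by
    have : |θ.1| ^ 4 ≤ ϑ ^ 4 := pow_le_pow_left₀ (abs_nonneg _) h1 4
    have e : |θ.1| ^ 4 = θ.1 ^ 4 := by
      rw [show (4 : ℕ) = 2 * 2 by norm_num, pow_mul, pow_mul, sq_abs]
    rw [mul_pow, ← e, mul_comm]
    exact mul_le_mul_of_nonneg_right this (by positivity)
  have b2 : (t * θ.2) ^ 4 ≤ ϑ ^ 4 * t ^ 4 := by
    have : |θ.2| ^ 4 ≤ ϑ ^ 4 := pow_le_pow_left₀ (abs_nonneg _) h2 4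
    have e : |θ.2| ^ 4 = θ.2 ^ 4 := by
      rw [show (4 : ℕ) = 2 * 2 by norm_num, pow_mul, pow_mul, sq_abs]
    rw [mul_pow, ← e, mul_comm]
    exact mul_le_mul_of_nonneg_right this (by positivity)
  unfold eR nsq
  rw [abs_le]
  constructor <;> nlinarith [a1.1, a1.2, a2.1, a2.2]

lemma lin_le {θ : ℝ × ℝ} {ϑ : ℝ} (h1 : |θ.1| ≤ ϑ) (h2 : |θ.2| ≤ ϑ) (x : ZMod N × ZMod N) :
    |lin θ x| ≤ ϑ * (|r1 x| + |r2 x|) := by
  unfold lin
  refine (abs_add_le _ _).trans ?_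
  rw [abs_mul, abs_mul, mul_add]
  exact add_le_add (mul_le_mul_of_nonneg_right h1 (abs_nonneg _))
    (mul_le_mul_of_nonneg_right h2 (abs_nonneg _))

lemma Gc_bound {w : ZMod N × ZMod N → ℝ} {S A ϑ : ℝ} {θ : ℝ × ℝ}
    (hA : ∑ x, |w x| * Real.exp (S * (|r1 x| + |r2 x|)) ≤ A)
    (h1 : |θ.1| ≤ ϑ) (h2 : |θ.2| ≤ ϑ) {t : ℂ} (ht : ‖t‖ * ϑ ≤ S) : ‖Gc w θ t‖ ≤ A := by
  refine le_trans ?_ hA
  unfold Gc
  refine (norm_sum_le _ _).trans (sum_le_sum fun x _ => ?_)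
  rw [norm_mul, Complex.norm_real, Real.norm_eq_abs]
  refine mul_le_mul_of_nonneg_left ?_ (abs_nonneg _)
  refine (norm_cos_le _).trans (Real.exp_le_exp.2 ?_)
  refine (Complex.abs_im_le_norm _).trans ?_
  rw [norm_mul, Complex.norm_real, Real.norm_eq_abs]
  calc ‖t‖ * |lin θ x| ≤ ‖t‖ * (ϑ * (|r1 x| + |r2 x|)) :=
        mul_le_mul_of_nonneg_left (lin_le h1 h2 x) (norm_nonneg _)
    _ = (‖t‖ * ϑ) * (|r1 x| + |r2 x|) := by ring
    _ ≤ S * (|r1 x| + |r2 x|) := mul_le_mul_of_nonneg_right ht (by positivity)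

/-- no zero in a disc -/
lemma Gc_low {w : ZMod N × ZMod N → ℝ} {S A ϑ c ρ : ℝ} {θ : ℝ × ℝ} (hS : 0 < S) (hc : 0 < c)
    (hA : ∑ x, |w x| * Real.exp (S * (|r1 x| + |r2 x|)) ≤ A) (h0 : c ≤ Gh w 0)
    (hϑ : 0 < ϑ) (h1 : |θ.1| ≤ ϑ) (h2 : |θ.2| ≤ ϑ) (hρ0 : 0 < ρ)
    (hρ : 4 * A * ρ ^ 2 ≤ c * S ^ 2) {t : ℂ} (ht : ‖t‖ * ϑ ≤ ρ) : c / 2 ≤ ‖Gc w θ t‖ := by
  have hG0 : Gc w θ 0 = ((Gh w 0 : ℝ) : ℂ) := by
    have := Gc_ofReal w θ 0
    rw [Complex.ofReal_zero, gR_zero] at this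
    exact this
  have hcA : c ≤ A := by
    have h3 : ‖Gc w θ 0‖ ≤ A := Gc_bound hA h1 h2 (by simpa using hS.le)
    rw [hG0, Complex.norm_real] at h3
    exact h0.trans ((le_abs_self _).trans h3)
  have hA0 : 0 < A := by linarith
  have hρS : ρ ≤ S / 2 := by
    have h3 : (2 * ρ) ^ 2 ≤ S ^ 2 := by
      have : A * (2 * ρ) ^ 2 ≤ A * S ^ 2 := by nlinarith [sq_nonneg S]
      exact le_of_mul_le_mul_left this hA0
    have h4 := abs_le_of_sq_le_sq h3 hS.le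
    have := abs_le.1 (abs_le_of_sq_le_sq h3 hS.le)
    linarith [le_abs_self (2 * ρ)]
  have htS : ‖t‖ ≤ (S / ϑ) / 2 := by
    rw [div_div, le_div_iff₀ (by positivity)]
    linarith
  have hd : DifferentiableOn ℂ (fun z => Gc w θ z - Gc w θ 0) (Metric.ball 0 (2 * (S / ϑ))) :=
    ((Gc_diff w θ).sub (differentiable_const _)).differentiableOn
  have h3 : ∀ z : ℂ, ‖z‖ ≤ S / ϑ → ‖Gc w θ z‖ ≤ A := by
    intro z hz
    refine Gc_bound hA h1 h2 ?_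
    rwa [le_div_iff₀ hϑ] at hz
  have h := taylor_tail (F := Gc w θ) (r := 2 * (S / ϑ)) (ρ := S / ϑ) (B := A) (by positivity)
    (by have : 0 < S / ϑ := by positivity
        linarith) (Gc_diff w θ).differentiableOn h3 2 htS
  have hodd : tc (Gc w θ) 1 = 0 := tc_odd (Gc_even w θ) (by decide)
  rw [Finset.sum_range_succ, Finset.sum_range_one, tc_zero, hodd] at h
  simp only [pow_zero, mul_one, pow_one, zero_mul, add_zero] at h
  have h5 : 2 * A * (‖t‖ / (S / ϑ)) ^ 2 ≤ c / 2 := by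
    have e : ‖t‖ / (S / ϑ) = (‖t‖ * ϑ) / S := by field_simp
    rw [e, div_pow, mul_div_assoc', div_le_iff₀ (by positivity)]
    have h6 : (‖t‖ * ϑ) ^ 2 ≤ ρ ^ 2 := pow_le_pow_left₀ (by positivity) ht 2
    nlinarith
  have h7 : ‖Gc w θ 0‖ ≤ ‖Gc w θ t‖ + ‖Gc w θ t - Gc w θ 0‖ := by
    have : Gc w θ 0 = Gc w θ t - (Gc w θ t - Gc w θ 0) := by ring
    conv_lhs => rw [this]
    exact norm_sub_le _ _
  rw [hG0] at h7 h
  rw [Complex.norm_real, Real.norm_eq_abs] at h7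
  have h8 := le_abs_self (Gh w 0)
  linarith

/-! ### the second order coefficient -/

omit [NeZero N] in
lemma cos4 (u : ℝ) : |Real.cos u - 1 + u ^ 2 / 2| ≤ u ^ 4 / 2 := by
  have h := sq_cos u
  rw [abs_le]
  have : 0 ≤ u ^ 4 := by positivity
  constructor <;> linarith [h.1, h.2]

lemma gR_quart (w : ZMod N × ZMod N → ℝ) (θ : ℝ × ℝ) (t : ℝ) :
    |gR w θ t - Gh w 0 + (∑ x, w x * lin θ x ^ 2) / 2 * t ^ 2| ≤
      (∑ x, |w x| * lin θ x ^ 4) / 2 * t ^ 4 := by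
  have e : gR w θ t - Gh w 0 + (∑ x, w x * lin θ x ^ 2) / 2 * t ^ 2 =
      ∑ x, w x * (Real.cos (t * lin θ x) - 1 + (t * lin θ x) ^ 2 / 2) := by
    unfold gR
    rw [Gh_zero, sum_div, sum_mul, ← sum_sub_distrib, ← sum_add_distrib]
    refine sum_congr rfl fun x _ => ?_
    ring
  rw [e, sum_div, sum_mul]
  refine (abs_sum_le_sum_abs _ _).trans (sum_le_sum fun x _ => ?_)
  rw [abs_mul]
  calc |w x| * |Real.cos (t * lin θ x) - 1 + (t * lin θ x) ^ 2 / 2|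
      ≤ |w x| * ((t * lin θ x) ^ 4 / 2) := mul_le_mul_of_nonneg_left (cos4 _) (abs_nonneg _)
    _ = _ := by ring

omit [NeZero N] in
/-- algebra: second order of the inverse -/
lemma inv_second {g G0 m K c t : ℝ} (hc : 0 < c) (hG : c ≤ G0) (hg : c / 2 ≤ g) (ht1 : t ^ 2 ≤ 1)
    (hK : 0 ≤ K) (h : |g - G0 + m * t ^ 2| ≤ K * t ^ 4) :
    |g⁻¹ - G0⁻¹ - m / G0 ^ 2 * t ^ 2| ≤ (2 / c ^ 2 * K + 2 / c ^ 3 * (|m| * (|m| + K))) * t ^ 4 := by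
  have hG0 : 0 < G0 := by linarith
  have hg0 : 0 < g := by linarith
  have ht : 0 ≤ t ^ 2 := by positivity
  have h4 : t ^ 4 = t ^ 2 * t ^ 2 := by ring
  have hd : |G0 - g| ≤ (|m| + K) * t ^ 2 := by
    have e : G0 - g = m * t ^ 2 - (g - G0 + m * t ^ 2) := by ring
    rw [e]
    refine (abs_sub _ _).trans ?_
    rw [abs_mul, abs_of_nonneg ht]
    have : K * t ^ 4 ≤ K * t ^ 2 := by
      refine mul_le_mul_of_nonneg_left ?_ hK
      rw [h4]; nlinarith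
    linarith
  have e : g⁻¹ - G0⁻¹ - m / G0 ^ 2 * t ^ 2 =
      -(g - G0 + m * t ^ 2) * (1 / (g * G0)) + m * t ^ 2 * (G0 - g) * (1 / (g * G0 ^ 2)) := by
    field_simp
    ring
  rw [e]
  refine (abs_add_le _ _).trans ?_
  have b1 : 1 / (g * G0) ≤ 2 / c ^ 2 := by
    rw [div_le_div_iff₀ (by positivity) (by positivity)]
    have : c / 2 * c ≤ g * G0 := mul_le_mul hg hG hc.le hg0.le
    nlinarith
  have b2 : 1 / (g * G0 ^ 2) ≤ 2 / c ^ 3 := by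
    rw [div_le_div_iff₀ (by positivity) (by positivity)]
    have h6 : c ^ 2 ≤ G0 ^ 2 := pow_le_pow_left₀ hc.le hG 2
    have : c / 2 * c ^ 2 ≤ g * G0 ^ 2 := mul_le_mul hg h6 (by positivity) hg0.le
    nlinarith
  have b1' : 0 ≤ 1 / (g * G0) := by positivity
  have b2' : 0 ≤ 1 / (g * G0 ^ 2) := by positivity
  rw [abs_mul, abs_mul, abs_neg, abs_of_nonneg b1', abs_of_nonneg b2', abs_mul, abs_mul,
    abs_of_nonneg ht]
  have c1 : |g - G0 + m * t ^ 2| * (1 / (g * G0)) ≤ (K * t ^ 4) * (2 / c ^ 2) :=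
    mul_le_mul h b1 b1' (by positivity)
  have c2 : |m| * t ^ 2 * |G0 - g| * (1 / (g * G0 ^ 2)) ≤
      |m| * t ^ 2 * ((|m| + K) * t ^ 2) * (2 / c ^ 3) :=
    mul_le_mul (mul_le_mul_of_nonneg_left hd (by positivity)) b2 b2' (by positivity)
  calc _ ≤ (K * t ^ 4) * (2 / c ^ 2) + |m| * t ^ 2 * ((|m| + K) * t ^ 2) * (2 / c ^ 3) :=
        add_le_add c1 c2
    _ = _ := by ring

/-! ### the main estimate along a line -/

lemma nk_one (p : ZMod N × ZMod N) : nk 1 p = p := by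
  unfold nk; simp

lemma pv_le (p : ZMod N × ZMod N) : |(pv p).1| ≤ max |(pv p).1| |(pv p).2| ∧
    |(pv p).2| ≤ max |(pv p).1| |(pv p).2| := ⟨le_max_left _ _, le_max_right _ _⟩

/-- mass of the second moment along a line -/
lemma lin_sq {w : ZMod N × ZMod N → ℝ} {M : ℝ} (hM1 : ∑ x, w x * r1 x ^ 2 = M)
    (hM2 : ∑ x, w x * r2 x ^ 2 = M) (hM3 : ∑ x, w x * (r1 x * r2 x) = 0) (θ : ℝ × ℝ) :
    ∑ x, w x * lin θ x ^ 2 = nsq θ * M := by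
  have e : ∀ x, w x * lin θ x ^ 2 = θ.1 ^ 2 * (w x * r1 x ^ 2) + θ.2 ^ 2 * (w x * r2 x ^ 2) +
      2 * θ.1 * θ.2 * (w x * (r1 x * r2 x)) := by
    intro x; unfold lin; ring
  rw [sum_congr rfl fun x _ => e x, sum_add_distrib, sum_add_distrib, ← mul_sum, ← mul_sum,
    ← mul_sum, hM1, hM2, hM3]
  unfold nsq
  ring

/-- the deviation along a line -/
def Fl (w : ZMod N × ZMod N → ℝ) (θ : ℝ × ℝ) (α : ℝ) (t : ℂ) : ℂ :=
  (Gc w θ t)⁻¹ - (Gc w θ 0)⁻¹ - (α : ℂ) * Ec θ t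

lemma Fl_even (w : ZMod N × ZMod N → ℝ) (θ : ℝ × ℝ) (α : ℝ) (t : ℂ) :
    Fl w θ α (-t) = Fl w θ α t := by
  unfold Fl; rw [Gc_even, Ec_even]

lemma Fl_real (w : ZMod N × ZMod N → ℝ) (θ : ℝ × ℝ) (α : ℝ) (t : ℝ) :
    Fl w θ α (t : ℂ) = (((gR w θ t)⁻¹ - (Gh w 0)⁻¹ - α * eR θ t : ℝ) : ℂ) := by
  unfold Fl
  have h := Gc_ofReal w θ 0
  rw [Complex.ofReal_zero, gR_zero] at h
  rw [h, Gc_ofReal, Ec_ofReal]
  push_cast
  rfl

lemma Fl_zero (w : ZMod N × ZMod N → ℝ) (θ : ℝ × ℝ) (α : ℝ) : Fl w θ α 0 = 0 := by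
  unfold Fl Ec; simp

omit [NeZero N] in
lemma norm_one_sub_cos (z : ℂ) (hz : ‖z‖ ≤ 1) : ‖2 * (1 - Complex.cos z)‖ ≤ 4 * ‖z‖ ^ 2 := by
  have h1 : 1 - Complex.cos z = 2 * Complex.sin (z / 2) ^ 2 := by
    have : z = 2 * (z / 2) := by ring
    conv_lhs => rw [this]
    rw [Complex.cos_two_mul, Complex.cos_sq']
    ring
  have h2 : ‖Complex.sin (z / 2)‖ ≤ ‖z‖ := by
    -- |sin u| ≤ sinh |u| ≤ 2 |u|
    have h3 : Complex.sin (z / 2) = (Complex.exp (-(z / 2) * Complex.I) -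
      Complex.exp (z / 2 * Complex.I)) * Complex.I / 2 := rfl
    have h4 : ‖(z / 2) * Complex.I‖ = ‖z‖ / 2 := by
      rw [norm_mul, Complex.norm_I, mul_one, norm_div, Complex.norm_ofNat]
    have h5 : ‖Complex.exp (z / 2 * Complex.I) - 1‖ ≤ 2 * (‖z‖ / 2) := by
      have := Complex.norm_exp_sub_one_le (x := z / 2 * Complex.I) (by rw [h4]; linarith)
      rwa [h4] at this
    have h6 : ‖Complex.exp (-(z / 2) * Complex.I) - 1‖ ≤ 2 * (‖z‖ / 2) := by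
      have h7 : ‖-(z / 2) * Complex.I‖ = ‖z‖ / 2 := by rw [neg_mul, norm_neg, h4]
      have := Complex.norm_exp_sub_one_le (x := -(z / 2) * Complex.I) (by rw [h7]; linarith)
      rwa [h7] at this
    rw [h3, norm_div, norm_mul, Complex.norm_I, mul_one, Complex.norm_ofNat]
    have h8 : ‖Complex.exp (-(z / 2) * Complex.I) - Complex.exp (z / 2 * Complex.I)‖ ≤
        2 * (‖z‖ / 2) + 2 * (‖z‖ / 2) := by
      have e : Complex.exp (-(z / 2) * Complex.I) - Complex.exp (z / 2 * Complex.I) =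
          (Complex.exp (-(z / 2) * Complex.I) - 1) - (Complex.exp (z / 2 * Complex.I) - 1) := by
        ring
      rw [e]
      exact (norm_sub_le _ _).trans (add_le_add h6 h5)
    linarith
  rw [h1, ← mul_assoc, norm_mul, norm_pow]
  have h9 : ‖(2 * 2 : ℂ)‖ = 4 := by norm_num
  rw [h9]
  exact mul_le_mul_of_nonneg_left (pow_le_pow_left₀ (norm_nonneg _) h2 2) (by norm_num)

omit [NeZero N] in
lemma Ec_bound {θ : ℝ × ℝ} {ϑ ρ : ℝ} (h1 : |θ.1| ≤ ϑ) (h2 : |θ.2| ≤ ϑ) (hρ1 : ρ ≤ 1) {t : ℂ}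
    (ht : ‖t‖ * ϑ ≤ ρ) : ‖Ec θ t‖ ≤ 8 * ρ ^ 2 := by
  have key : ∀ a : ℝ, |a| ≤ ϑ → ‖2 * (1 - Complex.cos (t * (a : ℂ)))‖ ≤ 4 * ρ ^ 2 := by
    intro a ha
    have h3 : ‖t * (a : ℂ)‖ ≤ ρ := by
      rw [norm_mul, Complex.norm_real, Real.norm_eq_abs]
      exact (mul_le_mul_of_nonneg_left ha (norm_nonneg _)).trans ht
    refine (norm_one_sub_cos _ (h3.trans hρ1)).trans ?_
    exact mul_le_mul_of_nonneg_left (pow_le_pow_left₀ (norm_nonneg _) h3 2) (by norm_num)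
  unfold Ec
  refine (norm_add_le _ _).trans ?_
  linarith [key θ.1 h1, key θ.2 h2]

omit [NeZero N] in
/-- integer nodes -/
lemma nodes (n : ℕ) {T : ℝ} (hT : 2 * (n + 1) ≤ T) :
    ∃ v : Fin (n + 1) → ℕ, (∀ i, (v i : ℝ) ≤ T) ∧
      ∀ i j, i ≠ j → T / (4 * (n + 1)) ≤ |(v i : ℝ) - v j| := by
  have hn : (0 : ℝ) < n + 1 := by positivity
  have hT0 : 0 < T := by linarith
  have hq : 0 < T / (n + 1) := by positivity
  refine ⟨fun i => ⌊(i : ℝ) * (T / (n + 1))⌋₊, fun i => ?_, ?_⟩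
  · refine (Nat.floor_le (by positivity)).trans ?_
    have hi : (i : ℝ) ≤ n + 1 := by
      have : (i : ℕ) ≤ n + 1 := i.2.le
      exact_mod_cast this
    calc (i : ℝ) * (T / (n + 1)) ≤ (n + 1) * (T / (n + 1)) := mul_le_mul_of_nonneg_right hi hq.le
      _ = T := by field_simp
  · have key : ∀ i j : Fin (n + 1), i < j → T / (4 * (n + 1)) ≤
        (⌊(j : ℝ) * (T / (n + 1))⌋₊ : ℝ) - (⌊(i : ℝ) * (T / (n + 1))⌋₊ : ℝ) := by
      intro i j hij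
      have h1 : ((i : ℕ) : ℝ) + 1 ≤ j := by exact_mod_cast hij
      have h2 := Nat.lt_floor_add_one ((j : ℝ) * (T / (n + 1)))
      have h3 := Nat.floor_le (a := (i : ℝ) * (T / (n + 1))) (by positivity)
      have h4 : (i : ℝ) * (T / (n + 1)) + T / (n + 1) ≤ (j : ℝ) * (T / (n + 1)) := by nlinarith
      have h5 : 2 ≤ T / (n + 1) := by rw [le_div_iff₀ hn]; exact hT
      have h6 : T / (4 * (n + 1)) = T / (n + 1) / 4 := by field_simp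
      rw [h6]
      linarith
    intro i j hij
    rcases lt_or_gt_of_ne hij with h | h
    · rw [abs_sub_comm]
      exact (key i j h).trans (le_abs_self _)
    · exact (key j i h).trans (le_abs_self _)

/-- **one line.** -/
theorem line_main (n : ℕ) {w : ZMod N × ZMod N → ℝ} {S A c V δ α ρ E M : ℝ} (hS : 0 < S)
    (hc : 0 < c) (hA : ∑ x, |w x| * Real.exp (S * (|r1 x| + |r2 x|)) ≤ A) (h0 : c ≤ Gh w 0)
    (hM1 : ∑ x, w x * r1 x ^ 2 = M) (hM2 : ∑ x, w x * r2 x ^ 2 = M)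
    (hM3 : ∑ x, w x * (r1 x * r2 x) = 0) (hρ1 : ρ ≤ 1)
    (hρ : 4 * A * ρ ^ 2 ≤ c * S ^ 2) (hV : 0 < V) (hVρ : 4 * V ≤ ρ)
    (hδ : ∀ k, EE k ≤ 2 * V ^ 2 → |(Gh w k)⁻¹ - (Gh w 0)⁻¹ - α * EE k| ≤ δ)
    (hE : E = (LC n + 1) * (δ + 2 * (4 / c + 8 * |α| * ρ ^ 2) * (2 * V / ρ) ^ (n + 1)))
    {p : ZMod N × ZMod N} {ϑ : ℝ} (hϑ : ϑ = max |(pv p).1| |(pv p).2|) (hϑ0 : 0 < ϑ)
    (hϑV : 2 * (n + 1) * ϑ ≤ V) :
    |M / (2 * Gh w 0 ^ 2) - α| * nsq (pv p) ≤ E * (ϑ / V) ^ 2 ∧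
    |(Gh w p)⁻¹ - (Gh w 0)⁻¹ - α * EE p - (M / (2 * Gh w 0 ^ 2) - α) * nsq (pv p)| ≤
      2 * E * (ϑ / V) ^ 4 := by
  have hρ0 : 0 < ρ := by linarith
  have h1 : |(pv p).1| ≤ ϑ := by rw [hϑ]; exact le_max_left _ _
  have h2 : |(pv p).2| ≤ ϑ := by rw [hϑ]; exact le_max_right _ _
  have hlow : ∀ z : ℂ, ‖z‖ < ρ / ϑ → c / 2 ≤ ‖Gc w (pv p) z‖ := by
    intro z hz
    rw [lt_div_iff₀ hϑ0] at hz
    exact Gc_low hS hc hA h0 hϑ0 h1 h2 hρ0 hρ hz.le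
  have hne : ∀ z : ℂ, ‖z‖ < ρ / ϑ → Gc w (pv p) z ≠ 0 := by
    intro z hz h
    have := hlow z hz
    rw [h, norm_zero] at this
    linarith
  have hr0 : 0 < ρ / ϑ := by positivity
  have hFd : DifferentiableOn ℂ (Fl w (pv p) α) (Metric.ball 0 (ρ / ϑ)) := by
    unfold Fl
    refine DifferentiableOn.sub (DifferentiableOn.sub ?_ (differentiableOn_const _)) ?_
    · refine DifferentiableOn.fun_inv (Gc_diff w _).differentiableOn fun z hz => ?_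
      exact hne z (by rwa [mem_ball_zero_iff] at hz)
    · exact (differentiableOn_const _).mul (Ec_diff _).differentiableOn
  have hinv : ∀ z : ℂ, ‖z‖ < ρ / ϑ → ‖(Gc w (pv p) z)⁻¹‖ ≤ 2 / c := by
    intro z hz
    rw [norm_inv, inv_le_comm₀ (lt_of_lt_of_le (by positivity) (hlow z hz)) (by positivity),
      inv_div]
    exact hlow z hz
  have hFB : ∀ z : ℂ, ‖z‖ < ρ / ϑ → ‖Fl w (pv p) α z‖ ≤ 4 / c + 8 * |α| * ρ ^ 2 := by
    intro z hz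
    have e1 := hinv z hz
    have e2 := hinv 0 (by simpa using hr0)
    have e3 : ‖(α : ℂ) * Ec (pv p) z‖ ≤ |α| * (8 * ρ ^ 2) := by
      rw [norm_mul, Complex.norm_real, Real.norm_eq_abs]
      refine mul_le_mul_of_nonneg_left ?_ (abs_nonneg _)
      rw [lt_div_iff₀ hϑ0] at hz
      exact Ec_bound h1 h2 hρ1 hz.le
    unfold Fl
    calc ‖(Gc w (pv p) z)⁻¹ - (Gc w (pv p) 0)⁻¹ - (α : ℂ) * Ec (pv p) z‖
        ≤ ‖(Gc w (pv p) z)⁻¹ - (Gc w (pv p) 0)⁻¹‖ + ‖(α : ℂ) * Ec (pv p) z‖ := norm_sub_le _ _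
      _ ≤ (‖(Gc w (pv p) z)⁻¹‖ + ‖(Gc w (pv p) 0)⁻¹‖) + ‖(α : ℂ) * Ec (pv p) z‖ := by
          gcongr; exact norm_sub_le _ _
      _ ≤ 4 / c + 8 * |α| * ρ ^ 2 := by
          have : 4 / c = 2 / c + 2 / c := by ring
          linarith
  -- nodes
  have hT0 : 0 < V / ϑ := by positivity
  have hT2 : 2 * ((n : ℝ) + 1) ≤ V / ϑ := by rw [le_div_iff₀ hϑ0]; exact hϑV
  obtain ⟨v, hv1, hv2⟩ := nodes n hT2
  have h4T : 4 * (V / ϑ) ≤ ρ / ϑ := by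
    rw [mul_div_assoc', div_le_div_iff_of_pos_right hϑ0]; exact hVρ
  have hnsq : nsq (pv p) ≤ 2 * ϑ ^ 2 := by
    unfold nsq
    have a1 : (pv p).1 ^ 2 ≤ ϑ ^ 2 := by
      rw [← sq_abs]; exact pow_le_pow_left₀ (abs_nonneg _) h1 2
    have a2 : (pv p).2 ^ 2 ≤ ϑ ^ 2 := by
      rw [← sq_abs]; exact pow_le_pow_left₀ (abs_nonneg _) h2 2
    linarith
  have hdata : ∀ m : ℕ, (m : ℝ) ≤ V / ϑ → ‖Fl w (pv p) α ((m : ℝ) : ℂ)‖ ≤ δ := by
    intro m hm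
    rw [Fl_real, Complex.norm_real, Real.norm_eq_abs, gR_nk, eR_nk]
    refine hδ _ ?_
    rw [← eR_nk]
    refine (eR_le _ _).trans ?_
    rw [le_div_iff₀ hϑ0] at hm
    have h3 : ((m : ℝ) * ϑ) ^ 2 ≤ V ^ 2 := pow_le_pow_left₀ (by positivity) hm 2
    have h4 : nsq (pv p) * (m : ℝ) ^ 2 ≤ 2 * ϑ ^ 2 * (m : ℝ) ^ 2 :=
      mul_le_mul_of_nonneg_right hnsq (by positivity)
    nlinarith
  obtain ⟨hI, -, -⟩ := interp n hFd hFB hT0 h4T (fun i => (v i : ℝ)) (fun i => Nat.cast_nonneg _)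
    hv1 hv2 (δ := δ) (fun i => hdata _ (hv1 i))
  have hratio : 2 * (V / ϑ) / (ρ / ϑ) = 2 * V / ρ := by field_simp
  rw [hratio, ← hE] at hI
  have hTr : V / ϑ < ρ / ϑ := by
    have : 0 < V / ϑ := hT0
    linarith
  have hev := even_rem hT0 hTr hFd hI (Fl_even w _ α) (Fl_zero w _ α)
  -- identification of the coefficient
  have hG0 : 0 < Gh w 0 := by linarith
  have hgcont : ∃ t0 : ℝ, 0 < t0 ∧ t0 ≤ 1 ∧ ∀ t : ℝ, 0 < t → t ≤ t0 → c / 2 ≤ gR w (pv p) t := by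
    have hcont : Continuous fun t : ℝ => gR w (pv p) t := by unfold gR; fun_prop
    have h6 : c / 2 < gR w (pv p) 0 := by rw [gR_zero]; linarith
    have h5 : ∀ᶠ t in nhds (0 : ℝ), c / 2 < gR w (pv p) t :=
      Filter.Tendsto.eventually_const_lt h6 (hcont.tendsto 0)
    obtain ⟨ε, hε, hε2⟩ := Metric.eventually_nhds_iff.1 h5
    refine ⟨min 1 (ε / 2), by positivity, min_le_left _ _, fun t ht htt => (hε2 ?_).le⟩
    rw [Real.dist_eq, sub_zero, abs_of_pos ht]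
    have := htt.trans (min_le_right _ _)
    linarith
  obtain ⟨t0, ht0, ht01, hgt⟩ := hgcont
  have hcoef : tc (Fl w (pv p) α) 2 =
      (((M / (2 * Gh w 0 ^ 2) - α) * nsq (pv p) : ℝ) : ℂ) := by
    refine tc2_eq hT0 hTr hFd hI (Fl_even w _ α) (Fl_zero w _ α) (t0 := t0)
      (K := (2 / c ^ 2 * ((∑ x, |w x| * lin (pv p) x ^ 4) / 2) +
        2 / c ^ 3 * (|(∑ x, w x * lin (pv p) x ^ 2) / 2| * (|(∑ x, w x * lin (pv p) x ^ 2) / 2| +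
          (∑ x, |w x| * lin (pv p) x ^ 4) / 2))) + |α| * (2 * ϑ ^ 4)) ht0 ?_
    intro t ht htt
    have e1 := gR_quart w (pv p) t
    have hK : 0 ≤ (∑ x, |w x| * lin (pv p) x ^ 4) / 2 := by positivity
    have e2 := inv_second hc h0 (hgt t ht htt) (by nlinarith) hK e1
    have e3 := eR_quart h1 h2 t
    rw [Fl_real]
    have e4 : ((((gR w (pv p) t)⁻¹ - (Gh w 0)⁻¹ - α * eR (pv p) t : ℝ) : ℂ) -
        (((M / (2 * Gh w 0 ^ 2) - α) * nsq (pv p) : ℝ) : ℂ) * (t : ℂ) ^ 2) =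
        ((((gR w (pv p) t)⁻¹ - (Gh w 0)⁻¹ - (∑ x, w x * lin (pv p) x ^ 2) / 2 / Gh w 0 ^ 2 *
          t ^ 2) - α * (eR (pv p) t - nsq (pv p) * t ^ 2) : ℝ) : ℂ) := by
      rw [lin_sq hM1 hM2 hM3]
      push_cast
      ring
    rw [e4, Complex.norm_real, Real.norm_eq_abs]
    refine (abs_sub _ _).trans ?_
    rw [abs_mul]
    have e5 : |α| * |eR (pv p) t - nsq (pv p) * t ^ 2| ≤ |α| * (2 * ϑ ^ 4 * t ^ 4) :=
      mul_le_mul_of_nonneg_left e3 (abs_nonneg _)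
    calc _ ≤ (2 / c ^ 2 * ((∑ x, |w x| * lin (pv p) x ^ 4) / 2) +
        2 / c ^ 3 * (|(∑ x, w x * lin (pv p) x ^ 2) / 2| * (|(∑ x, w x * lin (pv p) x ^ 2) / 2| +
          (∑ x, |w x| * lin (pv p) x ^ 4) / 2))) * t ^ 4 + |α| * (2 * ϑ ^ 4 * t ^ 4) :=
          add_le_add e2 e5
      _ = _ := by ring
  rw [hcoef] at hev
  have hnsq0 : 0 ≤ nsq (pv p) := by unfold nsq; positivity
  constructor
  · have h3 := hev.1
    rw [Complex.norm_real, Real.norm_eq_abs, abs_mul, abs_of_nonneg hnsq0] at h3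
    refine h3.trans (le_of_eq ?_)
    rw [div_pow, div_pow]
    field_simp
  · have h1T : (1 : ℝ) ≤ V / ϑ / 2 := by
      have : (0 : ℝ) ≤ n := Nat.cast_nonneg _
      linarith
    have h3 := hev.2 1 (by rw [norm_one]; exact h1T)
    have e1 : Fl w (pv p) α 1 = (((Gh w p)⁻¹ - (Gh w 0)⁻¹ - α * EE p : ℝ) : ℂ) := by
      have h4 := Fl_real w (pv p) α ((1 : ℕ) : ℝ)
      rw [gR_nk, eR_nk, nk_one] at h4
      rw [← h4]
      simp
    rw [e1, one_pow, mul_one, ← Complex.ofReal_sub, Complex.norm_real, Real.norm_eq_abs,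
      norm_one] at h3
    refine h3.trans (le_of_eq ?_)
    rw [one_div, inv_div]

/-! ### all small momenta -/

lemma EE_pv (p : ZMod N × ZMod N) : EE p = eR (pv p) 1 := by
  have h := eR_nk 1 p
  rw [nk_one] at h
  rw [← h]; simp

lemma pw_le_pi (a : ZMod N) : |pw a| ≤ Real.pi := by
  have hN : (0 : ℝ) < N := by exact_mod_cast NeZero.pos N
  have h := ZMod.natAbs_valMinAbs_le a
  have h2 : 2 * a.valMinAbs.natAbs ≤ N := by omega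
  have h3 : |(a.valMinAbs : ℝ)| = (a.valMinAbs.natAbs : ℝ) := by
    rw [← Int.cast_abs, Int.abs_eq_natAbs]; simp
  have h4 : 2 * |(a.valMinAbs : ℝ)| ≤ N := by rw [h3]; exact_mod_cast h2
  unfold pw
  rw [abs_div, abs_mul, abs_of_pos (by positivity : (0 : ℝ) < 2 * Real.pi), abs_of_pos hN,
    div_le_iff₀ hN]
  nlinarith [Real.pi_pos]

lemma pw_sq_le (a : ZMod N) : 2 / 5 * pw a ^ 2 ≤ 2 * (1 - Real.cos (pw a)) := by
  exact cos_low (pw_le_pi a)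

omit [NeZero N] in
lemma asm_small {E V ϑ e m A B C : ℝ} (hE0 : 0 ≤ E) (hV : 0 < V) (hV1 : V ≤ 1) (hm : 1 ≤ m)
    (he : 2 / 5 * ϑ ^ 2 ≤ e) (hA : |A| ≤ 2 * E * (ϑ / V) ^ 4) (hB : |B| ≤ E / V ^ 2)
    (hC : |C| ≤ 2 * ϑ ^ 4) : |A - B * C| ≤ 110 * m * E * (e / V ^ 2) ^ 2 := by
  have h5 : |B| * |C| ≤ E / V ^ 2 * (2 * ϑ ^ 4) := mul_le_mul hB hC (abs_nonneg _) (by positivity)
  have h6 : E / V ^ 2 * (2 * ϑ ^ 4) ≤ 2 * E * (ϑ / V) ^ 4 := by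
    have e2 : E / V ^ 2 * (2 * ϑ ^ 4) = 2 * E * (ϑ / V) ^ 4 * V ^ 2 := by
      rw [div_pow]; field_simp
    rw [e2]
    have h8 : V ^ 2 ≤ 1 := by nlinarith
    have h7 : 0 ≤ 2 * E * (ϑ / V) ^ 4 := by positivity
    exact mul_le_of_le_one_right h7 h8
  have h8 : (ϑ / V) ^ 4 ≤ 25 / 4 * (e / V ^ 2) ^ 2 := by
    have h9 : ϑ ^ 2 / V ^ 2 ≤ 5 / 2 * (e / V ^ 2) := by
      rw [← mul_div_assoc]
      exact div_le_div_of_nonneg_right (by linarith) (by positivity)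
    have h10 : (ϑ / V) ^ 4 = (ϑ ^ 2 / V ^ 2) ^ 2 := by rw [div_pow]; field_simp
    rw [h10]
    calc (ϑ ^ 2 / V ^ 2) ^ 2 ≤ (5 / 2 * (e / V ^ 2)) ^ 2 :=
          pow_le_pow_left₀ (by positivity) h9 2
      _ = _ := by ring
  have h11 : 4 * E * (ϑ / V) ^ 4 ≤ 4 * E * (25 / 4 * (e / V ^ 2) ^ 2) :=
    mul_le_mul_of_nonneg_left h8 (by positivity)
  have h12 : 0 ≤ E * (e / V ^ 2) ^ 2 := by positivity
  have h13 : E * (e / V ^ 2) ^ 2 ≤ m * (E * (e / V ^ 2) ^ 2) := le_mul_of_one_le_left h12 hm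
  calc |A - B * C| ≤ |A| + |B * C| := abs_sub _ _
    _ = |A| + |B| * |C| := by rw [abs_mul]
    _ ≤ 4 * E * (ϑ / V) ^ 4 := by linarith
    _ ≤ 4 * E * (25 / 4 * (e / V ^ 2) ^ 2) := h11
    _ = 25 * (E * (e / V ^ 2) ^ 2) := by ring
    _ ≤ 110 * (m * (E * (e / V ^ 2) ^ 2)) := by linarith
    _ = _ := by ring

omit [NeZero N] in
lemma asm_large {E V e m A B : ℝ} (hE0 : 0 ≤ E) (he : 0 ≤ e) (hm : 1 ≤ m)
    (h5 : 1 ≤ 10 * m * (e / V ^ 2)) (hA : |A| ≤ E) (hB : |B| ≤ E / V ^ 2) :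
    |A - B * e| ≤ 110 * m ^ 2 * E * (e / V ^ 2) ^ 2 := by
  have hX0 : 0 ≤ e / V ^ 2 := by positivity
  have h3 : |B| * e ≤ E / V ^ 2 * e := mul_le_mul_of_nonneg_right hB he
  have h8 : E / V ^ 2 * e = E * (e / V ^ 2) := by ring
  rw [h8] at h3
  have h9 : 1 ≤ (10 * m * (e / V ^ 2)) ^ 2 := one_le_pow₀ h5
  have h10 : E ≤ E * (10 * m * (e / V ^ 2)) ^ 2 := le_mul_of_one_le_right hE0 h9
  have h11 : E * (e / V ^ 2) ≤ E * (e / V ^ 2) * (10 * m * (e / V ^ 2)) :=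
    le_mul_of_one_le_right (by positivity) h5
  have h13 : 0 ≤ E * (e / V ^ 2) ^ 2 := by positivity
  have h14 : m ≤ m ^ 2 := by nlinarith
  have h15 : m * (E * (e / V ^ 2) ^ 2) ≤ m ^ 2 * (E * (e / V ^ 2) ^ 2) :=
    mul_le_mul_of_nonneg_right h14 h13
  calc |A - B * e| ≤ |A| + |B * e| := abs_sub _ _
    _ = |A| + |B| * e := by rw [abs_mul, abs_of_nonneg he]
    _ ≤ E * (10 * m * (e / V ^ 2)) ^ 2 + E * (e / V ^ 2) * (10 * m * (e / V ^ 2)) := by linarith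
    _ = 100 * (m ^ 2 * (E * (e / V ^ 2) ^ 2)) + 10 * (m * (E * (e / V ^ 2) ^ 2)) := by ring
    _ ≤ 110 * (m ^ 2 * (E * (e / V ^ 2) ^ 2)) := by linarith
    _ = _ := by ring

lemma EE_ge_pv {k : ZMod N × ZMod N} {ϑ : ℝ} (hϑ : ϑ = max |(pv k).1| |(pv k).2|) :
    2 / 5 * ϑ ^ 2 ≤ EE k := by
  have a1 := pw_sq_le k.1
  have a2 := pw_sq_le k.2
  have b1 : 0 ≤ 2 * (1 - Real.cos (pw k.1)) := by linarith [Real.cos_le_one (pw k.1)]
  have b2 : 0 ≤ 2 * (1 - Real.cos (pw k.2)) := by linarith [Real.cos_le_one (pw k.2)]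
  have e : EE k = 2 * (1 - Real.cos (pw k.1)) + 2 * (1 - Real.cos (pw k.2)) := by
    rw [EE_pv]; unfold eR pv; simp
  rw [e, hϑ]
  rcases max_choice |(pv k).1| |(pv k).2| with h | h
  · rw [h, sq_abs]
    have : (pv k).1 = pw k.1 := rfl
    rw [this]; linarith
  · rw [h, sq_abs]
    have : (pv k).2 = pw k.2 := rfl
    rw [this]; linarith

lemma pv_zero {k : ZMod N × ZMod N} (h1 : (pv k).1 = 0) (h2 : (pv k).2 = 0) : k = 0 := by
  have hNr : (0 : ℝ) < N := by exact_mod_cast NeZero.pos N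
  have hpi := Real.pi_pos
  have key : ∀ b : ZMod N, pw b = 0 → b = 0 := by
    intro b hb
    unfold pw at hb
    have h3 : (b.valMinAbs : ℝ) = 0 := by
      rcases (div_eq_zero_iff.1 hb) with h | h
      · rcases mul_eq_zero.1 h with h | h
        · exfalso; linarith
        · exact h
      · exfalso; linarith
    have h4 : b.valMinAbs = 0 := by exact_mod_cast h3
    exact (ZMod.valMinAbs_eq_zero b).1 h4
  exact Prod.ext (key _ h1) (key _ h2)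

lemma pv_unit (hN3 : 3 ≤ N) : 2 * Real.pi / N = max |(pv ((1 : ZMod N), (0 : ZMod N))).1|
      |(pv ((1 : ZMod N), (0 : ZMod N))).2| ∧
    nsq (pv ((1 : ZMod N), (0 : ZMod N))) = (2 * Real.pi / N) ^ 2 := by
  have hNr : (0 : ℝ) < N := by exact_mod_cast NeZero.pos N
  have hpi := Real.pi_pos
  have hpw : pw (1 : ZMod N) = 2 * Real.pi / N := by
    have h1 : (1 : ZMod N).valMinAbs = 1 := by
      have h2 := ZMod.valMinAbs_natCast_of_le_half (n := N) (a := 1) (by omega)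
      simpa using h2
    unfold pw
    rw [h1]; push_cast; ring
  have hpw0 : pw (0 : ZMod N) = 0 := by unfold pw; simp
  constructor
  · unfold pv
    simp only
    rw [hpw, hpw0, abs_zero, abs_of_pos (by positivity : (0 : ℝ) < 2 * Real.pi / N)]
    exact (max_eq_left (by positivity)).symm
  · unfold nsq pv
    simp only
    rw [hpw, hpw0]; ring

/-- every momentum -/
theorem flat2 (n : ℕ) {w : ZMod N × ZMod N → ℝ} {S A c V δ α ρ E M : ℝ} (hS : 0 < S)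
    (hc : 0 < c) (hA : ∑ x, |w x| * Real.exp (S * (|r1 x| + |r2 x|)) ≤ A) (h0 : c ≤ Gh w 0)
    (hM1 : ∑ x, w x * r1 x ^ 2 = M) (hM2 : ∑ x, w x * r2 x ^ 2 = M)
    (hM3 : ∑ x, w x * (r1 x * r2 x) = 0) (hρ1 : ρ ≤ 1)
    (hρ : 4 * A * ρ ^ 2 ≤ c * S ^ 2) (hV : 0 < V) (hVρ : 4 * V ≤ ρ) (hN3 : 3 ≤ N)
    (hN : 4 * Real.pi * (n + 1) ≤ N * V)
    (hδ : ∀ k, EE k ≤ 2 * V ^ 2 → |(Gh w k)⁻¹ - (Gh w 0)⁻¹ - α * EE k| ≤ δ)
    (hE : E = (LC n + 1) * (δ + 2 * (4 / c + 8 * |α| * ρ ^ 2) * (2 * V / ρ) ^ (n + 1))) :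
    |M / (2 * Gh w 0 ^ 2) - α| ≤ E / V ^ 2 ∧ ∀ k, EE k ≤ 2 * V ^ 2 →
      |(Gh w k)⁻¹ - (Gh w 0)⁻¹ - M / (2 * Gh w 0 ^ 2) * EE k| ≤
        110 * (n + 1) ^ 4 * E * (EE k / V ^ 2) ^ 2 := by
  have hNr : (0 : ℝ) < N := by exact_mod_cast NeZero.pos N
  have hpi := Real.pi_pos
  have hρ0 : 0 < ρ := by linarith
  have hV1 : V ≤ 1 := by linarith
  have hδ0 : 0 ≤ δ := by
    refine (abs_nonneg _).trans (hδ 0 ?_)
    have : EE (0 : ZMod N × ZMod N) = 0 := by unfold EE; simp [cN_zero]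
    rw [this]; positivity
  have hLC := LC_pos n
  have hδE : δ ≤ E := by
    rw [hE]
    have h1 : 0 ≤ 2 * (4 / c + 8 * |α| * ρ ^ 2) * (2 * V / ρ) ^ (n + 1) := by positivity
    nlinarith
  have hE0 : 0 ≤ E := hδ0.trans hδE
  -- the coefficient
  have hα : |M / (2 * Gh w 0 ^ 2) - α| ≤ E / V ^ 2 := by
    obtain ⟨hmax, hns⟩ := pv_unit hN3
    have h := (line_main n hS hc hA h0 hM1 hM2 hM3 hρ1 hρ hV hVρ hδ hE
      (p := ((1 : ZMod N), (0 : ZMod N))) (ϑ := 2 * Real.pi / N) hmax (by positivity) (by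
        rw [mul_div_assoc', div_le_iff₀ hNr]; linarith)).1
    rw [hns] at h
    have e2 : E * (2 * Real.pi / N / V) ^ 2 = E / V ^ 2 * (2 * Real.pi / N) ^ 2 := by
      rw [div_pow (2 * Real.pi / N) V]; ring
    rw [e2] at h
    exact le_of_mul_le_mul_right h (by positivity)
  refine ⟨hα, fun k hk => ?_⟩
  obtain ⟨ϑ, hϑ⟩ : ∃ ϑ : ℝ, ϑ = max |(pv k).1| |(pv k).2| := ⟨_, rfl⟩
  have h1 : |(pv k).1| ≤ ϑ := by rw [hϑ]; exact le_max_left _ _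
  have h2 : |(pv k).2| ≤ ϑ := by rw [hϑ]; exact le_max_right _ _
  have hϑ0 : 0 ≤ ϑ := (abs_nonneg _).trans h1
  have hEE : 2 / 5 * ϑ ^ 2 ≤ EE k := EE_ge_pv hϑ
  have hEE0 : 0 ≤ EE k := le_trans (by positivity) hEE
  have hn1 : (1 : ℝ) ≤ (n + 1) := by
    have : (0 : ℝ) ≤ n := Nat.cast_nonneg _
    linarith
  by_cases hs : 2 * (n + 1) * ϑ ≤ V
  · rcases eq_or_lt_of_le hϑ0 with hz | hz
    · have hk0 : k = 0 := pv_zero
        (abs_eq_zero.1 (le_antisymm (by rw [← hz] at h1; exact h1) (abs_nonneg _)))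
        (abs_eq_zero.1 (le_antisymm (by rw [← hz] at h2; exact h2) (abs_nonneg _)))
      have hE0' : EE (0 : ZMod N × ZMod N) = 0 := by unfold EE; simp [cN_zero]
      rw [hk0, hE0']
      simp
    · obtain ⟨-, h3⟩ := line_main n hS hc hA h0 hM1 hM2 hM3 hρ1 hρ hV hVρ hδ hE hϑ hz hs
      have h4 := eR_quart h1 h2 1
      rw [← EE_pv] at h4
      simp only [one_pow, mul_one] at h4
      have e : (Gh w k)⁻¹ - (Gh w 0)⁻¹ - M / (2 * Gh w 0 ^ 2) * EE k =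
          ((Gh w k)⁻¹ - (Gh w 0)⁻¹ - α * EE k - (M / (2 * Gh w 0 ^ 2) - α) * nsq (pv k)) -
            (M / (2 * Gh w 0 ^ 2) - α) * (EE k - nsq (pv k)) := by ring
      rw [e]
      exact asm_small hE0 hV hV1 (one_le_pow₀ hn1) hEE h3 hα h4
  · have hs' : V < 2 * (n + 1) * ϑ := not_le.1 hs
    have e : (Gh w k)⁻¹ - (Gh w 0)⁻¹ - M / (2 * Gh w 0 ^ 2) * EE k =
        ((Gh w k)⁻¹ - (Gh w 0)⁻¹ - α * EE k) - (M / (2 * Gh w 0 ^ 2) - α) * EE k := by ring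
    rw [e]
    have h4 : V ^ 2 ≤ (2 * (n + 1) * ϑ) ^ 2 := pow_le_pow_left₀ hV.le hs'.le 2
    have h5 : 1 ≤ 10 * ((n : ℝ) + 1) ^ 2 * (EE k / V ^ 2) := by
      rw [mul_div_assoc', le_div_iff₀ (by positivity)]
      have h6 : (2 * ((n : ℝ) + 1) * ϑ) ^ 2 = 10 * ((n : ℝ) + 1) ^ 2 * (2 / 5 * ϑ ^ 2) := by ring
      have h7 : 10 * ((n : ℝ) + 1) ^ 2 * (2 / 5 * ϑ ^ 2) ≤ 10 * ((n : ℝ) + 1) ^ 2 * EE k :=
        mul_le_mul_of_nonneg_left hEE (by positivity)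
      linarith
    have h6 := asm_large (m := ((n : ℝ) + 1) ^ 2) hE0 hEE0 (one_le_pow₀ hn1) h5
      ((hδ k hk).trans hδE) hα
    have e2 : (((n : ℝ) + 1) ^ 2) ^ 2 = ((n : ℝ) + 1) ^ 4 := by ring
    rw [e2] at h6
    exact h6

end

end Vale.Agent.P159.H813
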