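import Vale.Agent.P159.TM.H764.Hyp

/-!
P159, lattice toolbox: the heat kernel of the discrete circle `ZMod N` against the periodised
Gaussian, with error `C T^(-3/2)` uniformly in the site and in `N`.
-/

namespace Vale.Agent.P159.H813

open Finset Real
open Vale.Agent.P159.TM.H764

noncomputable section

/-- heat kernel of the discrete circle -/
def hN (N : ℕ) [NeZero N] (T : ℝ) (n : ZMod N) : ℝ :=
  (∑ j : ZMod N, cN (j * n) * exp (-(T * (2 * (1 - cN j))))) / N

/-- periodised Gaussian -/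
def gN (N : ℕ) (T : ℝ) (n : ℝ) : ℝ :=
  (∑' m : ℤ, exp (-((n + m * N) ^ 2 / (4 * T)))) / sqrt (4 * π * T)

/-! ### an elementary sum -/

lemma arctan_step {α : ℝ} (hα : 0 < α) (i : ℕ) :
    α / (1 + (α * (i + 1)) ^ 2) ≤ arctan (α * (i + 1)) - arctan (α * i) := by
  have hlt : α * (i : ℝ) < α * (i + 1) := by nlinarith
  obtain ⟨c, hc, hc2⟩ := exists_deriv_eq_slope arctan hlt (continuous_arctan.continuousOn)
    (differentiable_arctan.differentiableOn)
  simp only [Real.deriv_arctan] at hc2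
  have h0 : (0 : ℝ) ≤ α * i := by positivity
  have hc0 : 0 ≤ c := le_trans h0 hc.1.le
  have h1 : α * (i + 1) - α * (i : ℝ) = α := by ring
  rw [h1] at hc2
  have h2 : arctan (α * (i + 1)) - arctan (α * i) = α * (1 / (1 + c ^ 2)) := by
    rw [hc2]; field_simp
  rw [h2, div_eq_mul_one_div]
  refine mul_le_mul_of_nonneg_left ?_ hα.le
  refine one_div_le_one_div_of_le (by positivity) ?_
  have := hc.2.le
  nlinarith

lemma sum_arctan {α : ℝ} (hα : 0 < α) (n : ℕ) :
    ∑ i ∈ range n, 1 / (1 + (α * ((i : ℝ) + 1)) ^ 2) ≤ π / (2 * α) := by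
  have h1 : ∀ m : ℕ, ∑ i ∈ range m, α / (1 + (α * ((i : ℝ) + 1)) ^ 2) ≤ arctan (α * m) := by
    intro m
    induction m with
    | zero => simp
    | succ m ih =>
      rw [sum_range_succ]
      have := arctan_step hα m
      push_cast
      linarith
  have h2 := h1 n
  have h3 := (arctan_lt_pi_div_two (α * n)).le
  have h4 : ∑ i ∈ range n, α / (1 + (α * ((i : ℝ) + 1)) ^ 2) =
      α * ∑ i ∈ range n, 1 / (1 + (α * ((i : ℝ) + 1)) ^ 2) := by
    rw [mul_sum]
    refine sum_congr rfl fun i _ => ?_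
    ring
  rw [h4] at h2
  rw [le_div_iff₀ (by positivity)]
  nlinarith

/-- `1 / (1 + (α j)²)` off the origin -/
def qq (α : ℝ) (j : ℤ) : ℝ := if j = 0 then 0 else 1 / (1 + (α * j) ^ 2)

lemma qq_nonneg (α : ℝ) (j : ℤ) : 0 ≤ qq α j := by
  unfold qq; split_ifs <;> positivity

lemma qq_hasSum {α : ℝ} (hα : 0 < α) : Summable (qq α) ∧ ∑' j, qq α j ≤ π / α := by
  have hnn : ∀ i : ℕ, 0 ≤ 1 / (1 + (α * ((i : ℝ) + 1)) ^ 2) := fun i => by positivity
  have hs : Summable fun i : ℕ => 1 / (1 + (α * ((i : ℝ) + 1)) ^ 2) :=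
    summable_of_sum_range_le hnn (sum_arctan hα)
  have hle : ∑' i : ℕ, 1 / (1 + (α * ((i : ℝ) + 1)) ^ 2) ≤ π / (2 * α) :=
    Real.tsum_le_of_sum_range_le hnn (sum_arctan hα)
  obtain ⟨S, hS⟩ := hs
  have hS' : S ≤ π / (2 * α) := by rw [← hS.tsum_eq]; exact hle
  have h1 : HasSum (fun n : ℕ => qq α (n : ℤ)) S := by
    have h0 : qq α ((0 : ℕ) : ℤ) = 0 := by simp [qq]
    have : HasSum (fun n : ℕ => qq α ((n + 1 : ℕ) : ℤ)) S := by
      convert hS using 2 with n
      have hne : ((n : ℤ) + 1) ≠ 0 := by positivity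
      simp [qq, hne]
    have h2 := (hasSum_nat_add_iff (f := fun n : ℕ => qq α (n : ℤ)) 1 (g := S)).1 this
    have h3 : qq α 0 = 0 := by simp [qq]
    simpa [h3] using h2
  have h2 : HasSum (fun n : ℕ => qq α (-((n : ℤ) + 1))) S := by
    convert hS using 2 with n
    have hne : (-((n : ℤ) + 1)) ≠ 0 := by omega
    simp only [qq, hne, if_false]
    push_cast
    congr 2
    ring
  have h3 := HasSum.of_nat_of_neg_add_one h1 h2
  refine ⟨h3.summable, ?_⟩
  rw [h3.tsum_eq]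
  have : π / α = π / (2 * α) + π / (2 * α) := by field_simp; ring
  linarith

/-! ### Poisson summation -/

lemma summable_gauss {c : ℝ} (hc : 0 < c) : Summable fun j : ℤ => exp (-(c * (j : ℝ) ^ 2)) := by
  have hq := (qq_hasSum (α := sqrt c) (sqrt_pos.2 hc)).1
  have h0 : Summable fun j : ℤ => if j = 0 then (1 : ℝ) else 0 :=
    summable_of_ne_finset_zero (s := {0}) (by intro j hj; simp at hj; simp [hj])
  refine Summable.of_nonneg_of_le (fun j => (exp_pos _).le) (fun j => ?_) (h0.add hq)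
  unfold qq
  by_cases hj : j = 0
  · simp [hj]
  · simp only [hj, if_false, zero_add]
    rw [exp_neg, mul_pow, sq_sqrt hc.le]
    rw [← one_div]
    refine one_div_le_one_div_of_le (by positivity) ?_
    have := add_one_le_exp (c * (j : ℝ) ^ 2)
    linarith

lemma poisson {N : ℕ} (hN0 : 0 < N) {T : ℝ} (hT : 0 < T) (n : ℝ) :
    ∑' j : ℤ, cos (2 * π * j * n / N) * exp (-(T * (2 * π * j / N) ^ 2)) = N * gN N T n := by
  have hNr : (0 : ℝ) < N := by exact_mod_cast hN0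
  set a : ℝ := 4 * π * T / (N : ℝ) ^ 2 with ha
  have hapos : 0 < a := by positivity
  have key := Complex.tsum_exp_neg_quadratic (a := (a : ℂ)) (by simpa using hapos)
    (-(Complex.I * ((n / N : ℝ) : ℂ)))
  have hL : ∀ j : ℤ, Complex.exp (-π * (a : ℂ) * (j : ℂ) ^ 2 +
      2 * π * (-(Complex.I * ((n / N : ℝ) : ℂ))) * (j : ℂ)) =
      ((exp (-(T * (2 * π * j / N) ^ 2)) : ℝ) : ℂ) *
        Complex.exp (((-(2 * π * j * n / N) : ℝ) : ℂ) * Complex.I) := by
    intro j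
    rw [Complex.ofReal_exp, ← Complex.exp_add]
    congr 1
    rw [ha]
    push_cast
    have : (N : ℂ) ≠ 0 := by exact_mod_cast hN0.ne'
    field_simp
    ring
  have hR : ∀ m : ℤ, Complex.exp (-π / (a : ℂ) * ((m : ℂ) +
      Complex.I * (-(Complex.I * ((n / N : ℝ) : ℂ)))) ^ 2) =
      ((exp (-((n + m * N) ^ 2 / (4 * T))) : ℝ) : ℂ) := by
    intro m
    rw [Complex.ofReal_exp]
    congr 1
    rw [ha]
    push_cast
    have h1 : (N : ℂ) ≠ 0 := by exact_mod_cast hN0.ne'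
    have h2 : (T : ℂ) ≠ 0 := by exact_mod_cast hT.ne'
    have h3 : (π : ℂ) ≠ 0 := by exact_mod_cast pi_ne_zero
    have h4 : Complex.I * -(Complex.I * ((n : ℂ) / N)) = (n : ℂ) / N := by
      rw [mul_neg, ← mul_assoc, Complex.I_mul_I]; ring
    rw [h4]
    field_simp
    ring
  simp_rw [hL, hR] at key
  have hsum : Summable fun j : ℤ => ((exp (-(T * (2 * π * j / N) ^ 2)) : ℝ) : ℂ) *
        Complex.exp (((-(2 * π * j * n / N) : ℝ) : ℂ) * Complex.I) := by
    have h1 : Summable fun j : ℤ => exp (-(T * (2 * π / N) ^ 2 * (j : ℝ) ^ 2)) :=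
      summable_gauss (by positivity)
    refine Summable.of_norm ?_
    refine h1.congr fun j => ?_
    rw [norm_mul, Complex.norm_exp_ofReal_mul_I, mul_one, Complex.norm_real, norm_of_nonneg
      (exp_pos _).le]
    congr 2
    ring
  have key2 := congrArg Complex.re key
  rw [Complex.re_tsum hsum] at key2
  have hre : ∀ j : ℤ, (((exp (-(T * (2 * π * j / N) ^ 2)) : ℝ) : ℂ) *
        Complex.exp (((-(2 * π * j * n / N) : ℝ) : ℂ) * Complex.I)).re =
        cos (2 * π * j * n / N) * exp (-(T * (2 * π * j / N) ^ 2)) := by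
    intro j
    rw [Complex.re_ofReal_mul, Complex.exp_ofReal_mul_I_re, cos_neg]
    ring
  simp_rw [hre] at key2
  rw [key2]
  have hpow : (a : ℂ) ^ (1 / 2 : ℂ) = ((sqrt a : ℝ) : ℂ) := by
    rw [sqrt_eq_rpow, Complex.ofReal_cpow hapos.le]
    norm_num
  rw [hpow, ← Complex.ofReal_tsum, ← Complex.ofReal_one, ← Complex.ofReal_div,
    ← Complex.ofReal_mul, Complex.ofReal_re]
  unfold gN
  have hsq : sqrt a = sqrt (4 * π * T) / N := by
    rw [ha, sqrt_div (by positivity), sqrt_sq hNr.le]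
  rw [hsq]
  have : sqrt (4 * π * T) ≠ 0 := (sqrt_pos.2 (by positivity)).ne'
  field_simp

/-! ### the error of one mode -/

lemma cos_quart (θ : ℝ) : θ ^ 2 - 2 * (1 - cos θ) ≤ θ ^ 4 := by
  by_cases h : |θ| ≤ 1
  · have h1 := cos_bound h
    have h2 := (abs_le.1 h1).2
    have h3 : |θ| ^ 4 = θ ^ 4 := by
      rw [show (4 : ℕ) = 2 * 2 by norm_num, pow_mul, pow_mul, sq_abs]
    rw [h3] at h2
    have : 0 ≤ θ ^ 4 := by positivity
    nlinarith
  · push Not at h
    have h1 : 1 ≤ θ ^ 2 := by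
      have := sq_abs θ
      nlinarith
    have h2 : cos θ ≤ 1 := cos_le_one θ
    nlinarith

lemma one_sub_cos_low' {x : ℝ} (hx : |x| ≤ π) : 2 / π ^ 2 * x ^ 2 ≤ 1 - cos x := by
  have key : ∀ t : ℝ, 0 ≤ t → t ≤ π → 2 / π ^ 2 * t ^ 2 ≤ 1 - cos t := by
    intro t ht htp
    have h1 : 2 / π * (t / 2) ≤ sin (t / 2) :=
      mul_le_sin (by linarith) (by linarith)
    have h2 : 1 - cos t = 2 * sin (t / 2) ^ 2 := by
      rw [sin_sq_eq_half_sub]
      have : 2 * (t / 2) = t := by ring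
      rw [this]; ring
    have h3 : 0 ≤ 2 / π * (t / 2) := by positivity
    have h4 := pow_le_pow_left₀ h3 h1 2
    rw [h2]
    calc 2 / π ^ 2 * t ^ 2 = 2 * (2 / π * (t / 2)) ^ 2 := by
          field_simp
      _ ≤ _ := by linarith
  rcases le_total 0 x with h | h
  · rw [abs_of_nonneg h] at hx
    exact key x h hx
  · rw [abs_of_nonpos h] at hx
    have := key (-x) (by linarith) hx
    rwa [cos_neg, neg_sq] at this

lemma cos_low {θ : ℝ} (hθ : |θ| ≤ π) : 2 / 5 * θ ^ 2 ≤ 2 * (1 - cos θ) := by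
  have h2 : 2 / π ^ 2 * θ ^ 2 ≤ 1 - cos θ := one_sub_cos_low' hθ
  have h3 : π ^ 2 ≤ 10 := by nlinarith [pi_lt_d2, pi_pos]
  have h4 : 2 / 10 ≤ 2 / π ^ 2 := by
    refine div_le_div_of_nonneg_left (by norm_num) (by positivity) h3
  nlinarith [sq_nonneg θ]

lemma exp_cub {u : ℝ} (hu : 0 ≤ u) : u ^ 2 * exp (-(2 / 5 * u)) ≤ 107 / (1 + u) := by
  have h0 : 0 ≤ 2 / 5 * u := by positivity
  have h2 := pow_div_factorial_le_exp (2 / 5 * u) h0 2
  have h3 := pow_div_factorial_le_exp (2 / 5 * u) h0 3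
  norm_num [Nat.factorial] at h2 h3
  rw [exp_neg, le_div_iff₀ (by positivity), mul_assoc, mul_comm, mul_assoc,
    inv_mul_le_iff₀ (exp_pos _)]
  nlinarith

lemma exp_one {u : ℝ} (hu : 0 ≤ u) : exp (-(2 / 5 * u)) ≤ 5 / 2 / (1 + u) := by
  have h2 := add_one_le_exp (2 / 5 * u)
  rw [exp_neg, le_div_iff₀ (by positivity), inv_mul_le_iff₀ (exp_pos _)]
  nlinarith

lemma mode_in {T θ : ℝ} (hT : 0 < T) (hθ : |θ| ≤ π) :
    |exp (-(T * (2 * (1 - cos θ)))) - exp (-(T * θ ^ 2))| ≤ 107 / T / (1 + T * θ ^ 2) := by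
  have h1 := one_sub_sq_div_two_le_cos (x := θ)
  have h2 := cos_quart θ
  have h3 := cos_low hθ
  have hle : exp (-(T * θ ^ 2)) ≤ exp (-(T * (2 * (1 - cos θ)))) := by
    refine exp_le_exp.2 ?_
    nlinarith
  rw [abs_of_nonneg (by linarith)]
  have h4 : exp (-(T * (2 * (1 - cos θ)))) - exp (-(T * θ ^ 2)) ≤
      T * θ ^ 4 * exp (-(2 / 5 * (T * θ ^ 2))) := by
    have h5 : exp (-(T * θ ^ 2)) = exp (-(T * (2 * (1 - cos θ)))) *
        exp (-(T * (θ ^ 2 - 2 * (1 - cos θ)))) := by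
      rw [← exp_add]; congr 1; ring
    have h6 := add_one_le_exp (-(T * (θ ^ 2 - 2 * (1 - cos θ))))
    have h7 : exp (-(T * (2 * (1 - cos θ)))) ≤ exp (-(2 / 5 * (T * θ ^ 2))) := by
      refine exp_le_exp.2 ?_
      nlinarith
    have h8 := exp_pos (-(T * (2 * (1 - cos θ))))
    have h9 : 0 ≤ T * (θ ^ 2 - 2 * (1 - cos θ)) := by
      have : 0 ≤ θ ^ 2 - 2 * (1 - cos θ) := by linarith
      positivity
    calc exp (-(T * (2 * (1 - cos θ)))) - exp (-(T * θ ^ 2))
        = exp (-(T * (2 * (1 - cos θ)))) * (1 - exp (-(T * (θ ^ 2 - 2 * (1 - cos θ))))) := by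
          rw [h5]; ring
      _ ≤ exp (-(T * (2 * (1 - cos θ)))) * (T * (θ ^ 2 - 2 * (1 - cos θ))) := by
          refine mul_le_mul_of_nonneg_left (by linarith) h8.le
      _ ≤ exp (-(2 / 5 * (T * θ ^ 2))) * (T * (θ ^ 2 - 2 * (1 - cos θ))) := by
          refine mul_le_mul_of_nonneg_right h7 h9
      _ ≤ exp (-(2 / 5 * (T * θ ^ 2))) * (T * θ ^ 4) := by
          refine mul_le_mul_of_nonneg_left ?_ (exp_pos _).le
          refine mul_le_mul_of_nonneg_left h2 hT.le
      _ = _ := by ring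
  refine h4.trans ?_
  have h10 := exp_cub (u := T * θ ^ 2) (by positivity)
  have h11 : T * θ ^ 4 * exp (-(2 / 5 * (T * θ ^ 2))) =
      1 / T * ((T * θ ^ 2) ^ 2 * exp (-(2 / 5 * (T * θ ^ 2)))) := by
    field_simp
  rw [h11]
  calc 1 / T * ((T * θ ^ 2) ^ 2 * exp (-(2 / 5 * (T * θ ^ 2))))
      ≤ 1 / T * (107 / (1 + T * θ ^ 2)) := mul_le_mul_of_nonneg_left h10 (by positivity)
    _ = _ := by field_simp

lemma mode_out {T θ : ℝ} (hT : 1 ≤ T) (hθ : π ≤ |θ|) :
    exp (-(T * θ ^ 2)) ≤ 107 / T / (1 + T * θ ^ 2) := by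
  have hT0 : 0 < T := by linarith
  have h1 : 9 ≤ θ ^ 2 := by
    have := sq_abs θ
    nlinarith [pi_gt_three]
  have h2 : exp (-(T * θ ^ 2)) ≤ T * θ ^ 4 * exp (-(2 / 5 * (T * θ ^ 2))) := by
    have h3 : exp (-(T * θ ^ 2)) ≤ exp (-(2 / 5 * (T * θ ^ 2))) := by
      refine exp_le_exp.2 ?_
      have : 0 ≤ T * θ ^ 2 := by positivity
      linarith
    have h4 : 1 ≤ T * θ ^ 4 := by
      have : θ ^ 4 = θ ^ 2 * θ ^ 2 := by ring
      rw [this]
      nlinarith
    have h5 := exp_pos (-(2 / 5 * (T * θ ^ 2)))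
    nlinarith
  refine h2.trans ?_
  have h10 := exp_cub (u := T * θ ^ 2) (by positivity)
  have h11 : T * θ ^ 4 * exp (-(2 / 5 * (T * θ ^ 2))) =
      1 / T * ((T * θ ^ 2) ^ 2 * exp (-(2 / 5 * (T * θ ^ 2)))) := by
    field_simp
  rw [h11]
  calc 1 / T * ((T * θ ^ 2) ^ 2 * exp (-(2 / 5 * (T * θ ^ 2))))
      ≤ 1 / T * (107 / (1 + T * θ ^ 2)) := mul_le_mul_of_nonneg_left h10 (by positivity)
    _ = _ := by field_simp

/-! ### the main comparison -/

/-- the window of representatives -/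
def Wn (N : ℕ) [NeZero N] : Finset ℤ := univ.image fun j : ZMod N => j.valMinAbs

lemma sum_Wn (N : ℕ) [NeZero N] (F : ℤ → ℝ) :
    ∑ j : ZMod N, F j.valMinAbs = ∑ i ∈ Wn N, F i := by
  unfold Wn
  rw [sum_image]
  intro a _ b _ h
  exact ZMod.valMinAbs_inj.1 h

lemma Wn_mem {N : ℕ} [NeZero N] {i : ℤ} (h : i ∈ Wn N) : |2 * π * i / N| ≤ π := by
  unfold Wn at h
  obtain ⟨j, -, rfl⟩ := mem_image.1 h
  have hNr : (0 : ℝ) < N := by exact_mod_cast Nat.pos_of_ne_zero (NeZero.ne N)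
  have h1 := ZMod.valMinAbs_mem_Ioc j
  have h2 : -(N : ℝ) < (j.valMinAbs : ℝ) * 2 := by exact_mod_cast h1.1
  have h3 : (j.valMinAbs : ℝ) * 2 ≤ N := by exact_mod_cast h1.2
  rw [abs_le]
  have hpi := pi_pos
  constructor
  · rw [le_div_iff₀ hNr]; nlinarith
  · rw [div_le_iff₀ hNr]; nlinarith

lemma Wn_notMem {N : ℕ} [NeZero N] {i : ℤ} (h : i ∉ Wn N) : π ≤ |2 * π * i / N| := by
  have hNr : (0 : ℝ) < N := by exact_mod_cast Nat.pos_of_ne_zero (NeZero.ne N)
  have hpi := pi_pos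
  by_contra hcon
  push Not at hcon
  apply h
  unfold Wn
  refine mem_image.2 ⟨(i : ZMod N), mem_univ _, ?_⟩
  rw [abs_lt] at hcon
  have h1 := hcon.1
  have h2 := hcon.2
  rw [lt_div_iff₀ hNr] at h1
  rw [div_lt_iff₀ hNr] at h2
  rw [ZMod.valMinAbs_spec]
  refine ⟨rfl, ?_, ?_⟩
  · have : -(N : ℝ) < i * 2 := by nlinarith
    exact_mod_cast this
  · have : (i : ℝ) * 2 ≤ N := by nlinarith
    exact_mod_cast this

lemma hN_eq (N : ℕ) [NeZero N] (T : ℝ) (n : ℤ) :
    hN N T (n : ZMod N) = (∑ i ∈ Wn N, cos (2 * π * i * n / N) *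
      exp (-(T * (2 * (1 - cos (2 * π * i / N)))))) / N := by
  unfold hN
  rw [← sum_Wn N fun i => cos (2 * π * i * n / N) * exp (-(T * (2 * (1 - cos (2 * π * i / N)))))]
  congr 1
  refine sum_congr rfl fun j _ => ?_
  have h1 : ((j.valMinAbs : ℤ) : ZMod N) = j := ZMod.coe_valMinAbs j
  have h2 : j * (n : ZMod N) = ((j.valMinAbs * n : ℤ) : ZMod N) := by
    push_cast
    rfl
  have h3 : cN j = cos (2 * π * j.valMinAbs / N) := by
    conv_lhs => rw [← h1]
    exact cN_int _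
  rw [h2, cN_int, h3]
  push_cast
  congr 2
  ring

/-- **local limit theorem on the circle** -/
theorem hN_gN (N : ℕ) [NeZero N] {T : ℝ} (hT : 1 ≤ T) (n : ℤ) :
    |hN N T (n : ZMod N) - gN N T n| ≤ 54 / (T * sqrt T) := by
  have hN0 : 0 < N := Nat.pos_of_ne_zero (NeZero.ne N)
  have hNr : (0 : ℝ) < N := by exact_mod_cast hN0
  have hT0 : 0 < T := by linarith
  have hsT : 0 < sqrt T := sqrt_pos.2 hT0
  set F1 : ℤ → ℝ := fun i => cos (2 * π * i * n / N) *
      exp (-(T * (2 * (1 - cos (2 * π * i / N))))) with hF1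
  set F2 : ℤ → ℝ := fun i => cos (2 * π * i * n / N) * exp (-(T * (2 * π * i / N) ^ 2)) with hF2
  set α : ℝ := 2 * π * sqrt T / N with hα
  have hαp : 0 < α := by have := pi_pos; positivity
  obtain ⟨hq, hqle⟩ := qq_hasSum hαp
  have hF2s : Summable F2 := by
    have h1 : Summable fun j : ℤ => exp (-(T * (2 * π / N) ^ 2 * (j : ℝ) ^ 2)) :=
      summable_gauss (by have := pi_pos; positivity)
    refine Summable.of_norm_bounded h1 fun j => ?_
    rw [hF2]
    simp only [norm_mul, norm_eq_abs, abs_exp]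
    have h2 : |cos (2 * π * (j : ℝ) * n / N)| ≤ 1 := abs_cos_le_one _
    have h3 : exp (-(T * (2 * π * j / N) ^ 2)) = exp (-(T * (2 * π / N) ^ 2 * (j : ℝ) ^ 2)) := by
      congr 1; ring
    rw [h3]
    have := exp_pos (-(T * (2 * π / N) ^ 2 * (j : ℝ) ^ 2))
    nlinarith
  set D : ℤ → ℝ := fun i => (if i ∈ Wn N then F1 i else 0) - F2 i with hD
  have hF1s : Summable fun i : ℤ => if i ∈ Wn N then F1 i else 0 :=
    summable_of_ne_finset_zero (s := Wn N) (by intro j hj; simp [hj])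
  have hαT : ∀ i : ℤ, (α * i) ^ 2 = T * (2 * π * i / N) ^ 2 := by
    intro i
    rw [hα]
    have : (2 * π * sqrt T / N * i) ^ 2 = (sqrt T) ^ 2 * (2 * π * i / N) ^ 2 := by ring
    rw [this, sq_sqrt hT0.le]
  have hDle : ∀ i, |D i| ≤ 107 / T * qq α i := by
    intro i
    by_cases h0 : i = 0
    · subst h0
      have hmem : (0 : ℤ) ∈ Wn N := by
        by_contra hcon
        have := Wn_notMem hcon
        simp at this
        linarith [pi_pos]
      simp [hD, hF1, hF2, hmem, qq]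
    · by_cases hi : i ∈ Wn N
      · have hm := mode_in hT0 (Wn_mem hi)
        have hc : |cos (2 * π * (i : ℝ) * n / N)| ≤ 1 := abs_cos_le_one _
        simp only [hD, hF1, hF2, hi, if_true, qq, h0, if_false]
        rw [← mul_sub, abs_mul, hαT]
        calc _ ≤ 1 * |exp (-(T * (2 * (1 - cos (2 * π * i / N))))) -
              exp (-(T * (2 * π * i / N) ^ 2))| :=
              mul_le_mul_of_nonneg_right hc (abs_nonneg _)
          _ ≤ _ := by rw [one_mul]; refine hm.trans (le_of_eq ?_); ring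
      · have hm := mode_out hT (Wn_notMem hi)
        have hc : |cos (2 * π * (i : ℝ) * n / N)| ≤ 1 := abs_cos_le_one _
        simp only [hD, hF2, hi, if_false, qq, h0]
        rw [zero_sub, abs_neg, abs_mul, hαT, abs_exp]
        calc _ ≤ 1 * exp (-(T * (2 * π * i / N) ^ 2)) :=
              mul_le_mul_of_nonneg_right hc (exp_pos _).le
          _ ≤ _ := by rw [one_mul]; refine hm.trans (le_of_eq ?_); ring
  have hsum : ∑' i, D i = (∑ i ∈ Wn N, F1 i) - ∑' i, F2 i := by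
    rw [hD, hF1s.tsum_sub hF2s]
    congr 1
    rw [tsum_eq_sum (s := Wn N) (by intro j hj; simp [hj])]
    refine sum_congr rfl fun i hi => ?_
    simp [hi]
  have habs : |∑' i, D i| ≤ 107 / T * (π / α) := by
    have h1 : Summable fun i => 107 / T * qq α i := hq.mul_left _
    have h2 : Summable D := hF1s.sub hF2s
    have h3 : Summable fun i => ‖D i‖ :=
      Summable.of_nonneg_of_le (fun i => norm_nonneg _) (fun i => hDle i) h1
    calc |∑' i, D i| ≤ ∑' i, ‖D i‖ := by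
          have := norm_tsum_le_tsum_norm h3
          simpa [norm_eq_abs] using this
      _ ≤ ∑' i, 107 / T * qq α i := h3.tsum_le_tsum (fun i => hDle i) h1
      _ = 107 / T * ∑' i, qq α i := tsum_mul_left
      _ ≤ _ := mul_le_mul_of_nonneg_left hqle (by positivity)
  have hp := poisson hN0 hT0 (n : ℝ)
  have hp' : ∑' i, F2 i = N * gN N T n := hp
  rw [hsum, hp'] at habs
  rw [hN_eq]
  have h5 : (∑ i ∈ Wn N, F1 i) / N - gN N T n = ((∑ i ∈ Wn N, F1 i) - N * gN N T n) / N := by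
    field_simp
  rw [h5, abs_div, abs_of_pos hNr, div_le_iff₀ hNr]
  refine habs.trans ?_
  rw [hα]
  have hpi := pi_pos
  have : 107 / T * (π / (2 * π * sqrt T / N)) = (107 / 2) / (T * sqrt T) * N := by
    field_simp
  rw [this]
  refine mul_le_mul_of_nonneg_right ?_ hNr.le
  refine div_le_div_of_nonneg_right (by norm_num) (by positivity)

end

end Vale.Agent.P159.H813
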