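import Mathlib

/-!
P159 / P#5': a function which is analytic in a disc of radius `r` and small at `n+1` separated
points of a short real interval `[0, U]` is small in the complex disc of radius `U`, up to
`(U/r)^(n+1)`; consequence for the second order Taylor remainder.
-/

namespace Vale.Agent.P159.H813

open Finset Polynomial

noncomputable section

/-- Taylor coefficient at `0` -/
def tc (F : ℂ → ℂ) (i : ℕ) : ℂ := ((i.factorial : ℂ))⁻¹ * iteratedDeriv i F 0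

lemma tc_zero (F : ℂ → ℂ) : tc F 0 = F 0 := by simp [tc]

lemma tc_one (F : ℂ → ℂ) : tc F 1 = deriv F 0 := by simp [tc, iteratedDeriv_one]

lemma tc_le {F : ℂ → ℂ} {r ρ B : ℝ} (hρ : 0 < ρ) (hρr : ρ < r)
    (hF : DifferentiableOn ℂ F (Metric.ball 0 r)) (hB : ∀ z, ‖z‖ ≤ ρ → ‖F z‖ ≤ B) (i : ℕ) :
    ‖tc F i‖ ≤ B / ρ ^ i := by
  have h1 : DiffContOnCl ℂ F (Metric.ball 0 ρ) :=
    DifferentiableOn.diffContOnCl_ball (U := Metric.ball 0 r) hF (Metric.closedBall_subset_ball hρr)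
  have h2 := Complex.norm_iteratedDeriv_le_of_forall_mem_sphere_norm_le i hρ h1 (C := B)
    (fun z hz => hB z (by simpa using (mem_sphere_iff_norm.1 hz).le))
  unfold tc
  rw [norm_mul, norm_inv, Complex.norm_natCast]
  have h3 : (0 : ℝ) < i.factorial := by exact_mod_cast i.factorial_pos
  rw [inv_mul_le_iff₀ h3]
  refine h2.trans (le_of_eq ?_)
  ring

lemma taylor_tail {F : ℂ → ℂ} {r ρ B : ℝ} (hρ : 0 < ρ) (hρr : ρ < r)
    (hF : DifferentiableOn ℂ F (Metric.ball 0 r)) (hB : ∀ z, ‖z‖ ≤ ρ → ‖F z‖ ≤ B) (m : ℕ)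
    {z : ℂ} (hz : ‖z‖ ≤ ρ / 2) :
    ‖F z - ∑ i ∈ range m, tc F i * z ^ i‖ ≤ 2 * B * (‖z‖ / ρ) ^ m := by
  have hB0 : 0 ≤ B := (norm_nonneg _).trans (hB 0 (by simpa using hρ.le))
  have hzr : z ∈ Metric.ball (0 : ℂ) r := by
    rw [mem_ball_zero_iff]; linarith
  have hs : HasSum (fun i : ℕ => tc F i * z ^ i) (F z) := by
    have h := Complex.hasSum_taylorSeries_on_ball hF hzr
    have he : (fun i : ℕ => tc F i * z ^ i) =
        fun i : ℕ => ((i.factorial : ℂ))⁻¹ • (z - 0) ^ i • iteratedDeriv i F 0 := by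
      funext i
      rw [sub_zero, smul_eq_mul, smul_eq_mul, tc]
      ring
    rw [he]
    exact h
  have hs2 := (hasSum_nat_add_iff' m).2 hs
  set q : ℝ := ‖z‖ / ρ with hq
  have hq0 : 0 ≤ q := by positivity
  have hq1 : q ≤ 1 / 2 := by
    rw [hq, div_le_iff₀ hρ]; linarith
  have hg : HasSum (fun i : ℕ => B * q ^ m * q ^ i) (B * q ^ m * (1 - q)⁻¹) :=
    (hasSum_geometric_of_lt_one hq0 (by linarith)).mul_left _
  have hle : ∀ i : ℕ, ‖tc F (i + m) * z ^ (i + m)‖ ≤ B * q ^ m * q ^ i := by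
    intro i
    rw [norm_mul, norm_pow]
    have h1 := tc_le hρ hρr hF hB (i + m)
    calc ‖tc F (i + m)‖ * ‖z‖ ^ (i + m) ≤ B / ρ ^ (i + m) * ‖z‖ ^ (i + m) :=
          mul_le_mul_of_nonneg_right h1 (by positivity)
      _ = B * q ^ m * q ^ i := by
          rw [hq, div_pow, div_pow, pow_add, pow_add]
          field_simp
  have h := hs2.norm_le_of_bounded hg hle
  refine h.trans ?_
  have h2 : (1 - q)⁻¹ ≤ 2 := by
    rw [inv_le_comm₀ (by linarith) (by norm_num)]; linarith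
  calc B * q ^ m * (1 - q)⁻¹ ≤ B * q ^ m * 2 := mul_le_mul_of_nonneg_left h2 (by positivity)
    _ = _ := by ring

/-! ### Lagrange interpolation with separated nodes -/

/-- Lagrange constant -/
def LC (n : ℕ) : ℝ := (n + 1) * (8 * (n + 1)) ^ n

lemma LC_pos (n : ℕ) : 0 < LC n := by unfold LC; positivity

lemma basis_bound (n : ℕ) {U : ℝ} (hU : 0 < U) (v : Fin (n + 1) → ℝ)
    (hv0 : ∀ i, 0 ≤ v i) (hvU : ∀ i, v i ≤ U)
    (hsep : ∀ i j, i ≠ j → U / (4 * (n + 1)) ≤ |v i - v j|) (i : Fin (n + 1)) {z : ℂ}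
    (hz : ‖z‖ ≤ U) :
    ‖(Lagrange.basis univ (fun j => (v j : ℂ)) i).eval z‖ ≤ (8 * (n + 1)) ^ n := by
  unfold Lagrange.basis
  rw [eval_prod, norm_prod]
  have hcard : (univ.erase i : Finset (Fin (n + 1))).card = n := by
    rw [card_erase_of_mem (mem_univ i), card_univ, Fintype.card_fin]; rfl
  calc ∏ j ∈ univ.erase i, ‖(Lagrange.basisDivisor ((v i : ℝ) : ℂ) ((v j : ℝ) : ℂ)).eval z‖
      ≤ ∏ _j ∈ univ.erase i, (8 * ((n : ℝ) + 1)) := by
        refine prod_le_prod (fun _ _ => norm_nonneg _) fun j hj => ?_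
        have hij : i ≠ j := fun h => (ne_of_mem_erase hj) h.symm
        unfold Lagrange.basisDivisor
        rw [eval_mul, eval_C, eval_sub, eval_X, eval_C, norm_mul, norm_inv]
        have h1 : ‖((v i : ℝ) : ℂ) - ((v j : ℝ) : ℂ)‖ = |v i - v j| := by
          rw [← Complex.ofReal_sub, Complex.norm_real, Real.norm_eq_abs]
        rw [h1]
        have h2 := hsep i j hij
        have h3 : 0 < U / (4 * ((n : ℝ) + 1)) := by positivity
        have h4 : ‖z - ((v j : ℝ) : ℂ)‖ ≤ 2 * U := by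
          refine (norm_sub_le _ _).trans ?_
          rw [Complex.norm_real, Real.norm_eq_abs, abs_of_nonneg (hv0 j)]
          linarith [hvU j]
        rw [inv_mul_le_iff₀ (by linarith)]
        calc ‖z - ((v j : ℝ) : ℂ)‖ ≤ 2 * U := h4
          _ = U / (4 * (n + 1)) * (8 * (n + 1)) := by field_simp; ring
          _ ≤ _ := mul_le_mul_of_nonneg_right h2 (by positivity)
    _ = _ := by rw [prod_const, hcard]

lemma poly_bound (n : ℕ) {U δ : ℝ} (hU : 0 < U) (v : Fin (n + 1) → ℝ)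
    (hv0 : ∀ i, 0 ≤ v i) (hvU : ∀ i, v i ≤ U)
    (hsep : ∀ i j, i ≠ j → U / (4 * (n + 1)) ≤ |v i - v j|) (P : ℂ[X]) (hP : P.natDegree ≤ n)
    (hδ : ∀ i, ‖P.eval ((v i : ℝ) : ℂ)‖ ≤ δ) {z : ℂ} (hz : ‖z‖ ≤ U) :
    ‖P.eval z‖ ≤ LC n * δ := by
  have hinj : Set.InjOn (fun j : Fin (n + 1) => ((v j : ℝ) : ℂ))
      ((univ : Finset (Fin (n + 1))) : Set (Fin (n + 1))) := by
    intro i _ j _ hij
    by_contra hne
    have h := hsep i j hne
    have h2 : v i = v j := Complex.ofReal_injective hij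
    rw [h2, sub_self, abs_zero] at h
    have : 0 < U / (4 * ((n : ℝ) + 1)) := by positivity
    linarith
  have hdeg : P.degree < (univ : Finset (Fin (n + 1))).card := by
    rw [card_univ, Fintype.card_fin]
    refine lt_of_le_of_lt Polynomial.degree_le_natDegree ?_
    exact_mod_cast Nat.lt_succ_of_le hP
  have hP2 := Lagrange.eq_interpolate hinj hdeg
  have hev : P.eval z = ∑ i : Fin (n + 1), P.eval ((v i : ℝ) : ℂ) *
      (Lagrange.basis univ (fun j => ((v j : ℝ) : ℂ)) i).eval z := by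
    conv_lhs => rw [hP2]
    rw [Lagrange.interpolate_apply, eval_finsetSum]
    refine sum_congr rfl fun i _ => ?_
    rw [eval_mul, eval_C]
  have hδ0 : 0 ≤ δ := (norm_nonneg _).trans (hδ 0)
  rw [hev]
  calc ‖∑ i : Fin (n + 1), P.eval ((v i : ℝ) : ℂ) *
      (Lagrange.basis univ (fun j => ((v j : ℝ) : ℂ)) i).eval z‖
      ≤ ∑ i : Fin (n + 1), ‖P.eval ((v i : ℝ) : ℂ) *
      (Lagrange.basis univ (fun j => ((v j : ℝ) : ℂ)) i).eval z‖ := norm_sum_le _ _
    _ ≤ ∑ _i : Fin (n + 1), δ * (8 * ((n : ℝ) + 1)) ^ n := by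
        refine sum_le_sum fun i _ => ?_
        rw [norm_mul]
        exact mul_le_mul (hδ i) (basis_bound n hU v hv0 hvU hsep i hz) (norm_nonneg _) hδ0
    _ = LC n * δ := by
        rw [sum_const, card_univ, Fintype.card_fin, nsmul_eq_mul]
        unfold LC
        push_cast
        ring

/-- **P#5' (analytic part).** -/
theorem interp (n : ℕ) {F : ℂ → ℂ} {r B U δ : ℝ} (hF : DifferentiableOn ℂ F (Metric.ball 0 r))
    (hB : ∀ z, ‖z‖ < r → ‖F z‖ ≤ B) (hU : 0 < U) (hUr : 4 * U ≤ r) (v : Fin (n + 1) → ℝ)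
    (hv0 : ∀ i, 0 ≤ v i) (hvU : ∀ i, v i ≤ U)
    (hsep : ∀ i j, i ≠ j → U / (4 * (n + 1)) ≤ |v i - v j|)
    (hδ : ∀ i, ‖F ((v i : ℝ) : ℂ)‖ ≤ δ) :
    (∀ z, ‖z‖ ≤ U → ‖F z‖ ≤ (LC n + 1) * (δ + 2 * B * (2 * U / r) ^ (n + 1))) ∧
    ‖deriv F 0‖ ≤ (LC n + 1) * (δ + 2 * B * (2 * U / r) ^ (n + 1)) / U ∧
    ∀ z, ‖z‖ ≤ U / 2 → ‖F z - F 0 - deriv F 0 * z‖ ≤
      2 * ((LC n + 1) * (δ + 2 * B * (2 * U / r) ^ (n + 1))) * (‖z‖ / U) ^ 2 := by
  have hr : 0 < r := by linarith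
  have hB0 : 0 ≤ B := (norm_nonneg _).trans (hB 0 (by simpa using hr))
  have hδ0 : 0 ≤ δ := (norm_nonneg _).trans (hδ 0)
  set τ : ℝ := 2 * B * (2 * U / r) ^ (n + 1) with hτ
  have hτ0 : 0 ≤ τ := by positivity
  set P : ℂ[X] := ∑ i ∈ range (n + 1), C (tc F i) * X ^ i with hP
  have hPdeg : P.natDegree ≤ n := by
    rw [hP]
    refine natDegree_sum_le_of_forall_le _ _ fun i hi => ?_
    refine (natDegree_C_mul_X_pow_le _ _).trans ?_
    have := mem_range.1 hi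
    omega
  have hPev : ∀ z, P.eval z = ∑ i ∈ range (n + 1), tc F i * z ^ i := by
    intro z
    rw [hP, eval_finsetSum]
    refine sum_congr rfl fun i _ => ?_
    simp
  have htail : ∀ z : ℂ, ‖z‖ ≤ U → ‖F z - P.eval z‖ ≤ τ := by
    intro z hz
    rw [hPev]
    have h := taylor_tail (ρ := r / 2) (by linarith) (by linarith) hF
      (fun w hw => hB w (by linarith)) (n + 1) (z := z) (by linarith)
    refine h.trans ?_
    rw [hτ]
    refine mul_le_mul_of_nonneg_left ?_ (by positivity)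
    refine pow_le_pow_left₀ (by positivity) ?_ _
    rw [div_le_div_iff₀ (by positivity) hr]
    nlinarith
  have hPn : ∀ i, ‖P.eval ((v i : ℝ) : ℂ)‖ ≤ δ + τ := by
    intro i
    have h1 : ‖((v i : ℝ) : ℂ)‖ ≤ U := by
      rw [Complex.norm_real, Real.norm_eq_abs, abs_of_nonneg (hv0 i)]; exact hvU i
    have h2 := htail _ h1
    have h3 : P.eval ((v i : ℝ) : ℂ) = F ((v i : ℝ) : ℂ) - (F ((v i : ℝ) : ℂ) -
      P.eval ((v i : ℝ) : ℂ)) := by ring
    rw [h3]
    exact (norm_sub_le _ _).trans (add_le_add (hδ i) h2)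
  set E : ℝ := (LC n + 1) * (δ + τ) with hE
  have hLC := LC_pos n
  have hFE : ∀ z : ℂ, ‖z‖ ≤ U → ‖F z‖ ≤ E := by
    intro z hz
    have h1 := poly_bound n hU v hv0 hvU hsep P hPdeg hPn hz
    have h2 := htail z hz
    have h3 : F z = P.eval z + (F z - P.eval z) := by ring
    rw [h3]
    refine (norm_add_le _ _).trans ?_
    rw [hE]
    nlinarith
  refine ⟨hFE, ?_, ?_⟩
  · have h := tc_le hU (by linarith) hF hFE 1
    rw [tc_one, pow_one] at h
    exact h
  · intro z hz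
    have h := taylor_tail hU (by linarith) hF hFE 2 hz
    have h2 : ∑ i ∈ range 2, tc F i * z ^ i = F 0 + deriv F 0 * z := by
      rw [sum_range_succ, sum_range_one, tc_zero, tc_one]; simp
    rw [h2] at h
    have h3 : F z - F 0 - deriv F 0 * z = F z - (F 0 + deriv F 0 * z) := by ring
    rw [h3]
    exact h

end

end Vale.Agent.P159.H813
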