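import Vale.Agent.P159.H813.P5
import Vale.Agent.P159.H813.P4core

/-!
P159 / P#5', form with a nonnegative kernel whose strip sums decay up to a small constant: truncation
and application of `P5`.
-/

namespace Vale.Agent.P159.H813

open Finset
open Vale.Agent.P159.TM.H764

noncomputable section

variable {N : ℕ} [NeZero N]

/-- strip index along the first axis -/
def bi (m : ℕ) (x : ZMod N × ZMod N) : ℕ := x.1.valMinAbs.natAbs / m

/-- the strip `bi m x = β` -/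
def strip (N : ℕ) [NeZero N] (m β : ℕ) : Finset (ZMod N × ZMod N) :=
  univ.filter fun x => bi m x = β

lemma bi_lt {m : ℕ} (x : ZMod N × ZMod N) : bi m x < N := by
  unfold bi
  have h := ZMod.natAbs_valMinAbs_le x.1
  have h1 : x.1.valMinAbs.natAbs / m ≤ x.1.valMinAbs.natAbs := Nat.div_le_self _ _
  have h2 : 0 < N := NeZero.pos N
  omega

/-- sums over the torus are sums over strips -/
lemma sum_strips (m : ℕ) (f : ZMod N × ZMod N → ℝ) :
    ∑ x, f x = ∑ β ∈ range N, ∑ x ∈ strip N m β, f x := by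
  unfold strip
  rw [Finset.sum_fiberwise_of_maps_to]
  intro x _
  exact mem_range.2 (bi_lt x)

/-- truncation -/
def wK (m K : ℕ) (w : ZMod N × ZMod N → ℝ) (x : ZMod N × ZMod N) : ℝ :=
  if bi m x < K then w x else 0

lemma geo_exp {c : ℝ} (hc : 0 < c) (K L : ℕ) :
    ∑ β ∈ range L, (if K ≤ β then Real.exp (-(c * β)) else 0) ≤
      Real.exp (-(c * K)) * (1 + 1 / c) := by
  have hq0 : 0 < Real.exp (-c) := Real.exp_pos _
  have hq1 : Real.exp (-c) < 1 := by rw [Real.exp_lt_one_iff]; linarith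
  have hinv : (1 - Real.exp (-c))⁻¹ ≤ 1 + 1 / c := by
    have h1 : 0 < 1 - Real.exp (-c) := by linarith
    rw [inv_le_iff_one_le_mul₀ h1]
    have h2 := Real.add_one_le_exp c
    have h3 : Real.exp (-c) * Real.exp c = 1 := by rw [← Real.exp_add]; simp
    have h4 : (1 + 1 / c) * (1 - Real.exp (-c)) = 1 + (1 - (c + 1) * Real.exp (-c)) / c := by
      field_simp; ring
    rw [h4]
    have h5 : (c + 1) * Real.exp (-c) ≤ 1 := by
      calc (c + 1) * Real.exp (-c) ≤ Real.exp c * Real.exp (-c) :=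
            mul_le_mul_of_nonneg_right h2 hq0.le
        _ = 1 := by rw [mul_comm]; exact h3
    have h6 : 0 ≤ (1 - (c + 1) * Real.exp (-c)) / c := div_nonneg (by linarith) hc.le
    linarith
  have hterm : ∀ β : ℕ, (if K ≤ β then Real.exp (-(c * β)) else 0) ≤
      if K ≤ β then Real.exp (-(c * K)) * Real.exp (-c) ^ (β - K) else 0 := by
    intro β
    split_ifs with h
    · rw [← Real.exp_nat_mul, ← Real.exp_add]
      refine Real.exp_le_exp.2 (le_of_eq ?_)
      rw [Nat.cast_sub h]; ring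
    · exact le_rfl
  have hsum : ∀ L : ℕ, ∑ β ∈ range L, (if K ≤ β then Real.exp (-(c * K)) * Real.exp (-c) ^ (β - K)
      else 0) ≤ Real.exp (-(c * K)) * (1 - Real.exp (-c))⁻¹ := by
    intro L
    have h1 : ∑ β ∈ range L, (if K ≤ β then Real.exp (-(c * K)) * Real.exp (-c) ^ (β - K) else 0) =
        Real.exp (-(c * K)) * ∑ β ∈ range L, (if K ≤ β then Real.exp (-c) ^ (β - K) else 0) := by
      rw [mul_sum]; exact sum_congr rfl fun β _ => by split_ifs <;> ring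
    rw [h1]
    refine mul_le_mul_of_nonneg_left ?_ (Real.exp_pos _).le
    have h2 : ∀ L : ℕ, ∑ β ∈ range L, (if K ≤ β then Real.exp (-c) ^ (β - K) else 0) ≤
        ∑ i ∈ range (L - K), Real.exp (-c) ^ i := by
      intro L
      induction L with
      | zero => simp
      | succ L ih =>
        rw [sum_range_succ]
        split_ifs with h
        · rw [show L + 1 - K = (L - K) + 1 by omega, sum_range_succ]
          linarith
        · rw [show L + 1 - K = L - K by omega]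
          linarith
    refine (h2 L).trans ?_
    have h3 := hasSum_geometric_of_lt_one hq0.le hq1
    exact sum_le_hasSum _ (fun i _ => by positivity) h3
  calc _ ≤ ∑ β ∈ range L, (if K ≤ β then Real.exp (-(c * K)) * Real.exp (-c) ^ (β - K) else 0) :=
        sum_le_sum fun β _ => hterm β
    _ ≤ _ := hsum L
    _ ≤ _ := mul_le_mul_of_nonneg_left hinv (Real.exp_pos _).le

/-- the truncated kernel has an exponential moment -/
lemma wK_exp {w : ZMod N × ZMod N → ℝ} (hw0 : ∀ x, 0 ≤ w x) {m K : ℕ} (hm : 0 < m)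
    {c1 A1 ϑ : ℝ} (hc1 : 0 < c1) (hA1 : 0 ≤ A1) (hϑ : 0 ≤ ϑ)
    (hB : ∀ β, ∑ x ∈ strip N m β, w x ≤ A1 * Real.exp (-(c1 * β)) + ϑ)
    (hK : ϑ * K * Real.exp (c1 * (K + 1) / 2) ≤ A1) :
    ∑ x, |wK m K w x| * Real.exp (|(x.1.valMinAbs : ℝ)| * Real.sqrt ((c1 / (2 * m)) ^ 2)) ≤
      A1 * (1 + Real.exp (c1 / 2) * (1 + 2 / c1)) := by
  have hmr : (0 : ℝ) < m := by exact_mod_cast hm
  have hs : Real.sqrt ((c1 / (2 * m)) ^ 2) = c1 / (2 * m) := Real.sqrt_sq (by positivity)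
  rw [hs]
  have h1 : ∀ x : ZMod N × ZMod N, |wK m K w x| * Real.exp (|(x.1.valMinAbs : ℝ)| * (c1 / (2 * m))) ≤
      if bi m x < K then w x * Real.exp (c1 * (bi m x + 1) / 2) else 0 := by
    intro x
    unfold wK
    split_ifs with h
    · rw [abs_of_nonneg (hw0 x)]
      refine mul_le_mul_of_nonneg_left (Real.exp_le_exp.2 ?_) (hw0 x)
      have h2 : |(x.1.valMinAbs : ℝ)| = (x.1.valMinAbs.natAbs : ℝ) := by
        rw [← Int.cast_abs, Int.abs_eq_natAbs]; simp
      have h3 : x.1.valMinAbs.natAbs < m * (bi m x + 1) := by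
        unfold bi; exact Nat.lt_mul_div_succ _ hm
      have h4 : (x.1.valMinAbs.natAbs : ℝ) ≤ m * (bi m x + 1) := by exact_mod_cast h3.le
      rw [h2]
      calc (x.1.valMinAbs.natAbs : ℝ) * (c1 / (2 * m)) ≤ (m * (bi m x + 1)) * (c1 / (2 * m)) :=
            mul_le_mul_of_nonneg_right h4 (by positivity)
        _ = _ := by field_simp
    · simp
  refine (sum_le_sum fun x _ => h1 x).trans ?_
  rw [sum_strips m]
  have h2 : ∀ β ∈ range N, ∑ x ∈ strip N m β,
      (if bi m x < K then w x * Real.exp (c1 * (bi m x + 1) / 2) else 0) ≤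
      A1 * Real.exp (c1 / 2) * (if 0 ≤ β then Real.exp (-(c1 / 2 * β)) else 0) +
        (if β < K then ϑ * Real.exp (c1 * (K + 1) / 2) else 0) := by
    intro β _
    have h3 : ∑ x ∈ strip N m β,
      (if bi m x < K then w x * Real.exp (c1 * (bi m x + 1) / 2) else 0) =
      (if β < K then Real.exp (c1 * (β + 1) / 2) else 0) * ∑ x ∈ strip N m β, w x := by
      rw [mul_sum]
      refine sum_congr rfl fun x hx => ?_
      have h4 : bi m x = β := (mem_filter.1 hx).2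
      rw [h4]
      split_ifs <;> ring
    rw [h3, if_pos (Nat.zero_le β)]
    split_ifs with h
    · have h5 : (β : ℝ) + 1 ≤ K := by exact_mod_cast h
      calc Real.exp (c1 * (β + 1) / 2) * ∑ x ∈ strip N m β, w x
          ≤ Real.exp (c1 * (β + 1) / 2) * (A1 * Real.exp (-(c1 * β)) + ϑ) :=
            mul_le_mul_of_nonneg_left (hB β) (Real.exp_pos _).le
        _ = A1 * (Real.exp (c1 * (β + 1) / 2) * Real.exp (-(c1 * β))) +
            ϑ * Real.exp (c1 * (β + 1) / 2) := by ring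
        _ ≤ A1 * Real.exp (c1 / 2) * Real.exp (-(c1 / 2 * β)) +
            ϑ * Real.exp (c1 * (K + 1) / 2) := by
            refine add_le_add (le_of_eq ?_) ?_
            · rw [← Real.exp_add, mul_assoc A1, ← Real.exp_add]
              congr 2; ring
            · refine mul_le_mul_of_nonneg_left (Real.exp_le_exp.2 ?_) hϑ
              have : c1 * (β + 1) ≤ c1 * (K + 1) := mul_le_mul_of_nonneg_left (by linarith) hc1.le
              linarith
    · rw [zero_mul]; positivity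
  refine (sum_le_sum h2).trans ?_
  rw [sum_add_distrib, ← mul_sum]
  have h6 := geo_exp (c := c1 / 2) (by positivity) 0 N
  have h7 : ∑ β ∈ range N, (if β < K then ϑ * Real.exp (c1 * (K + 1) / 2) else 0) ≤
      ϑ * K * Real.exp (c1 * (K + 1) / 2) := by
    rw [← sum_filter, sum_const, nsmul_eq_mul]
    have h8 : ((range N).filter (fun β => β < K)).card ≤ K := by
      calc _ ≤ (range K).card := card_le_card fun β hβ => mem_range.2 (mem_filter.1 hβ).2
        _ = K := card_range K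
    have h9 : (((range N).filter (fun β => β < K)).card : ℝ) ≤ K := by exact_mod_cast h8
    calc _ ≤ (K : ℝ) * (ϑ * Real.exp (c1 * (K + 1) / 2)) :=
          mul_le_mul_of_nonneg_right h9 (by positivity)
      _ = _ := by ring
  have h10 : A1 * Real.exp (c1 / 2) *
      ∑ β ∈ range N, (if 0 ≤ β then Real.exp (-(c1 / 2 * (β : ℝ))) else 0) ≤
      A1 * Real.exp (c1 / 2) * (1 + 2 / c1) := by
    refine mul_le_mul_of_nonneg_left ?_ (by positivity)
    refine h6.trans (le_of_eq ?_)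
    simp
  linarith

/-- the tail -/
lemma wK_tail {w : ZMod N × ZMod N → ℝ} (hw0 : ∀ x, 0 ≤ w x) {m K : ℕ}
    {c1 A1 ϑ : ℝ} (hc1 : 0 < c1) (hA1 : 0 ≤ A1) (hϑ : 0 ≤ ϑ)
    (hB : ∀ β, ∑ x ∈ strip N m β, w x ≤ A1 * Real.exp (-(c1 * β)) + ϑ) (k : ZMod N × ZMod N) :
    |Gh w k - Gh (wK m K w) k| ≤ A1 * (Real.exp (-(c1 * K)) * (1 + 1 / c1)) + N * ϑ := by
  rw [Gh_dt, Gh_dt, ← sum_sub_distrib]
  have h1 : ∀ x : ZMod N × ZMod N, |w x * cN (dt k x) - wK m K w x * cN (dt k x)| ≤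
      if K ≤ bi m x then w x else 0 := by
    intro x
    rw [← sub_mul, abs_mul]
    have hc : |cN (dt k x)| ≤ 1 := abs_le.2 ⟨neg_one_le_cN _, cN_le_one _⟩
    unfold wK
    rcases lt_or_ge (bi m x) K with h | h
    · rw [if_pos h, if_neg (not_le.2 h)]; simp
    · rw [if_neg (not_lt.2 h), if_pos h, sub_zero, abs_of_nonneg (hw0 x)]
      calc w x * |cN (dt k x)| ≤ w x * 1 := mul_le_mul_of_nonneg_left hc (hw0 x)
        _ = w x := mul_one _
  refine (abs_sum_le_sum_abs _ _).trans ((sum_le_sum fun x _ => h1 x).trans ?_)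
  rw [sum_strips m]
  have h2 : ∀ β ∈ range N, ∑ x ∈ strip N m β, (if K ≤ bi m x then w x else 0) ≤
      A1 * (if K ≤ β then Real.exp (-(c1 * β)) else 0) + ϑ := by
    intro β _
    have h3 : ∑ x ∈ strip N m β, (if K ≤ bi m x then w x else 0) =
        if K ≤ β then ∑ x ∈ strip N m β, w x else 0 := by
      split_ifs with h
      · refine sum_congr rfl fun x hx => ?_
        have h4 : bi m x = β := (mem_filter.1 hx).2
        rw [h4, if_pos h]
      · refine sum_eq_zero fun x hx => ?_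
        have h4 : bi m x = β := (mem_filter.1 hx).2
        rw [h4, if_neg h]
    rw [h3]
    split_ifs
    · exact hB β
    · linarith
  refine (sum_le_sum h2).trans ?_
  rw [sum_add_distrib, ← mul_sum, sum_const, card_range, nsmul_eq_mul]
  have h5 := geo_exp hc1 K N
  have h6 := mul_le_mul_of_nonneg_left h5 hA1
  linarith

lemma inv_close {g h c ϑ : ℝ} (hc : 0 < c) (hh : c / 2 ≤ |h|) (hg : c / 4 ≤ |g|)
    (hd : |g - h| ≤ ϑ) : |g⁻¹ - h⁻¹| ≤ 8 * ϑ / c ^ 2 := by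
  have hh0 : h ≠ 0 := by intro h0; rw [h0, abs_zero] at hh; linarith
  have hg0 : g ≠ 0 := by intro h0; rw [h0, abs_zero] at hg; linarith
  have e : g⁻¹ - h⁻¹ = -(g - h) / (g * h) := by field_simp; ring
  rw [e, abs_div, abs_neg, abs_mul]
  have h1 : c ^ 2 / 8 ≤ |g| * |h| := by
    calc c ^ 2 / 8 = (c / 4) * (c / 2) := by ring
      _ ≤ |g| * |h| := mul_le_mul hg hh (by positivity) (abs_nonneg _)
  have hϑ : 0 ≤ ϑ := (abs_nonneg _).trans hd
  calc |g - h| / (|g| * |h|) ≤ ϑ / (c ^ 2 / 8) := div_le_div₀ hϑ hd (by positivity) h1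
    _ = _ := by field_simp

/-- **P#5' for a nonnegative kernel with decaying strip sums.** -/
theorem P5K (n : ℕ) {w : ZMod N × ZMod N → ℝ} (hw0 : ∀ x, 0 ≤ w x) {m K : ℕ} (hm : 0 < m)
    {c1 A1 ϑ ϑ2 A R c U δ α r E : ℝ} (hc1 : 0 < c1) (hA1 : 0 < A1) (hϑ : 0 ≤ ϑ)
    (hB : ∀ β, ∑ x ∈ strip N m β, w x ≤ A1 * Real.exp (-(c1 * β)) + ϑ)
    (hK : ϑ * K * Real.exp (c1 * (K + 1) / 2) ≤ A1)
    (hϑ2 : A1 * (Real.exp (-(c1 * K)) * (1 + 1 / c1)) + N * ϑ ≤ ϑ2)
    (hc : 0 < c) (h0 : 2 * c ≤ Gh w 0) (hϑc : 8 * ϑ2 ≤ c)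
    (hR : R = (c1 / (2 * m)) ^ 2) (hA : A = A1 * (1 + Real.exp (c1 / 2) * (1 + 2 / c1)))
    (hr : r = R * c / (4 * A)) (hU : 0 < U) (hUr : 4 * U ≤ r) (hU1 : U ≤ 1)
    (hN2 : 2 ≤ N) (hNU : 16 * Real.pi * (n + 1) ≤ N * Real.sqrt U)
    (hδ : ∀ j : ℕ, ej N j ≤ U →
      |(Gh w ((j : ZMod N), 0))⁻¹ - (Gh w 0)⁻¹ - α * ej N j| ≤ δ)
    (hE : E = (LC n + 1) * (δ + 16 * ϑ2 / c ^ 2 +
      2 * (4 / c + |α| * r) * (2 * U / r) ^ (n + 1))) :
    ∃ a : ℝ, |a - α| ≤ E / U ∧ ∀ j : ℕ, ej N j ≤ U / 2 →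
      |(Gh w ((j : ZMod N), 0))⁻¹ - (Gh w 0)⁻¹ - a * ej N j| ≤
        2 * E * (ej N j / U) ^ 2 + 16 * ϑ2 / c ^ 2 := by
  have hmr : (0 : ℝ) < m := by exact_mod_cast hm
  have hR0 : 0 < R := by rw [hR]; positivity
  have hexp : ∑ x, |wK m K w x| * Real.exp (|(x.1.valMinAbs : ℝ)| * Real.sqrt R) ≤ A := by
    rw [hR, hA]
    exact wK_exp hw0 hm hc1 hA1.le hϑ hB hK
  have htail : ∀ k, |Gh w k - Gh (wK m K w) k| ≤ ϑ2 := fun k =>
    (wK_tail hw0 hc1 hA1.le hϑ hB k).trans hϑ2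
  have hϑ20 : 0 ≤ ϑ2 := (abs_nonneg _).trans (htail 0)
  have h0' : c ≤ Gh (wK m K w) 0 := by
    have := (abs_le.1 (htail 0)).2
    linarith
  -- closeness of the inverses
  have hclose : ∀ j : ℕ, ej N j ≤ U →
      |(Gh w ((j : ZMod N), 0))⁻¹ - (Gh (wK m K w) ((j : ZMod N), 0))⁻¹| ≤ 8 * ϑ2 / c ^ 2 := by
    intro j hj
    have hej0 : 0 ≤ ej N j := by
      unfold ej; linarith [Real.cos_le_one (2 * Real.pi * j / N)]
    have h1 := Cx_low (wK m K w) hR0 hc hexp h0' (z := ((ej N j : ℝ) : ℂ)) (by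
      rw [Complex.norm_real, Real.norm_eq_abs, abs_of_nonneg hej0, ← hr]
      linarith)
    rw [ej_cN, Cx_mom, Complex.norm_real, Real.norm_eq_abs] at h1
    have h2 := htail ((j : ZMod N), 0)
    have h3 : c / 4 ≤ |Gh w ((j : ZMod N), 0)| := by
      have h4 : |Gh (wK m K w) ((j : ZMod N), 0)| ≤ |Gh w ((j : ZMod N), 0)| +
          |Gh w ((j : ZMod N), 0) - Gh (wK m K w) ((j : ZMod N), 0)| := by
        have := abs_sub (Gh w ((j : ZMod N), 0))
          (Gh w ((j : ZMod N), 0) - Gh (wK m K w) ((j : ZMod N), 0))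
        rwa [sub_sub_cancel] at this
      linarith
    exact inv_close hc h1 h3 h2
  have hz0 : ej N 0 = 0 := by simp [ej]
  have hclose0 : |(Gh w 0)⁻¹ - (Gh (wK m K w) 0)⁻¹| ≤ 8 * ϑ2 / c ^ 2 := by
    have h1 := hclose 0 (by rw [hz0]; exact hU.le)
    have e : (((0 : ℕ) : ZMod N), (0 : ZMod N)) = 0 := by rw [Nat.cast_zero]; rfl
    rwa [e] at h1
  have hδ' : ∀ j : ℕ, ej N j ≤ U →
      |(Gh (wK m K w) ((j : ZMod N), 0))⁻¹ - (Gh (wK m K w) 0)⁻¹ - α * ej N j| ≤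
        δ + 16 * ϑ2 / c ^ 2 := by
    intro j hj
    have h1 := abs_le.1 (hδ j hj)
    have h2 := abs_le.1 (hclose j hj)
    have h3 := abs_le.1 hclose0
    have e : 16 * ϑ2 / c ^ 2 = 8 * ϑ2 / c ^ 2 + 8 * ϑ2 / c ^ 2 := by ring
    rw [e, abs_le]
    constructor <;> linarith [h1.1, h1.2, h2.1, h2.2, h3.1, h3.2]
  obtain ⟨a, ha1, ha2⟩ := P5 n hR0 hc hexp h0' hr hU hUr hU1 hN2 hNU hδ' hE
  refine ⟨a, ha1, fun j hj => ?_⟩
  have hjU : ej N j ≤ U := by linarith
  have h1 := abs_le.1 (ha2 j hj)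
  have h2 := abs_le.1 (hclose j hjU)
  have h3 := abs_le.1 hclose0
  have e : 16 * ϑ2 / c ^ 2 = 8 * ϑ2 / c ^ 2 + 8 * ϑ2 / c ^ 2 := by ring
  rw [e, abs_le]
  constructor <;> linarith [h1.1, h1.2, h2.1, h2.2, h3.1, h3.2]

end

end Vale.Agent.P159.H813
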