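import Vale.Agent.P159.H813.Ker1
import Vale.Agent.P159.H864.Cel0
import Vale.Agent.P159.TM.H459.Blocks

/-!
P159 (helper813): strips of the cell torus; a nonnegative kernel is bounded on a strip by the
bilinear form of two indicator functions.
-/

namespace Vale.Agent.P159.H813

open Finset
open Vale.Agent.P159.TM.Spec (V)
open Vale.Agent.P159.H864 (cl cl1 cobV)
open Vale.Agent.P159.TM.H459 (sn sd)

noncomputable section

/-! ### distances on the cells -/

lemma vma_int {n : ℕ} [NeZero n] (e : ℤ) : ((e : ℤ) : ZMod n).valMinAbs.natAbs ≤ e.natAbs :=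
  ZMod.natAbs_min_of_le_div_two n _ e (by rw [ZMod.coe_valMinAbs]) (ZMod.natAbs_valMinAbs_le _)

section

variable {N l : ℕ} [NeZero N] [NeZero (N / l)]

lemma cl1_dist (hl : l ∣ N) (p q : ZMod N) :
    l * (cl1 p - cl1 q : ZMod (N / l)).valMinAbs.natAbs ≤ (p - q).valMinAbs.natAbs + (l - 1) := by
  have hlp := H864.l_pos hl
  obtain ⟨t, ht⟩ := TM.H459.val_sub_eq p q
  obtain ⟨P, hP⟩ : ∃ P : ℕ, P = p.val / l := ⟨_, rfl⟩
  obtain ⟨Q, hQ⟩ : ∃ Q : ℕ, Q = q.val / l := ⟨_, rfl⟩
  obtain ⟨rp, hrp⟩ : ∃ rp : ℕ, rp = p.val % l := ⟨_, rfl⟩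
  obtain ⟨rq, hrq⟩ : ∃ rq : ℕ, rq = q.val % l := ⟨_, rfl⟩
  have h1 : l * P + rp = p.val := by rw [hP, hrp]; exact Nat.div_add_mod _ _
  have h2 : l * Q + rq = q.val := by rw [hQ, hrq]; exact Nat.div_add_mod _ _
  have h3 : rp < l := by rw [hrp]; exact Nat.mod_lt _ hlp
  have h4 : rq < l := by rw [hrq]; exact Nat.mod_lt _ hlp
  obtain ⟨n, hn⟩ : ∃ n : ℕ, n = N / l := ⟨_, rfl⟩
  have h5 : (N : ℤ) = l * n := by
    rw [hn]
    exact_mod_cast (Nat.mul_div_cancel' hl).symm
  have e1 : (cl1 p - cl1 q : ZMod (N / l)) = (((P : ℤ) - Q - t * n : ℤ) : ZMod (N / l)) := by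
    unfold cl1
    rw [← hP, ← hQ]
    push_cast
    have : ((n : ℕ) : ZMod (N / l)) = 0 := by rw [hn]; exact ZMod.natCast_self _
    rw [this, mul_zero, sub_zero]
  rw [e1]
  have h6 := vma_int (n := N / l) ((P : ℤ) - Q - t * n)
  have h7 : (l : ℤ) * ((P : ℤ) - Q - t * n) = (p - q).valMinAbs - ((rp : ℤ) - rq) := by
    have h1' : (l : ℤ) * P + rp = p.val := by exact_mod_cast h1
    have h2' : (l : ℤ) * Q + rq = q.val := by exact_mod_cast h2
    rw [h5] at ht
    linear_combination h1' - h2' + ht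
  have h8 : l * ((P : ℤ) - Q - t * n).natAbs = ((p - q).valMinAbs - ((rp : ℤ) - rq)).natAbs := by
    rw [← h7, Int.natAbs_mul, Int.natAbs_natCast]
  have h9 : ((p - q).valMinAbs - ((rp : ℤ) - rq)).natAbs ≤ (p - q).valMinAbs.natAbs + (l - 1) := by
    omega
  calc l * ((((P : ℤ) - Q - t * n : ℤ) : ZMod (N / l)).valMinAbs.natAbs)
      ≤ l * ((P : ℤ) - Q - t * n).natAbs := Nat.mul_le_mul_left l h6
    _ = _ := h8
    _ ≤ _ := h9

/-- sites over the central strip and over the strip `β` are at distance `(β - 2) m l` -/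
lemma sep_strip (hl : l ∣ N) {m β : ℕ} (hm : 0 < m) {x z : V N} (hx : bi m (cl x : V (N / l)) = 0)
    (hz : β ≤ bi m (cl z : V (N / l)) + 1) : (β - 2) * (m * l) ≤ sd x z := by
  have hlp := H864.l_pos hl
  have h1 := cl1_dist hl z.1 x.1
  have h2 : (cl x : V (N / l)).1.valMinAbs.natAbs < m := by
    unfold bi at hx
    rcases Nat.div_eq_zero_iff.1 hx with h | h
    · omega
    · exact h
  have h3 : (β - 1) * m ≤ (cl z : V (N / l)).1.valMinAbs.natAbs := by
    unfold bi at hz
    have h4 : β - 1 ≤ (cl z : V (N / l)).1.valMinAbs.natAbs / m := Nat.sub_le_iff_le_add.2 hz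
    exact (Nat.le_div_iff_mul_le hm).1 h4
  have h5 : (cl z : V (N / l)).1.valMinAbs.natAbs ≤
      (cl1 z.1 - cl1 x.1 : ZMod (N / l)).valMinAbs.natAbs + (cl x : V (N / l)).1.valMinAbs.natAbs := by
    have h6 := TM.H459.vma_add_le (cl1 z.1 - cl1 x.1 : ZMod (N / l)) (cl1 x.1)
    rw [sub_add_cancel] at h6
    exact h6
  have h7 : (z.1 - x.1).valMinAbs.natAbs ≤ sd x z := by
    unfold sd sn
    exact le_max_left _ _
  rcases Nat.lt_or_ge β 2 with hβ | hβ
  · have : β - 2 = 0 := by omega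
    rw [this, zero_mul]
    exact Nat.zero_le _
  · obtain ⟨γ, rfl⟩ : ∃ γ, β = γ + 2 := ⟨β - 2, by omega⟩
    have e1 : γ + 2 - 1 = γ + 1 := by omega
    have e2 : γ + 2 - 2 = γ := by omega
    rw [e1] at h3
    rw [e2]
    have h8 : γ * m + 1 ≤ (cl1 z.1 - cl1 x.1 : ZMod (N / l)).valMinAbs.natAbs := by
      have : (γ + 1) * m = γ * m + m := by ring
      omega
    have h9 : l * (γ * m + 1) ≤ l * (cl1 z.1 - cl1 x.1 : ZMod (N / l)).valMinAbs.natAbs :=
      Nat.mul_le_mul_left l h8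
    have h10 : l * (γ * m + 1) = γ * (m * l) + l := by ring
    omega

end

/-! ### cardinalities -/

section

variable {n : ℕ} [NeZero n]

lemma card_one_le {m : ℕ} (hm : 0 < m) (β : ℕ) :
    ((univ : Finset (ZMod n)).filter fun a => a.valMinAbs.natAbs / m = β).card ≤ 2 * m := by
  have h1 : ((univ : Finset (ZMod n)).filter fun a => a.valMinAbs.natAbs / m = β).card ≤
      (Ico ((β * m : ℕ) : ℤ) ((β * m + m : ℕ) : ℤ) ∪
        Ioc (-((β * m + m : ℕ) : ℤ)) (-((β * m : ℕ) : ℤ))).card := by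
    refine card_le_card_of_injOn (fun a => a.valMinAbs) ?_
      (fun a _ b _ h => ZMod.injective_valMinAbs h)
    intro a ha
    have ha' := (mem_filter.1 ha).2
    have h2 := Nat.div_add_mod a.valMinAbs.natAbs m
    have h3 := Nat.mod_lt a.valMinAbs.natAbs hm
    rw [ha'] at h2
    have h4 : m * β = β * m := mul_comm _ _
    simp only [coe_union, coe_Ico, coe_Ioc, Set.mem_union, Set.mem_Ico, Set.mem_Ioc]
    omega
  refine h1.trans ((card_union_le _ _).trans ?_)
  rw [Int.card_Ico, Int.card_Ioc]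
  omega

lemma card_one_ge {m : ℕ} (hmn : m ≤ n) :
    m ≤ ((univ : Finset (ZMod n)).filter fun a => a.valMinAbs.natAbs / m = 0).card := by
  have h1 : (range m).card ≤
      ((univ : Finset (ZMod n)).filter fun a => a.valMinAbs.natAbs / m = 0).card := by
    refine card_le_card_of_injOn (fun i => ((i : ℕ) : ZMod n)) ?_ ?_
    · intro i hi
      have hi' : i < m := by simpa using hi
      refine mem_coe.2 (mem_filter.2 ⟨mem_univ _, ?_⟩)
      refine Nat.div_eq_of_lt ?_
      have h2 := vma_int (n := n) (i : ℤ)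
      simp only [Int.cast_natCast, Int.natAbs_natCast] at h2
      exact lt_of_le_of_lt h2 hi'
    · intro i hi j hj h
      have hi' : i < m := by simpa using hi
      have hj' : j < m := by simpa using hj
      have h2 := congrArg ZMod.val h
      simp only [ZMod.val_natCast] at h2
      rwa [Nat.mod_eq_of_lt (by omega), Nat.mod_eq_of_lt (by omega)] at h2
  rwa [card_range] at h1

lemma strip_eq (m β : ℕ) : strip n m β =
    ((univ : Finset (ZMod n)).filter fun a => a.valMinAbs.natAbs / m = β) ×ˢ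
      (univ : Finset (ZMod n)) := by
  ext x
  unfold strip bi
  simp

lemma card_strip_le {m : ℕ} (hm : 0 < m) (β : ℕ) : (strip n m β).card ≤ 2 * m * n := by
  rw [strip_eq, card_product, card_univ, ZMod.card]
  exact Nat.mul_le_mul_right n (card_one_le hm β)

lemma card_strip_ge {m : ℕ} (hmn : m ≤ n) : m * n ≤ (strip n m 0).card := by
  rw [strip_eq, card_product, card_univ, ZMod.card]
  exact Nat.mul_le_mul_right n (card_one_ge hmn)

/-- the three strips around `β` -/
def str3 (n : ℕ) [NeZero n] (m β : ℕ) : Finset (ZMod n × ZMod n) :=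
  univ.filter fun x => β ≤ bi m x + 1 ∧ bi m x ≤ β + 1

lemma card_str3_le {m : ℕ} (hm : 0 < m) (β : ℕ) : (str3 n m β).card ≤ 6 * m * n := by
  have h1 : str3 n m β ⊆ strip n m (β - 1) ∪ (strip n m β ∪ strip n m (β + 1)) := by
    intro x hx
    have h2 := (mem_filter.1 hx).2
    rw [mem_union, mem_union]
    unfold strip
    simp only [mem_filter, mem_univ, true_and]
    omega
  have h3 := card_strip_le (n := n) hm (β - 1)
  have h4 := card_strip_le (n := n) hm β
  have h5 := card_strip_le (n := n) hm (β + 1)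
  calc (str3 n m β).card ≤ (strip n m (β - 1) ∪ (strip n m β ∪ strip n m (β + 1))).card :=
        card_le_card h1
    _ ≤ (strip n m (β - 1)).card + ((strip n m β).card + (strip n m (β + 1)).card) :=
        (card_union_le _ _).trans (Nat.add_le_add_left (card_union_le _ _) _)
    _ ≤ 2 * m * n + (2 * m * n + 2 * m * n) := by omega
    _ = _ := by ring

lemma add_mem_str3 {m β : ℕ} (hm : 0 < m) {c z : ZMod n × ZMod n} (hc : c ∈ strip n m 0)
    (hz : z ∈ strip n m β) : c + z ∈ str3 n m β := by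
  have h1 : bi m c = 0 := (mem_filter.1 hc).2
  have h2 : bi m z = β := (mem_filter.1 hz).2
  refine mem_filter.2 ⟨mem_univ _, ?_⟩
  have h3 : c.1.valMinAbs.natAbs < m := by
    unfold bi at h1
    rcases Nat.div_eq_zero_iff.1 h1 with h | h
    · omega
    · exact h
  have h4 := TM.H459.vma_add_le c.1 z.1
  have h5 := TM.H459.vma_add_le (c.1 + z.1) (-c.1)
  have h6 : c.1 + z.1 + -c.1 = z.1 := by ring
  rw [h6, ZMod.natAbs_valMinAbs_neg] at h5
  have h7 := Nat.div_add_mod z.1.valMinAbs.natAbs m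
  have h8 := Nat.mod_lt z.1.valMinAbs.natAbs hm
  unfold bi at h2
  rw [h2] at h7
  unfold bi
  have e : (c + z).1 = c.1 + z.1 := rfl
  rw [e]
  obtain ⟨s, hs⟩ : ∃ s : ℕ, s = (c.1 + z.1).valMinAbs.natAbs := ⟨_, rfl⟩
  rw [← hs] at h4 h5 ⊢
  constructor
  · -- lower bound
    have h9 : β * m ≤ s + m := by
      have : m * β = β * m := mul_comm _ _
      omega
    have h10 : β ≤ (s + m) / m := (Nat.le_div_iff_mul_le hm).2 h9
    rwa [Nat.add_div_right s hm] at h10
  · have h9 : s < (β + 2) * m := by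
      have : m * β = β * m := mul_comm _ _
      have e2 : (β + 2) * m = β * m + 2 * m := by ring
      omega
    have h10 : s / m < β + 2 := (Nat.div_lt_iff_lt_mul hm).2 h9
    omega

/-- strip sums of a nonnegative kernel -/
lemma strip_le_form {w : ZMod n × ZMod n → ℝ} (hw0 : ∀ x, 0 ≤ w x) {m : ℕ} (hm : 0 < m) (β : ℕ) :
    ((strip n m 0).card : ℝ) * ∑ z ∈ strip n m β, w z ≤
      ∑ c ∈ strip n m 0, ∑ c' ∈ str3 n m β, w (c' - c) := by
  rw [← nsmul_eq_mul, ← sum_const]
  refine sum_le_sum fun c hc => ?_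
  have h1 : ∑ z ∈ strip n m β, w z = ∑ c' ∈ (strip n m β).image (fun z => c + z), w (c' - c) := by
    rw [sum_image (fun a _ b _ h => add_left_cancel h)]
    refine sum_congr rfl fun z _ => ?_
    rw [add_sub_cancel_left]
  rw [h1]
  refine sum_le_sum_of_subset_of_nonneg ?_ fun _ _ _ => hw0 _
  intro c' hc'
  obtain ⟨z, hz, rfl⟩ := mem_image.1 hc'
  exact add_mem_str3 hm hc hz

end

end

end Vale.Agent.P159.H813
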