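import Vale.Agent.P159.H813.Ker3

/-!
P159 (helper813): (P#5') for the mean posterior cell covariance.
-/

namespace Vale.Agent.P159.H813

open Finset
open Vale.Agent.P159.H730 (Cbk ST)
open Vale.Agent.P159.H114 (PbC)
open Vale.Agent.P159.TM.Spec (V)
open Vale.Agent.P159.TM.H764

noncomputable section

set_option linter.unusedSectionVars false

/-- choice of the truncation -/
lemma K_choice {c A1 ϑ ϑ2 : ℝ} {n : ℕ} (hn : 1 ≤ n) (hc : 0 < c) (hA1 : 1 ≤ A1) (hϑ : 0 ≤ ϑ)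
    (hϑ2 : 0 < ϑ2) (hϑ21 : ϑ2 ≤ 1)
    (h : n * ϑ * (2 * (1 + 1 / c) * (1 + 2 / c) * Real.exp c) ≤ ϑ2) :
    ∃ K : ℕ, ϑ * K * Real.exp (c * (K + 1) / 2) ≤ A1 ∧
      A1 * (Real.exp (-(c * K)) * (1 + 1 / c)) + n * ϑ ≤ ϑ2 := by
  have hn' : (1 : ℝ) ≤ n := by exact_mod_cast hn
  obtain ⟨X, hX⟩ : ∃ X : ℝ, X = 2 * A1 * (1 + 1 / c) / ϑ2 := ⟨_, rfl⟩
  have hic : 0 < 1 / c := by positivity
  have hX1 : 1 ≤ X := by
    rw [hX, le_div_iff₀ hϑ2]
    nlinarith
  have hX0 : 0 < X := by linarith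
  have hlX : 0 ≤ Real.log X := Real.log_nonneg hX1
  have hec : 1 ≤ Real.exp c := Real.one_le_exp hc.le
  refine ⟨⌈Real.log X / c⌉₊, ?_, ?_⟩
  · obtain ⟨K, hK⟩ : ∃ K : ℕ, K = ⌈Real.log X / c⌉₊ := ⟨_, rfl⟩
    rw [← hK]
    have hK1 : (K : ℝ) < Real.log X / c + 1 := by
      rw [hK]; exact Nat.ceil_lt_add_one (by positivity)
    obtain ⟨Y, hY⟩ : ∃ Y : ℝ, Y = Real.sqrt X := ⟨_, rfl⟩
    have hY1 : 1 ≤ Y := by rw [hY]; exact Real.one_le_sqrt.2 hX1
    have hYX : Y * Y = X := by rw [hY]; exact Real.mul_self_sqrt hX0.le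
    have hlog : Real.log X ≤ 2 * Y := by
      have h1 : Real.log X = 2 * Real.log Y := by
        rw [← hYX, Real.log_mul (by positivity) (by positivity)]; ring
      have h2 := Real.log_le_sub_one_of_pos (by linarith : 0 < Y)
      linarith
    have hK2 : (K : ℝ) ≤ (1 + 2 / c) * Y := by
      have h3 : Real.log X / c ≤ 2 * Y / c := div_le_div_of_nonneg_right hlog hc.le
      have h4 : (1 + 2 / c) * Y = Y + 2 * Y / c := by ring
      rw [h4]
      linarith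
    have hexp : Real.exp (c * (K + 1) / 2) ≤ Real.exp c * Y := by
      have h5 : Y = Real.exp (Real.log X / 2) := by
        rw [hY, Real.sqrt_eq_rpow, Real.rpow_def_of_pos hX0]
        congr 1; ring
      rw [h5, ← Real.exp_add]
      refine Real.exp_le_exp.2 ?_
      have h6 : c * K ≤ Real.log X + c := by
        have h7 := mul_le_mul_of_nonneg_left hK1.le hc.le
        have h8 : c * (Real.log X / c + 1) = Real.log X + c := by field_simp
        linarith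
      have h9 : c * (K + 1) = c * K + c := by ring
      rw [h9]
      linarith
    have hK0 : (0 : ℝ) ≤ K := by positivity
    have hϑ' : ϑ * (2 * (1 + 1 / c) * (1 + 2 / c) * Real.exp c) ≤ ϑ2 := by
      have h10 : 0 ≤ ϑ * (2 * (1 + 1 / c) * (1 + 2 / c) * Real.exp c) := by positivity
      have h11 : n * ϑ * (2 * (1 + 1 / c) * (1 + 2 / c) * Real.exp c) =
          n * (ϑ * (2 * (1 + 1 / c) * (1 + 2 / c) * Real.exp c)) := by ring
      rw [h11] at h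
      nlinarith
    calc ϑ * K * Real.exp (c * (K + 1) / 2) ≤ ϑ * ((1 + 2 / c) * Y) * (Real.exp c * Y) := by
          gcongr
      _ = ϑ * ((1 + 2 / c) * Real.exp c) * (Y * Y) := by ring
      _ = ϑ * (2 * (1 + 1 / c) * (1 + 2 / c) * Real.exp c) / ϑ2 * A1 := by
          rw [hYX, hX]; ring
      _ ≤ 1 * A1 := by
          refine mul_le_mul_of_nonneg_right ?_ (by linarith)
          rw [div_le_one hϑ2]
          exact hϑ'
      _ = A1 := one_mul _
  · obtain ⟨K, hK⟩ : ∃ K : ℕ, K = ⌈Real.log X / c⌉₊ := ⟨_, rfl⟩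
    rw [← hK]
    have hK1 : Real.log X / c ≤ K := by rw [hK]; exact Nat.le_ceil _
    have h1 : Real.log X ≤ c * K := by
      rw [div_le_iff₀ hc] at hK1; linarith
    have h2 : Real.exp (-(c * K)) ≤ X⁻¹ := by
      rw [← Real.exp_log (inv_pos.2 hX0), Real.log_inv]
      exact Real.exp_le_exp.2 (by linarith)
    have h3 : A1 * (Real.exp (-(c * K)) * (1 + 1 / c)) ≤ ϑ2 / 2 := by
      calc A1 * (Real.exp (-(c * K)) * (1 + 1 / c)) ≤ A1 * (X⁻¹ * (1 + 1 / c)) := by gcongr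
        _ = ϑ2 / 2 := by
            rw [hX]
            have : A1 ≠ 0 := by positivity
            have : 1 + 1 / c ≠ 0 := by positivity
            field_simp
    have h4 : n * ϑ * 2 ≤ ϑ2 := by
      refine le_trans (mul_le_mul_of_nonneg_left ?_ (by positivity)) h
      have h5 : 1 ≤ (1 + 1 / c) * (1 + 2 / c) := by
        have : 0 < 2 / c := by positivity
        nlinarith
      have h6 : 1 ≤ (1 + 1 / c) * (1 + 2 / c) * Real.exp c := by nlinarith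
      linarith
    linarith

lemma Gh_mul {n : ℕ} [NeZero n] (a : ℝ) (w : ZMod n × ZMod n → ℝ) (k : ZMod n × ZMod n) :
    Gh (fun z => a * w z) k = a * Gh w k := by
  rw [Gh_dt, Gh_dt, mul_sum]
  exact sum_congr rfl fun _ _ => mul_assoc _ _ _

variable {N l : ℕ} [NeZero N] [NeZero (N / l)] {b t τ : ℝ}

/-- **(P#5') for the mean posterior cell covariance.** -/
theorem P5C (nn : ℕ) {θ e : ℝ} {Gd : ℝ → Set (V N → ℝ)} (h : ST N l b t τ t θ e Gd) (hθ : θ ≤ 1)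
    {ξ : ℕ} {c C : ℝ} (hLB : LB4 N b t ξ c C) (hc : 0 < c) (hC : 1 ≤ C) (hξ : 0 < ξ)
    (htξ : t ≤ 4 / (ξ : ℝ) ^ 2) {m : ℕ} (hm : 0 < m) (hml : ξ ≤ m * l) (hmn : m ≤ N / l)
    {κ ϑ2 : ℝ} (hκ : 0 < κ) (heκ : e ≤ κ ^ 2) (hϑ2 : 0 < ϑ2) (hϑ21 : ϑ2 ≤ 1 / 32)
    (hϑ : ((N / l : ℕ) : ℝ) * (3 * (t * κ)) * (2 * (1 + 1 / c) * (1 + 2 / c) * Real.exp c) ≤ ϑ2)
    (h0 : 1 / 2 ≤ t * Cbk N l b t τ t 0) {A r U δ α E : ℝ}
    (hA : A = 15 * C * Real.exp (2 * c) * (1 + Real.exp (c / 2) * (1 + 2 / c)))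
    (hr : r = c ^ 2 / (64 * A * (m : ℝ) ^ 2)) (hU : 0 < U) (hUr : 4 * U ≤ r) (hU1 : U ≤ 1)
    (hN2 : 2 ≤ N / l) (hNU : 16 * Real.pi * (nn + 1) ≤ ((N / l : ℕ) : ℝ) * Real.sqrt U)
    (hδ : ∀ j : ℕ, ej (N / l) j ≤ U → |(PbC N l b t t τ ((j : ZMod (N / l)), 0) -
      PbC N l b t t τ 0) / t - α * ej (N / l) j| ≤ δ)
    (hE : E = (LC nn + 1) * (δ + 256 * ϑ2 + 2 * (16 + |α| * r) * (2 * U / r) ^ (nn + 1))) :
    ∃ a : ℝ, |a - α| ≤ E / U ∧ ∀ j : ℕ, ej (N / l) j ≤ U / 2 →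
      |(PbC N l b t t τ ((j : ZMod (N / l)), 0) - PbC N l b t t τ 0) / t - a * ej (N / l) j| ≤
        2 * E * (ej (N / l) j / U) ^ 2 + 256 * ϑ2 := by
  have ht0 : 0 < t := h.pos.trans_le h.le
  obtain ⟨A1, hA1⟩ : ∃ A1 : ℝ, A1 = 15 * C * Real.exp (2 * c) := ⟨_, rfl⟩
  have hA11 : 1 ≤ A1 := by
    rw [hA1]
    have := Real.one_le_exp (by positivity : 0 ≤ 2 * c)
    nlinarith
  have hw0 : ∀ z, 0 ≤ t * wP N l b t τ z := fun z =>
    mul_nonneg ht0.le (wP_nonneg h.b0.le h.dvd h.pos h.le z)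
  have hB : ∀ β, ∑ z ∈ strip (N / l) m β, t * wP N l b t τ z ≤
      A1 * Real.exp (-(c * β)) + 3 * (t * κ) := by
    intro β
    refine (strip_wP h hLB hc (by linarith) hξ htξ hm hml hmn hκ heκ β).trans ?_
    refine add_le_add (mul_le_mul_of_nonneg_right ?_ (Real.exp_pos _).le) le_rfl
    rw [hA1]
    have h1 : Real.sqrt (1 + θ) ≤ 3 / 2 := by
      rw [Real.sqrt_le_left (by norm_num)]
      linarith
    have h2 : 10 * Real.sqrt (1 + θ) * C * Real.exp (2 * c) =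
        (10 * Real.sqrt (1 + θ)) * (C * Real.exp (2 * c)) := by ring
    have h3 : 15 * C * Real.exp (2 * c) = 15 * (C * Real.exp (2 * c)) := by ring
    rw [h2, h3]
    exact mul_le_mul_of_nonneg_right (by linarith) (by positivity)
  obtain ⟨K, hK1, hK2⟩ := K_choice (n := N / l) (by omega) hc hA11
    (by positivity : 0 ≤ 3 * (t * κ)) hϑ2 (by linarith) hϑ
  have hG : ∀ k, Gh (fun z => t * wP N l b t τ z) k = t * Cbk N l b t τ t k := by
    intro k
    rw [Gh_mul, Gh_wP h.dvd]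
  have hinv : ∀ k, (Gh (fun z => t * wP N l b t τ z) k)⁻¹ = 1 + PbC N l b t t τ k / t := by
    intro k
    rw [hG, mul_inv]
    unfold PbC
    field_simp
    ring
  have hdiff : ∀ j : ℕ, (Gh (fun z => t * wP N l b t τ z) ((j : ZMod (N / l)), 0))⁻¹ -
      (Gh (fun z => t * wP N l b t τ z) 0)⁻¹ =
      (PbC N l b t t τ ((j : ZMod (N / l)), 0) - PbC N l b t t τ 0) / t := by
    intro j
    rw [hinv, hinv]
    ring
  have hA1pos : 0 < A1 := by linarith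
  have hApos : 0 < A := by rw [hA]; positivity
  have hmr : (0 : ℝ) < m := by exact_mod_cast hm
  have key := P5K (N := N / l) nn hw0 (m := m) (K := K) hm (c1 := c) (A1 := A1)
    (ϑ := 3 * (t * κ)) (ϑ2 := ϑ2) (A := A) (R := (c / (2 * m)) ^ 2) (c := 1 / 4) (U := U) (δ := δ)
    (α := α) (r := r) (E := E) hc hA1pos (by positivity) hB hK1 hK2 (by norm_num)
    (by rw [hG]; linarith) (by linarith) rfl (by rw [hA, hA1])
    (by rw [hr]; field_simp; norm_num) hU hUr hU1 hN2 hNU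
    (by intro j hj; rw [hdiff]; exact hδ j hj)
    (by rw [hE]; ring)
  obtain ⟨a, ha1, ha2⟩ := key
  refine ⟨a, ha1, fun j hj => ?_⟩
  have h1 := ha2 j hj
  rw [hdiff] at h1
  refine h1.trans (le_of_eq ?_)
  ring

end

end Vale.Agent.P159.H813
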