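import Vale.Agent.P159.H813.Ker4
import Vale.Agent.P159.H813.Fix
import Vale.Agent.P159.H159.Cell

/-!
P159 (helper813): locality in every background for the cell mass form `MC N l t0 t` (mass `t0` off
the cell functions, `t` on them), with a small floor.
-/

namespace Vale.Agent.P159.H813

open Finset Matrix
open Vale.Agent.P159.TM.H104 (EM Ex Cv li Gr Lg)
open Vale.Agent.P159.H37 (bf qf Tq Cm Gm wM wt Ev cellP)
open Vale.Agent.P159.H864 (MC)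
open Vale.Agent.P159.TM.Spec (V)
open Vale.Agent.P159.TM.SpecC (wT)
open Vale.Agent.P159.TM.H459 (sn sd)

noncomputable section

set_option linter.unusedSectionVars false

/-- locality of the covariance in every background, mass form `MC N l t0 t` -/
def LBC (N l : ℕ) [NeZero N] (b t0 t : ℝ) (ξ : ℕ) (c C δ : ℝ) : Prop :=
  ∀ (u v : V N → ℝ) (A B D : ℝ), 0 < A → 0 < B → 0 ≤ D →
    ∑ x, u x ^ 2 ≤ A ^ 2 * (1 / (ξ : ℝ) ^ 2) → ∑ x, v x ^ 2 ≤ B ^ 2 * (1 / (ξ : ℝ) ^ 2) →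
    (∀ x z, u x ≠ 0 → v z ≠ 0 → D * ξ ≤ sd x z) → ∀ J : V N → ℝ,
    |Cv (wM (wT b N) (MC N l t0 t)) J (li u) (li v)| ≤
      Real.exp (Tq (wM (wT b N) (MC N l t0 t)) J / 2) * A * B * (C * (Real.exp (-(c * D)) + δ))

lemma LB4.toLBC {N l : ℕ} [NeZero N] {b t : ℝ} {ξ : ℕ} {c C δ : ℝ} (h : LB4 N b t ξ c C)
    (hC : 0 ≤ C) (hδ : 0 ≤ δ) : LBC N l b t t ξ c C δ := by
  intro u v A B D hA hB hD hu hv hs J
  have h1 := h u v A B D hA hB hD hu hv hs J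
  have e : wM (wT b N) (MC N l t t) = wt N b t := by rw [H864.MC_self]; rfl
  rw [e]
  refine h1.trans ?_
  have h2 : C * Real.exp (-(c * D)) ≤ C * (Real.exp (-(c * D)) + δ) :=
    mul_le_mul_of_nonneg_left (by linarith) hC
  exact mul_le_mul_of_nonneg_left h2 (by positivity)

section

variable {N l : ℕ} [NeZero N] [NeZero (N / l)] {b t0 t : ℝ}

lemma subG_MC (hb : 0 < b) (hl : l ∣ N) (ht : 0 < t) (h : t ≤ t0) :
    H612.SubG (wM (wT b N) (MC N l t0 t)) t := by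
  intro J
  have hdm := H864.dm_MC (N := N) hb hl ht h
  rw [H730.Ex_exp hdm.em]
  refine Real.exp_le_exp.2 ((hdm.Lg_le J).trans ?_)
  rw [H864.MC_inv hl (ht.trans_le h).ne' ht.ne', H864.qf_MC]
  have h1 := H864.qf_cellP_le hl J
  have h2 : t0⁻¹ ≤ t⁻¹ := inv_anti₀ ht h
  have h3 := mul_le_mul_of_nonneg_left h1 (sub_nonneg.2 h2)
  have e : (∑ x, J x ^ 2) / (2 * t) = t⁻¹ * (∑ x, J x ^ 2) / 2 := by field_simp
  rw [e]
  linarith

/-- covariance of `X_|u|`, `X_|v|` for the mass form `MC` -/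
lemma cov_MC (hb : 0 < b) (hl : l ∣ N) (ht : 0 < t) (h : t ≤ t0) {u v : V N → ℝ} {r δ U W : ℝ}
    (h0 : Cv (wt N b t) 0 (li u) (li v) ≤ r)
    (hΔ : ∀ u : V N → ℝ, 0 ≤ qf (Gm (wt N b t)) u - qf (Gm (wM (wT b N) (MC N l t0 t))) u ∧
      qf (Gm (wt N b t)) u - qf (Gm (wM (wT b N) (MC N l t0 t))) u ≤ δ * ∑ x, u x ^ 2)
    (hδ : 0 ≤ δ) (hU : 0 ≤ U) (hW : 0 ≤ W)
    (hu : ∑ x, u x ^ 2 ≤ U ^ 2) (hv : ∑ x, v x ^ 2 ≤ W ^ 2) :
    Cv (wM (wT b N) (MC N l t0 t)) 0 (li u) (li v) ≤ r + δ * (U * W) := by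
  have e1 := H864.em_MC (N := N) (l := l) (t := t0) hb.le hl ht h
  have e2 : EM (wt N b t) := H789.em_wt hb.le ht
  have hs : ∀ μ : (V N → ℤ) → ℝ, (Gm μ)ᵀ = Gm μ := fun μ => H789.Cm_symm μ 0
  have b1 : Cv (wM (wT b N) (MC N l t0 t)) 0 (li u) (li v) =
      bf (Gm (wM (wT b N) (MC N l t0 t))) u v := (H789.bf_Cm e1 (J := 0) (u := u) (v := v)).symm
  have b2 : Cv (wt N b t) 0 (li u) (li v) = bf (Gm (wt N b t)) u v :=
    (H789.bf_Cm e2 (J := 0) (u := u) (v := v)).symm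
  obtain ⟨Δ, hΔd⟩ : ∃ Δ : Matrix (V N) (V N) ℝ,
    Δ = Gm (wt N b t) - Gm (wM (wT b N) (MC N l t0 t)) := ⟨_, rfl⟩
  have hΔs : Δᵀ = Δ := by rw [hΔd, Matrix.transpose_sub, hs, hs]
  have hq : ∀ u, qf Δ u = qf (Gm (wt N b t)) u - qf (Gm (wM (wT b N) (MC N l t0 t))) u := by
    intro u; rw [hΔd, H864.qf_sub_mat]
  have hcs := H864.bf_sq_le hΔs (fun u => by rw [hq]; exact (hΔ u).1) u v
  have hb3 : bf Δ u v = bf (Gm (wt N b t)) u v - bf (Gm (wM (wT b N) (MC N l t0 t))) u v := by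
    rw [hΔd]
    unfold bf
    rw [← sum_sub_distrib]
    refine sum_congr rfl fun x _ => ?_
    rw [← sum_sub_distrib]
    refine sum_congr rfl fun y _ => ?_
    rw [Matrix.sub_apply]
    ring
  have h5 : qf Δ u * qf Δ v ≤ (δ * (U * W)) ^ 2 := by
    have h6 : qf Δ u ≤ δ * U ^ 2 := by
      rw [hq]; exact (hΔ u).2.trans (mul_le_mul_of_nonneg_left hu hδ)
    have h7 : qf Δ v ≤ δ * W ^ 2 := by
      rw [hq]; exact (hΔ v).2.trans (mul_le_mul_of_nonneg_left hv hδ)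
    have h8 : 0 ≤ qf Δ v := by rw [hq]; exact (hΔ v).1
    calc qf Δ u * qf Δ v ≤ (δ * U ^ 2) * (δ * W ^ 2) := mul_le_mul h6 h7 h8 (by positivity)
      _ = _ := by ring
  have h9 : |bf Δ u v| ≤ δ * (U * W) := abs_le_of_sq_le_sq (hcs.trans h5) (by positivity)
  have h10 := (abs_le.1 h9).1
  rw [b1]
  rw [b2] at h0
  linarith

end

lemma sqrt_add_le' {x y : ℝ} (hx : 0 ≤ x) (hy : 0 ≤ y) :
    Real.sqrt (x + y) ≤ Real.sqrt x + Real.sqrt y := by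
  refine Real.sqrt_le_iff.2 ⟨by positivity, ?_⟩
  have h1 := Real.sq_sqrt hx
  have h2 := Real.sq_sqrt hy
  have h3 : 0 ≤ Real.sqrt x * Real.sqrt y := by positivity
  nlinarith

lemma sqrt_sqrt_add {x y : ℝ} (hx : 0 ≤ x) (hy : 0 ≤ y) :
    Real.sqrt (Real.sqrt (x + y)) ≤ Real.sqrt (Real.sqrt x) + Real.sqrt (Real.sqrt y) :=
  (Real.sqrt_le_sqrt (sqrt_add_le' hx hy)).trans
    (sqrt_add_le' (Real.sqrt_nonneg _) (Real.sqrt_nonneg _))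

lemma ssq_exp {C c D : ℝ} (hC : 1 ≤ C) :
    Real.sqrt (Real.sqrt (C * Real.exp (-(c * D)))) ≤ C * Real.exp (-(c / 4 * D)) := by
  refine Real.sqrt_le_iff.2 ⟨by positivity, Real.sqrt_le_iff.2 ⟨by positivity, ?_⟩⟩
  have e3 : Real.exp (-(c / 4 * D)) ^ 4 = Real.exp (-(c * D)) := by
    rw [← Real.exp_nat_mul]; congr 1; push_cast; ring
  have e2 : ((C * Real.exp (-(c / 4 * D))) ^ 2) ^ 2 = C ^ 4 * Real.exp (-(c * D)) := by
    rw [← e3]; ring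
  rw [e2]
  exact mul_le_mul_of_nonneg_right (le_self_pow₀ hC (by norm_num)) (Real.exp_pos _).le

lemma ssq_pow {C1 Q x c1 : ℝ} (hC1 : 0 ≤ C1) (hQ1 : 1 ≤ Q) (hx : 0 ≤ x) :
    Real.sqrt (Real.sqrt (C1 * Q * x ^ c1)) ≤ (1 + C1) * Q * x ^ (c1 / 4) := by
  have hQ0 : 0 < Q := by linarith
  have hxp := Real.rpow_nonneg hx c1
  have hxq := Real.rpow_nonneg hx (c1 / 4)
  refine Real.sqrt_le_iff.2 ⟨by positivity, Real.sqrt_le_iff.2 ⟨by positivity, ?_⟩⟩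
  have e3 : (x ^ (c1 / 4)) ^ 4 = x ^ c1 := by
    rw [← Real.rpow_natCast, ← Real.rpow_mul hx]
    congr 1; push_cast; ring
  have e4 : (((1 + C1) * Q * x ^ (c1 / 4)) ^ 2) ^ 2 = (1 + C1) ^ 4 * Q ^ 4 * x ^ c1 := by
    rw [← e3]; ring
  rw [e4]
  have h5 : C1 ≤ (1 + C1) ^ 4 := by
    have h6 : 1 + C1 ≤ (1 + C1) ^ 4 := le_self_pow₀ (by linarith) (by norm_num)
    linarith
  have h7 : Q ≤ Q ^ 4 := le_self_pow₀ hQ1 (by norm_num)
  exact mul_le_mul_of_nonneg_right (mul_le_mul h5 h7 hQ0.le (by positivity)) hxp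

/-- the change of the fine masses, from helper375 -/
def FG (N l : ℕ) [NeZero N] (b t0 t δ : ℝ) : Prop :=
  ∀ u : V N → ℝ, 0 ≤ qf (Gm (wt N b t)) u - qf (Gm (wM (wT b N) (MC N l t0 t))) u ∧
    qf (Gm (wt N b t)) u - qf (Gm (wM (wT b N) (MC N l t0 t))) u ≤ δ * ∑ x, u x ^ 2

theorem fg_of {b : ℝ} (hb : 0 < b) : ∃ C c : ℝ, 0 < C ∧ 0 < c ∧
    ∀ (N l : ℕ) [NeZero N] [NeZero (N / l)] (t0 t : ℝ), l ∣ N → 0 < t → t ≤ t0 →
      9 ≤ t0 * (N : ℝ) ^ 2 → t0 * (l : ℝ) ^ 2 ≤ 1 →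
      FG N l b t0 t (C / t * Real.sqrt (t0 * (N : ℝ) ^ 2) * (t0 * (l : ℝ) ^ 2) ^ c) := by
  obtain ⟨C1, c1, hC1, hc1, hF⟩ := H375.fine_G (b := b) hb.le
  refine ⟨C1, c1, hC1, hc1, ?_⟩
  intro N l _ _ t0 t hl ht htt0 htN htl u
  have key := hF N t0 (ht.trans_le htt0) htN l hl htl t (t0 - t) (MC N l t t) (MC N l t0 t) ht
    (sub_nonneg.2 htt0) (by linarith) (MC_split N l t0 t)
    ⟨H864.MC_tr N l t t, H864.MC_tr N l t0 t, H864.qf_MC_ge hl le_rfl, fun u => by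
      rw [MC_split N l t0 t, H37.qf_add_mat, H864.qf_smul_mat, H864.qf_one_sub_cellP hl]
      have : 0 ≤ (t0 - t) * ∑ x, (u x - (cellP N l *ᵥ u) x) ^ 2 :=
        mul_nonneg (sub_nonneg.2 htt0) (sum_nonneg fun _ _ => sq_nonneg _)
      linarith, H864.qf_MC_le hl htt0⟩ u
  have e0 : wM (wT b N) (MC N l t t) = wt N b t := by rw [H864.MC_self]; rfl
  rw [e0] at key
  exact ⟨key.1, key.2.trans (le_of_eq (by ring))⟩

section

variable {N l : ℕ} [NeZero N] [NeZero (N / l)] {b t0 t : ℝ}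

/-- one pair of functions -/
lemma lbc_one (hb : 0 < b) (hl : l ∣ N) {ξ : ℕ} (hξ : 0 < ξ) (ht : 1 / (ξ : ℝ) ^ 2 ≤ t)
    (htt0 : t ≤ t0) {C1 Q η c C : ℝ} (hC1 : 0 ≤ C1) (hQ : 0 ≤ Q) (hη : 0 ≤ η) (hC : 0 ≤ C)
    (hfg : FG N l b t0 t (C1 / t * Q * η)) {u v : V N → ℝ} {A B D : ℝ} (hA : 0 < A) (hB : 0 < B)
    (hu : ∑ x, u x ^ 2 ≤ A ^ 2 * (1 / (ξ : ℝ) ^ 2)) (hv : ∑ x, v x ^ 2 ≤ B ^ 2 * (1 / (ξ : ℝ) ^ 2))
    (hcov0 : Cv (wt N b t) 0 (li fun x => |u x|) (li fun x => |v x|) ≤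
      A * B * (C * Real.exp (-(c * D)))) (J : V N → ℝ) :
    |Cv (wM (wT b N) (MC N l t0 t)) J (li u) (li v)| ≤
      33 * Real.exp (Tq (wM (wT b N) (MC N l t0 t)) J / 2) * A * B *
        Real.sqrt (Real.sqrt (C * Real.exp (-(c * D)) + C1 * Q * η)) := by
  have hξR : (0 : ℝ) < ξ := by exact_mod_cast hξ
  have htp : 0 < t := lt_of_lt_of_le (by positivity) ht
  have habs : ∀ w : V N → ℝ, ∑ x, |w x| ^ 2 = ∑ x, w x ^ 2 := fun w =>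
    sum_congr rfl fun x _ => sq_abs _
  have hcov := cov_MC hb hl htp htt0 (u := fun x => |u x|) (v := fun x => |v x|)
    (r := A * B * (C * Real.exp (-(c * D)))) (δ := C1 / t * Q * η) (U := A / ξ) (W := B / ξ)
    hcov0 hfg (by positivity)
    (by positivity) (by positivity)
    (by rw [habs]; refine hu.trans (le_of_eq ?_); rw [div_pow]; ring)
    (by rw [habs]; refine hv.trans (le_of_eq ?_); rw [div_pow]; ring)
  have htξ : 1 / (t * (ξ : ℝ) ^ 2) ≤ 1 := by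
    rw [div_le_one (by positivity)]
    rw [div_le_iff₀ (by positivity)] at ht
    exact ht
  have hcov2 : Cv (wM (wT b N) (MC N l t0 t)) 0 (li fun x => |u x|) (li fun x => |v x|) ≤
      A * B * (C * Real.exp (-(c * D)) + C1 * Q * η) := by
    refine hcov.trans ?_
    have e1 : C1 / t * Q * η * (A / ξ * (B / ξ)) = A * B * ((C1 * Q * η) * (1 / (t * ξ ^ 2))) := by
      field_simp
    rw [e1, mul_add]
    have h2 : (C1 * Q * η) * (1 / (t * (ξ : ℝ) ^ 2)) ≤ C1 * Q * η * 1 :=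
      mul_le_mul_of_nonneg_left htξ (by positivity)
    rw [mul_one] at h2
    have h3 := mul_le_mul_of_nonneg_left h2 (by positivity : 0 ≤ A * B)
    linarith
  have hdm := H864.dm_MC (N := N) hb hl htp htt0
  have htA : ∀ (w : V N → ℝ) (A : ℝ), ∑ x, w x ^ 2 ≤ A ^ 2 * (1 / (ξ : ℝ) ^ 2) →
      ∑ x, w x ^ 2 ≤ A ^ 2 * t := fun w A hw =>
    hw.trans (mul_le_mul_of_nonneg_left ht (sq_nonneg A))
  exact H612.lb13 hdm.em hdm.ev hdm.pk (H159.hol_wM_wT hb.le N (H159.fer_MC hl htt0)) htp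
    (subG_MC hb hl htp htt0) J hA hB (htA u A hu) (htA v B hv) (by positivity) hcov2

end

/-- **locality for the mass form `MC N l t0 t`, in the range of the project.** -/
theorem LBC_rng {b1 : ℝ} (hb1 : 0 < b1) (b2 a : ℝ) :
    ∃ W₀ : ℝ, ∃ c C ys : ℝ, ∃ X : ℕ, 0 < c ∧ 1 ≤ C ∧ 0 < ys ∧ 1 ≤ X ∧ ∀ b : ℝ, b1 ≤ b →
    ∃ Cf cf : ℝ, 0 < Cf ∧ 0 < cf ∧ ∀ W : ℝ, W₀ ≤ W →
    ∀ (N l : ℕ) [NeZero N] [NeZero (N / l)] (ξ : ℕ) (y : ℝ),
      TM.Spec.Rng b1 b2 a W ys X N b ξ y → (N : ℝ) * y ≤ c * ξ → l ∣ N →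
      ∀ t0 t : ℝ, 1 / (ξ : ℝ) ^ 2 ≤ t → t ≤ t0 → 9 ≤ t0 * (N : ℝ) ^ 2 → t0 * (l : ℝ) ^ 2 ≤ 1 →
      LBC N l b t0 t ξ c C (Cf * Real.sqrt (t0 * (N : ℝ) ^ 2) * (t0 * (l : ℝ) ^ 2) ^ cf) := by
  obtain ⟨W₀, c, C, ys, X, hc, hC, hys, hX, h⟩ := H612.lb4t hb1 b2 a
  refine ⟨W₀, c / 4, 33 * C, ys, X, by positivity, by linarith, hys, hX, ?_⟩
  intro b hbb
  have hb : 0 < b := lt_of_lt_of_le hb1 hbb
  obtain ⟨C1, c1, hC1, hc1, hF⟩ := fg_of hb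
  refine ⟨1 + C1, c1 / 4, by positivity, by positivity, ?_⟩
  intro W hW N l _ _ ξ y hR hN hl t0 t ht htt0 htN htl u v A B D hA hB hD hu hv hs J
  have hξ : 0 < ξ := by
    have := hR.hX
    omega
  have hξR : (0 : ℝ) < ξ := by exact_mod_cast hξ
  have htp : 0 < t := lt_of_lt_of_le (by positivity) ht
  have ht0p : 0 < t0 := htp.trans_le htt0
  have hN' : (N : ℝ) * y ≤ c * ξ := by
    refine hN.trans ?_
    have : 0 < c * ξ := by positivity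
    linarith
  have hx0 : 0 ≤ t0 * (l : ℝ) ^ 2 := by positivity
  have hη0 : 0 ≤ (t0 * (l : ℝ) ^ 2) ^ c1 := Real.rpow_nonneg hx0 _
  have hQ1 : 1 ≤ Real.sqrt (t0 * (N : ℝ) ^ 2) := by rw [Real.one_le_sqrt]; linarith
  have hfar := h W hW N b ξ y hR hN' u v A B D hA hB hD hu hv hs t ht
  have h13 := lbc_one hb hl hξ ht htt0 hC1.le (by linarith) hη0 (by linarith)
    (hF N l t0 t hl htp htt0 htN htl) hA hB hu hv hfar.cov J
  have hE : 0 < Real.exp (-(c * D)) := Real.exp_pos _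
  have s1 := (sqrt_sqrt_add (x := C * Real.exp (-(c * D)))
    (y := C1 * Real.sqrt (t0 * (N : ℝ) ^ 2) * (t0 * (l : ℝ) ^ 2) ^ c1) (by positivity)
    (by positivity)).trans (add_le_add (ssq_exp hC) (ssq_pow hC1.le hQ1 hx0))
  have h9 : 0 ≤ (1 + C1) * Real.sqrt (t0 * (N : ℝ) ^ 2) * (t0 * (l : ℝ) ^ 2) ^ (c1 / 4) := by
    have := Real.rpow_nonneg hx0 (c1 / 4)
    positivity
  have s2 : C * Real.exp (-(c / 4 * D)) +
      (1 + C1) * Real.sqrt (t0 * (N : ℝ) ^ 2) * (t0 * (l : ℝ) ^ 2) ^ (c1 / 4) ≤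
      C * (Real.exp (-(c / 4 * D)) +
        (1 + C1) * Real.sqrt (t0 * (N : ℝ) ^ 2) * (t0 * (l : ℝ) ^ 2) ^ (c1 / 4)) := by
    rw [mul_add]
    exact add_le_add le_rfl (le_mul_of_one_le_left h9 hC)
  refine h13.trans ?_
  have h8 := mul_le_mul_of_nonneg_left (s1.trans s2)
    (by positivity : 0 ≤ 33 * Real.exp (Tq (wM (wT b N) (MC N l t0 t)) J / 2) * A * B)
  refine h8.trans (le_of_eq ?_)
  ring

end

end Vale.Agent.P159.H813
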