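import Vale.Agent.P159.H813.Ker5

/-!
P159 (helper813): (P#5') for the mean posterior cell covariance, mass `t0 ≥ t` off the cells.
-/

namespace Vale.Agent.P159.H813

open Finset Matrix
open Vale.Agent.P159.TM.H104 (EM Ex Cv li Gr Lg)
open Vale.Agent.P159.H37 (bf Tq Cm Cbar post Ech EchM wM wt em_post Ech_nonneg Ech_cmul Ech_const)
open Vale.Agent.P159.H730 (ps hs2 dev wC Cbk ST chi_Cv chi_const chi_ind chi_hs2 measurable_hs2
  hs2_nonneg dev_le_hs Cv_Qt ps_wC)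
open Vale.Agent.P159.H864 (cl cobV Gc sym TI Gck MC)
open Vale.Agent.P159.TM.Spec (V)
open Vale.Agent.P159.TM.SpecC (wT)
open Vale.Agent.P159.TM.H459 (sn sd)
open Vale.Agent.P159.TM.H764

noncomputable section

set_option linter.unusedSectionVars false

variable {N l : ℕ} [NeZero N] [NeZero (N / l)] {b t0 t τ : ℝ}

lemma ps_wt0 (hl : l ∣ N) (b t0 : ℝ) (h : τ ≤ t) :
    ps (wC N l b t0 τ) (cobV N l) (t - τ) = wM (wT b N) (MC N l t0 t) := by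
  rw [ps_wC hl b t0 (sub_nonneg.2 h), add_sub_cancel]

/-- kernel of the mean posterior cell covariance -/
def wP0 (N l : ℕ) [NeZero N] [NeZero (N / l)] (b t0 t τ : ℝ) (z : V (N / l)) : ℝ :=
  Gc l (Cbar (wC N l b t0 τ) 0 (Real.sqrt (t - τ) • cobV N l)) 0 z

lemma Gh_wP0 (hl : l ∣ N) (b t0 t τ : ℝ) (k : V (N / l)) :
    Gh (wP0 N l b t0 t τ) k = Cbk N l b t0 τ t k := by
  unfold Cbk
  rw [H864.Cbar_cob hl]
  rfl

lemma ti_wP0 (hl : l ∣ N) (b t0 t τ : ℝ) :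
    TI (Gc l (Cbar (wC N l b t0 τ) 0 (Real.sqrt (t - τ) • cobV N l))) := by
  rw [← H864.Cbar_cob hl]
  exact H864.ti_Gc_Cbar hl (H864.cinv_MC hl b t0 τ) _

lemma wP0_nonneg (hb : 0 ≤ b) (hl : l ∣ N) (hτ : 0 < τ) (h : τ ≤ t) (ht : t ≤ t0)
    (z : V (N / l)) : 0 ≤ wP0 N l b t0 t τ z := by
  unfold wP0
  refine H864.Gc_nonneg (fun x y => ?_) _ _
  have hμ := H864.em_MC (N := N) (l := l) (t := t0) hb hl hτ (h.trans ht)
  unfold Cbar EchM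
  rw [Matrix.of_apply]
  refine Ech_nonneg hμ _ _ fun J => ?_
  have e : post (wC N l b t0 τ) (Real.sqrt (t - τ) • cobV N l) = wM (wT b N) (MC N l t0 t) :=
    ps_wt0 hl b t0 h
  show 0 ≤ Cm (post (wC N l b t0 τ) (Real.sqrt (t - τ) • cobV N l)) J x y
  rw [e]
  exact H159.Cm_nonneg (H864.em_MC hb hl (hτ.trans_le h) ht)
    (H159.hol_wM_wT hb N (H159.fer_MC hl ht)) J x y

lemma form_wP0 (hl : l ∣ N) (hb : 0 ≤ b) (hτ : 0 < τ) (h : τ ≤ t) (ht : t ≤ t0)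
    (u v : V (N / l) → ℝ) :
    ∑ c, ∑ c', u c * wP0 N l b t0 t τ (c' - c) * v c' =
      Ech (wC N l b t0 τ) 0 (Real.sqrt (t - τ) • cobV N l) fun J =>
        Cv (wM (wT b N) (MC N l t0 t)) J (li ((cobV N l)ᵀ *ᵥ u)) (li ((cobV N l)ᵀ *ᵥ v)) := by
  have hμ := H864.em_MC (N := N) (l := l) (t := t0) hb hl hτ (h.trans ht)
  have e : post (wC N l b t0 τ) (Real.sqrt (t - τ) • cobV N l) = wM (wT b N) (MC N l t0 t) :=
    ps_wt0 hl b t0 h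
  have h1 := H730.bf_Cbar hμ (Real.sqrt (t - τ) • cobV N l) ((cobV N l)ᵀ *ᵥ u)
    ((cobV N l)ᵀ *ᵥ v)
  have e' : post (wM (wT b N) (MC N l t0 τ)) (Real.sqrt (t - τ) • cobV N l) =
      wM (wT b N) (MC N l t0 t) := e
  rw [e', ← H864.bf_Gc] at h1
  rw [← h1]
  unfold bf
  refine sum_congr rfl fun c _ => sum_congr rfl fun c' _ => ?_
  rw [(ti_wP0 hl b t0 t τ).eq c c']
  rfl

/-- pointwise bound of the covariance of two strips -/
lemma cv_strip0 {θ e : ℝ} {Gd : ℝ → Set (V N → ℝ)} (h : ST N l b t0 τ t θ e Gd) {ξ : ℕ} {c C : ℝ}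
    {δ : ℝ} (hLB : LBC N l b t0 t ξ c C δ) (hδ : 0 ≤ δ) (hC : 0 ≤ C) (hξ : 0 < ξ) {m : ℕ}
    (hm : 0 < m) (hml : ξ ≤ m * l)
    (hmn : m ≤ N / l) {κ : ℝ} (hκ : 0 < κ) (β : ℕ) (J : V N → ℝ) :
    |Cv (wM (wT b N) (MC N l t0 t)) J (li ((cobV N l)ᵀ *ᵥ ind1 (strip (N / l) m 0)))
      (li ((cobV N l)ᵀ *ᵥ ind1 (str3 (N / l) m β)))| ≤
      (strip (N / l) m 0).card * (Real.sqrt 6 * (Real.sqrt (1 + θ) * (ξ : ℝ) ^ 2 *
        (C * (Real.exp (-(c * ((β - 2 : ℕ) : ℝ))) + δ))) + Real.sqrt 6 * (κ / 2 +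
        (Gd t)ᶜ.indicator (hs2 (wC N l b t0 τ) (cobV N l) (t - τ)) J / (2 * κ))) := by
  have hξr : (0 : ℝ) < ξ := by exact_mod_cast hξ
  have hnr : 0 < N / l := NeZero.pos _
  have hs0 : m * (N / l) ≤ (strip (N / l) m 0).card := card_strip_ge hmn
  have hs0p : 0 < (strip (N / l) m 0).card := lt_of_lt_of_le (Nat.mul_pos hm hnr) hs0
  obtain ⟨s0, hs0d⟩ : ∃ s0 : ℝ, s0 = (strip (N / l) m 0).card := ⟨_, rfl⟩
  have hs0r : 0 < s0 := by rw [hs0d]; exact_mod_cast hs0p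
  obtain ⟨s3, hs3d⟩ : ∃ s3 : ℝ, s3 = (str3 (N / l) m β).card := ⟨_, rfl⟩
  have hs30 : 0 ≤ s3 := by rw [hs3d]; positivity
  have hs36 : s3 ≤ 6 * s0 := by
    have h1 := card_str3_le (n := N / l) hm β
    have h2 : (str3 (N / l) m β).card ≤ 6 * (strip (N / l) m 0).card := by
      calc _ ≤ 6 * m * (N / l) := h1
        _ = 6 * (m * (N / l)) := by ring
        _ ≤ _ := Nat.mul_le_mul_left 6 hs0
    rw [hs3d, hs0d]
    exact_mod_cast h2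
  rw [← hs0d]
  obtain ⟨A, hA⟩ : ∃ A : ℝ, A = ξ * Real.sqrt s0 := ⟨_, rfl⟩
  obtain ⟨B, hB⟩ : ∃ B : ℝ, B = ξ * Real.sqrt (6 * s0) := ⟨_, rfl⟩
  have hA0 : 0 < A := by rw [hA]; positivity
  have hB0 : 0 < B := by rw [hB]; positivity
  have hAB : A * B = Real.sqrt 6 * ((ξ : ℝ) ^ 2 * s0) := by
    rw [hA, hB, Real.sqrt_mul (by norm_num)]
    have := Real.mul_self_sqrt hs0r.le
    calc ξ * Real.sqrt s0 * (ξ * (Real.sqrt 6 * Real.sqrt s0)) =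
        Real.sqrt 6 * ((ξ : ℝ) ^ 2 * (Real.sqrt s0 * Real.sqrt s0)) := by ring
      _ = _ := by rw [this]
  have hA2 : A ^ 2 * (1 / (ξ : ℝ) ^ 2) = s0 := by
    rw [hA, mul_pow, Real.sq_sqrt hs0r.le]; field_simp
  have hB2 : B ^ 2 * (1 / (ξ : ℝ) ^ 2) = 6 * s0 := by
    rw [hB, mul_pow, Real.sq_sqrt (by positivity)]; field_simp
  have hu : ∑ x, ((cobV N l)ᵀ *ᵥ ind1 (strip (N / l) m 0)) x ^ 2 ≤ A ^ 2 * (1 / (ξ : ℝ) ^ 2) := by
    rw [H864.sq_cobV_tr h.dvd, ind1_sq, hA2, hs0d]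
  have hv : ∑ x, ((cobV N l)ᵀ *ᵥ ind1 (str3 (N / l) m β)) x ^ 2 ≤ B ^ 2 * (1 / (ξ : ℝ) ^ 2) := by
    rw [H864.sq_cobV_tr h.dvd, ind1_sq, hB2, ← hs3d]
    exact hs36
  have hsup : ∀ x z : V N, ((cobV N l)ᵀ *ᵥ ind1 (strip (N / l) m 0)) x ≠ 0 →
      ((cobV N l)ᵀ *ᵥ ind1 (str3 (N / l) m β)) z ≠ 0 → ((β - 2 : ℕ) : ℝ) * ξ ≤ sd x z := by
    intro x z hx hz
    rw [H864.cobV_tr_mulVec] at hx hz
    have hx' : (cl x : V (N / l)) ∈ strip (N / l) m 0 := by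
      by_contra hc
      exact hx (by unfold ind1; rw [if_neg hc, mul_zero])
    have hz' : (cl z : V (N / l)) ∈ str3 (N / l) m β := by
      by_contra hc
      exact hz (by unfold ind1; rw [if_neg hc, mul_zero])
    have h1 := sep_strip (l := l) h.dvd hm (mem_filter.1 hx').2 (mem_filter.1 hz').2.1
    have h2 : (β - 2) * ξ ≤ sd x z := (Nat.mul_le_mul_left _ hml).trans h1
    exact_mod_cast h2
  have hfar := hLB _ _ A B ((β - 2 : ℕ) : ℝ) hA0 hB0 (by positivity) hu hv hsup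
  obtain ⟨r, hr⟩ : ∃ r : ℝ, r = C * (Real.exp (-(c * ((β - 2 : ℕ) : ℝ))) + δ) := ⟨_, rfl⟩
  have hr0 : 0 ≤ r := by rw [hr]; positivity
  rw [← hr] at hfar ⊢
  have hθ1 : 0 ≤ 1 + θ := by linarith [h.th0]
  have hsθ : 1 ≤ Real.sqrt (1 + θ) := by rw [Real.one_le_sqrt]; linarith [h.th0]
  by_cases hJ : J ∈ Gd t
  · have h1 : Real.exp (Tq (wM (wT b N) (MC N l t0 t)) J) - 1 ≤ θ :=
      h.th t ⟨h.le, le_rfl⟩ J hJ
    have h2 : Real.exp (Tq (wM (wT b N) (MC N l t0 t)) J / 2) ≤ Real.sqrt (1 + θ) := by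
      refine Real.le_sqrt_of_sq_le ?_
      rw [← Real.exp_nat_mul]
      have : ((2 : ℕ) : ℝ) * (Tq (wM (wT b N) (MC N l t0 t)) J / 2) =
          Tq (wM (wT b N) (MC N l t0 t)) J := by push_cast; ring
      rw [this]
      linarith
    have h3 : (Gd t)ᶜ.indicator (hs2 (wC N l b t0 τ) (cobV N l) (t - τ)) J = 0 :=
      Set.indicator_of_notMem (by simpa using hJ) _
    rw [h3]
    refine (hfar J).trans ?_
    have h4 : Real.exp (Tq (wM (wT b N) (MC N l t0 t)) J / 2) * A * B * r ≤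
        Real.sqrt (1 + θ) * A * B * r := by
      gcongr
    refine h4.trans ?_
    have h5 : Real.sqrt (1 + θ) * A * B * r = s0 * (Real.sqrt 6 * (Real.sqrt (1 + θ) *
        (ξ : ℝ) ^ 2 * r)) := by
      calc Real.sqrt (1 + θ) * A * B * r = Real.sqrt (1 + θ) * (A * B) * r := by ring
        _ = _ := by rw [hAB]; ring
    rw [h5]
    refine mul_le_mul_of_nonneg_left ?_ hs0r.le
    have : 0 ≤ Real.sqrt 6 * (κ / 2 + 0 / (2 * κ)) := by positivity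
    linarith
  · have h3 : (Gd t)ᶜ.indicator (hs2 (wC N l b t0 τ) (cobV N l) (t - τ)) J =
        hs2 (wC N l b t0 τ) (cobV N l) (t - τ) J := Set.indicator_of_mem hJ _
    rw [h3]
    have hμ := H864.em_MC (N := N) (l := l) (t := t0) h.b0.le h.dvd h.pos (h.le.trans h.le')
    have h4 := cv_dev' hμ (cobV N l) (t - τ) (ind1 (strip (N / l) m 0))
      (ind1 (str3 (N / l) m β)) J (a := Real.sqrt 6 * s0) hκ (by positivity) (by
        rw [ind1_sq, ind1_sq, ← hs0d, ← hs3d, mul_pow, Real.sq_sqrt (by norm_num)]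
        nlinarith)
    have e2 : ps (wM (wT b N) (H864.MC N l t0 τ)) (cobV N l) (t - τ) =
        wM (wT b N) (MC N l t0 t) := ps_wt0 h.dvd b t0 h.le
    rw [e2] at h4
    have h5 := hfar 0
    have e3 : Tq (wM (wT b N) (MC N l t0 t)) 0 = 0 := by unfold Tq; rw [smul_zero]; ring
    rw [e3, zero_div, Real.exp_zero, one_mul] at h5
    refine h4.trans ((add_le_add h5 le_rfl).trans ?_)
    have h6 : A * B * r = s0 * (Real.sqrt 6 * (1 * (ξ : ℝ) ^ 2 * r)) := by rw [hAB]; ring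
    rw [h6]
    have h7 : s0 * (Real.sqrt 6 * (1 * (ξ : ℝ) ^ 2 * r)) ≤
        s0 * (Real.sqrt 6 * (Real.sqrt (1 + θ) * (ξ : ℝ) ^ 2 * r)) := by gcongr
    refine (add_le_add h7 le_rfl).trans (le_of_eq ?_)
    have e4 : hs2 (wM (wT b N) (H864.MC N l t0 τ)) (cobV N l) (t - τ) J =
        hs2 (wC N l b t0 τ) (cobV N l) (t - τ) J := rfl
    rw [e4]
    ring

/-- **strip sums of the mean posterior cell covariance** -/
theorem strip_wP0 {θ e : ℝ} {Gd : ℝ → Set (V N → ℝ)} (h : ST N l b t0 τ t θ e Gd) {ξ : ℕ} {c C : ℝ}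
    {δ : ℝ} (hLB : LBC N l b t0 t ξ c C δ) (hδ : 0 ≤ δ) (hc : 0 < c) (hC : 0 ≤ C) (hξ : 0 < ξ)
    (htξ : t ≤ 4 / (ξ : ℝ) ^ 2)
    {m : ℕ} (hm : 0 < m) (hml : ξ ≤ m * l) (hmn : m ≤ N / l) {κ : ℝ} (hκ : 0 < κ)
    (heκ : e ≤ κ ^ 2) (β : ℕ) :
    ∑ z ∈ strip (N / l) m β, t * wP0 N l b t0 t τ z ≤
      (10 * Real.sqrt (1 + θ) * C * Real.exp (2 * c)) * Real.exp (-(c * β)) +
        (10 * Real.sqrt (1 + θ) * C * δ + 3 * (t * κ)) := by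
  have hμ := H864.em_MC (N := N) (l := l) (t := t0) h.b0.le h.dvd h.pos (h.le.trans h.le')
  have ht0 : 0 < t := h.pos.trans_le h.le
  have hξr : (0 : ℝ) < ξ := by exact_mod_cast hξ
  have hnr : 0 < N / l := NeZero.pos _
  have hs0p : 0 < (strip (N / l) m 0).card :=
    lt_of_lt_of_le (Nat.mul_pos hm hnr) (card_strip_ge hmn)
  obtain ⟨s0, hs0d⟩ : ∃ s0 : ℝ, s0 = (strip (N / l) m 0).card := ⟨_, rfl⟩
  have hs0r : 0 < s0 := by rw [hs0d]; exact_mod_cast hs0p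
  obtain ⟨K0, hK0⟩ : ∃ K0 : ℝ, K0 = Real.sqrt 6 * (Real.sqrt (1 + θ) * (ξ : ℝ) ^ 2 *
        (C * (Real.exp (-(c * ((β - 2 : ℕ) : ℝ))) + δ))) := ⟨_, rfl⟩
  have h1 := strip_le_form (wP0_nonneg h.b0.le h.dvd h.pos h.le h.le') hm β
  rw [← ind1_form, form_wP0 h.dvd h.b0.le h.pos h.le h.le', ← hs0d] at h1
  -- integrability
  have c1 : H663.ChI (wC N l b t0 τ) 0 (Real.sqrt (t - τ) • cobV N l) fun J =>
      Cv (wM (wT b N) (MC N l t0 t)) J (li ((cobV N l)ᵀ *ᵥ ind1 (strip (N / l) m 0)))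
        (li ((cobV N l)ᵀ *ᵥ ind1 (str3 (N / l) m β))) := by
    have h2 := chi_Cv hμ (Real.sqrt (t - τ) • cobV N l)
      (Gr.li ((cobV N l)ᵀ *ᵥ ind1 (strip (N / l) m 0)))
      (Gr.li ((cobV N l)ᵀ *ᵥ ind1 (str3 (N / l) m β)))
    have e2 : post (wM (wT b N) (H864.MC N l t0 τ)) (Real.sqrt (t - τ) • cobV N l) =
        wM (wT b N) (MC N l t0 t) := ps_wt0 h.dvd b t0 h.le
    rw [e2] at h2
    exact h2
  have c2 : H663.ChI (wC N l b t0 τ) 0 (Real.sqrt (t - τ) • cobV N l)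
      ((Gd t)ᶜ.indicator (hs2 (wC N l b t0 τ) (cobV N l) (t - τ))) :=
    chi_ind hμ (measurable_hs2 hμ _) (hs2_nonneg _ _ _) (chi_hs2 hμ _)
      (h.meas t ⟨h.le, le_rfl⟩).compl
  have c3 : H663.ChI (wC N l b t0 τ) 0 (Real.sqrt (t - τ) • cobV N l) fun J =>
      s0 * (K0 + Real.sqrt 6 * (κ / 2)) + s0 * Real.sqrt 6 / (2 * κ) *
        (Gd t)ᶜ.indicator (hs2 (wC N l b t0 τ) (cobV N l) (t - τ)) J :=
    (chi_const hμ _ _ _).add (c2.cmul _)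
  have h2 := H663.Ech_mono' hμ c1 c3 (fun J => by
    refine (le_abs_self _).trans ((cv_strip0 h hLB hδ hC hξ hm hml hmn hκ β J).trans (le_of_eq ?_))
    rw [← hs0d, ← hK0]
    ring)
  rw [H663.Ech_add' (chi_const hμ _ _ _) (c2.cmul _), Ech_const hμ, Ech_cmul] at h2
  have h3 := h.err t ⟨h.le, le_rfl⟩
  have h4 : s0 * Real.sqrt 6 / (2 * κ) *
      Ech (wC N l b t0 τ) 0 (Real.sqrt (t - τ) • cobV N l)
        ((Gd t)ᶜ.indicator (hs2 (wC N l b t0 τ) (cobV N l) (t - τ))) ≤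
      s0 * Real.sqrt 6 / (2 * κ) * κ ^ 2 :=
    mul_le_mul_of_nonneg_left (h3.trans heκ) (by positivity)
  have h5 : s0 * Real.sqrt 6 / (2 * κ) * κ ^ 2 = s0 * (Real.sqrt 6 * (κ / 2)) := by
    field_simp
  have h6 : s0 * ∑ z ∈ strip (N / l) m β, wP0 N l b t0 t τ z ≤ s0 * (K0 + Real.sqrt 6 * κ) := by
    have e : s0 * (K0 + Real.sqrt 6 * κ) = s0 * (K0 + Real.sqrt 6 * (κ / 2)) +
        s0 * (Real.sqrt 6 * (κ / 2)) := by ring
    rw [e]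
    linarith
  have h7 : ∑ z ∈ strip (N / l) m β, wP0 N l b t0 t τ z ≤ K0 + Real.sqrt 6 * κ :=
    le_of_mul_le_mul_left h6 hs0r
  have htξ2 : t * (ξ : ℝ) ^ 2 ≤ 4 := by
    calc t * (ξ : ℝ) ^ 2 ≤ 4 / (ξ : ℝ) ^ 2 * (ξ : ℝ) ^ 2 :=
          mul_le_mul_of_nonneg_right htξ (by positivity)
      _ = 4 := by field_simp
  have h8 : Real.exp (-(c * ((β - 2 : ℕ) : ℝ))) ≤ Real.exp (2 * c) * Real.exp (-(c * β)) := by
    rw [← Real.exp_add]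
    refine Real.exp_le_exp.2 ?_
    have h9 : (β : ℝ) ≤ ((β - 2 : ℕ) : ℝ) + 2 := by
      have : β ≤ (β - 2) + 2 := by omega
      exact_mod_cast this
    nlinarith
  have h10 : t * K0 ≤ (10 * Real.sqrt (1 + θ) * C * Real.exp (2 * c)) * Real.exp (-(c * β)) +
      10 * Real.sqrt (1 + θ) * C * δ := by
    have e1 : t * K0 = Real.sqrt 6 * (t * (ξ : ℝ) ^ 2) * (Real.sqrt (1 + θ) * C) *
        (Real.exp (-(c * ((β - 2 : ℕ) : ℝ))) + δ) := by rw [hK0]; ring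
    rw [e1]
    have h11 : Real.sqrt 6 * (t * (ξ : ℝ) ^ 2) ≤ 10 := by
      calc Real.sqrt 6 * (t * (ξ : ℝ) ^ 2) ≤ 5 / 2 * 4 :=
            mul_le_mul sqrt6 htξ2 (by positivity) (by norm_num)
        _ = 10 := by norm_num
    calc Real.sqrt 6 * (t * (ξ : ℝ) ^ 2) * (Real.sqrt (1 + θ) * C) *
        (Real.exp (-(c * ((β - 2 : ℕ) : ℝ))) + δ)
        ≤ 10 * (Real.sqrt (1 + θ) * C) * (Real.exp (2 * c) * Real.exp (-(c * β)) + δ) :=
          mul_le_mul (mul_le_mul_of_nonneg_right h11 (by positivity)) (add_le_add h8 le_rfl)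
            (by positivity) (by positivity)
      _ = _ := by ring
  have h12 : t * (Real.sqrt 6 * κ) ≤ 3 * (t * κ) := by
    have h13 := sqrt6
    have h14 : 0 < t * κ := by positivity
    nlinarith
  rw [← mul_sum]
  calc t * ∑ z ∈ strip (N / l) m β, wP0 N l b t0 t τ z ≤ t * (K0 + Real.sqrt 6 * κ) :=
        mul_le_mul_of_nonneg_left h7 ht0.le
    _ = t * K0 + t * (Real.sqrt 6 * κ) := by ring
    _ ≤ _ := by linarith

/-- **(P#5') for the mean posterior cell covariance.** -/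
theorem P5C0 (nn : ℕ) {θ e : ℝ} {Gd : ℝ → Set (V N → ℝ)} (h : ST N l b t0 τ t θ e Gd) (hθ : θ ≤ 1)
    {ξ : ℕ} {c C : ℝ} {δf : ℝ} (hLB : LBC N l b t0 t ξ c C δf) (hδf : 0 ≤ δf) (hc : 0 < c) (hC : 1 ≤ C) (hξ : 0 < ξ)
    (htξ : t ≤ 4 / (ξ : ℝ) ^ 2) {m : ℕ} (hm : 0 < m) (hml : ξ ≤ m * l) (hmn : m ≤ N / l)
    {κ ϑ2 : ℝ} (hκ : 0 < κ) (heκ : e ≤ κ ^ 2) (hϑ2 : 0 < ϑ2) (hϑ21 : ϑ2 ≤ 1 / 32)
    (hϑ : ((N / l : ℕ) : ℝ) * (15 * C * δf + 3 * (t * κ)) * (2 * (1 + 1 / c) * (1 + 2 / c) * Real.exp c) ≤ ϑ2)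
    (h0 : 1 / 2 ≤ t * Cbk N l b t0 τ t 0) {A r U δ α E : ℝ}
    (hA : A = 15 * C * Real.exp (2 * c) * (1 + Real.exp (c / 2) * (1 + 2 / c)))
    (hr : r = c ^ 2 / (64 * A * (m : ℝ) ^ 2)) (hU : 0 < U) (hUr : 4 * U ≤ r) (hU1 : U ≤ 1)
    (hN2 : 2 ≤ N / l) (hNU : 16 * Real.pi * (nn + 1) ≤ ((N / l : ℕ) : ℝ) * Real.sqrt U)
    (hδ : ∀ j : ℕ, ej (N / l) j ≤ U → |((Cbk N l b t0 τ t ((j : ZMod (N / l)), 0))⁻¹ -
      (Cbk N l b t0 τ t 0)⁻¹) / t - α * ej (N / l) j| ≤ δ)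
    (hE : E = (LC nn + 1) * (δ + 256 * ϑ2 + 2 * (16 + |α| * r) * (2 * U / r) ^ (nn + 1))) :
    ∃ a : ℝ, |a - α| ≤ E / U ∧ ∀ j : ℕ, ej (N / l) j ≤ U / 2 →
      |((Cbk N l b t0 τ t ((j : ZMod (N / l)), 0))⁻¹ - (Cbk N l b t0 τ t 0)⁻¹) / t -
        a * ej (N / l) j| ≤
        2 * E * (ej (N / l) j / U) ^ 2 + 256 * ϑ2 := by
  have ht0 : 0 < t := h.pos.trans_le h.le
  obtain ⟨A1, hA1⟩ : ∃ A1 : ℝ, A1 = 15 * C * Real.exp (2 * c) := ⟨_, rfl⟩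
  have hA11 : 1 ≤ A1 := by
    rw [hA1]
    have := Real.one_le_exp (by positivity : 0 ≤ 2 * c)
    nlinarith
  have hw0 : ∀ z, 0 ≤ t * wP0 N l b t0 t τ z := fun z =>
    mul_nonneg ht0.le (wP0_nonneg h.b0.le h.dvd h.pos h.le h.le' z)
  have hB : ∀ β, ∑ z ∈ strip (N / l) m β, t * wP0 N l b t0 t τ z ≤
      A1 * Real.exp (-(c * β)) + (15 * C * δf + 3 * (t * κ)) := by
    intro β
    refine (strip_wP0 h hLB hδf hc (by linarith) hξ htξ hm hml hmn hκ heκ β).trans ?_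
    have h1 : Real.sqrt (1 + θ) ≤ 3 / 2 := by
      rw [Real.sqrt_le_left (by norm_num)]
      linarith
    refine add_le_add (mul_le_mul_of_nonneg_right ?_ (Real.exp_pos _).le)
      (add_le_add ?_ le_rfl)
    swap
    · have h4 : 10 * Real.sqrt (1 + θ) * C * δf = (10 * Real.sqrt (1 + θ)) * (C * δf) := by ring
      have h5 : 15 * C * δf = 15 * (C * δf) := by ring
      rw [h4, h5]
      exact mul_le_mul_of_nonneg_right (by linarith) (by positivity)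
    rw [hA1]
    have h2 : 10 * Real.sqrt (1 + θ) * C * Real.exp (2 * c) =
        (10 * Real.sqrt (1 + θ)) * (C * Real.exp (2 * c)) := by ring
    have h3 : 15 * C * Real.exp (2 * c) = 15 * (C * Real.exp (2 * c)) := by ring
    rw [h2, h3]
    exact mul_le_mul_of_nonneg_right (by linarith) (by positivity)
  obtain ⟨K, hK1, hK2⟩ := K_choice (n := N / l) (by omega) hc hA11
    (by positivity : 0 ≤ 15 * C * δf + 3 * (t * κ)) hϑ2 (by linarith) hϑ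
  have hG : ∀ k, Gh (fun z => t * wP0 N l b t0 t τ z) k = t * Cbk N l b t0 τ t k := by
    intro k
    rw [Gh_mul, Gh_wP0 h.dvd]
  have hinv : ∀ k, (Gh (fun z => t * wP0 N l b t0 t τ z) k)⁻¹ =
      (Cbk N l b t0 τ t k)⁻¹ / t := by
    intro k
    rw [hG, mul_inv]
    ring
  have hdiff : ∀ j : ℕ, (Gh (fun z => t * wP0 N l b t0 t τ z) ((j : ZMod (N / l)), 0))⁻¹ -
      (Gh (fun z => t * wP0 N l b t0 t τ z) 0)⁻¹ =
      ((Cbk N l b t0 τ t ((j : ZMod (N / l)), 0))⁻¹ - (Cbk N l b t0 τ t 0)⁻¹) / t := by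
    intro j
    rw [hinv, hinv]
    ring
  have hA1pos : 0 < A1 := by linarith
  have hApos : 0 < A := by rw [hA]; positivity
  have hmr : (0 : ℝ) < m := by exact_mod_cast hm
  have key := P5K (N := N / l) nn hw0 (m := m) (K := K) hm (c1 := c) (A1 := A1)
    (ϑ := 15 * C * δf + 3 * (t * κ)) (ϑ2 := ϑ2) (A := A) (R := (c / (2 * m)) ^ 2) (c := 1 / 4) (U := U) (δ := δ)
    (α := α) (r := r) (E := E) hc hA1pos (by positivity) hB hK1 hK2 (by norm_num)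
    (by rw [hG]; linarith) (by linarith) rfl (by rw [hA, hA1])
    (by rw [hr]; field_simp; norm_num) hU hUr hU1 hN2 hNU
    (by intro j hj; rw [hdiff]; exact hδ j hj)
    (by rw [hE]; ring)
  obtain ⟨a, ha1, ha2⟩ := key
  refine ⟨a, ha1, fun j hj => ?_⟩
  have h1 := ha2 j hj
  rw [hdiff] at h1
  refine h1.trans (le_of_eq ?_)
  ring

end

end Vale.Agent.P159.H813
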