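import Vale.Agent.P159.H813.P40
import Vale.Agent.P159.H462.In3

/-!
P159 / P#4 (helper813), pinned form: the mass of the prior tends to zero on the torus, the torus
itself is the infrared cutoff. Part A: change of the small mass in the covariance.
-/

namespace Vale.Agent.P159.H813

open Finset Real
open Vale.Agent.P159.TM.H764

noncomputable section

variable {N : ℕ} [NeZero N]

lemma dt_z (k : ZMod N × ZMod N) : dt k (0 : ZMod N × ZMod N) = 0 := by unfold dt; simp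

lemma cos_EE (k x : ZMod N × ZMod N) : 1 - cN (dt k x) ≤ (mx x : ℝ) ^ 2 * EE k := by
  have h1 : x ∈ H462.box (0 : ZMod N × ZMod N) (mx x) := by
    rw [H462.mem_box, sub_zero]
    exact ⟨le_max_left _ _, le_max_right _ _⟩
  have h2 := H462.ch_dt_le h1 k
  rw [dt_z, TM.H764.ch_zero, H462.ch_sub_one] at h2
  unfold H462.mu1 at h2
  linarith

/-- the sum of the mass change -/
lemma sum_mass (x : ZMod N × ZMod N) {M : ℝ} (hM : 0 < M) :
    ∑ k ∈ univ.filter (fun k : ZMod N × ZMod N => k ≠ 0), (1 - cN (dt k x)) * (EE k ^ 2)⁻¹ ≤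
      (N : ℝ) ^ 4 * (40 / M) + 2 * M * (N : ℝ) ^ 2 * (mx x : ℝ) ^ 2 := by
  have hN : (0 : ℝ) < N := by exact_mod_cast NeZero.pos N
  obtain ⟨ν, hν⟩ : ∃ ν : ℝ, ν = M / (N : ℝ) ^ 2 := ⟨_, rfl⟩
  have hν0 : 0 < ν := by rw [hν]; positivity
  have hpt : ∀ k ∈ univ.filter (fun k : ZMod N × ZMod N => k ≠ 0),
      (1 - cN (dt k x)) * (EE k ^ 2)⁻¹ ≤
        (if ν ≤ EE k then 2 * (EE k ^ 2)⁻¹ else 0) +
          (if k ≠ 0 ∧ EE k < ν then (mx x : ℝ) ^ 2 * ((N : ℝ) ^ 2 / 16) else 0) := by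
    intro k hk
    have hk0 : k ≠ 0 := (mem_filter.1 hk).2
    have hE := H462.EE_pos hk0
    by_cases h : ν ≤ EE k
    · rw [if_pos h, if_neg (by intro hc; linarith [hc.2]), add_zero]
      refine mul_le_mul_of_nonneg_right ?_ (by positivity)
      have := neg_one_le_cN (dt k x)
      linarith
    · rw [if_neg h, if_pos ⟨hk0, not_le.1 h⟩, zero_add]
      have h1 := cos_EE k x
      have h2 := H462.EE_gap hk0
      calc (1 - cN (dt k x)) * (EE k ^ 2)⁻¹ ≤ ((mx x : ℝ) ^ 2 * EE k) * (EE k ^ 2)⁻¹ :=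
            mul_le_mul_of_nonneg_right h1 (by positivity)
        _ = (mx x : ℝ) ^ 2 * (EE k)⁻¹ := by field_simp
        _ ≤ (mx x : ℝ) ^ 2 * ((N : ℝ) ^ 2 / 16) := by
            refine mul_le_mul_of_nonneg_left ?_ (by positivity)
            rw [inv_le_iff_one_le_mul₀ hE]
            rw [div_le_iff₀ (by positivity)] at h2
            linarith
  refine (sum_le_sum hpt).trans ?_
  rw [sum_add_distrib]
  refine add_le_add ?_ ?_
  · have h1 : ∑ k ∈ univ.filter (fun k : ZMod N × ZMod N => k ≠ 0),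
        (if ν ≤ EE k then 2 * (EE k ^ 2)⁻¹ else 0) ≤
        ∑ k : ZMod N × ZMod N, (if ν ≤ EE k then 2 * (EE k ^ 2)⁻¹ else 0) :=
      sum_le_sum_of_subset_of_nonneg (filter_subset _ _) fun k _ _ => by
        split_ifs <;> positivity
    refine h1.trans ?_
    rw [← sum_filter, ← mul_sum]
    have h2 := H462.sum_high (N := N) hν0
    calc 2 * ∑ k ∈ univ.filter (fun k : ZMod N × ZMod N => ν ≤ EE k), (EE k ^ 2)⁻¹
        ≤ 2 * (20 * (N : ℝ) ^ 2 / ν) := mul_le_mul_of_nonneg_left h2 (by norm_num)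
      _ = (N : ℝ) ^ 4 * (40 / M) := by rw [hν]; field_simp; norm_num
  · have h1 : ∑ k ∈ univ.filter (fun k : ZMod N × ZMod N => k ≠ 0),
        (if k ≠ 0 ∧ EE k < ν then (mx x : ℝ) ^ 2 * ((N : ℝ) ^ 2 / 16) else 0) ≤
        ∑ k : ZMod N × ZMod N,
          (if k ≠ 0 ∧ EE k < ν then (mx x : ℝ) ^ 2 * ((N : ℝ) ^ 2 / 16) else 0) :=
      sum_le_sum_of_subset_of_nonneg (filter_subset _ _) fun k _ _ => by
        split_ifs <;> positivity
    refine h1.trans ?_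
    rw [← sum_filter, sum_const, nsmul_eq_mul]
    have h2 : ((univ.filter (fun k : ZMod N × ZMod N => k ≠ 0 ∧ EE k < ν)).card : ℝ) ≤
        20 * ν * (N : ℝ) ^ 2 := H462.card_low (N := N) hν0
    calc ((univ.filter (fun k : ZMod N × ZMod N => k ≠ 0 ∧ EE k < ν)).card : ℝ) *
          ((mx x : ℝ) ^ 2 * ((N : ℝ) ^ 2 / 16))
        ≤ (20 * ν * (N : ℝ) ^ 2) * ((mx x : ℝ) ^ 2 * ((N : ℝ) ^ 2 / 16)) :=
          mul_le_mul_of_nonneg_right h2 (by positivity)
      _ = (20 / 16) * (M * (N : ℝ) ^ 2 * (mx x : ℝ) ^ 2) := by rw [hν]; field_simp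
      _ ≤ 2 * (M * (N : ℝ) ^ 2 * (mx x : ℝ) ^ 2) :=
          mul_le_mul_of_nonneg_right (by norm_num) (by positivity)
      _ = _ := by ring

/-- **change of the small mass** -/
theorem mass_change {τ1 τ2 τ' c0 : ℝ} {P : ZMod N × ZMod N → ℝ} (hτ2 : 0 < τ2) (h2' : τ2 ≤ τ')
    (hc0 : 0 < c0) (hP : ∀ k, c0 * EE k ≤ P k) (x : ZMod N × ZMod N) {M : ℝ} (hM : 0 < M) :
    0 ≤ (GamP N τ1 τ2 P 0 - GamP N τ1 τ2 P x) - (GamP N τ1 τ' P 0 - GamP N τ1 τ' P x) ∧
    (GamP N τ1 τ2 P 0 - GamP N τ1 τ2 P x) - (GamP N τ1 τ' P 0 - GamP N τ1 τ' P x) ≤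
      τ' / c0 ^ 2 * ((N : ℝ) ^ 2 * (40 / M) + 2 * M * (mx x : ℝ) ^ 2) := by
  have hN : (0 : ℝ) < N := by exact_mod_cast NeZero.pos N
  have hτ' : 0 < τ' := hτ2.trans_le h2'
  have hP0 : ∀ k, 0 ≤ P k := fun k => le_trans (mul_nonneg hc0.le (EE_nn k)) (hP k)
  have e : (GamP N τ1 τ2 P 0 - GamP N τ1 τ2 P x) - (GamP N τ1 τ' P 0 - GamP N τ1 τ' P x) =
      (∑ k : ZMod N × ZMod N, (1 - cN (dt k x)) * (1 / (τ2 + P k) - 1 / (τ' + P k))) /
        (N : ℝ) ^ 2 := by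
    unfold GamP
    rw [← sub_div, ← sub_div, ← sub_div, ← sum_sub_distrib, ← sum_sub_distrib, ← sum_sub_distrib]
    congr 1
    refine sum_congr rfl fun k _ => ?_
    rw [dt_z, cN_zero]
    ring
  rw [e]
  have hd : ∀ k, 0 ≤ 1 / (τ2 + P k) - 1 / (τ' + P k) := by
    intro k
    have := hP0 k
    rw [sub_nonneg]
    exact one_div_le_one_div_of_le (by linarith) (by linarith)
  have hc : ∀ k, 0 ≤ 1 - cN (dt k x) := fun k => by
    have := cN_le_one (dt k x)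
    linarith
  refine ⟨div_nonneg (sum_nonneg fun k _ => mul_nonneg (hc k) (hd k)) (by positivity), ?_⟩
  rw [div_le_iff₀ (by positivity)]
  have h1 : ∑ k : ZMod N × ZMod N, (1 - cN (dt k x)) * (1 / (τ2 + P k) - 1 / (τ' + P k)) =
      ∑ k ∈ univ.filter (fun k : ZMod N × ZMod N => k ≠ 0),
        (1 - cN (dt k x)) * (1 / (τ2 + P k) - 1 / (τ' + P k)) := by
    rw [sum_filter]
    refine sum_congr rfl fun k _ => ?_
    by_cases hk : k = 0
    · rw [if_neg (by simpa using hk), hk]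
      have : dt (0 : ZMod N × ZMod N) x = 0 := by unfold dt; simp
      rw [this, cN_zero]
      ring
    · rw [if_pos hk]
  rw [h1]
  have h2 : ∀ k ∈ univ.filter (fun k : ZMod N × ZMod N => k ≠ 0),
      (1 - cN (dt k x)) * (1 / (τ2 + P k) - 1 / (τ' + P k)) ≤
        τ' / c0 ^ 2 * ((1 - cN (dt k x)) * (EE k ^ 2)⁻¹) := by
    intro k hk
    have hk0 : k ≠ 0 := (mem_filter.1 hk).2
    have hE := H462.EE_pos hk0
    have hPk := hP k
    have hcE : 0 < c0 * EE k := by positivity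
    have h3 : 1 / (τ2 + P k) - 1 / (τ' + P k) ≤ τ' / c0 ^ 2 * (EE k ^ 2)⁻¹ := by
      have hp1 : 0 < τ2 + P k := by linarith
      have hp2 : 0 < τ' + P k := by linarith
      have e1 : 1 / (τ2 + P k) - 1 / (τ' + P k) = (τ' - τ2) / ((τ2 + P k) * (τ' + P k)) := by
        field_simp
        ring
      have e2 : τ' / c0 ^ 2 * (EE k ^ 2)⁻¹ = τ' / ((c0 * EE k) * (c0 * EE k)) := by
        field_simp
      rw [e1, e2]
      refine div_le_div₀ hτ'.le (by linarith) (by positivity) ?_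
      exact mul_le_mul (by linarith) (by linarith) hcE.le hp1.le
    calc (1 - cN (dt k x)) * (1 / (τ2 + P k) - 1 / (τ' + P k))
        ≤ (1 - cN (dt k x)) * (τ' / c0 ^ 2 * (EE k ^ 2)⁻¹) := mul_le_mul_of_nonneg_left h3 (hc k)
      _ = _ := by ring
  refine (sum_le_sum h2).trans ?_
  rw [← mul_sum]
  have h4 := mul_le_mul_of_nonneg_left (sum_mass x hM) (by positivity : 0 ≤ τ' / c0 ^ 2)
  refine h4.trans (le_of_eq ?_)
  ring

end

end Vale.Agent.P159.H813
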