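import Vale.Agent.P159.H813.P4pin

/-!
P159 / P#4 (helper813), pinned form. Part B: the abstract sum, and the zero mode.
-/

namespace Vale.Agent.P159.H813

open Finset Real
open Vale.Agent.P159.TM.H764

noncomputable section

variable {N : ℕ} [NeZero N]

/-- the kernel in the middle region -/
lemma ex_mid {ξ c D ε : ℝ} (hξ : 0 < ξ) (hε1 : ε ≤ 1) {x : ZMod N × ZMod N} (hx : 0 < mx x)
    (Ga : |D - (4 * log (en x / ξ) + c)| ≤ ε) :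
    |1 / 2 * exp (-D) - exp (-c) / 2 * (ξ ^ 4 / sq2 x ^ 2)| ≤
      (2 * ε) * (exp (-c) / 2) * (ξ ^ 4 / sq2 x ^ 2) := by
  have hmxp : (0 : ℝ) < mx x := by exact_mod_cast hx
  have hen : 0 < en x := lt_of_lt_of_le hmxp (mx_le_en x)
  have hsq : en x ^ 2 = sq2 x := by unfold en; exact sq_sqrt (sq2_nonneg x)
  obtain ⟨δ, hδ⟩ : ∃ δ : ℝ, δ = D - (4 * log (en x / ξ) + c) := ⟨_, rfl⟩
  rw [← hδ] at Ga
  have he := exp_sub_one_le hε1 Ga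
  have hmain : exp (-D) = exp (-c) * (ξ ^ 4 / sq2 x ^ 2) * exp (-δ) := by
    have h1 : exp (4 * log (en x / ξ)) = (en x / ξ) ^ 4 := by
      have : 4 * log (en x / ξ) = ((4 : ℕ) : ℝ) * log (en x / ξ) := by norm_num
      rw [this, exp_nat_mul, exp_log (by positivity)]
    have h2 : ξ ^ 4 / sq2 x ^ 2 = exp (-(4 * log (en x / ξ))) := by
      rw [exp_neg, h1, div_pow, inv_div, ← hsq]
      ring
    rw [h2, ← exp_add, ← exp_add]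
    congr 1
    rw [hδ]; ring
  have hdec : 1 / 2 * exp (-D) - exp (-c) / 2 * (ξ ^ 4 / sq2 x ^ 2) =
      exp (-c) / 2 * (ξ ^ 4 / sq2 x ^ 2) * (exp (-δ) - 1) := by
    rw [hmain]; ring
  rw [hdec, abs_mul, abs_of_nonneg (by positivity : 0 ≤ exp (-c) / 2 * (ξ ^ 4 / sq2 x ^ 2))]
  calc exp (-c) / 2 * (ξ ^ 4 / sq2 x ^ 2) * |exp (-δ) - 1|
      ≤ exp (-c) / 2 * (ξ ^ 4 / sq2 x ^ 2) * (2 * ε) :=
        mul_le_mul_of_nonneg_left he (by positivity)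
    _ = _ := by ring

/-- the kernel in the far region -/
lemma ex_far {ξ ξ2 C1 D : ℝ} (hξ : 0 < ξ) (hξ2 : 0 < ξ2) (h : 4 * log (ξ2 / ξ) - C1 ≤ D) :
    1 / 2 * exp (-D) ≤ exp C1 / 2 * (ξ / ξ2) ^ 4 := by
  have h1 : exp (-(4 * log (ξ2 / ξ))) = (ξ / ξ2) ^ 4 := by
    have : 4 * log (ξ2 / ξ) = ((4 : ℕ) : ℝ) * log (ξ2 / ξ) := by norm_num
    rw [exp_neg, this, exp_nat_mul, exp_log (by positivity), ← inv_pow, inv_div]
  have h2 : exp (-D) ≤ exp C1 * (ξ / ξ2) ^ 4 := by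
    rw [← h1, ← exp_add]
    exact exp_le_exp.2 (by linarith)
  linarith

lemma abs_r1_N (x : ZMod N × ZMod N) : r1 x ^ 2 ≤ (N : ℝ) ^ 2 := by
  have h1 := abs_r1_le x
  have h2 : (mx x : ℝ) ≤ N := by
    have : mx x ≤ N := by
      unfold mx
      have h3 := ZMod.natAbs_valMinAbs_le x.1
      have h4 := ZMod.natAbs_valMinAbs_le x.2
      omega
    exact_mod_cast this
  rw [← sq_abs]
  exact pow_le_pow_left₀ (abs_nonneg _) (h1.trans h2) 2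

lemma card_tor (c : ℝ) : ∑ _x : ZMod N × ZMod N, c = (N : ℝ) ^ 2 * c := by
  rw [sum_const, card_univ, Fintype.card_prod, ZMod.card, nsmul_eq_mul]
  push_cast
  ring

/-- **P#4, pinned, abstract.** -/
theorem P4p_abs {B c C1 C2 Bg : ℝ} (hB : 1 ≤ B) (hBg : 1 ≤ Bg) :
    ∃ C : ℝ, 0 ≤ C ∧ ∀ (N : ℕ) [NeZero N] (ξ ξ2 ε : ℝ) (D : ZMod N × ZMod N → ℝ),
      1 ≤ ξ → 8 * B ^ 2 * ξ ≤ ξ2 → 2 * ξ2 ≤ N → (N : ℝ) ≤ Bg * ξ2 → 0 ≤ ε → ε ≤ 1 / 2 →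
      (∀ x, 0 ≤ D x) →
      (∀ x, B * ξ ≤ en x → en x ≤ ξ2 / B → |D x - (4 * log (en x / ξ) + c)| ≤ ε) →
      (∀ x, ξ2 / (2 * B) ≤ en x → 4 * log (ξ2 / ξ) - C1 ≤ D x) →
      ∑ x, 1 / 2 * exp (-D x) ≤ C * ξ ^ 2 ∧ ∀ j : ZMod N, |pw j| * ξ2 ≤ C2 →
      |∑ x, (1 - cN (j * x.1)) * (1 / 2 * exp (-D x)) -
        π / 4 * exp (-c) * (ξ ^ 4 * pw j ^ 2) * log (ξ2 / ξ)| ≤
        ξ ^ 4 * pw j ^ 2 * (2 * ε * exp (-c) * log (ξ2 / ξ) + C) := by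
  have hB0 : 0 < B := by linarith
  have hlB : 0 ≤ log B := log_nonneg hB
  have hl2B : 0 ≤ log (2 * B) := log_nonneg (by linarith)
  have hl2 : 0 ≤ log 2 := log_nonneg (by norm_num)
  obtain ⟨Ka, hKa⟩ : ∃ Ka : ℝ, Ka = exp (-c) / 8 * (46 + 2 * π * (2 * log 2 + log (2 * B) + log B)) +
    2 * (exp (-c) / 8) * (46 + 2 * π * (2 * log 2 + log (2 * B) + log B)) +
    (9 / 4 * (2 * B) ^ 4 + 9 / 2 * 0 +
      9 / 4 * exp (-c) * C2 ^ 2 + exp C1 / 4 * Bg ^ 4) := ⟨_, rfl⟩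
  obtain ⟨Kb, hKb⟩ : ∃ Kb : ℝ, Kb = 9 / 2 * (2 * B) ^ 2 + 64 * exp (-c) + 9 * 0 +
    exp C1 / 2 * Bg ^ 4 := ⟨_, rfl⟩
  have hKa0 : 0 ≤ Ka := by rw [hKa]; positivity
  have hKb0 : 0 ≤ Kb := by rw [hKb]; positivity
  refine ⟨Ka + Kb, by positivity, ?_⟩
  intro N _ ξ ξ2 ε D hξ hξξ hξN hNB hε hε1 hD0 Ga Gc
  have hξ0 : 0 < ξ := by linarith
  obtain ⟨n1, n2, hn1pos, h12, a1, a2, a3, a4, a5, l1, l2, hξ2, hlogρ⟩ := P4_rad hB hξ hξξ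
  have hξ20 : 0 < ξ2 := by linarith
  have hn2N : 2 * n2 < N := by
    have : (2 * n2 : ℝ) < N := by linarith
    exact_mod_cast this
  have hB2 : 1 ≤ B ^ 2 := by nlinarith
  have hξξ' : ξ ≤ ξ2 := by nlinarith
  have hNr : (0 : ℝ) < N := by exact_mod_cast NeZero.pos N
  obtain ⟨g, hg⟩ : ∃ g : ZMod N × ZMod N → ℝ, g = fun x => 1 / 2 * exp (-D x) := ⟨_, rfl⟩
  have hg0 : ∀ x, 0 ≤ g x := fun x => by rw [hg]; positivity
  have hmid : ∀ x, n1 < mx x → mx x ≤ n2 → |g x - exp (-c) / 2 * (ξ ^ 4 / sq2 x ^ 2)| ≤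
      (2 * ε) * (exp (-c) / 2) * (ξ ^ 4 / sq2 x ^ 2) + 0 * (ξ / ξ2) ^ 4 * (ξ2 / mx x) := by
    intro x hx1 hx2
    have e1 : (n1 : ℝ) < mx x := by exact_mod_cast hx1
    have e2 : (mx x : ℝ) ≤ n2 := by exact_mod_cast hx2
    have e3 := mx_le_en x
    have e4 := en_le_mx x
    have e5 : ξ2 / (2 * B) = ξ2 / B / 2 := by field_simp
    have e7 : en x ≤ ξ2 / B := by linarith
    have e8 : B * ξ ≤ en x := by linarith
    have h := ex_mid (D := D x) hξ0 (by linarith : ε ≤ 1) (by omega : 0 < mx x) (Ga x e8 e7)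
    rw [hg]
    simpa using h
  have hfar : ∀ x, n2 < mx x → |g x| ≤ exp C1 / 2 * (ξ / ξ2) ^ 4 := by
    intro x hx
    have e1 : (n2 : ℝ) + 1 ≤ mx x := by exact_mod_cast hx
    have e3 := mx_le_en x
    rw [abs_of_nonneg (hg0 x), hg]
    exact ex_far hξ0 hξ20 (Gc x (by linarith))
  have hnear : ∀ x, mx x ≤ n1 → |g x| ≤ 1 / 2 := by
    intro x _
    rw [abs_of_nonneg (hg0 x), hg]
    have : exp (-D x) ≤ 1 := by rw [exp_le_one_iff]; linarith [hD0 x]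
    simp only
    linarith
  constructor
  · have hH0 : ∑ _x : ZMod N × ZMod N, exp C1 / 2 * (ξ / ξ2) ^ 4 ≤ exp C1 / 2 * Bg ^ 4 * ξ ^ 2 := by
      rw [card_tor]
      have h1 : (N : ℝ) ^ 2 * (ξ / ξ2) ^ 4 ≤ Bg ^ 4 * ξ ^ 2 := by
        have h2 : (N : ℝ) ^ 2 ≤ Bg ^ 2 * ξ2 ^ 2 := by
          rw [← mul_pow]; exact pow_le_pow_left₀ hNr.le hNB 2
        have h3 : ξ ^ 2 / ξ2 ^ 2 ≤ 1 := by
          rw [div_le_one (by positivity)]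
          exact pow_le_pow_left₀ hξ0.le hξξ' 2
        have h4 : Bg ^ 2 ≤ Bg ^ 4 := pow_le_pow_right₀ hBg (by norm_num)
        calc (N : ℝ) ^ 2 * (ξ / ξ2) ^ 4 ≤ (Bg ^ 2 * ξ2 ^ 2) * (ξ / ξ2) ^ 4 :=
              mul_le_mul_of_nonneg_right h2 (by positivity)
          _ = Bg ^ 2 * ξ ^ 2 * (ξ ^ 2 / ξ2 ^ 2) := by field_simp
          _ ≤ Bg ^ 2 * ξ ^ 2 * 1 := mul_le_mul_of_nonneg_left h3 (by positivity)
          _ = Bg ^ 2 * ξ ^ 2 := mul_one _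
          _ ≤ Bg ^ 4 * ξ ^ 2 := mul_le_mul_of_nonneg_right h4 (by positivity)
      calc (N : ℝ) ^ 2 * (exp C1 / 2 * (ξ / ξ2) ^ 4) =
            exp C1 / 2 * ((N : ℝ) ^ 2 * (ξ / ξ2) ^ 4) := by ring
        _ ≤ exp C1 / 2 * (Bg ^ 4 * ξ ^ 2) := mul_le_mul_of_nonneg_left h1 (by positivity)
        _ = _ := by ring
    have hcore := P40_core (N := N) hn1pos (ξ := ξ) (ξ2 := ξ2) (q := exp (-c)) (ε := 2 * ε)
      (B1 := 2 * B) (n2 := n2) (C5 := 0) (C7 := exp C1 / 2 * Bg ^ 4) hξ hξξ' (exp_pos _).le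
      (by linarith) le_rfl (by nlinarith) a2 (by linarith) (g := g)
      (H := fun _ => exp C1 / 2 * (ξ / ξ2) ^ 4) (fun x => by positivity) hnear hmid hfar hH0
    have e1 : ∑ x, 1 / 2 * exp (-D x) = ∑ x, |g x| := by
      refine sum_congr rfl fun x _ => ?_
      rw [abs_of_nonneg (hg0 x), hg]
    rw [e1]
    refine hcore.trans ?_
    rw [← hKb, mul_comm]
    exact mul_le_mul_of_nonneg_right (by linarith) (by positivity)
  · intro j hj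
    have hHs : ∑ x : ZMod N × ZMod N, r1 x ^ 2 * (exp C1 / 2 * (ξ / ξ2) ^ 4) ≤
        2 * (exp C1 / 4 * Bg ^ 4) * ξ ^ 4 := by
      have h1 : ∑ x : ZMod N × ZMod N, r1 x ^ 2 * (exp C1 / 2 * (ξ / ξ2) ^ 4) ≤
          ∑ _x : ZMod N × ZMod N, (N : ℝ) ^ 2 * (exp C1 / 2 * (ξ / ξ2) ^ 4) :=
        sum_le_sum fun x _ => mul_le_mul_of_nonneg_right (abs_r1_N x) (by positivity)
      refine h1.trans ?_
      rw [card_tor]
      have h2 : (N : ℝ) ^ 4 ≤ Bg ^ 4 * ξ2 ^ 4 := by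
        rw [← mul_pow]; exact pow_le_pow_left₀ hNr.le hNB 4
      calc (N : ℝ) ^ 2 * ((N : ℝ) ^ 2 * (exp C1 / 2 * (ξ / ξ2) ^ 4)) =
            exp C1 / 2 * (ξ / ξ2) ^ 4 * (N : ℝ) ^ 4 := by ring
        _ ≤ exp C1 / 2 * (ξ / ξ2) ^ 4 * (Bg ^ 4 * ξ2 ^ 4) :=
            mul_le_mul_of_nonneg_left h2 (by positivity)
        _ = _ := by rw [div_pow]; field_simp; ring
    have hcore := P4_core (N := N) hn1pos h12 hn2N (ξ := ξ) (ξ2 := ξ2) (q := exp (-c))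
      (ε := 2 * ε) (B1 := 2 * B) (C2 := C2) (C5 := 0) (C7 := exp C1 / 4 * Bg ^ 4) hξ0
      (by linarith) (exp_pos _).le (by positivity) le_rfl a2 (by linarith) hj (g := g)
      (H := fun _ => exp C1 / 2 * (ξ / ξ2) ^ 4) (fun x => by positivity) hnear hmid hfar hHs
    have l3 : |log (ξ2 / (2 * B)) - log (B * ξ) - log (ξ2 / ξ)| ≤
        (2 * log 2 + log (2 * B) + log B) - 2 * log 2 := by
      rw [log_div hξ20.ne' (by positivity), log_mul hB0.ne' hξ0.ne', log_div hξ20.ne' hξ0.ne']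
      rw [abs_le]; constructor <;> linarith
    have hBx := Bx_window hn1pos (hn1pos.trans h12) l1 l2 l3
    have e : exp (-c) / 8 * ξ ^ 4 * pw j ^ 2 * (Bx n2 - Bx n1) =
        exp (-c) / 8 * (ξ ^ 4 * pw j ^ 2) * (Bx n2 - Bx n1) := by ring
    rw [e, hg] at hcore
    have hasm := P4_asm (exp_pos (-c)).le (by positivity) hlogρ (by positivity) hε
      (by linarith : ε ≤ 1) hBx hcore
    refine hasm.trans ?_
    rw [← hKa]
    exact mul_le_mul_of_nonneg_left (by linarith) (by positivity)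

end

end Vale.Agent.P159.H813
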