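import Vale.Agent.P159.H813.P4pin2

/-!
P159 / P#4 (helper813), pinned form. Part C: the covariance with a tiny mass of the prior.
-/

namespace Vale.Agent.P159.H813

open Finset Real
open Vale.Agent.P159.TM.H764

noncomputable section

variable {N : ℕ} [NeZero N]

/-- exponent of the kernel -/
def Dk (N : ℕ) [NeZero N] (τ1 τ2 : ℝ) (P : ZMod N × ZMod N → ℝ) (x : ZMod N × ZMod N) : ℝ :=
  4 * π ^ 2 * (GamP N τ1 τ2 P 0 - GamP N τ1 τ2 P x)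

lemma mx_le_N (x : ZMod N × ZMod N) : (mx x : ℝ) ≤ N := by
  have : mx x ≤ N := by
    unfold mx
    have h3 := ZMod.natAbs_valMinAbs_le x.1
    have h4 := ZMod.natAbs_valMinAbs_le x.2
    omega
  exact_mod_cast this

/-- the mass change, in the exponent -/
lemma Dk_change {τ1 τ2 c0 Bg : ℝ} {P : ZMod N × ZMod N → ℝ} (hτ2 : 0 < τ2) (hBg : 0 < Bg)
    (h2' : τ2 ≤ 1 / (N / Bg) ^ 2) (hc0 : 0 < c0) (hP : ∀ k, c0 * EE k ≤ P k)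
    (x : ZMod N × ZMod N) {M : ℝ} (hM : 0 < M) :
    Dk N τ1 (1 / (N / Bg) ^ 2) P x ≤ Dk N τ1 τ2 P x ∧
    Dk N τ1 τ2 P x ≤ Dk N τ1 (1 / (N / Bg) ^ 2) P x +
      40 * (Bg ^ 2 / c0 ^ 2 * (40 / M + 2 * M * ((mx x : ℝ) / N) ^ 2)) := by
  have hN : (0 : ℝ) < N := by exact_mod_cast NeZero.pos N
  obtain ⟨h1, h2⟩ := mass_change (τ1 := τ1) hτ2 h2' hc0 hP x hM
  obtain ⟨Z, hZ⟩ : ∃ Z : ℝ, Z = (GamP N τ1 τ2 P 0 - GamP N τ1 τ2 P x) -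
    (GamP N τ1 (1 / (N / Bg) ^ 2) P 0 - GamP N τ1 (1 / (N / Bg) ^ 2) P x) := ⟨_, rfl⟩
  rw [← hZ] at h1 h2
  have e : Dk N τ1 τ2 P x = Dk N τ1 (1 / (N / Bg) ^ 2) P x + 4 * π ^ 2 * Z := by
    unfold Dk
    rw [hZ]; ring
  have e2 : 1 / (N / Bg) ^ 2 / c0 ^ 2 * ((N : ℝ) ^ 2 * (40 / M) + 2 * M * (mx x : ℝ) ^ 2) =
      Bg ^ 2 / c0 ^ 2 * (40 / M + 2 * M * ((mx x : ℝ) / N) ^ 2) := by
    field_simp
  rw [e2] at h2
  have h3 := pi2_le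
  rw [e]
  constructor
  · have : 0 ≤ 4 * π ^ 2 * Z := by positivity
    linarith
  · have h4 : 4 * π ^ 2 * Z ≤ 40 * Z := mul_le_mul_of_nonneg_right h3 h1
    linarith

/-- the zero mode -/
lemma zero_mode {τ1 τ2 : ℝ} {P : ZMod N × ZMod N → ℝ} (hτ2 : 0 < τ2) (h12 : τ2 ≤ τ1)
    (hP : ∀ k, 0 ≤ P k) (hP0 : P 0 = 0) :
    (1 / τ2 - 1 / τ1) / (N : ℝ) ^ 2 ≤ GamP N τ1 τ2 P 0 := by
  have hN : (0 : ℝ) < N := by exact_mod_cast NeZero.pos N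
  unfold GamP
  refine div_le_div_of_nonneg_right ?_ (by positivity)
  have h1 : ∀ k ∈ (univ : Finset (ZMod N × ZMod N)),
      0 ≤ cN (dt k 0) * (1 / (τ2 + P k) - 1 / (τ1 + P k)) := by
    intro k _
    rw [dt_z, cN_zero, one_mul, sub_nonneg]
    have := hP k
    exact one_div_le_one_div_of_le (by linarith) (by linarith)
  have h2 := single_le_sum h1 (mem_univ (0 : ZMod N × ZMod N))
  refine le_trans (le_of_eq ?_) h2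
  rw [dt_z, cN_zero, hP0, one_mul, add_zero, add_zero]

omit [NeZero N] in
lemma y_exp (y : ℝ) : y * exp (-y) ≤ exp (-(y / 2)) := by
  have h1 : y ≤ exp (y / 2) := by
    rcases le_or_gt y 0 with h | h
    · exact h.trans (exp_pos _).le
    · have h2 := quadratic_le_exp_of_nonneg (by positivity : 0 ≤ y / 2)
      nlinarith [sq_nonneg (y - 2)]
  have h2 : exp (-(y / 2)) = exp (y / 2) * exp (-y) := by rw [← exp_add]; congr 1; ring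
  rw [h2]
  exact mul_le_mul_of_nonneg_right h1 (exp_pos _).le

/-- the kernel against the exponential -/
lemma gk_pin {τ1 τ2 L C9 : ℝ} {P : ZMod N × ZMod N → ℝ} (hL : 0 ≤ L)
    (hu0 : 39 * L ≤ 4 * π ^ 2 * GamP N τ1 τ2 P 0)
    (habs : ∀ x, |GamP N τ1 τ2 P x| ≤ GamP N τ1 τ2 P 0) (x : ZMod N × ZMod N)
    (hD : Dk N τ1 τ2 P x ≤ 8 * L + C9) :
    |gk (GamP N τ1 τ2 P) x - 1 / 2 * exp (-Dk N τ1 τ2 P x)| ≤
      (exp C9 / 2 + 1) * exp (-(4 * L)) := by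
  obtain ⟨u, hu⟩ : ∃ u : ℝ, u = 4 * π ^ 2 * GamP N τ1 τ2 P x := ⟨_, rfl⟩
  obtain ⟨u0, hu0d⟩ : ∃ u0 : ℝ, u0 = 4 * π ^ 2 * GamP N τ1 τ2 P 0 := ⟨_, rfl⟩
  have hDu : Dk N τ1 τ2 P x = u0 - u := by unfold Dk; rw [hu, hu0d]; ring
  rw [← hu0d] at hu0
  rw [hDu] at hD ⊢
  have hau : |u| ≤ u0 := by
    rw [hu, hu0d, abs_mul, abs_of_nonneg (by positivity : 0 ≤ 4 * π ^ 2)]
    exact mul_le_mul_of_nonneg_left (habs x) (by positivity)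
  have e : gk (GamP N τ1 τ2 P) x - 1 / 2 * exp (-(u0 - u)) =
      -(exp (-u0) * (exp (-u) / 2)) - exp (-u0) * u := by
    unfold gk
    rw [← hu, ← hu0d, sinh_eq]
    have : exp (-(u0 - u)) = exp (-u0) * exp u := by rw [← exp_add]; congr 1; ring
    rw [this]
    ring
  rw [e]
  have h1 : exp (-u0) * (exp (-u) / 2) ≤ exp C9 / 2 * exp (-(4 * L)) := by
    have h2 : exp (-u0) * exp (-u) ≤ exp C9 * exp (-(4 * L)) := by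
      rw [← exp_add, ← exp_add]
      exact exp_le_exp.2 (by linarith)
    linarith
  have h3 : exp (-u0) * |u| ≤ exp (-(4 * L)) := by
    calc exp (-u0) * |u| ≤ exp (-u0) * u0 := mul_le_mul_of_nonneg_left hau (exp_pos _).le
      _ = u0 * exp (-u0) := mul_comm _ _
      _ ≤ exp (-(u0 / 2)) := y_exp u0
      _ ≤ exp (-(4 * L)) := exp_le_exp.2 (by linarith)
  refine (abs_sub _ _).trans ?_
  rw [abs_neg, abs_of_nonneg (by positivity : 0 ≤ exp (-u0) * (exp (-u) / 2)), abs_mul,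
    abs_of_pos (exp_pos (-u0))]
  calc exp (-u0) * (exp (-u) / 2) + exp (-u0) * |u| ≤
        exp C9 / 2 * exp (-(4 * L)) + exp (-(4 * L)) := add_le_add h1 h3
    _ = _ := by ring

/-- numbers of the middle region -/
lemma mid_num {c0 ε1 Bg B M ξ2 n mm e : ℝ} (hc0 : 0 < c0) (hε1 : 0 < ε1) (hBg : 0 < Bg) (hB : 1 ≤ B)
    (hM : M = 3200 * Bg ^ 2 / (c0 ^ 2 * ε1)) (hBM : 160 * M / (c0 ^ 2 * ε1) ≤ B) (hn : 0 < n)
    (hnξ : n = Bg * ξ2) (hmm : 0 ≤ mm) (he : mm ≤ e) (hx2 : e ≤ ξ2 / B) :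
    40 * (Bg ^ 2 / c0 ^ 2 * (40 / M + 2 * M * (mm / n) ^ 2)) ≤ ε1 := by
  have hB0 : 0 < B := by linarith
  have hM0 : 0 < M := by rw [hM]; positivity
  have h4 : (mm / n) ^ 2 ≤ 1 / (Bg ^ 2 * B) := by
    have h5 : mm / n ≤ 1 / (Bg * B) := by
      rw [div_le_div_iff₀ hn (by positivity), one_mul]
      have h6 : mm ≤ ξ2 / B := he.trans hx2
      rw [le_div_iff₀ hB0] at h6
      calc mm * (Bg * B) = Bg * (mm * B) := by ring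
        _ ≤ Bg * ξ2 := mul_le_mul_of_nonneg_left h6 hBg.le
        _ = n := hnξ.symm
    calc (mm / n) ^ 2 ≤ (1 / (Bg * B)) ^ 2 := pow_le_pow_left₀ (by positivity) h5 2
      _ = 1 / (Bg ^ 2 * B ^ 2) := by rw [div_pow, mul_pow, one_pow]
      _ ≤ 1 / (Bg ^ 2 * B) := by
          refine one_div_le_one_div_of_le (by positivity) ?_
          refine mul_le_mul_of_nonneg_left ?_ (by positivity)
          exact le_self_pow₀ (by linarith) (by norm_num)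
  have h7 : 40 * (Bg ^ 2 / c0 ^ 2 * (40 / M)) = ε1 / 2 := by
    rw [hM]; field_simp; norm_num
  have h8 : 40 * (Bg ^ 2 / c0 ^ 2 * (2 * M * (mm / n) ^ 2)) ≤ ε1 / 2 := by
    calc 40 * (Bg ^ 2 / c0 ^ 2 * (2 * M * (mm / n) ^ 2)) ≤
          40 * (Bg ^ 2 / c0 ^ 2 * (2 * M * (1 / (Bg ^ 2 * B)))) := by gcongr
      _ = (160 * M / (c0 ^ 2 * ε1)) / B * (ε1 / 2) := by field_simp; norm_num
      _ ≤ 1 * (ε1 / 2) := by
          refine mul_le_mul_of_nonneg_right ?_ (by positivity)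
          rw [div_le_one hB0]
          exact hBM
      _ = ε1 / 2 := one_mul _
  calc 40 * (Bg ^ 2 / c0 ^ 2 * (40 / M + 2 * M * (mm / n) ^ 2)) =
        40 * (Bg ^ 2 / c0 ^ 2 * (40 / M)) +
          40 * (Bg ^ 2 / c0 ^ 2 * (2 * M * (mm / n) ^ 2)) := by ring
    _ ≤ ε1 / 2 + ε1 / 2 := add_le_add h7.le h8
    _ = ε1 := by ring

/-- the far region: first part -/
lemma far_one {G Gx C a b : ℝ} (hC : 0 ≤ C) (h1 : |4 * π ^ 2 * G - a| ≤ b) (h2 : |Gx| ≤ C) :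
    a - (b + 40 * C) ≤ 4 * π ^ 2 * (G - Gx) := by
  have h4 := (abs_le.1 h1).1
  have h5 := (abs_le.1 h2).2
  have h6 : 4 * π ^ 2 * Gx ≤ 40 * C := by
    calc 4 * π ^ 2 * Gx ≤ 4 * π ^ 2 * C := mul_le_mul_of_nonneg_left h5 (by positivity)
      _ ≤ _ := mul_le_mul_of_nonneg_right pi2_le hC
  linarith

/-- the far region: second part -/
lemma far_two {ξ ξ2 B e c ε D : ℝ} (hξ : 0 < ξ) (hξ2 : 0 < ξ2) (hB : 1 ≤ B)
    (hx : ξ2 / (2 * B) ≤ e) (h : |D - (4 * log (e / ξ) + c)| ≤ ε) :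
    4 * log (ξ2 / ξ) - (4 * log (2 * B) + |c| + ε) ≤ D := by
  have hen : 0 < e := lt_of_lt_of_le (by positivity) hx
  have h3 := (abs_le.1 h).1
  have h4 : log (ξ2 / ξ) - log (2 * B) ≤ log (e / ξ) := by
    rw [← log_div (by positivity) (by positivity)]
    refine log_le_log (by positivity) ?_
    calc ξ2 / ξ / (2 * B) = ξ2 / (2 * B) / ξ := by field_simp
      _ ≤ e / ξ := div_le_div_of_nonneg_right hx hξ.le
  have h5 := neg_abs_le c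
  linarith

/-- the flat profile at the reference mass -/
lemma pin_pre {cs B1 ε1 : ℝ} (hB1 : 1 ≤ B1)
    (hmid : ∀ (N : ℕ) [NeZero N] (a ξ ξ2 κ : ℝ) (x : ZMod N × ZMod N), 1 ≤ a → a ≤ 2 → B1 ≤ ξ →
      ξ ≤ ξ2 → B1 * ξ2 ≤ N → |a - π / 2| * (1 + log (ξ2 / ξ)) ≤ κ → B1 * ξ ≤ en x →
      en x ≤ ξ2 / B1 →
      |4 * π ^ 2 * (GamP N (1 / ξ ^ 2) (1 / ξ2 ^ 2) (fun k => a * EE k) 0 -
        GamP N (1 / ξ ^ 2) (1 / ξ2 ^ 2) (fun k => a * EE k) x) -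
          (4 * log (en x / ξ) + 2 * (cs - log (π / 2)))| ≤ 40 * (ε1 / 120) + (8 + 2 * |cs|) * κ)
    {c0 κ ξ ξ2 a η Bg : ℝ} (hc0 : 0 < c0) (hc01 : c0 ≤ 1) (hκ0 : 0 < κ) (hκ1 : κ ≤ 1 / 24)
    (hκ2 : (8 + 2 * |cs|) * κ + 80 * (50 / c0 ^ 3 * κ) ≤ ε1 / 3)
    (hBg2 : 2 ≤ Bg) (hBgB : B1 ≤ Bg) (hξB : B1 ≤ ξ) (hξ2 : 0 < ξ2) (hNξ : (N : ℝ) = Bg * ξ2)
    (hξξ : ξ ≤ ξ2)
    {P : ZMod N × ZMod N → ℝ} (hη : 0 ≤ η) (hP : ∀ k, c0 * EE k ≤ P k)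
    (hF : ∀ k, |P k - a * EE k| ≤ η * EE k * (1 + EE k * ξ ^ 2))
    (hκa : |a - π / 2| * (1 + log (N / ξ)) ≤ κ)
    (hκη : η * (1 + log (1 + 9 * (N : ℝ) ^ 2)) ≤ κ / Bg ^ 4) :
    |4 * π ^ 2 * GamP N (1 / ξ ^ 2) (1 / ξ2 ^ 2) P 0 - 4 * log (ξ2 / ξ)| ≤
      50001 + 40 * (50 / c0 ^ 3) ∧
    (∀ x, B1 * ξ ≤ en x → en x ≤ ξ2 / B1 →
      |Dk N (1 / ξ ^ 2) (1 / ξ2 ^ 2) P x -
        (4 * log (en x / ξ) + 2 * (cs - log (π / 2)))| ≤ ε1) ∧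
    (∀ x, ξ2 / (2 * B1) ≤ en x → |GamP N (1 / ξ ^ 2) (1 / ξ2 ^ 2) P x| ≤
        32 * B1 + 1200 + 50 / c0 ^ 3) := by
  have hξ0 : 0 < ξ := by linarith
  have hN2 : 2 * ξ2 ≤ N := by rw [hNξ]; exact mul_le_mul_of_nonneg_right hBg2 hξ2.le
  have hNB : B1 * ξ2 ≤ N := by rw [hNξ]; exact mul_le_mul_of_nonneg_right hBgB hξ2.le
  have hξ2N : ξ2 ≤ N := by linarith
  have hlog1 : log (ξ2 / ξ) ≤ log (N / ξ) :=
    log_le_log (by positivity) (div_le_div_of_nonneg_right hξ2N hξ0.le)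
  have hκa' : |a - π / 2| * (1 + log (ξ2 / ξ)) ≤ κ :=
    (mul_le_mul_of_nonneg_left (by linarith) (abs_nonneg _)).trans hκa
  have hκη' : η * (1 + log (1 + 9 * ξ2 ^ 2)) * (N : ℝ) ^ 4 ≤ κ * ξ2 ^ 4 := by
    have h1 : log (1 + 9 * ξ2 ^ 2) ≤ log (1 + 9 * (N : ℝ) ^ 2) := by
      refine log_le_log (by positivity) ?_
      have := pow_le_pow_left₀ hξ2.le hξ2N 2
      linarith
    have h2 : η * (1 + log (1 + 9 * ξ2 ^ 2)) ≤ κ / Bg ^ 4 :=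
      (mul_le_mul_of_nonneg_left (by linarith) hη).trans hκη
    calc η * (1 + log (1 + 9 * ξ2 ^ 2)) * (N : ℝ) ^ 4 ≤ κ / Bg ^ 4 * (N : ℝ) ^ 4 :=
          mul_le_mul_of_nonneg_right h2 (by positivity)
      _ = κ * ξ2 ^ 4 := by rw [hNξ]; field_simp
  obtain ⟨δ, -, -, -, G0, Ga, Gc⟩ := flat_all (N := N) hB1 hmid hc0 hc01 hκ0 hκ1 hκ2
    (by linarith : 1 ≤ ξ) hξB hξξ hN2 hNB hη hP hF hκa' hκη'
  exact ⟨G0, Ga, fun x hx => (Gc x hx).1⟩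

/-- upper bound of the exponent -/
lemma pin_up {c0 Bg b L ξ ξ2 τ2 : ℝ} {P : ZMod N × ZMod N → ℝ} (hc0 : 0 < c0) (hBg : 0 < Bg)
    (hξ : 0 < ξ) (hξ2 : 0 < ξ2) (hξξ : ξ ≤ ξ2) (hNξ : (N : ℝ) = Bg * ξ2)
    (hP : ∀ k, c0 * EE k ≤ P k) (hτ2 : 0 < τ2) (hτN : τ2 ≤ 1 / ξ2 ^ 2)
    (G0 : |4 * π ^ 2 * GamP N (1 / ξ ^ 2) (1 / ξ2 ^ 2) P 0 - 4 * L| ≤ b) (x : ZMod N × ZMod N) :
    Dk N (1 / ξ ^ 2) τ2 P x ≤ 8 * L + (2 * b + 1680 * (Bg ^ 2 / c0 ^ 2)) := by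
  have hN : (0 : ℝ) < N := by exact_mod_cast NeZero.pos N
  have hξ2e : (N : ℝ) / Bg = ξ2 := by rw [hNξ]; field_simp
  have hP0 : ∀ k, 0 ≤ P k := fun k => le_trans (mul_nonneg hc0.le (EE_nn k)) (hP k)
  have h2 := (Dk_change (N := N) (τ1 := 1 / ξ ^ 2) hτ2 hBg (by rw [hξ2e]; exact hτN) hc0 hP x
    one_pos).2
  rw [hξ2e] at h2
  have h3 := (abs_le.1 G0).2
  have hΓ := GamP_le (N := N) (τ1 := 1 / ξ ^ 2) (τ2 := 1 / ξ2 ^ 2) (by positivity)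
    (one_div_le_one_div_of_le (by positivity) (pow_le_pow_left₀ hξ.le hξξ 2)) hP0 x
  have h4 : Dk N (1 / ξ ^ 2) (1 / ξ2 ^ 2) P x ≤
      2 * (4 * π ^ 2 * GamP N (1 / ξ ^ 2) (1 / ξ2 ^ 2) P 0) := by
    unfold Dk
    have h5 := (abs_le.1 hΓ).1
    have h6 : 4 * π ^ 2 * (GamP N (1 / ξ ^ 2) (1 / ξ2 ^ 2) P 0 -
        GamP N (1 / ξ ^ 2) (1 / ξ2 ^ 2) P x) ≤
        4 * π ^ 2 * (2 * GamP N (1 / ξ ^ 2) (1 / ξ2 ^ 2) P 0) :=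
      mul_le_mul_of_nonneg_left (by linarith) (by positivity)
    linarith
  have h5 : ((mx x : ℝ) / N) ^ 2 ≤ 1 := by
    have h6 : (mx x : ℝ) / N ≤ 1 := by rw [div_le_one hN]; exact mx_le_N x
    exact pow_le_one₀ (by positivity) h6
  have h6 : 40 * (Bg ^ 2 / c0 ^ 2 * (40 / 1 + 2 * 1 * ((mx x : ℝ) / N) ^ 2)) ≤
      1680 * (Bg ^ 2 / c0 ^ 2) := by
    have h7 : 0 ≤ Bg ^ 2 / c0 ^ 2 := by positivity
    have h8 : Bg ^ 2 / c0 ^ 2 * (40 / 1 + 2 * 1 * ((mx x : ℝ) / N) ^ 2) ≤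
        Bg ^ 2 / c0 ^ 2 * 42 := mul_le_mul_of_nonneg_left (by linarith) h7
    linarith
  linarith

end

end Vale.Agent.P159.H813
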