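import Vale.Agent.P159.H813.P4pin3

/-!
P159 / P#4 (helper813), pinned form. Part D: the theorem.
-/

namespace Vale.Agent.P159.H813

open Finset Real
open Vale.Agent.P159.TM.H764

noncomputable section

variable {N : ℕ} [NeZero N]

lemma Dk_nonneg {ξ τ2 : ℝ} {P : ZMod N × ZMod N → ℝ} (hτ2 : 0 < τ2) (h12 : τ2 ≤ 1 / ξ ^ 2)
    (hP : ∀ k, 0 ≤ P k) (x : ZMod N × ZMod N) : 0 ≤ Dk N (1 / ξ ^ 2) τ2 P x := by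
  have h1 := (abs_le.1 (GamP_le (N := N) hτ2 h12 hP x)).2
  unfold Dk
  have : 0 ≤ GamP N (1 / ξ ^ 2) τ2 P 0 - GamP N (1 / ξ ^ 2) τ2 P x := by linarith
  positivity

/-- middle region, tiny mass -/
lemma pin_mid {c0 ε1 c B1 B Bg M ξ ξ2 τ2 : ℝ} {P : ZMod N × ZMod N → ℝ} (hc0 : 0 < c0)
    (hε1 : 0 < ε1) (hB1 : 1 ≤ B1) (hBB : B1 ≤ B) (hBg : 0 < Bg)
    (hM : M = 3200 * Bg ^ 2 / (c0 ^ 2 * ε1)) (hBM : 160 * M / (c0 ^ 2 * ε1) ≤ B)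
    (hξ : 0 < ξ) (hξ2 : 0 < ξ2) (hNξ : (N : ℝ) = Bg * ξ2) (hP : ∀ k, c0 * EE k ≤ P k)
    (hτ2 : 0 < τ2) (hτ' : τ2 ≤ 1 / ξ2 ^ 2)
    (Ga : ∀ x, B1 * ξ ≤ en x → en x ≤ ξ2 / B1 →
      |Dk N (1 / ξ ^ 2) (1 / ξ2 ^ 2) P x - (4 * log (en x / ξ) + c)| ≤ ε1)
    (x : ZMod N × ZMod N) (hx1 : B * ξ ≤ en x) (hx2 : en x ≤ ξ2 / B) :
    |Dk N (1 / ξ ^ 2) τ2 P x - (4 * log (en x / ξ) + c)| ≤ 2 * ε1 := by
  have hN : (0 : ℝ) < N := by exact_mod_cast NeZero.pos N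
  have hξ2e : (N : ℝ) / Bg = ξ2 := by rw [hNξ]; field_simp
  have hM0 : 0 < M := by rw [hM]; positivity
  have h2 := Dk_change (N := N) (τ1 := 1 / ξ ^ 2) hτ2 hBg (by rw [hξ2e]; exact hτ') hc0 hP x hM0
  rw [hξ2e] at h2
  have hx3 : en x ≤ ξ2 / B1 := hx2.trans (div_le_div_of_nonneg_left hξ2.le (by linarith) hBB)
  have h1 := abs_le.1 (Ga x ((mul_le_mul_of_nonneg_right hBB hξ.le).trans hx1) hx3)
  have h3 := mid_num (mm := mx x) (e := en x) hc0 hε1 hBg (hB1.trans hBB) hM hBM hN hNξ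
    (by positivity) (mx_le_en x) hx2
  rw [abs_le]
  constructor
  · linarith [h2.1, h1.1]
  · linarith [h2.2, h1.2]

/-- far region, tiny mass -/
lemma pin_far {c0 ε1 c b C1 C3 B1 B Bg ξ ξ2 τ2 : ℝ} {P : ZMod N × ZMod N → ℝ} (hc0 : 0 < c0)
    (hB1 : 1 ≤ B1) (hBB : B1 ≤ B) (hBg : 0 < Bg) (hC3 : 0 ≤ C3) (hξ : 0 < ξ) (hξ2 : 0 < ξ2)
    (h8 : 8 * B ^ 2 * ξ ≤ ξ2) (hNξ : (N : ℝ) = Bg * ξ2) (hP : ∀ k, c0 * EE k ≤ P k)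
    (hτ2 : 0 < τ2) (hτ' : τ2 ≤ 1 / ξ2 ^ 2)
    (G0 : |4 * π ^ 2 * GamP N (1 / ξ ^ 2) (1 / ξ2 ^ 2) P 0 - 4 * log (ξ2 / ξ)| ≤ b)
    (Ga : ∀ x, B1 * ξ ≤ en x → en x ≤ ξ2 / B1 →
      |Dk N (1 / ξ ^ 2) (1 / ξ2 ^ 2) P x - (4 * log (en x / ξ) + c)| ≤ ε1)
    (Gc : ∀ x, ξ2 / (2 * B1) ≤ en x → |GamP N (1 / ξ ^ 2) (1 / ξ2 ^ 2) P x| ≤ C3)
    (h1a : b + 40 * C3 ≤ C1) (h1b : 4 * log (2 * B) + |c| + ε1 ≤ C1)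
    (x : ZMod N × ZMod N) (hx : ξ2 / (2 * B) ≤ en x) :
    4 * log (ξ2 / ξ) - C1 ≤ Dk N (1 / ξ ^ 2) τ2 P x := by
  have hξ2e : (N : ℝ) / Bg = ξ2 := by rw [hNξ]; field_simp
  have h2 := (Dk_change (N := N) (τ1 := 1 / ξ ^ 2) hτ2 hBg (by rw [hξ2e]; exact hτ') hc0 hP x
    one_pos).1
  rw [hξ2e] at h2
  have hB0 : 0 < B := by linarith
  refine le_trans ?_ h2
  by_cases hx1 : ξ2 / (2 * B1) ≤ en x
  · have h3 := far_one hC3 G0 (Gc x hx1)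
    unfold Dk
    linarith
  · have hx2 : en x ≤ ξ2 / B1 := by
      have h9 : ξ2 / (2 * B1) ≤ ξ2 / B1 :=
        div_le_div_of_nonneg_left hξ2.le (by linarith) (by linarith)
      linarith [not_le.1 hx1]
    have hx3 : B1 * ξ ≤ en x := by
      have h9 : B1 * ξ ≤ ξ2 / (2 * B) := by
        rw [le_div_iff₀ (by positivity)]
        calc B1 * ξ * (2 * B) ≤ B * ξ * (2 * B) := by gcongr
          _ = 2 * (B ^ 2 * ξ) := by ring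
          _ ≤ 8 * (B ^ 2 * ξ) := mul_le_mul_of_nonneg_right (by norm_num) (by positivity)
          _ = 8 * B ^ 2 * ξ := by ring
          _ ≤ ξ2 := h8
      exact h9.trans hx
    have h3 := far_two hξ hξ2 (hB1.trans hBB) hx (Ga x hx3 hx2)
    linarith

omit [NeZero N] in
/-- last step: from `log (ξ2/ξ)` to `log (N/ξ)` -/
lemma log_step {S A0 W l lg ε e1 C Cf X : ℝ} (hA0 : 0 ≤ A0) (hW : 0 ≤ W) (hl : 0 ≤ l)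
    (hlg : 0 ≤ lg) (hε : 0 ≤ ε) (he : e1 ≤ ε) (hX : 0 ≤ X) (hCf : Cf = C + A0 * lg + X)
    (h : |S - A0 * W * l| ≤ W * (e1 * l + C)) :
    |S - A0 * W * (l + lg)| ≤ W * (ε * (l + lg) + Cf) := by
  have e : S - A0 * W * (l + lg) = (S - A0 * W * l) - W * (A0 * lg) := by ring
  rw [e]
  refine (abs_sub _ _).trans ?_
  rw [abs_of_nonneg (by positivity : 0 ≤ W * (A0 * lg))]
  have h2 : e1 * l ≤ ε * (l + lg) := by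
    calc e1 * l ≤ ε * l := mul_le_mul_of_nonneg_right he hl
      _ ≤ ε * (l + lg) := mul_le_mul_of_nonneg_left (by linarith) hε
  calc |S - A0 * W * l| + W * (A0 * lg) ≤ W * (e1 * l + C) + W * (A0 * lg) :=
        add_le_add h le_rfl
    _ = W * (e1 * l + C + A0 * lg) := by ring
    _ ≤ _ := mul_le_mul_of_nonneg_left (by rw [hCf]; linarith) hW

/-- the statement for one torus -/
def ExS (N : ℕ) [NeZero N] (A0 C2 ε C ξ τ2 : ℝ) (P : ZMod N × ZMod N → ℝ) : Prop :=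
  (∀ x, 0 ≤ Dk N (1 / ξ ^ 2) τ2 P x) ∧
  (∀ x, Dk N (1 / ξ ^ 2) τ2 P x ≤ 8 * log (N / ξ) + C) ∧
  ∑ x, 1 / 2 * exp (-Dk N (1 / ξ ^ 2) τ2 P x) ≤ C * ξ ^ 2 ∧
  ∀ j : ZMod N, |pw j| * N ≤ C2 →
    |∑ x, (1 - cN (j * x.1)) * (1 / 2 * exp (-Dk N (1 / ξ ^ 2) τ2 P x)) -
      A0 * (ξ ^ 4 * pw j ^ 2) * log (N / ξ)| ≤
      ξ ^ 4 * pw j ^ 2 * (ε * log (N / ξ) + C)

/-- one torus -/
lemma P4_ex_one {cs B1 ε1 : ℝ} (hB1 : 1 ≤ B1) (hε10 : 0 < ε1) (hε11 : ε1 ≤ 1 / 4)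
    (hmid : ∀ (N : ℕ) [NeZero N] (a ξ ξ2 κ : ℝ) (x : ZMod N × ZMod N), 1 ≤ a → a ≤ 2 → B1 ≤ ξ →
      ξ ≤ ξ2 → B1 * ξ2 ≤ N → |a - π / 2| * (1 + log (ξ2 / ξ)) ≤ κ → B1 * ξ ≤ en x →
      en x ≤ ξ2 / B1 →
      |4 * π ^ 2 * (GamP N (1 / ξ ^ 2) (1 / ξ2 ^ 2) (fun k => a * EE k) 0 -
        GamP N (1 / ξ ^ 2) (1 / ξ2 ^ 2) (fun k => a * EE k) x) -
          (4 * log (en x / ξ) + 2 * (cs - log (π / 2)))| ≤ 40 * (ε1 / 120) + (8 + 2 * |cs|) * κ)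
    {c0 κ Bg M B b C1 C2 C ε q Cf X : ℝ} (hc0 : 0 < c0) (hc01 : c0 ≤ 1) (hκ0 : 0 < κ)
    (hκ1 : κ ≤ 1 / 24) (hκ2 : (8 + 2 * |cs|) * κ + 80 * (50 / c0 ^ 3 * κ) ≤ ε1 / 3)
    (hBg2 : 2 ≤ Bg) (hBgB : B1 ≤ Bg) (hM : M = 3200 * Bg ^ 2 / (c0 ^ 2 * ε1)) (hBB : B1 ≤ B)
    (hBM : 160 * M / (c0 ^ 2 * ε1) ≤ B) (hb : b = 50001 + 40 * (50 / c0 ^ 3))
    (hq : q = exp (-(2 * (cs - log (π / 2)))))
    (h1a : b + 40 * (32 * B1 + 1200 + 50 / c0 ^ 3) ≤ C1)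
    (h1b : 4 * log (2 * B) + |2 * (cs - log (π / 2))| + ε1 ≤ C1) (hε : 0 < ε)
    (hεq : 2 * (2 * ε1) * q ≤ ε) (hC0 : 0 ≤ C)
    (hX : X = 2 * b + 1680 * (Bg ^ 2 / c0 ^ 2))
    (hCf : Cf = C + π / 4 * q * log Bg + X)
    (hC : ∀ (N : ℕ) [NeZero N] (ξ ξ2 ε : ℝ) (D : ZMod N × ZMod N → ℝ),
      1 ≤ ξ → 8 * B ^ 2 * ξ ≤ ξ2 → 2 * ξ2 ≤ N → (N : ℝ) ≤ Bg * ξ2 → 0 ≤ ε → ε ≤ 1 / 2 →
      (∀ x, 0 ≤ D x) →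
      (∀ x, B * ξ ≤ en x → en x ≤ ξ2 / B →
        |D x - (4 * log (en x / ξ) + 2 * (cs - log (π / 2)))| ≤ ε) →
      (∀ x, ξ2 / (2 * B) ≤ en x → 4 * log (ξ2 / ξ) - C1 ≤ D x) →
      ∑ x, 1 / 2 * exp (-D x) ≤ C * ξ ^ 2 ∧ ∀ j : ZMod N, |pw j| * ξ2 ≤ C2 →
      |∑ x, (1 - cN (j * x.1)) * (1 / 2 * exp (-D x)) -
        π / 4 * exp (-(2 * (cs - log (π / 2)))) * (ξ ^ 4 * pw j ^ 2) * log (ξ2 / ξ)| ≤
        ξ ^ 4 * pw j ^ 2 * (2 * ε * exp (-(2 * (cs - log (π / 2)))) * log (ξ2 / ξ) + C))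
    {N : ℕ} [NeZero N] {ξ a η τ2 : ℝ}
    {P : ZMod N × ZMod N → ℝ} (hξ1 : B1 ≤ ξ) (hξN : 8 * B ^ 2 * ξ ≤ N / Bg) (hτ2 : 0 < τ2)
    (hτN : τ2 * (N : ℝ) ^ 2 ≤ 1) (hη : 0 ≤ η) (hP : ∀ k, c0 * EE k ≤ P k)
    (hF : ∀ k, |P k - a * EE k| ≤ η * EE k * (1 + EE k * ξ ^ 2))
    (hκa : |a - π / 2| * (1 + log (N / ξ)) ≤ κ)
    (hκη : η * (1 + log (1 + 9 * (N : ℝ) ^ 2)) ≤ κ / Bg ^ 4) :
    ExS N (π / 4 * q) C2 ε Cf ξ τ2 P := by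
  have hN : (0 : ℝ) < N := by exact_mod_cast NeZero.pos N
  have hBg0 : 0 < Bg := by linarith
  have hξ0 : 0 < ξ := by linarith
  have hBp : 1 ≤ B := hB1.trans hBB
  have hlBg : 0 ≤ log Bg := log_nonneg (by linarith)
  have hq0 : 0 < q := by rw [hq]; exact exp_pos _
  have hb0 : 0 ≤ b := by rw [hb]; positivity
  have hX0 : 0 ≤ X := by rw [hX]; positivity
  obtain ⟨ξ2, hξ2⟩ : ∃ ξ2 : ℝ, ξ2 = N / Bg := ⟨_, rfl⟩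
  rw [← hξ2] at hξN
  have hξ20 : 0 < ξ2 := by rw [hξ2]; positivity
  have hNξ : (N : ℝ) = Bg * ξ2 := by rw [hξ2]; field_simp
  have hB2 : 1 ≤ B ^ 2 := one_le_pow₀ hBp
  have hξξ : ξ ≤ ξ2 := by
    have h1 : 1 * ξ ≤ 8 * B ^ 2 * ξ := mul_le_mul_of_nonneg_right (by linarith) hξ0.le
    linarith
  have hN2 : 2 * ξ2 ≤ N := by rw [hNξ]; exact mul_le_mul_of_nonneg_right hBg2 hξ20.le
  have hτ' : τ2 ≤ 1 / ξ2 ^ 2 := by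
    rw [le_div_iff₀ (by positivity)]
    have h1 : ξ2 ^ 2 ≤ (N : ℝ) ^ 2 := pow_le_pow_left₀ hξ20.le (by linarith) 2
    exact (mul_le_mul_of_nonneg_left h1 hτ2.le).trans hτN
  have hτ'' : τ2 ≤ 1 / ξ ^ 2 := hτ'.trans
    (one_div_le_one_div_of_le (by positivity) (pow_le_pow_left₀ hξ0.le hξξ 2))
  obtain ⟨G0, Ga, Gc⟩ := pin_pre (N := N) hB1 hmid (c0 := c0) (κ := κ) (ξ := ξ) (ξ2 := ξ2) (a := a)
    (η := η) (Bg := Bg) hc0 hc01 hκ0 hκ1 hκ2 hBg2 hBgB hξ1 hξ20 hNξ hξξ hη hP hF hκa hκη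
  rw [← hb] at G0
  have hP0 : ∀ k, 0 ≤ P k := fun k => le_trans (mul_nonneg hc0.le (EE_nn k)) (hP k)
  have hD0 := Dk_nonneg (N := N) hτ2 hτ'' hP0
  have hmain := hC N ξ ξ2 (2 * ε1) (Dk N (1 / ξ ^ 2) τ2 P) (by linarith) hξN hN2 hNξ.le
    (by linarith) (by linarith) hD0
    (pin_mid hc0 hε10 hB1 hBB hBg0 hM hBM hξ0 hξ20 hNξ hP hτ2 hτ' Ga)
    (pin_far hc0 hB1 hBB hBg0 (by positivity) hξ0 hξ20 hξN hNξ hP hτ2 hτ' G0 Ga Gc h1a h1b)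
  have hlog : log (N / ξ) = log (ξ2 / ξ) + log Bg := by
    rw [← log_mul (by positivity) (by positivity)]
    congr 1
    rw [hNξ]; field_simp
  have hlog0 : 0 ≤ log (ξ2 / ξ) := log_nonneg (by rw [le_div_iff₀ hξ0]; linarith)
  have hCf1 : 0 ≤ π / 4 * q * log Bg := by positivity
  refine ⟨hD0, fun x => ?_, ?_, fun j hj => ?_⟩
  · have h1 := pin_up (N := N) (τ2 := τ2) (P := P) hc0 hBg0 hξ0 hξ20 hξξ hNξ hP hτ2 hτ' G0 x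
    rw [hlog, hCf, hX]
    linarith
  · refine hmain.1.trans (mul_le_mul_of_nonneg_right ?_ (by positivity))
    rw [hCf]; linarith
  · have h1 := hmain.2 j ((mul_le_mul_of_nonneg_left (by linarith) (abs_nonneg _)).trans hj)
    rw [← hq] at h1
    rw [hlog]
    exact log_step (by positivity) (by positivity) hlog0 hlBg hε.le hεq hX0 hCf h1

/-- **(P#4, pinned), exponential kernel** -/
theorem P4_ex : ∃ A0 : ℝ, 0 < A0 ∧ ∀ c0 C2 ε : ℝ, 0 < c0 → c0 ≤ 1 → 0 < ε → ∃ C B κ : ℝ,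
    0 ≤ C ∧ 1 ≤ B ∧ 0 < κ ∧ ∀ (N : ℕ) [NeZero N] (ξ a η τ2 : ℝ)
      (P : ZMod N × ZMod N → ℝ), B ≤ ξ → B * ξ ≤ N → 0 < τ2 → τ2 * (N : ℝ) ^ 2 ≤ 1 → 0 ≤ η →
      (∀ k, c0 * EE k ≤ P k) →
      (∀ k, |P k - a * EE k| ≤ η * EE k * (1 + EE k * ξ ^ 2)) →
      |a - π / 2| * (1 + log (N / ξ)) ≤ κ →
      η * (1 + log (1 + 9 * (N : ℝ) ^ 2)) ≤ κ → ExS N A0 C2 ε C ξ τ2 P := by
  obtain ⟨cs, hcs⟩ := TB2_green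
  obtain ⟨q, hq⟩ : ∃ q : ℝ, q = exp (-(2 * (cs - log (π / 2)))) := ⟨_, rfl⟩
  have hq0 : 0 < q := by rw [hq]; exact exp_pos _
  refine ⟨π / 4 * q, by positivity, ?_⟩
  intro c0 C2 ε hc0 hc01 hε
  obtain ⟨ε1, hε10, hε11, hε12⟩ : ∃ ε1 : ℝ, 0 < ε1 ∧ ε1 ≤ 1 / 4 ∧ 2 * (2 * ε1) * q ≤ ε := by
    refine ⟨min (1 / 4) (ε / (4 * q)), by positivity, min_le_left _ _, ?_⟩
    have : min (1 / 4) (ε / (4 * q)) ≤ ε / (4 * q) := min_le_right _ _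
    rw [le_div_iff₀ (by positivity)] at this
    linarith
  obtain ⟨B1, hB1, hmid⟩ := ref_mid hcs (ε1 / 120) (by positivity)
  obtain ⟨κ, hκ0, hκ1, hκ2⟩ := kap_choice cs c0 ε1 hc0 hε10 (by linarith)
  obtain ⟨Bg, hBgd⟩ : ∃ Bg : ℝ, Bg = B1 + 2 := ⟨_, rfl⟩
  obtain ⟨M, hM⟩ : ∃ M : ℝ, M = 3200 * Bg ^ 2 / (c0 ^ 2 * ε1) := ⟨_, rfl⟩
  have hBg0 : 0 < Bg := by linarith
  have hM0 : 0 < M := by rw [hM]; positivity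
  obtain ⟨B, hB⟩ : ∃ B : ℝ, B = B1 + 160 * M / (c0 ^ 2 * ε1) := ⟨_, rfl⟩
  have hB' : 0 ≤ 160 * M / (c0 ^ 2 * ε1) := by positivity
  have hBB : B1 ≤ B := by linarith
  have hB1' : 1 ≤ B := hB1.trans hBB
  obtain ⟨b, hb⟩ : ∃ b : ℝ, b = 50001 + 40 * (50 / c0 ^ 3) := ⟨_, rfl⟩
  obtain ⟨C1, hC1a, hC1b⟩ : ∃ C1 : ℝ, b + 40 * (32 * B1 + 1200 + 50 / c0 ^ 3) ≤ C1 ∧
      4 * log (2 * B) + |2 * (cs - log (π / 2))| + ε1 ≤ C1 :=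
    ⟨_, le_max_left _ _, le_max_right _ _⟩
  obtain ⟨C, hC0, hC⟩ := P4p_abs (B := B) (c := 2 * (cs - log (π / 2))) (C1 := C1) (C2 := C2)
    (Bg := Bg) hB1' (by linarith)
  have hlBg : 0 ≤ log Bg := log_nonneg (by linarith)
  have hBg4 : κ / Bg ^ 4 ≤ κ := div_le_self hκ0.le (one_le_pow₀ (by linarith))
  have hB2 : 1 ≤ B ^ 2 := one_le_pow₀ hB1'
  have hBf : B ≤ 8 * B ^ 2 * Bg := by
    have h1 : B ≤ B ^ 2 := le_self_pow₀ hB1' (by norm_num)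
    have h2 : 8 * B ^ 2 * 1 ≤ 8 * B ^ 2 * Bg := mul_le_mul_of_nonneg_left (by linarith) (by positivity)
    linarith
  have hb0 : 0 ≤ b := by rw [hb]; positivity
  refine ⟨C + π / 4 * q * log Bg + (2 * b + 1680 * (Bg ^ 2 / c0 ^ 2)), 8 * B ^ 2 * Bg, κ / Bg ^ 4,
    by positivity, hB1'.trans hBf, by positivity, ?_⟩
  intro N _ ξ a η τ2 P hξB hξN hτ2 hτN hη hP hF hκa hκη
  have h8 : 8 * B ^ 2 * ξ ≤ N / Bg := by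
    rw [le_div_iff₀ hBg0]
    calc 8 * B ^ 2 * ξ * Bg = 8 * B ^ 2 * Bg * ξ := by ring
      _ ≤ (N : ℝ) := hξN
  exact P4_ex_one hB1 hε10 hε11 hmid hc0 hc01 hκ0 hκ1 hκ2 (by linarith) (by linarith) hM hBB
    (by linarith) hb hq hC1a hC1b hε hε12 hC0 rfl rfl hC (by linarith) h8 hτ2 hτN hη hP hF
    (hκa.trans hBg4) hκη

end

end Vale.Agent.P159.H813
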