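import Vale.Agent.P159.H813.P4pin5
import Vale.Agent.P159.H114.Se4

/-!
P159 (helper813): `P4_pin` in helper114's letters.
-/

namespace Vale.Agent.P159.H813

open Finset
open Vale.Agent.P159.TM.H764

/-- helper114's `P4pin` holds -/
theorem p4pin : ∃ A0 : ℝ, 0 < A0 ∧ H114.P4pin A0 := by
  obtain ⟨A0, hA0, h⟩ := P4_pin
  refine ⟨A0, hA0, ?_⟩
  intro c0 C0 C2 ε hc0 hc01 hC0 hε
  obtain ⟨C, B, κ, hC, hB, hκ, h2⟩ := h c0 C0 C2 ε hc0 hc01 hC0 hε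
  refine ⟨C, B, κ, hC, hB, hκ, ?_⟩
  intro N _ ξ τ2 a η P h1 h3 h4 h5 h6 h7 h8 h9 h10
  obtain ⟨⟨h11, h12⟩, -, -⟩ := h2 N ξ a η τ2 P h1 h3 h4 (by linarith) h6 h7 h8 h9 h10
  refine ⟨h11, fun j s hj => h12 j s fun h0 => hj ?_⟩
  rw [h0]
  unfold pw
  simp

end Vale.Agent.P159.H813
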