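import Vale.Agent.P159.H813.Heat1

/-!
P159 / P#4: the sum of `|x|⁻²` over a square of side `2n+1` of the square lattice is
`2 π log n + O(1)`.
-/

namespace Vale.Agent.P159.H813

open Finset Real

noncomputable section

/-- integer interval `[-n, n]` -/
def In (n : ℕ) : Finset ℤ := Icc (-(n : ℤ)) n

lemma mem_In {n : ℕ} {a : ℤ} : a ∈ In n ↔ |a| ≤ n := by
  unfold In
  rw [mem_Icc, abs_le]

lemma sum_In_succ (n : ℕ) (g : ℤ → ℝ) :
    ∑ a ∈ In (n + 1), g a = ∑ a ∈ In n, g a + g ((n : ℤ) + 1) + g (-((n : ℤ) + 1)) := by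
  have h : In (n + 1) = insert ((n : ℤ) + 1) (insert (-((n : ℤ) + 1)) (In n)) := by
    ext a
    simp only [mem_insert, mem_In, abs_le]
    push_cast
    constructor
    · intro h; omega
    · rintro (h | h | h) <;> omega
  rw [h, sum_insert, sum_insert]
  · ring
  · simp only [mem_In, abs_le]; omega
  · simp only [mem_insert, mem_In, abs_le]; omega

/-- `|x|⁻²` (zero at the origin) -/
def iv (a b : ℤ) : ℝ := 1 / ((a : ℝ) ^ 2 + (b : ℝ) ^ 2)

lemma iv_comm (a b : ℤ) : iv a b = iv b a := by unfold iv; rw [add_comm]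

lemma iv_neg (a b : ℤ) : iv (-a) b = iv a b := by unfold iv; simp

lemma iv_nonneg (a b : ℤ) : 0 ≤ iv a b := by unfold iv; positivity

/-- box sum -/
def Bx (n : ℕ) : ℝ := ∑ a ∈ In n, ∑ b ∈ In n, iv a b

lemma Bx_zero : Bx 0 = 0 := by
  unfold Bx In iv
  simp

/-- one side of a ring -/
def Rs1 (m n : ℕ) : ℝ := ∑ b ∈ In n, iv m b

lemma Rs1_succ (m n : ℕ) : Rs1 m (n + 1) = Rs1 m n + 2 * iv m ((n : ℤ) + 1) := by
  unfold Rs1
  rw [sum_In_succ, iv_comm _ (-((n : ℤ) + 1)), iv_neg, iv_comm _ (m : ℤ)]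
  ring

lemma Rs1_eq (m n : ℕ) : Rs1 m n = iv m 0 + 2 * ∑ i ∈ range n, iv m ((i : ℤ) + 1) := by
  induction n with
  | zero => unfold Rs1 In; simp
  | succ n ih => rw [Rs1_succ, ih, sum_range_succ]; ring

lemma Bx_succ (n : ℕ) : Bx (n + 1) = Bx n + 2 * Rs1 (n + 1) n + 2 * Rs1 (n + 1) (n + 1) := by
  have h1 : Bx (n + 1) = ∑ a ∈ In n, ∑ b ∈ In (n + 1), iv a b + Rs1 (n + 1) (n + 1) +
      ∑ b ∈ In (n + 1), iv (-((n : ℤ) + 1)) b := by
    unfold Bx Rs1
    rw [sum_In_succ (g := fun a => ∑ b ∈ In (n + 1), iv a b)]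
    push_cast
    rfl
  have h2 : ∑ b ∈ In (n + 1), iv (-((n : ℤ) + 1)) b = Rs1 (n + 1) (n + 1) := by
    unfold Rs1
    push_cast
    exact sum_congr rfl fun b _ => iv_neg _ _
  have h3 : ∑ a ∈ In n, ∑ b ∈ In (n + 1), iv a b = Bx n + 2 * Rs1 (n + 1) n := by
    have : ∀ a ∈ In n, ∑ b ∈ In (n + 1), iv a b = ∑ b ∈ In n, iv a b +
        2 * iv ((n : ℤ) + 1) a := by
      intro a _
      rw [sum_In_succ, iv_comm a, iv_comm a (-((n : ℤ) + 1)), iv_neg]
      ring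
    rw [sum_congr rfl this, sum_add_distrib, ← mul_sum]
    unfold Bx Rs1
    push_cast
    rfl
  rw [h1, h2, h3]
  ring

lemma arctan_step' {α : ℝ} (hα : 0 < α) (i : ℕ) :
    arctan (α * (i + 1)) - arctan (α * i) ≤ α / (1 + (α * i) ^ 2) := by
  have hlt : α * (i : ℝ) < α * (i + 1) := by nlinarith
  obtain ⟨c, hc, hc2⟩ := exists_deriv_eq_slope arctan hlt (continuous_arctan.continuousOn)
    (differentiable_arctan.differentiableOn)
  simp only [Real.deriv_arctan] at hc2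
  have h0 : (0 : ℝ) ≤ α * i := by positivity
  have h1 : α * (i + 1) - α * (i : ℝ) = α := by ring
  rw [h1] at hc2
  have h2 : arctan (α * (i + 1)) - arctan (α * i) = α * (1 / (1 + c ^ 2)) := by
    rw [hc2]; field_simp
  rw [h2, div_eq_mul_one_div α]
  refine mul_le_mul_of_nonneg_left ?_ hα.le
  refine one_div_le_one_div_of_le (by positivity) ?_
  have := hc.1.le
  nlinarith

/-- side sums against `π / (4 m)` -/
lemma side_up {m : ℕ} (hm : 0 < m) : ∑ i ∈ range m, iv m ((i : ℤ) + 1) ≤ π / (4 * m) := by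
  have hmr : (0 : ℝ) < m := by exact_mod_cast hm
  set α : ℝ := 1 / m with hα
  have hα0 : 0 < α := by positivity
  have h1 : ∀ n : ℕ, ∑ i ∈ range n, α / (1 + (α * ((i : ℝ) + 1)) ^ 2) ≤ arctan (α * n) := by
    intro n
    induction n with
    | zero => simp
    | succ n ih =>
      rw [sum_range_succ]
      have := arctan_step hα0 n
      push_cast
      linarith
  have h2 := h1 m
  have h3 : α * m = 1 := by rw [hα]; field_simp
  rw [h3, arctan_one] at h2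
  have h4 : ∀ i ∈ range m, iv m ((i : ℤ) + 1) = α * (α / (1 + (α * ((i : ℝ) + 1)) ^ 2)) := by
    intro i _
    unfold iv
    rw [hα]
    push_cast
    field_simp
  rw [sum_congr rfl h4, ← mul_sum]
  calc α * ∑ i ∈ range m, α / (1 + (α * ((i : ℝ) + 1)) ^ 2) ≤ α * (π / 4) :=
        mul_le_mul_of_nonneg_left h2 hα0.le
    _ = π / (4 * m) := by rw [hα]; field_simp

lemma side_low {m : ℕ} (hm : 0 < m) : π / (4 * m) - 1 / (m : ℝ) ^ 2 ≤
    ∑ i ∈ range (m - 1), iv m ((i : ℤ) + 1) := by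
  have hmr : (0 : ℝ) < m := by exact_mod_cast hm
  set α : ℝ := 1 / m with hα
  have hα0 : 0 < α := by positivity
  have h1 : ∀ n : ℕ, arctan (α * n) ≤ ∑ i ∈ range n, α / (1 + (α * (i : ℝ)) ^ 2) := by
    intro n
    induction n with
    | zero => simp
    | succ n ih =>
      rw [sum_range_succ]
      have := arctan_step' hα0 n
      push_cast
      linarith
  have h2 := h1 m
  have h3 : α * m = 1 := by rw [hα]; field_simp
  rw [h3, arctan_one] at h2
  obtain ⟨k, rfl⟩ : ∃ k, m = k + 1 := ⟨m - 1, by omega⟩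
  rw [sum_range_succ'] at h2
  simp only [Nat.add_sub_cancel]
  have h4 : ∀ i ∈ range k, iv ((k + 1 : ℕ) : ℤ) ((i : ℤ) + 1) =
      α * (α / (1 + (α * ((i + 1 : ℕ) : ℝ)) ^ 2)) := by
    intro i _
    unfold iv
    rw [hα]
    push_cast
    field_simp
  rw [sum_congr rfl h4, ← mul_sum]
  have h5 : π / 4 - α ≤ ∑ i ∈ range k, α / (1 + (α * ((i + 1 : ℕ) : ℝ)) ^ 2) := by
    have : α / (1 + (α * ((0 : ℕ) : ℝ)) ^ 2) = α := by simp
    linarith
  calc π / (4 * ((k + 1 : ℕ) : ℝ)) - 1 / ((k + 1 : ℕ) : ℝ) ^ 2 = α * (π / 4 - α) := by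
        rw [hα]; field_simp
    _ ≤ _ := mul_le_mul_of_nonneg_left h5 hα0.le

/-- one ring -/
lemma ring_bound (n : ℕ) : |Bx (n + 1) - Bx n - 2 * π / ((n : ℝ) + 1)| ≤
    8 / ((n : ℝ) + 1) ^ 2 := by
  have h1 := side_up (m := n + 1) (by omega)
  have h2 := side_low (m := n + 1) (by omega)
  simp only [Nat.add_sub_cancel] at h2
  have h3 : iv ((n + 1 : ℕ) : ℤ) 0 = 1 / ((n : ℝ) + 1) ^ 2 := by
    unfold iv; push_cast; simp
  have h4 : iv ((n + 1 : ℕ) : ℤ) ((n : ℤ) + 1) = 1 / 2 / ((n : ℝ) + 1) ^ 2 := by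
    unfold iv; push_cast; field_simp; norm_num
  rw [sum_range_succ, h4] at h1
  rw [Bx_succ, Rs1_succ, Rs1_eq, h3, h4]
  push_cast at h1 h2 ⊢
  set S := ∑ x ∈ range n, iv ((n : ℤ) + 1) ((x : ℤ) + 1) with hS
  set q := 1 / ((n : ℝ) + 1) ^ 2 with hq
  have h5 : 1 / 2 / ((n : ℝ) + 1) ^ 2 = q / 2 := by rw [hq]; ring
  have h6 : 8 / ((n : ℝ) + 1) ^ 2 = 8 * q := by rw [hq]; ring
  have h7 : 2 * π / ((n : ℝ) + 1) = 8 * (π / (4 * ((n : ℝ) + 1))) := by
    field_simp; ring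
  rw [h5] at h1
  rw [h5, h6, h7]
  have hq0 : 0 ≤ q := by rw [hq]; positivity
  rw [abs_le]
  constructor <;> nlinarith

lemma sum_sq_inv (n : ℕ) : ∑ i ∈ range (n + 1), 1 / ((i : ℝ) + 1) ^ 2 ≤ 2 - 1 / ((n : ℝ) + 1) := by
  induction n with
  | zero => simp; norm_num
  | succ n ih =>
    rw [sum_range_succ]
    push_cast
    have h1 : 1 / ((n : ℝ) + 1 + 1) ^ 2 ≤ 1 / ((n : ℝ) + 1) - 1 / ((n : ℝ) + 1 + 1) := by
      rw [div_sub_div _ _ (by positivity) (by positivity), div_le_div_iff₀ (by positivity)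
        (by positivity)]
      nlinarith [sq_nonneg ((n : ℝ) + 1)]
    linarith

lemma sum_sq_inv' (n : ℕ) : ∑ i ∈ range n, 1 / ((i : ℝ) + 1) ^ 2 ≤ 2 := by
  rcases n with _ | n
  · simp
  · have := sum_sq_inv n
    have h2 : 0 ≤ 1 / ((n : ℝ) + 1) := by positivity
    linarith

lemma Bx_harm (n : ℕ) : |Bx n - 2 * π * ∑ i ∈ range n, 1 / ((i : ℝ) + 1)| ≤ 16 := by
  have h : ∀ m : ℕ, |Bx m - 2 * π * ∑ i ∈ range m, 1 / ((i : ℝ) + 1)| ≤
      8 * ∑ i ∈ range m, 1 / ((i : ℝ) + 1) ^ 2 := by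
    intro m
    induction m with
    | zero => simp [Bx_zero]
    | succ m ih =>
      rw [sum_range_succ, sum_range_succ]
      have h1 := ring_bound m
      have h2 : Bx (m + 1) - 2 * π * (∑ i ∈ range m, 1 / ((i : ℝ) + 1) + 1 / ((m : ℝ) + 1)) =
          (Bx m - 2 * π * ∑ i ∈ range m, 1 / ((i : ℝ) + 1)) +
            (Bx (m + 1) - Bx m - 2 * π / ((m : ℝ) + 1)) := by ring
      rw [h2]
      refine (abs_add_le _ _).trans ?_
      have h3 : 8 * (∑ i ∈ range m, 1 / ((i : ℝ) + 1) ^ 2 + 1 / ((m : ℝ) + 1) ^ 2) =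
          8 * ∑ i ∈ range m, 1 / ((i : ℝ) + 1) ^ 2 + 8 / ((m : ℝ) + 1) ^ 2 := by ring
      rw [h3]
      exact add_le_add ih h1
  have := h n
  have h2 := sum_sq_inv' n
  linarith

lemma harm_log {n : ℕ} (hn : 0 < n) :
    |∑ i ∈ range n, 1 / ((i : ℝ) + 1) - log n| ≤ 1 := by
  have h1 := log_add_one_le_harmonic n
  have h2 := harmonic_le_one_add_log n
  have h3 : ((harmonic n : ℚ) : ℝ) = ∑ i ∈ range n, 1 / ((i : ℝ) + 1) := by
    unfold harmonic
    push_cast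
    refine sum_congr rfl fun i _ => ?_
    rw [one_div]
  rw [h3] at h1 h2
  have hnr : (0 : ℝ) < n := by exact_mod_cast hn
  have h4 : log n ≤ log ((n : ℝ) + 1) := log_le_log hnr (by linarith)
  have h5 : log (((n + 1 : ℕ) : ℝ)) = log ((n : ℝ) + 1) := by push_cast; rfl
  rw [abs_le]
  constructor
  · linarith
  · linarith

/-- **the box sum of `|x|⁻²`** -/
theorem Bx_log {n : ℕ} (hn : 0 < n) : |Bx n - 2 * π * log n| ≤ 23 := by
  have h1 := Bx_harm n
  have h2 := harm_log hn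
  have h3 : Bx n - 2 * π * log n = (Bx n - 2 * π * ∑ i ∈ range n, 1 / ((i : ℝ) + 1)) +
      2 * π * (∑ i ∈ range n, 1 / ((i : ℝ) + 1) - log n) := by ring
  rw [h3]
  refine (abs_add_le _ _).trans ?_
  rw [abs_mul, abs_of_pos (by have := pi_pos; positivity : (0 : ℝ) < 2 * π)]
  have h4 : π < 3.15 := pi_lt_d2
  have h5 : 2 * π * |∑ i ∈ range n, 1 / ((i : ℝ) + 1) - log n| ≤ 2 * π * 1 :=
    mul_le_mul_of_nonneg_left h2 (by have := pi_pos; positivity)
  linarith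

end

end Vale.Agent.P159.H813
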