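import Vale.Agent.P159.H462.Q1
import Vale.Agent.P159.H708.Stein
import Vale.Agent.P159.H813.P4pin5

/-!
P159 (helper813): (STAR0), part 1: the Gaussian integral
`E[ |∑_w e((B g)_w)|² (|ĝ(k)|²/n² - 1) ] = - 8π² B(k)² ∑_r (1 - cos k r) exp (-4π² (G(0) - G(r)))`.
-/

namespace Vale.Agent.P159.H813

open Finset MeasureTheory Matrix
open Vale.Agent.P159.H37
open Vale.Agent.P159.H363 (ee mainf)
open Vale.Agent.P159.TM.Spec (V)
open Vale.Agent.P159.TM.H764 (EE cN sN dt Gh)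
open Vale.Agent.P159.H864 (TI sym)
open Vale.Agent.P159.H462 (hk mh)
open Vale.Agent.P159.H708 (DirD stein2 egr_integrable)
open scoped Real

noncomputable section

set_option linter.unusedSectionVars false

section gen

variable {I : Type*} [Fintype I]

lemma egr_cos (u : I → ℝ) (c : ℝ) : EGr fun g : I → ℝ => c * Real.cos (∑ i, u i * g i) := by
  refine EGr.cmul c (EGr.mk' (by fun_prop) (A := 1) (B := 0) fun g => ?_)
  rw [zero_mul, Real.exp_zero, mul_one]
  exact Real.abs_cos_le_one _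

lemma egr_sin (u : I → ℝ) (c : ℝ) : EGr fun g : I → ℝ => c * Real.sin (∑ i, u i * g i) := by
  refine EGr.cmul c (EGr.mk' (by fun_prop) (A := 1) (B := 0) fun g => ?_)
  rw [zero_mul, Real.exp_zero, mul_one]
  exact Real.abs_sin_le_one _

lemma egr_lin1 (v : I → ℝ) : EGr fun g : I → ℝ => ∑ i, v i * g i := by
  refine EGr.mk' (by fun_prop) (A := ∑ i, |v i|) (B := 1) fun g => ?_
  have h3 : |∑ i, v i * g i| ≤ (∑ i, |v i|) * ∑ i, |g i| := by
    rw [Finset.sum_mul]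
    refine (Finset.abs_sum_le_sum_abs _ _).trans (Finset.sum_le_sum fun i _ => ?_)
    rw [abs_mul]
    exact mul_le_mul_of_nonneg_left
      (Finset.single_le_sum (f := fun i => |g i|) (fun _ _ => abs_nonneg _)
        (Finset.mem_univ i)) (abs_nonneg _)
  refine h3.trans (mul_le_mul_of_nonneg_left ?_ (sum_nonneg fun _ _ => abs_nonneg _))
  have := Real.add_one_le_exp (1 * ∑ i, |g i|)
  linarith

lemma dot_line (u v g : I → ℝ) (s : ℝ) :
    ∑ i, u i * (g + s • v) i = ∑ i, u i * g i + s * ∑ i, u i * v i := by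
  rw [mul_sum, ← sum_add_distrib]
  exact sum_congr rfl fun i _ => by
    rw [Pi.add_apply, Pi.smul_apply, smul_eq_mul]; ring

lemma dird_cos (u v : I → ℝ) (c : ℝ) :
    DirD (fun g : I → ℝ => c * Real.cos (∑ i, u i * g i))
      (fun g => (-(c * ∑ i, u i * v i)) * Real.sin (∑ i, u i * g i)) v := by
  intro g
  simp only [dot_line]
  have h1 : HasDerivAt (fun s : ℝ => ∑ i, u i * g i + s * ∑ i, u i * v i) (∑ i, u i * v i) 0 := by
    simpa using ((hasDerivAt_id (0 : ℝ)).mul_const (∑ i, u i * v i)).const_add (∑ i, u i * g i)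
  refine (h1.cos.const_mul c).congr_deriv ?_
  rw [zero_mul, add_zero]
  ring

lemma dird_sin (u v : I → ℝ) (c : ℝ) :
    DirD (fun g : I → ℝ => c * Real.sin (∑ i, u i * g i))
      (fun g => (c * ∑ i, u i * v i) * Real.cos (∑ i, u i * g i)) v := by
  intro g
  simp only [dot_line]
  have h1 : HasDerivAt (fun s : ℝ => ∑ i, u i * g i + s * ∑ i, u i * v i) (∑ i, u i * v i) 0 := by
    simpa using ((hasDerivAt_id (0 : ℝ)).mul_const (∑ i, u i * v i)).const_add (∑ i, u i * g i)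
  refine (h1.sin.const_mul c).congr_deriv ?_
  rw [zero_mul, add_zero]
  ring

/-- second Hermite moment of a cosine -/
theorem int_h2_cos (u v : I → ℝ) :
    ∫ g, ((∑ i, v i * g i) ^ 2 - ∑ i, v i ^ 2) * Real.cos (∑ i, u i * g i) ∂(gau I) =
      -(∑ i, u i * v i) ^ 2 * Real.exp (-(∑ i, u i ^ 2) / 2) := by
  classical
  have h := stein2 (egr_cos u 1) (egr_sin u (-(1 * ∑ i, u i * v i)))
    (egr_cos u ((-(1 * ∑ i, u i * v i)) * ∑ i, u i * v i)) v (dird_cos u v 1)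
    (dird_sin u v (-(1 * ∑ i, u i * v i)))
  simp only [one_mul] at h
  rw [h, integral_const_mul]
  have h2 := H114.gau_cos 0 u
  simp only [zero_add, Real.cos_zero, one_mul] at h2
  rw [h2]
  ring

lemma int_h2_int (u v : I → ℝ) :
    Integrable (fun g : I → ℝ => ((∑ i, v i * g i) ^ 2 - ∑ i, v i ^ 2) *
      Real.cos (∑ i, u i * g i)) (gau I) := by
  have h1 : EGr fun g : I → ℝ => ∑ i, v i * g i := egr_lin1 v
  have h2 : EGr fun g : I → ℝ => ((∑ i, v i * g i) ^ 2 - ∑ i, v i ^ 2) := by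
    have h3 := (h1.mul h1).sub (EGr.const (∑ i, v i ^ 2))
    simpa only [pow_two] using h3
  have h4 := h2.mul (egr_cos u 1)
  simp only [one_mul] at h4
  exact egr_integrable h4

end gen

section tor

variable {n : ℕ} [NeZero n]

lemma cs_sq (a : ZMod n) : cN a ^ 2 + sN a ^ 2 = 1 := by
  unfold cN sN
  exact Real.cos_sq_add_sin_sq _

lemma sum_cs_sq (k : V n) : ∑ x : V n, cN (dt k x) ^ 2 + ∑ x : V n, sN (dt k x) ^ 2 =
    (n : ℝ) ^ 2 := by
  rw [← sum_add_distrib]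
  simp only [cs_sq]
  rw [sum_const, card_univ, nsmul_eq_mul, TM.H764.card_V, mul_one]

lemma hk_eq (k : V n) (g : V n → ℝ) : hk k g = ((n : ℝ) ^ 2)⁻¹ *
    (((∑ x, cN (dt k x) * g x) ^ 2 - ∑ x, cN (dt k x) ^ 2) +
      ((∑ x, sN (dt k x) * g x) ^ 2 - ∑ x, sN (dt k x) ^ 2)) := by
  have h1 := sum_cs_sq k
  have hn : (n : ℝ) ^ 2 ≠ 0 := pow_ne_zero 2 TM.H764.N_ne
  have h2 : ∑ x, ∑ y, g x * g y * cN (dt k (x - y)) =
      (∑ x, cN (dt k x) * g x) ^ 2 + (∑ x, sN (dt k x) * g x) ^ 2 := by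
    rw [pow_two, pow_two, sum_mul_sum, sum_mul_sum, ← sum_add_distrib]
    refine sum_congr rfl fun x _ => ?_
    rw [← sum_add_distrib]
    refine sum_congr rfl fun y _ => ?_
    rw [TM.H764.dt_sub, TM.H764.cN_sub]
    ring
  unfold H462.hk
  rw [h2]
  have e : (∑ x, cN (dt k x) * g x) ^ 2 - ∑ x, cN (dt k x) ^ 2 +
      ((∑ x, sN (dt k x) * g x) ^ 2 - ∑ x, sN (dt k x) ^ 2) =
      (∑ x, cN (dt k x) * g x) ^ 2 + (∑ x, sN (dt k x) * g x) ^ 2 - (n : ℝ) ^ 2 := by
    rw [← h1]; ring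
  rw [e, mul_sub, inv_mul_cancel₀ hn]

/-- `E[cos <u, g> h_k]` -/
theorem int_hk_cos (k : V n) (u : V n → ℝ) :
    ∫ g, Real.cos (∑ x, u x * g x) * hk k g ∂(gau (V n)) =
      -((n : ℝ) ^ 2)⁻¹ * ((∑ x, u x * cN (dt k x)) ^ 2 + (∑ x, u x * sN (dt k x)) ^ 2) *
        Real.exp (-(∑ x, u x ^ 2) / 2) := by
  have e : ∀ g : V n → ℝ, Real.cos (∑ x, u x * g x) * hk k g =
      ((n : ℝ) ^ 2)⁻¹ * ((((∑ x, cN (dt k x) * g x) ^ 2 - ∑ x, cN (dt k x) ^ 2) *
        Real.cos (∑ x, u x * g x)) + (((∑ x, sN (dt k x) * g x) ^ 2 - ∑ x, sN (dt k x) ^ 2) *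
        Real.cos (∑ x, u x * g x))) := by
    intro g
    rw [hk_eq]
    ring
  simp only [e]
  rw [integral_const_mul, integral_add (int_h2_int u _) (int_h2_int u _),
    int_h2_cos u (fun x => cN (dt k x)), int_h2_cos u (fun x => sN (dt k x))]
  ring

lemma int_hk_cos_int (k : V n) (u : V n → ℝ) :
    Integrable (fun g => Real.cos (∑ x, u x * g x) * hk k g) (gau (V n)) := by
  have e : (fun g : V n → ℝ => Real.cos (∑ x, u x * g x) * hk k g) = fun g =>
      ((n : ℝ) ^ 2)⁻¹ * ((((∑ x, cN (dt k x) * g x) ^ 2 - ∑ x, cN (dt k x) ^ 2) *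
        Real.cos (∑ x, u x * g x)) + (((∑ x, sN (dt k x) * g x) ^ 2 - ∑ x, sN (dt k x) ^ 2) *
        Real.cos (∑ x, u x * g x))) := by
    funext g
    rw [hk_eq]
    ring
  rw [e]
  exact ((int_h2_int u _).add (int_h2_int u _)).const_mul _

variable {B : Matrix (V n) (V n) ℝ}

/-- square of the increments -/
lemma sq_inc (hB : TI B) (w w' : V n) : ∑ x, (B w x - B w' x) ^ 2 =
    2 * (((n : ℝ) ^ 2)⁻¹ * ∑ q, sym B q ^ 2 * (1 - cN (dt q (w - w')))) := by
  have hBB : TI (B * B) := hB.mul hB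
  have h1 : ∀ a b : V n, ∑ x, B a x * B b x = (B * B) a b := by
    intro a b
    rw [Matrix.mul_apply]
    exact sum_congr rfl fun x _ => by rw [hB.sy b x]
  have h2 : ∀ a b : V n, (B * B) a b = ((n : ℝ) ^ 2)⁻¹ * ∑ q, sym B q ^ 2 * cN (dt q (b - a)) := by
    intro a b
    rw [hBB.inversion]
    simp only [H864.sym_mul hB hB, pow_two]
  have e : ∑ x, (B w x - B w' x) ^ 2 = (B * B) w w + (B * B) w' w' - 2 * (B * B) w w' := by
    rw [← h1, ← h1, ← h1, mul_sum, ← sum_add_distrib, ← sum_sub_distrib]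
    exact sum_congr rfl fun x _ => by ring
  rw [e, h2, h2, h2, sub_self, sub_self]
  have h3 : ∀ q : V n, cN (dt q (w' - w)) = cN (dt q (w - w')) := by
    intro q
    rw [← neg_sub w w', H864.dt_neg, TM.H764.cN_neg]
  simp only [H864.dt_zero, TM.H764.cN_zero, h3, mul_one, mul_sub, sum_sub_distrib]
  ring

lemma dot_wave_c (hB : TI B) (k w w' : V n) :
    ∑ x, (B w x - B w' x) * cN (dt k x) = sym B k * (cN (dt k w) - cN (dt k w')) := by
  have h := hB.mulVec_cN k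
  have h1 := congrFun h w
  have h2 := congrFun h w'
  simp only [mulVec, dotProduct, Pi.smul_apply, smul_eq_mul] at h1 h2
  simp only [sub_mul, sum_sub_distrib]
  rw [h1, h2]
  ring

lemma dot_wave_s (hB : TI B) (k w w' : V n) :
    ∑ x, (B w x - B w' x) * sN (dt k x) = sym B k * (sN (dt k w) - sN (dt k w')) := by
  have h := hB.mulVec_sN k
  have h1 := congrFun h w
  have h2 := congrFun h w'
  simp only [mulVec, dotProduct, Pi.smul_apply, smul_eq_mul] at h1 h2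
  simp only [sub_mul, sum_sub_distrib]
  rw [h1, h2]
  ring

lemma cs_diff (a b : ZMod n) : (cN a - cN b) ^ 2 + (sN a - sN b) ^ 2 = 2 * (1 - cN (a - b)) := by
  rw [TM.H764.cN_sub]
  have h1 := cs_sq a
  have h2 := cs_sq b
  linear_combination h1 + h2

/-- exponent of the kernel of `B g` -/
def DB (B : Matrix (V n) (V n) ℝ) (r : V n) : ℝ :=
  4 * π ^ 2 * (((n : ℝ) ^ 2)⁻¹ * ∑ q, sym B q ^ 2 * (1 - cN (dt q r)))

/-- the sum over separations -/
def SigB (B : Matrix (V n) (V n) ℝ) (k : V n) : ℝ :=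
  ∑ r : V n, (1 - cN (dt k r)) * Real.exp (-DB B r)

/-- one pair of points -/
lemma int_pair (hB : TI B) (k w w' : V n) :
    ∫ g, Real.cos (2 * π * ((B *ᵥ g) w - (B *ᵥ g) w')) * hk k g ∂(gau (V n)) =
      -(8 * π ^ 2) * sym B k ^ 2 * ((n : ℝ) ^ 2)⁻¹ *
        ((1 - cN (dt k (w - w'))) * Real.exp (-DB B (w - w'))) := by
  set u : V n → ℝ := fun x => 2 * π * (B w x - B w' x) with hu
  have e : ∀ g : V n → ℝ, 2 * π * ((B *ᵥ g) w - (B *ᵥ g) w') = ∑ x, u x * g x := by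
    intro g
    rw [hu]
    simp only [mulVec, dotProduct]
    rw [← sum_sub_distrib, mul_sum]
    exact sum_congr rfl fun x _ => by ring
  simp only [e]
  rw [int_hk_cos]
  have h1 : ∑ x, u x * cN (dt k x) = 2 * π * (sym B k * (cN (dt k w) - cN (dt k w'))) := by
    rw [← dot_wave_c hB, mul_sum]
    exact sum_congr rfl fun x _ => by rw [hu]; ring
  have h2 : ∑ x, u x * sN (dt k x) = 2 * π * (sym B k * (sN (dt k w) - sN (dt k w'))) := by
    rw [← dot_wave_s hB, mul_sum]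
    exact sum_congr rfl fun x _ => by rw [hu]; ring
  have h3 : -(∑ x, u x ^ 2) / 2 = -DB B (w - w') := by
    have h4 : ∑ x, u x ^ 2 = 4 * π ^ 2 * ∑ x, (B w x - B w' x) ^ 2 := by
      rw [mul_sum]
      exact sum_congr rfl fun x _ => by rw [hu]; ring
    rw [h4, sq_inc hB]
    unfold DB
    ring
  rw [h1, h2, h3]
  have h5 := cs_diff (dt k w) (dt k w')
  rw [← TM.H764.dt_sub] at h5
  have e2 : (2 * π * (sym B k * (cN (dt k w) - cN (dt k w')))) ^ 2 +
      (2 * π * (sym B k * (sN (dt k w) - sN (dt k w')))) ^ 2 =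
      4 * π ^ 2 * sym B k ^ 2 * (2 * (1 - cN (dt k (w - w')))) := by
    rw [← h5]; ring
  rw [e2]
  ring

lemma norm_sum_ee (a : V n → ℝ) : ‖∑ w, ee (a w)‖ ^ 2 =
    ∑ w, ∑ w', Real.cos (2 * π * (a w - a w')) := by
  have h1 : ∀ t : ℝ, (ee t).re = Real.cos (2 * π * t) := by
    intro t
    unfold H363.ee
    exact Complex.exp_ofReal_mul_I_re _
  have h2 : ∀ t : ℝ, (ee t).im = Real.sin (2 * π * t) := by
    intro t
    unfold H363.ee
    exact Complex.exp_ofReal_mul_I_im _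
  rw [← Complex.normSq_eq_norm_sq, Complex.normSq_apply, Complex.re_sum, Complex.im_sum]
  simp only [h1, h2]
  rw [sum_mul_sum, sum_mul_sum, ← sum_add_distrib]
  refine sum_congr rfl fun w _ => ?_
  rw [← sum_add_distrib]
  refine sum_congr rfl fun w' _ => ?_
  rw [mul_sub, Real.cos_sub]

/-- **the Gaussian integral of (STAR0)** -/
theorem int_main (hB : TI B) (k : V n) :
    ∫ g, ‖∑ w, ee ((B *ᵥ g) w)‖ ^ 2 * hk k g ∂(gau (V n)) =
      -(8 * π ^ 2) * sym B k ^ 2 * SigB B k := by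
  have e : ∀ g : V n → ℝ, ‖∑ w, ee ((B *ᵥ g) w)‖ ^ 2 * hk k g =
      ∑ w, ∑ w', Real.cos (2 * π * ((B *ᵥ g) w - (B *ᵥ g) w')) * hk k g := by
    intro g
    rw [norm_sum_ee, sum_mul]
    exact sum_congr rfl fun w _ => sum_mul _ _ _
  simp only [e]
  have hi : ∀ w w' : V n, Integrable
      (fun g => Real.cos (2 * π * ((B *ᵥ g) w - (B *ᵥ g) w')) * hk k g) (gau (V n)) := by
    intro w w'
    have h := int_hk_cos_int k (fun x => 2 * π * (B w x - B w' x))
    have e2 : ∀ g : V n → ℝ, ∑ x, 2 * π * (B w x - B w' x) * g x =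
        2 * π * ((B *ᵥ g) w - (B *ᵥ g) w') := by
      intro g
      simp only [mulVec, dotProduct]
      rw [← sum_sub_distrib, mul_sum]
      exact sum_congr rfl fun x _ => by ring
    simpa only [e2] using h
  rw [integral_finsetSum _ fun w _ => integrable_finsetSum _ fun w' _ => hi w w']
  have h2 : ∀ w : V n, ∫ g, ∑ w', Real.cos (2 * π * ((B *ᵥ g) w - (B *ᵥ g) w')) * hk k g
      ∂(gau (V n)) = -(8 * π ^ 2) * sym B k ^ 2 * ((n : ℝ) ^ 2)⁻¹ * SigB B k := by
    intro w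
    rw [integral_finsetSum _ fun w' _ => hi w w']
    simp only [int_pair hB]
    rw [← mul_sum]
    congr 1
    unfold SigB
    rw [← Equiv.sum_comp (Equiv.subLeft w)]
    refine sum_congr rfl fun r _ => ?_
    rw [Equiv.subLeft_apply, sub_sub_cancel]
  simp only [h2]
  rw [sum_const, card_univ, nsmul_eq_mul, TM.H764.card_V]
  have hn : (n : ℝ) ≠ 0 := TM.H764.N_ne
  field_simp

end tor

end

end Vale.Agent.P159.H813
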