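import Vale.Agent.P159.H114.Chain5

/-!
P159 (helper813): (EXT0), part 1: Richardson sums of `ν F/(ν - F)`, `F` a polynomial without constant
term (abstract).
-/

namespace Vale.Agent.P159.H813

open Finset
open Vale.Agent.P159.H114 (RW nd nd_ge)

noncomputable section

variable {q : ℕ} {μ : Fin (q + 1) → ℝ}

/-- size of the weights -/
def Lw (q : ℕ) (μ : Fin (q + 1) → ℝ) : ℝ := ∑ i, |μ i|

lemma Lw_nonneg (q : ℕ) (μ : Fin (q + 1) → ℝ) : 0 ≤ Lw q μ := sum_nonneg fun _ _ => abs_nonneg _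

lemma nd_le (q : ℕ) (i : Fin (q + 1)) : nd q i ≤ ((q : ℝ) + 1) ^ 2 := by
  unfold H114.nd
  have h1 : ((i : ℕ) : ℝ) ≤ q := by
    have := i.2
    exact_mod_cast (by omega : (i : ℕ) ≤ q)
  exact pow_le_pow_left₀ (by positivity) (by linarith) 2

/-- high moments of the weights -/
lemma mu_high (q : ℕ) (μ : Fin (q + 1) → ℝ) (m : ℕ) {t : ℝ} (ht : 0 ≤ t) :
    |∑ i, μ i * (nd q i * t) ^ m| ≤ Lw q μ * (((q : ℝ) + 1) ^ 2 * t) ^ m := by
  refine (Finset.abs_sum_le_sum_abs _ _).trans ?_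
  unfold Lw
  rw [Finset.sum_mul]
  refine sum_le_sum fun i _ => ?_
  have h1 : 0 ≤ nd q i := by linarith [nd_ge q i]
  rw [abs_mul, abs_of_nonneg (by positivity : 0 ≤ (nd q i * t) ^ m)]
  exact mul_le_mul_of_nonneg_left
    (pow_le_pow_left₀ (by positivity) (mul_le_mul_of_nonneg_right (nd_le q i) ht) m)
    (abs_nonneg _)

/-- low moments of the weights -/
lemma mu_low (h : RW q μ) {m : ℕ} (h2 : m ≠ 1) (hm : m ≤ q) (t : ℝ) :
    ∑ i, μ i * (nd q i * t) ^ m = 0 := by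
  have h1 := h.h m hm
  rw [if_neg h2] at h1
  have e : ∑ i, μ i * (nd q i * t) ^ m = (∑ i, μ i * nd q i ^ m) * t ^ m := by
    rw [Finset.sum_mul]
    exact sum_congr rfl fun i _ => by rw [mul_pow]; ring
  rw [e, h1, zero_mul]

lemma mu_one (h : RW q μ) (t : ℝ) : ∑ i, μ i * (nd q i * t) = t := by
  have h1 := h.s1
  have e : ∑ i, μ i * (nd q i * t) = (∑ i, μ i * nd q i) * t := by
    rw [Finset.sum_mul]
    exact sum_congr rfl fun i _ => by ring
  rw [e, h1, one_mul]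

/-- **Richardson sum of a power of a polynomial without constant term** -/
theorem rich_pow (h : RW q μ) {j : ℕ} (hj : 2 ≤ j) {c : Fin q → ℝ} {t ρ K : ℝ} (ht : 0 ≤ t)
    (hρ : 0 < ρ) (hU : ((q : ℝ) + 1) ^ 2 * t ≤ ρ)
    (hK : ∑ p : Fin q, |c p| * ρ ^ ((p : ℕ) + 1) ≤ K) :
    |∑ i, μ i * (∑ p : Fin q, c p * (nd q i * t) ^ ((p : ℕ) + 1)) ^ j| ≤
      Lw q μ * (((q : ℝ) + 1) ^ 2 * t / ρ) ^ (q + 1) * K ^ j := by
  set U := ((q : ℝ) + 1) ^ 2 * t with hUd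
  have hU0 : 0 ≤ U := by positivity
  have hr0 : 0 ≤ U / ρ := by positivity
  have hr1 : U / ρ ≤ 1 := by rw [div_le_one hρ]; exact hU
  have hL := Lw_nonneg q μ
  set dg : (Fin j → Fin q) → ℕ := fun s => ∑ m, (((s m : Fin q) : ℕ) + 1) with hdg
  have e1 : ∀ i, (∑ p : Fin q, c p * (nd q i * t) ^ ((p : ℕ) + 1)) ^ j =
      ∑ s : Fin j → Fin q, (∏ m, c (s m)) * (nd q i * t) ^ dg s := by
    intro i
    rw [Fintype.sum_pow]
    refine sum_congr rfl fun s _ => ?_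
    rw [Finset.prod_mul_distrib, Finset.prod_pow_eq_pow_sum]
  have e2 : ∑ i, μ i * (∑ p : Fin q, c p * (nd q i * t) ^ ((p : ℕ) + 1)) ^ j =
      ∑ s : Fin j → Fin q, (∏ m, c (s m)) * ∑ i, μ i * (nd q i * t) ^ dg s := by
    simp only [e1, Finset.mul_sum]
    rw [Finset.sum_comm]
    exact sum_congr rfl fun s _ => sum_congr rfl fun i _ => by ring
  rw [e2]
  refine (Finset.abs_sum_le_sum_abs _ _).trans ?_
  have hterm : ∀ s : Fin j → Fin q, |(∏ m, c (s m)) * ∑ i, μ i * (nd q i * t) ^ dg s| ≤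
      Lw q μ * (U / ρ) ^ (q + 1) * ∏ m, (|c (s m)| * ρ ^ (((s m : Fin q) : ℕ) + 1)) := by
    intro s
    rw [abs_mul, Finset.abs_prod, Finset.prod_mul_distrib, Finset.prod_pow_eq_pow_sum]
    have hc0 : 0 ≤ ∏ m, |c (s m)| := Finset.prod_nonneg fun _ _ => abs_nonneg _
    have hdj : j ≤ dg s := by
      have : ∑ _m : Fin j, 1 ≤ dg s := Finset.sum_le_sum fun m _ => by omega
      simpa using this
    by_cases hq : dg s ≤ q
    · rw [mu_low h (by omega) hq, abs_zero, mul_zero]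
      positivity
    · push Not at hq
      have h1 := mu_high q μ (dg s) ht
      rw [← hUd] at h1
      have h2 : U ^ dg s ≤ ρ ^ dg s * (U / ρ) ^ (q + 1) := by
        have e3 : U ^ dg s = ρ ^ dg s * (U / ρ) ^ dg s := by
          rw [← mul_pow, mul_div_cancel₀ _ hρ.ne']
        rw [e3]
        exact mul_le_mul_of_nonneg_left (pow_le_pow_of_le_one hr0 hr1 hq) (by positivity)
      calc (∏ m, |c (s m)|) * |∑ i, μ i * (nd q i * t) ^ dg s| ≤
          (∏ m, |c (s m)|) * (Lw q μ * (ρ ^ dg s * (U / ρ) ^ (q + 1))) :=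
            mul_le_mul_of_nonneg_left (h1.trans (mul_le_mul_of_nonneg_left h2 hL)) hc0
        _ = _ := by ring
  refine (Finset.sum_le_sum fun s _ => hterm s).trans ?_
  rw [← Finset.mul_sum]
  have e5 := Fintype.sum_pow (fun p : Fin q => |c p| * ρ ^ ((p : ℕ) + 1)) j
  rw [← e5]
  refine mul_le_mul_of_nonneg_left ?_ (by positivity)
  exact pow_le_pow_left₀ (Finset.sum_nonneg fun _ _ => by positivity) hK j

/-- linear term -/
lemma rich_lin (h : RW q μ) (c : Fin q → ℝ) (t : ℝ) (c1 : ℝ)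
    (hc : ∀ p : Fin q, (p : ℕ) = 0 → c p = c1) :
    ∑ i, μ i * (∑ p : Fin q, c p * (nd q i * t) ^ ((p : ℕ) + 1)) = c1 * t := by
  have hq := h.q1
  have e : ∑ i, μ i * (∑ p : Fin q, c p * (nd q i * t) ^ ((p : ℕ) + 1)) =
      ∑ p : Fin q, c p * ∑ i, μ i * (nd q i * t) ^ ((p : ℕ) + 1) := by
    simp only [Finset.mul_sum]
    rw [Finset.sum_comm]
    exact sum_congr rfl fun s _ => sum_congr rfl fun i _ => by ring
  rw [e, Finset.sum_eq_single (⟨0, hq⟩ : Fin q)]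
  · have h1 := mu_one h t
    rw [hc ⟨0, hq⟩ rfl]
    simp only [zero_add, pow_one]
    rw [h1]
  · intro p _ hp
    have hp0 : (p : ℕ) ≠ 0 := fun h0 => hp (Fin.ext h0)
    rw [mu_low h (by omega) (by omega), mul_zero]
  · intro h0
    exact absurd (Finset.mem_univ _) h0

/-- size of the polynomial -/
lemma poly_le {c : Fin q → ℝ} {ρ K u : ℝ} (hρ : 0 < ρ) (hu : 0 ≤ u) (huρ : u ≤ ρ)
    (hK : ∑ p : Fin q, |c p| * ρ ^ ((p : ℕ) + 1) ≤ K) :
    |∑ p : Fin q, c p * u ^ ((p : ℕ) + 1)| ≤ u / ρ * K := by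
  have hr0 : 0 ≤ u / ρ := by positivity
  have hr1 : u / ρ ≤ 1 := by rw [div_le_one hρ]; exact huρ
  refine (Finset.abs_sum_le_sum_abs _ _).trans ?_
  refine le_trans ?_ (mul_le_mul_of_nonneg_left hK hr0)
  rw [Finset.mul_sum]
  refine sum_le_sum fun p _ => ?_
  rw [abs_mul, abs_of_nonneg (by positivity : 0 ≤ u ^ ((p : ℕ) + 1))]
  have e3 : u ^ ((p : ℕ) + 1) = ρ ^ ((p : ℕ) + 1) * (u / ρ) ^ ((p : ℕ) + 1) := by
    rw [← mul_pow, mul_div_cancel₀ _ hρ.ne']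
  have h1 : (u / ρ) ^ ((p : ℕ) + 1) ≤ u / ρ := by
    have := pow_le_pow_of_le_one hr0 hr1 (by omega : 1 ≤ (p : ℕ) + 1)
    simpa using this
  rw [e3]
  have h2 : 0 ≤ |c p| * ρ ^ ((p : ℕ) + 1) := by positivity
  calc |c p| * (ρ ^ ((p : ℕ) + 1) * (u / ρ) ^ ((p : ℕ) + 1)) =
      |c p| * ρ ^ ((p : ℕ) + 1) * (u / ρ) ^ ((p : ℕ) + 1) := by ring
    _ ≤ |c p| * ρ ^ ((p : ℕ) + 1) * (u / ρ) := mul_le_mul_of_nonneg_left h1 h2
    _ = _ := by ring

/-- geometric expansion -/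
lemma geo_frac {ν F : ℝ} (hν : 0 < ν) (hF : |F| ≤ ν / 2) (q : ℕ) :
    |ν * F / (ν - F) - ∑ j ∈ range q, F ^ (j + 1) / ν ^ j| ≤ 2 * ν * (|F| / ν) ^ (q + 1) := by
  obtain ⟨h1, h2⟩ := abs_le.1 hF
  have hd : 0 < ν - F := by linarith
  have e0 : ∀ m : ℕ, ν * F / (ν - F) - ∑ j ∈ range m, F ^ (j + 1) / ν ^ j =
      F ^ (m + 1) / ν ^ m * (ν / (ν - F)) := by
    intro m
    induction m with
    | zero => simp; field_simp
    | succ m ih =>
      rw [Finset.sum_range_succ, ← sub_sub, ih]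
      field_simp
      ring
  rw [e0, abs_mul, abs_div, abs_pow, abs_of_pos (by positivity : 0 < ν ^ q),
    abs_of_pos (by positivity : 0 < ν / (ν - F))]
  have h3 : ν / (ν - F) ≤ 2 := by
    rw [div_le_iff₀ hd]; linarith
  have h4 : |F| ^ (q + 1) / ν ^ q = ν * (|F| / ν) ^ (q + 1) := by
    rw [div_pow, pow_succ ν q]
    field_simp
  rw [h4]
  have h5 : 0 ≤ ν * (|F| / ν) ^ (q + 1) := by positivity
  have := mul_le_mul_of_nonneg_left h3 h5
  linarith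

/-- **Richardson sum of `ν F/(ν - F)`** -/
theorem rich_frac (h : RW q μ) {c : Fin q → ℝ} {c1 t ρ ν B : ℝ} (ht : 0 ≤ t)
    (hρ : 0 < ρ) (hν : 0 < ν) (hB : 1 ≤ B) (hU : B * (((q : ℝ) + 1) ^ 2 * t) ≤ ρ / 2)
    (hc : ∀ p : Fin q, (p : ℕ) = 0 → c p = c1)
    (hK : ∑ p : Fin q, |c p| * ρ ^ ((p : ℕ) + 1) ≤ B * ν) :
    |∑ i, μ i * (ν * (∑ p : Fin q, c p * (nd q i * t) ^ ((p : ℕ) + 1)) /
      (ν - ∑ p : Fin q, c p * (nd q i * t) ^ ((p : ℕ) + 1))) - c1 * t| ≤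
      ((q : ℝ) + 1) * Lw q μ * ν * (B * (((q : ℝ) + 1) ^ 2 * t) / ρ) ^ (q + 1) := by
  set U := ((q : ℝ) + 1) ^ 2 * t with hUd
  have hU0 : 0 ≤ U := by positivity
  have hUρ : U ≤ ρ := by nlinarith
  have hL := Lw_nonneg q μ
  set F : Fin (q + 1) → ℝ := fun i => ∑ p : Fin q, c p * (nd q i * t) ^ ((p : ℕ) + 1) with hFd
  have hnd : ∀ i, 0 ≤ nd q i * t ∧ nd q i * t ≤ U := fun i =>
    ⟨by have := nd_ge q i; positivity, mul_le_mul_of_nonneg_right (nd_le q i) ht⟩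
  have hF : ∀ i, |F i| ≤ U / ρ * (B * ν) := by
    intro i
    obtain ⟨a1, a2⟩ := hnd i
    refine (poly_le hρ a1 (a2.trans hUρ) hK).trans ?_
    exact mul_le_mul_of_nonneg_right (div_le_div_of_nonneg_right a2 hρ.le) (by positivity)
  have hx : U / ρ * (B * ν) = B * U / ρ * ν := by ring
  have hx2 : B * U / ρ ≤ 1 / 2 := by
    rw [div_le_iff₀ hρ]; linarith
  have hF2 : ∀ i, |F i| ≤ ν / 2 := by
    intro i
    refine (hF i).trans ?_
    rw [hx]
    have := mul_le_mul_of_nonneg_right hx2 hν.le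
    linarith
  have hy : ∀ i, |F i| / ν ≤ B * U / ρ := by
    intro i
    rw [div_le_iff₀ hν]
    have := hF i
    rwa [hx] at this
  -- decomposition
  have hq := h.q1
  have e1 : ∑ i, μ i * (ν * F i / (ν - F i)) - c1 * t =
      ∑ i, μ i * (ν * F i / (ν - F i) - ∑ j ∈ range q, F i ^ (j + 1) / ν ^ j) +
      ∑ j ∈ Finset.Ico 1 q, (∑ i, μ i * F i ^ (j + 1)) / ν ^ j := by
    have e2 : ∑ i, μ i * F i = c1 * t := rich_lin h c t c1 hc
    have e3 : ∑ i, μ i * ∑ j ∈ range q, F i ^ (j + 1) / ν ^ j =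
        ∑ j ∈ range q, (∑ i, μ i * F i ^ (j + 1)) / ν ^ j := by
      simp only [Finset.mul_sum, Finset.sum_div]
      rw [Finset.sum_comm]
      exact sum_congr rfl fun j _ => sum_congr rfl fun i _ => by ring
    have e4 : ∑ j ∈ range q, (∑ i, μ i * F i ^ (j + 1)) / ν ^ j =
        c1 * t + ∑ j ∈ Finset.Ico 1 q, (∑ i, μ i * F i ^ (j + 1)) / ν ^ j := by
      rw [Finset.range_eq_Ico, Finset.sum_eq_sum_Ico_succ_bot (by omega : 0 < q)]
      simp only [zero_add, pow_one, pow_zero, div_one]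
      rw [e2]
    have e5 : ∑ i, μ i * (ν * F i / (ν - F i) - ∑ j ∈ range q, F i ^ (j + 1) / ν ^ j) =
        ∑ i, μ i * (ν * F i / (ν - F i)) -
          ∑ i, μ i * ∑ j ∈ range q, F i ^ (j + 1) / ν ^ j := by
      rw [← Finset.sum_sub_distrib]
      exact sum_congr rfl fun i _ => by ring
    rw [e5, e3, e4]
    ring
  rw [e1]
  set X := B * U / ρ with hX
  have hX0 : 0 ≤ X := by positivity
  have b1 : |∑ i, μ i * (ν * F i / (ν - F i) - ∑ j ∈ range q, F i ^ (j + 1) / ν ^ j)| ≤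
      Lw q μ * (2 * ν * X ^ (q + 1)) := by
    refine (Finset.abs_sum_le_sum_abs _ _).trans ?_
    unfold Lw
    rw [Finset.sum_mul]
    refine sum_le_sum fun i _ => ?_
    rw [abs_mul]
    refine mul_le_mul_of_nonneg_left ?_ (abs_nonneg _)
    refine (geo_frac hν (hF2 i) q).trans ?_
    refine mul_le_mul_of_nonneg_left ?_ (by positivity)
    exact pow_le_pow_left₀ (by positivity) (hy i) _
  have b2 : |∑ j ∈ Finset.Ico 1 q, (∑ i, μ i * F i ^ (j + 1)) / ν ^ j| ≤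
      ((q : ℝ) - 1) * (Lw q μ * ν * X ^ (q + 1)) := by
    refine (Finset.abs_sum_le_sum_abs _ _).trans ?_
    have h3 : ∀ j ∈ Finset.Ico 1 q, |(∑ i, μ i * F i ^ (j + 1)) / ν ^ j| ≤
        Lw q μ * ν * X ^ (q + 1) := by
      intro j hj
      rw [Finset.mem_Ico] at hj
      have h4 := rich_pow h (by omega : 2 ≤ j + 1) ht hρ hUρ hK
      rw [abs_div, abs_of_pos (by positivity : 0 < ν ^ j), div_le_iff₀ (by positivity)]
      refine h4.trans ?_
      have h5 : X ^ (q + 1) = (U / ρ) ^ (q + 1) * B ^ (q + 1) := by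
        rw [hX, ← mul_pow]
        congr 1
        ring
      rw [h5, mul_pow]
      have h6 : B ^ (j + 1) ≤ B ^ (q + 1) := pow_le_pow_right₀ hB (by omega)
      have h7 : 0 ≤ Lw q μ * (U / ρ) ^ (q + 1) * ν ^ (j + 1) := by positivity
      calc Lw q μ * (U / ρ) ^ (q + 1) * (B ^ (j + 1) * ν ^ (j + 1)) =
          Lw q μ * (U / ρ) ^ (q + 1) * ν ^ (j + 1) * B ^ (j + 1) := by ring
        _ ≤ Lw q μ * (U / ρ) ^ (q + 1) * ν ^ (j + 1) * B ^ (q + 1) :=
          mul_le_mul_of_nonneg_left h6 h7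
        _ = _ := by ring
    refine (Finset.sum_le_sum h3).trans (le_of_eq ?_)
    rw [Finset.sum_const, Nat.card_Ico, nsmul_eq_mul, Nat.cast_sub hq]
    push_cast
    ring
  refine (abs_add_le _ _).trans ((add_le_add b1 b2).trans (le_of_eq ?_))
  ring

end

end Vale.Agent.P159.H813
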