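import Vale.Agent.P159.H813.Sq11

/-!
P159 (helper813): (EXT0), part 2: Richardson sums of `ν ŵ/(ν - ŵ)` for a kernel `w` on a torus, from its
even moments.
-/

namespace Vale.Agent.P159.H813

open Finset
open Vale.Agent.P159.TM.Spec (V)
open Vale.Agent.P159.TM.H764 (cN dt)
open Vale.Agent.P159.H114 (RW nd nd_ge ax jm pS KK)

noncomputable section

/-! ### Taylor expansion of the cosine -/

/-- Taylor polynomials -/
def cT (m : ℕ) (x : ℝ) : ℝ := ∑ p ∈ range m, (-1) ^ p * x ^ (2 * p) / ((2 * p).factorial : ℝ)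

def sT (m : ℕ) (x : ℝ) : ℝ := ∑ p ∈ range m, (-1) ^ p * x ^ (2 * p + 1) / ((2 * p + 1).factorial : ℝ)

lemma hasDerivAt_sT (m : ℕ) (x : ℝ) : HasDerivAt (sT m) (cT m x) x := by
  unfold sT cT
  refine HasDerivAt.fun_sum fun p _ => ?_
  have h := ((hasDerivAt_pow (2 * p + 1) x).const_mul ((-1 : ℝ) ^ p)).div_const
    ((2 * p + 1).factorial : ℝ)
  refine h.congr_deriv ?_
  rw [Nat.factorial_succ]
  have h1 : ((2 * p).factorial : ℝ) ≠ 0 := by exact_mod_cast Nat.factorial_ne_zero _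
  have h2 : ((2 * p + 1 : ℕ) : ℝ) ≠ 0 := by positivity
  rw [Nat.add_sub_cancel]
  push_cast at h2 ⊢
  field_simp

lemma hasDerivAt_cT (m : ℕ) (x : ℝ) : HasDerivAt (cT (m + 1)) (-sT m x) x := by
  have e : cT (m + 1) = fun x : ℝ => (∑ p ∈ range m, (-1) ^ (p + 1) * x ^ (2 * (p + 1)) /
      ((2 * (p + 1)).factorial : ℝ)) + 1 := by
    funext x
    unfold cT
    rw [Finset.sum_range_succ']
    simp
  rw [e]
  have e2 : -sT m x = ∑ p ∈ range m, (-1) ^ (p + 1) * x ^ (2 * p + 1) /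
      ((2 * p + 1).factorial : ℝ) := by
    unfold sT
    rw [← Finset.sum_neg_distrib]
    refine sum_congr rfl fun p _ => ?_
    rw [pow_succ]
    ring
  rw [e2]
  refine HasDerivAt.add_const 1 (HasDerivAt.fun_sum fun p _ => ?_)
  have h := ((hasDerivAt_pow (2 * (p + 1)) x).const_mul ((-1 : ℝ) ^ (p + 1))).div_const
    ((2 * (p + 1)).factorial : ℝ)
  refine h.congr_deriv ?_
  have e3 : 2 * (p + 1) = 2 * p + 1 + 1 := by ring
  rw [e3, Nat.factorial_succ (2 * p + 1), Nat.add_sub_cancel]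
  have h1 : ((2 * p + 1).factorial : ℝ) ≠ 0 := by exact_mod_cast Nat.factorial_ne_zero _
  have h2 : ((2 * p + 1 + 1 : ℕ) : ℝ) ≠ 0 := by positivity
  push_cast at h2 ⊢
  field_simp

lemma step_bd {g g' : ℝ → ℝ} (h0 : g 0 = 0) (hg : ∀ x, HasDerivAt g (g' x) x) {n : ℕ}
    (h : ∀ x, 0 ≤ x → |g' x| ≤ x ^ n / (n.factorial : ℝ)) {x : ℝ} (hx : 0 ≤ x) :
    |g x| ≤ x ^ (n + 1) / ((n + 1).factorial : ℝ) := by
  have hB : ∀ y : ℝ, HasDerivAt (fun y : ℝ => y ^ (n + 1) / ((n + 1).factorial : ℝ))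
      (y ^ n / (n.factorial : ℝ)) y := by
    intro y
    have h := (hasDerivAt_pow (n + 1) y).div_const ((n + 1).factorial : ℝ)
    refine h.congr_deriv ?_
    rw [Nat.factorial_succ, Nat.add_sub_cancel]
    have h1 : (n.factorial : ℝ) ≠ 0 := by exact_mod_cast Nat.factorial_ne_zero _
    have h2 : ((n + 1 : ℕ) : ℝ) ≠ 0 := by positivity
    push_cast at h2 ⊢
    field_simp
  have h1 := image_norm_le_of_norm_deriv_right_le_deriv_boundary (f := g) (f' := g') (a := 0)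
    (b := x) (fun y _ => (hg y).continuousAt.continuousWithinAt)
    (fun y _ => (hg y).hasDerivWithinAt)
    (B := fun y : ℝ => y ^ (n + 1) / ((n + 1).factorial : ℝ))
    (B' := fun y : ℝ => y ^ n / (n.factorial : ℝ)) (by rw [h0]; simp) hB
    (fun y hy => h y hy.1)
  exact h1 ⟨hx, le_refl x⟩

lemma taylor_pair (m : ℕ) : (∀ x : ℝ, 0 ≤ x → |Real.cos x - cT m x| ≤
      x ^ (2 * m) / ((2 * m).factorial : ℝ)) ∧
    (∀ x : ℝ, 0 ≤ x → |Real.sin x - sT m x| ≤ x ^ (2 * m + 1) / ((2 * m + 1).factorial : ℝ)) := by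
  induction m with
  | zero =>
    refine ⟨fun x _ => ?_, fun x hx => ?_⟩
    · unfold cT
      simpa using Real.abs_cos_le_one x
    · unfold sT
      simp only [range_zero, sum_empty, sub_zero, mul_zero, zero_add, pow_one, Nat.factorial_one,
        Nat.cast_one, div_one]
      exact (Real.abs_sin_le_abs).trans (le_of_eq (abs_of_nonneg hx))
  | succ m ih =>
    have hc : ∀ x : ℝ, 0 ≤ x → |Real.cos x - cT (m + 1) x| ≤
        x ^ (2 * (m + 1)) / ((2 * (m + 1)).factorial : ℝ) := by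
      intro x hx
      refine step_bd (g := fun x => Real.cos x - cT (m + 1) x)
        (g' := fun x => -(Real.sin x - sT m x)) ?_ ?_ (n := 2 * m + 1) ?_ hx
      · unfold cT
        rw [Finset.sum_range_succ']
        simp
      · intro y
        have h := (Real.hasDerivAt_cos y).sub (hasDerivAt_cT m y)
        refine h.congr_deriv ?_
        ring
      · intro y hy
        rw [abs_neg]
        exact ih.2 y hy
    refine ⟨hc, fun x hx => ?_⟩
    refine step_bd (g := fun x => Real.sin x - sT (m + 1) x)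
      (g' := fun x => Real.cos x - cT (m + 1) x) ?_ ?_ (n := 2 * (m + 1)) hc hx
    · unfold sT
      simp
    · intro y
      exact (Real.hasDerivAt_sin y).sub (hasDerivAt_sT (m + 1) y)

/-- **Taylor expansion of the cosine** -/
theorem cos_taylor (m : ℕ) (x : ℝ) :
    |Real.cos x - cT m x| ≤ |x| ^ (2 * m) / ((2 * m).factorial : ℝ) := by
  have h := (taylor_pair m).1 |x| (abs_nonneg x)
  have e : cT m |x| = cT m x := by
    unfold cT
    refine sum_congr rfl fun p _ => ?_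
    rw [(even_two_mul p).pow_abs]
  rwa [Real.cos_abs, e] at h

/-! ### perturbation -/

/-- `ν f/(ν - f)` -/
def xf (ν f : ℝ) : ℝ := ν * f / (ν - f)

lemma xf_sub {ν F r : ℝ} (hν : 0 < ν) (hF : |F| ≤ ν / 2) (hr : |r| ≤ ν / 4) :
    |xf ν (F + r) - xf ν F| ≤ 8 * |r| := by
  obtain ⟨a1, a2⟩ := abs_le.1 hF
  obtain ⟨b1, b2⟩ := abs_le.1 hr
  have h1 : ν / 4 ≤ ν - (F + r) := by linarith
  have h2 : ν / 2 ≤ ν - F := by linarith
  have p1 : 0 < ν - (F + r) := by linarith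
  have p2 : 0 < ν - F := by linarith
  have e : xf ν (F + r) - xf ν F = r * (ν / (ν - (F + r)) * (ν / (ν - F))) := by
    unfold xf
    field_simp
    ring
  rw [e, abs_mul, abs_of_pos (by positivity : 0 < ν / (ν - (F + r)) * (ν / (ν - F)))]
  have c1 : ν / (ν - (F + r)) ≤ 4 := by rw [div_le_iff₀ p1]; linarith
  have c2 : ν / (ν - F) ≤ 2 := by rw [div_le_iff₀ p2]; linarith
  have c3 : ν / (ν - (F + r)) * (ν / (ν - F)) ≤ 4 * 2 :=
    mul_le_mul c1 c2 (by positivity) (by norm_num)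
  calc |r| * (ν / (ν - (F + r)) * (ν / (ν - F))) ≤ |r| * (4 * 2) :=
        mul_le_mul_of_nonneg_left c3 (abs_nonneg r)
    _ = 8 * |r| := by ring

/-! ### kernels -/

section kernel

variable {n : ℕ} [NeZero n]

/-- the transform -/
def wt (w : V n → ℝ) (k : V n) : ℝ := ∑ z, w z * cN (dt k z)

/-- even moments -/
def mo (w : V n → ℝ) (p : ℕ) : ℝ := ∑ z : V n, (z.1.valMinAbs : ℝ) ^ (2 * p) * w z

lemma cN_jm (i : ℕ) (z : V n) : cN (dt (ax (jm n i)) z) =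
    Real.cos (((i : ℝ) + 1) * (2 * Real.pi / n) * (z.1.valMinAbs : ℝ)) := by
  rw [H114.dt_ax]
  have h1 : jm n i * z.1 = (((i + 1 : ℕ) * z.1.valMinAbs : ℤ) : ZMod n) := by
    unfold H114.jm
    rw [Int.cast_mul, ZMod.coe_valMinAbs]
    push_cast
    ring
  rw [h1, TM.H764.cN_int]
  congr 1
  push_cast
  ring

/-- the coefficients -/
def cf (q : ℕ) (w : V n → ℝ) (p : Fin q) : ℝ :=
  (-1) ^ ((p : ℕ) + 1) * mo w ((p : ℕ) + 1) / ((2 * ((p : ℕ) + 1)).factorial : ℝ)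

lemma wt_cT {w : V n → ℝ} (h1 : ∑ z, w z = 0) (q : ℕ) (i : Fin (q + 1)) :
    ∑ z, w z * cT (q + 1) (((i : ℕ) + 1 : ℝ) * (2 * Real.pi / n) * (z.1.valMinAbs : ℝ)) =
      ∑ p : Fin q, cf q w p * (nd q i * (2 * Real.pi / n) ^ 2) ^ ((p : ℕ) + 1) := by
  unfold cT
  have e1 : ∀ z : V n, w z * ∑ p ∈ range (q + 1), (-1) ^ p * (((i : ℕ) + 1 : ℝ) *
      (2 * Real.pi / n) * (z.1.valMinAbs : ℝ)) ^ (2 * p) / ((2 * p).factorial : ℝ) =
      ∑ p ∈ range q, (-1) ^ (p + 1) * (nd q i * (2 * Real.pi / n) ^ 2) ^ (p + 1) /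
        ((2 * (p + 1)).factorial : ℝ) * ((z.1.valMinAbs : ℝ) ^ (2 * (p + 1)) * w z) + w z := by
    intro z
    rw [Finset.sum_range_succ', mul_add, Finset.mul_sum]
    simp only [pow_zero, mul_zero, Nat.factorial_zero, Nat.cast_one, div_one, mul_one]
    congr 1
    refine sum_congr rfl fun p _ => ?_
    have e2 : (((i : ℕ) + 1 : ℝ) * (2 * Real.pi / n) * (z.1.valMinAbs : ℝ)) ^ (2 * (p + 1)) =
        (nd q i * (2 * Real.pi / n) ^ 2) ^ (p + 1) * (z.1.valMinAbs : ℝ) ^ (2 * (p + 1)) := by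
      rw [mul_pow, pow_mul (((i : ℕ) + 1 : ℝ) * (2 * Real.pi / n)), mul_pow]
      rfl
    rw [e2]
    ring
  rw [sum_congr rfl fun z _ => e1 z, Finset.sum_add_distrib, h1, add_zero, Finset.sum_comm,
    Finset.sum_range]
  refine sum_congr rfl fun p _ => ?_
  rw [← Finset.mul_sum]
  unfold cf mo
  ring

/-- the transform at the modes of the axis -/
lemma wt_jm {w : V n → ℝ} (h1 : ∑ z, w z = 0) {q : ℕ} {M : ℝ}
    (h3 : ∑ z : V n, (z.1.valMinAbs : ℝ) ^ (2 * (q + 1)) * |w z| ≤ M) (i : Fin (q + 1)) :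
    |wt w (ax (jm n i)) - ∑ p : Fin q, cf q w p *
      (nd q i * (2 * Real.pi / n) ^ 2) ^ ((p : ℕ) + 1)| ≤
      (((q : ℝ) + 1) ^ 2 * (2 * Real.pi / n) ^ 2) ^ (q + 1) * M /
        ((2 * (q + 1)).factorial : ℝ) := by
  rw [← wt_cT h1 q i]
  unfold wt
  rw [← Finset.sum_sub_distrib]
  refine (Finset.abs_sum_le_sum_abs _ _).trans ?_
  have hf : (0 : ℝ) < ((2 * (q + 1)).factorial : ℝ) := by exact_mod_cast Nat.factorial_pos _
  set U := ((q : ℝ) + 1) ^ 2 * (2 * Real.pi / n) ^ 2 with hU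
  have hU0 : 0 ≤ U := by positivity
  have h4 : ∀ z : V n, |w z * cN (dt (ax (jm n i)) z) - w z * cT (q + 1)
      (((i : ℕ) + 1 : ℝ) * (2 * Real.pi / n) * (z.1.valMinAbs : ℝ))| ≤
      U ^ (q + 1) / ((2 * (q + 1)).factorial : ℝ) *
        ((z.1.valMinAbs : ℝ) ^ (2 * (q + 1)) * |w z|) := by
    intro z
    rw [← mul_sub, abs_mul, cN_jm]
    have h5 := cos_taylor (q + 1)
      (((i : ℕ) + 1 : ℝ) * (2 * Real.pi / n) * (z.1.valMinAbs : ℝ))
    have h6 : |((i : ℕ) + 1 : ℝ) * (2 * Real.pi / n) * (z.1.valMinAbs : ℝ)| ^ (2 * (q + 1)) ≤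
        U ^ (q + 1) * (z.1.valMinAbs : ℝ) ^ (2 * (q + 1)) := by
      rw [(even_two_mul (q + 1)).pow_abs, mul_pow]
      have h8 : 0 ≤ (z.1.valMinAbs : ℝ) ^ (2 * (q + 1)) := (even_two_mul (q + 1)).pow_nonneg _
      refine mul_le_mul_of_nonneg_right ?_ h8
      rw [pow_mul, hU]
      refine pow_le_pow_left₀ (by positivity) ?_ _
      rw [mul_pow]
      refine mul_le_mul_of_nonneg_right ?_ (by positivity)
      exact nd_le q i
    refine (mul_le_mul_of_nonneg_left h5 (abs_nonneg _)).trans ?_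
    refine (mul_le_mul_of_nonneg_left (div_le_div_of_nonneg_right h6 hf.le)
      (abs_nonneg _)).trans (le_of_eq ?_)
    ring
  refine (sum_le_sum fun z _ => h4 z).trans ?_
  rw [← Finset.mul_sum]
  refine (mul_le_mul_of_nonneg_left h3 (by positivity)).trans (le_of_eq ?_)
  ring

/-- size of the coefficients -/
lemma cf_le {w : V n → ℝ} {q : ℕ} {B ν D : ℝ} (hBν : 0 ≤ B * ν) (hD : 0 < D)
    (h2 : ∀ p, 1 ≤ p → p ≤ q → |mo w p| ≤ B * ν * D ^ (2 * p)) :
    ∑ p : Fin q, |cf q w p| * ((D ^ 2)⁻¹) ^ ((p : ℕ) + 1) ≤ B * ν := by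
  have h3 : ∀ p : Fin q, |cf q w p| * ((D ^ 2)⁻¹) ^ ((p : ℕ) + 1) ≤
      B * ν * (1 / 2 : ℝ) ^ ((p : ℕ) + 1) := by
    intro p
    have h4 := h2 ((p : ℕ) + 1) (by omega) (by omega)
    have hf : (0 : ℝ) < ((2 * ((p : ℕ) + 1)).factorial : ℝ) := by
      exact_mod_cast Nat.factorial_pos _
    unfold cf
    rw [abs_div, abs_mul, abs_pow, abs_neg, abs_one, one_pow, one_mul, abs_of_pos hf]
    have h5 : ((2 : ℝ)) ^ ((p : ℕ) + 1) ≤ ((2 * ((p : ℕ) + 1)).factorial : ℝ) := by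
      have h6 := Nat.two_pow_mul_factorial_le_factorial_two_mul ((p : ℕ) + 1)
      have h7 : 1 ≤ ((p : ℕ) + 1).factorial := Nat.factorial_pos _
      have h8 : 2 ^ ((p : ℕ) + 1) ≤ (2 * ((p : ℕ) + 1)).factorial :=
        le_trans (Nat.le_mul_of_pos_right _ h7) h6
      exact_mod_cast h8
    have hDp : 0 < D ^ (2 * ((p : ℕ) + 1)) := by positivity
    have h9 : ((D ^ 2)⁻¹) ^ ((p : ℕ) + 1) = (D ^ (2 * ((p : ℕ) + 1)))⁻¹ := by
      rw [inv_pow, ← pow_mul]
    rw [h9, one_div, inv_pow]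
    calc |mo w ((p : ℕ) + 1)| / ((2 * ((p : ℕ) + 1)).factorial : ℝ) *
          (D ^ (2 * ((p : ℕ) + 1)))⁻¹ ≤
          B * ν * D ^ (2 * ((p : ℕ) + 1)) / ((2 * ((p : ℕ) + 1)).factorial : ℝ) *
          (D ^ (2 * ((p : ℕ) + 1)))⁻¹ := by gcongr
      _ = B * ν * (((2 * ((p : ℕ) + 1)).factorial : ℝ))⁻¹ := by
          field_simp
      _ ≤ _ := by
          refine mul_le_mul_of_nonneg_left ?_ hBν
          exact inv_anti₀ (by positivity) h5
  refine (sum_le_sum fun p _ => h3 p).trans ?_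
  rw [← Finset.mul_sum]
  have h4 : ∑ p : Fin q, (1 / 2 : ℝ) ^ ((p : ℕ) + 1) ≤ 1 := by
    rw [← Finset.sum_range (fun p => (1 / 2 : ℝ) ^ (p + 1))]
    have h5 : ∀ m : ℕ, ∑ p ∈ range m, (1 / 2 : ℝ) ^ (p + 1) = 1 - (1 / 2 : ℝ) ^ m := by
      intro m
      induction m with
      | zero => simp
      | succ m ih =>
        rw [Finset.sum_range_succ, ih, pow_succ]
        ring
    rw [h5]
    have : (0 : ℝ) ≤ (1 / 2 : ℝ) ^ q := by positivity
    linarith
  have := mul_le_mul_of_nonneg_left h4 hBν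
  linarith

/-- error of the extrapolation -/
def eX (q : ℕ) (μ : Fin (q + 1) → ℝ) (n : ℕ) (ν B D M : ℝ) : ℝ :=
  (((q : ℝ) + 1) * Lw q μ * ν * (B * (((q : ℝ) + 1) * D * (2 * Real.pi / n)) ^ 2) ^ (q + 1) +
    8 * Lw q μ * ν * (M * (((q : ℝ) + 1) * (2 * Real.pi / n)) ^ (2 * (q + 1)) /
      ((2 * (q + 1)).factorial : ℝ))) / (2 * Real.pi / n) ^ 2

/-- **the extrapolation of a kernel** -/
theorem ext_ker {q : ℕ} {μ : Fin (q + 1) → ℝ} (h : RW q μ) {w : V n → ℝ} {ν B D M : ℝ}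
    (hν : 0 < ν) (hB : 1 ≤ B) (hD : 0 < D) (h1 : ∑ z, w z = 0)
    (h2 : ∀ p, 1 ≤ p → p ≤ q → |mo w p| ≤ B * ν * D ^ (2 * p))
    (h3 : ∑ z : V n, (z.1.valMinAbs : ℝ) ^ (2 * (q + 1)) * |w z| ≤ ν * M)
    (s1 : B * (((q : ℝ) + 1) * D * (2 * Real.pi / n)) ^ 2 ≤ 1 / 2)
    (s2 : M * (((q : ℝ) + 1) * (2 * Real.pi / n)) ^ (2 * (q + 1)) /
      ((2 * (q + 1)).factorial : ℝ) ≤ 1 / 4) :
    (∀ i : Fin (q + 1), |wt w (ax (jm n i))| ≤ 3 / 4 * ν) ∧
    |pS q μ n (fun k => xf ν (wt w k)) - (-(1 / 2) * mo w 1)| ≤ eX q μ n ν B D M := by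
  have hn : (0 : ℝ) < n := by exact_mod_cast NeZero.pos n
  have hpi := Real.pi_pos
  set θ := 2 * Real.pi / (n : ℝ) with hθ
  have hθ0 : 0 < θ := by positivity
  have hf : (0 : ℝ) < ((2 * (q + 1)).factorial : ℝ) := by exact_mod_cast Nat.factorial_pos _
  have hL := Lw_nonneg q μ
  set U := ((q : ℝ) + 1) ^ 2 * θ ^ 2 with hU
  have hU0 : 0 ≤ U := by positivity
  set F : Fin (q + 1) → ℝ := fun i => ∑ p : Fin q, cf q w p * (nd q i * θ ^ 2) ^ ((p : ℕ) + 1)
    with hF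
  have hM : 0 ≤ ν * M := le_trans (sum_nonneg fun z _ =>
    mul_nonneg ((even_two_mul (q + 1)).pow_nonneg _) (abs_nonneg _)) h3
  have hM0 : 0 ≤ M := nonneg_of_mul_nonneg_right hM hν
  have hr := fun i => wt_jm h1 h3 i
  simp only [← hθ, ← hU] at hr
  have eM : U ^ (q + 1) * (ν * M) / ((2 * (q + 1)).factorial : ℝ) =
      ν * (M * (((q : ℝ) + 1) * θ) ^ (2 * (q + 1)) / ((2 * (q + 1)).factorial : ℝ)) := by
    have : U ^ (q + 1) = (((q : ℝ) + 1) * θ) ^ (2 * (q + 1)) := by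
      rw [hU, ← mul_pow, ← pow_mul]
    rw [this]
    ring
  rw [eM] at hr
  set E := M * (((q : ℝ) + 1) * θ) ^ (2 * (q + 1)) / ((2 * (q + 1)).factorial : ℝ) with hE
  have hE0 : 0 ≤ E := by positivity
  have hr4 : ∀ i : Fin (q + 1), |wt w (ax (jm n i)) - F i| ≤ ν / 4 := by
    intro i
    refine (hr i).trans ?_
    have := mul_le_mul_of_nonneg_left s2 hν.le
    linarith
  have hK := cf_le (w := w) (q := q) (B := B) (ν := ν) (by positivity) hD h2
  have hρ : 0 < (D ^ 2)⁻¹ := by positivity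
  have eU : B * (((q : ℝ) + 1) * D * θ) ^ 2 = B * U / (D ^ 2)⁻¹ := by
    rw [hU, div_inv_eq_mul]
    ring
  rw [eU] at s1
  have s1' : B * U ≤ (D ^ 2)⁻¹ / 2 := by
    rw [div_le_iff₀ hρ] at s1
    linarith
  have hUρ : U ≤ (D ^ 2)⁻¹ := by nlinarith
  have hF2 : ∀ i, |F i| ≤ ν / 2 := by
    intro i
    have hnd := nd_ge q i
    have hu0 : 0 ≤ nd q i * θ ^ 2 := by positivity
    have hu1 : nd q i * θ ^ 2 ≤ U := mul_le_mul_of_nonneg_right (nd_le q i) (by positivity)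
    refine (poly_le hρ hu0 (hu1.trans hUρ) hK).trans ?_
    have h5 : nd q i * θ ^ 2 / (D ^ 2)⁻¹ * (B * ν) ≤ U / (D ^ 2)⁻¹ * (B * ν) :=
      mul_le_mul_of_nonneg_right (div_le_div_of_nonneg_right hu1 hρ.le) (by positivity)
    refine h5.trans ?_
    have h6 : U / (D ^ 2)⁻¹ * (B * ν) = B * U / (D ^ 2)⁻¹ * ν := by ring
    rw [h6]
    have := mul_le_mul_of_nonneg_right s1 hν.le
    linarith
  refine ⟨fun i => ?_, ?_⟩
  · have a1 := abs_add_le (wt w (ax (jm n i)) - F i) (F i)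
    rw [sub_add_cancel] at a1
    have a2 := hr4 i
    have a3 := hF2 i
    linarith
  · have b1 := rich_frac h (c := cf q w) (c1 := -(1 / 2) * mo w 1) (t := θ ^ 2)
      (ρ := (D ^ 2)⁻¹) (ν := ν) (B := B) (by positivity) hρ hν hB
      (by rw [← hU]; exact s1') ?_ hK
    · have b2 : |∑ i, μ i * xf ν (wt w (ax (jm n i))) - ∑ i, μ i * xf ν (F i)| ≤
          Lw q μ * (8 * (ν * E)) := by
        rw [← Finset.sum_sub_distrib]
        refine (Finset.abs_sum_le_sum_abs _ _).trans ?_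
        unfold Lw
        rw [Finset.sum_mul]
        refine sum_le_sum fun i _ => ?_
        rw [← mul_sub, abs_mul]
        refine mul_le_mul_of_nonneg_left ?_ (abs_nonneg _)
        have h5 := xf_sub hν (hF2 i) (hr4 i)
        rw [add_sub_cancel] at h5
        exact h5.trans (mul_le_mul_of_nonneg_left (hr i) (by norm_num))
      have e1 : pS q μ n (fun k => xf ν (wt w k)) - (-(1 / 2) * mo w 1) =
          ((∑ i, μ i * xf ν (wt w (ax (jm n i))) - ∑ i, μ i * xf ν (F i)) +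
            (∑ i, μ i * xf ν (F i) - -(1 / 2) * mo w 1 * θ ^ 2)) / θ ^ 2 := by
        unfold H114.pS H114.KK
        have e2 : (2 * Real.pi * ((1 : ℕ) : ℝ) / (n : ℝ)) = θ := by
          rw [hθ, Nat.cast_one, mul_one]
        rw [e2]
        field_simp
        ring
      rw [e1, abs_div, abs_of_pos (by positivity : 0 < θ ^ 2)]
      unfold eX
      rw [← hθ, ← hE]
      refine div_le_div_of_nonneg_right ?_ (by positivity)
      refine (abs_add_le _ _).trans ?_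
      have b3 : |∑ i, μ i * xf ν (F i) - -(1 / 2) * mo w 1 * θ ^ 2| ≤
          ((q : ℝ) + 1) * Lw q μ * ν * (B * (((q : ℝ) + 1) * D * θ) ^ 2) ^ (q + 1) := by
        rw [eU, hU]
        exact b1
      linarith
    · intro p hp
      unfold cf
      rw [hp]
      simp only [zero_add, pow_one, mul_one, Nat.factorial_two, Nat.cast_ofNat]
      ring

end kernel

end

end Vale.Agent.P159.H813
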