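import Vale.Agent.P159.H813.Sq10
import Vale.Agent.P159.H813.Sq12
import Vale.Agent.P159.H462.Q2b

/-!
P159 (helper813): **(EXT0)**: the Richardson slope of the value `xqk` of the letter `V0` is the sharp
letter `aq`, from the even moments of helper462's kernel `qz`.
-/

namespace Vale.Agent.P159.H813

open Finset Filter Topology
open Vale.Agent.P159.TM.Spec (V)
open Vale.Agent.P159.TM.H764 (cN dt)
open Vale.Agent.P159.H114 (RW nd nd_ge ax jm pS KK)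
open Vale.Agent.P159.H363 (Nf acl)
open Vale.Agent.P159.H462 (qz qK aq)
open Vale.Agent.P159.H896 (kap)

noncomputable section

set_option linter.unusedSectionVars false

variable {N l : ℕ} [NeZero N] [NeZero (N / l)] {b T τ : ℝ}

lemma xqk_xf (k : V (N / l)) : xqk N l b T τ k = xf (T * (l : ℝ) ^ 2) (qk N l b T τ k) := rfl

/-- the sharp letter is the first even moment -/
lemma aq_mo : aq N l b T = -(1 / 2) * mo (qz N l b T) 1 := by
  unfold H462.aq mo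
  simp only [mul_one]

/-- the value of the letter at a tiny prior is the transform of the kernel -/
lemma qk_wt (hb : 0 ≤ b) (hl : l ∣ N) (hN : Nf (acl N l b T T)) (hτ : 0 < τ) (h : τ < T)
    {k : V (N / l)} (hk : k ≠ 0) : qk N l b T τ k = wt (qK N l b T (kap l T τ)) k := by
  have h1 := H462.qK_hat hb hl (hτ.trans h) hN (H896.kap_pos hl hτ h).le hk
  unfold wt
  rw [h1]
  rfl

/-- the limit of a vanishing prior -/
theorem tendsto_qk (hb : 0 ≤ b) (hl : l ∣ N) (hT : 0 < T) (hN : Nf (acl N l b T T))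
    {k : V (N / l)} (hk : k ≠ 0) :
    Tendsto (fun τ => qk N l b T τ k) (𝓝[>] 0) (𝓝 (wt (qz N l b T) k)) := by
  have h1 : Tendsto (fun τ => wt (qK N l b T (kap l T τ)) k) (𝓝[>] 0)
      (𝓝 (wt (qz N l b T) k)) := by
    unfold wt
    refine tendsto_finsetSum _ fun z _ => ?_
    exact ((H462.tendsto_qK hb hl hT hN z).comp (H462.tendsto_kap hT)).mul_const _
  refine h1.congr' ?_
  have h2 : ∀ᶠ τ : ℝ in 𝓝[>] 0, τ ∈ Set.Ioi (0 : ℝ) := self_mem_nhdsWithin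
  have h3 : ∀ᶠ τ : ℝ in 𝓝[>] 0, τ < T :=
    (eventually_lt_nhds hT).filter_mono nhdsWithin_le_nhds
  filter_upwards [h2, h3] with τ a1 a2
  exact (qk_wt hb hl hN a1 a2 hk).symm

/-- the Richardson slope in the limit of a vanishing prior -/
theorem tendsto_pS (hb : 0 ≤ b) (hl : l ∣ N) (hT : 0 < T) (hN : Nf (acl N l b T T)) {q : ℕ}
    (μ : Fin (q + 1) → ℝ) (hq : q + 1 < N / l)
    (h : ∀ i : Fin (q + 1), |wt (qz N l b T) (ax (jm (N / l) i))| ≤ 3 / 4 * (T * (l : ℝ) ^ 2)) :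
    Tendsto (fun τ => pS q μ (N / l) (xqk N l b T τ)) (𝓝[>] 0)
      (𝓝 (pS q μ (N / l) (fun k => xf (T * (l : ℝ) ^ 2) (wt (qz N l b T) k)))) := by
  have hlp : (0 : ℝ) < l := by exact_mod_cast H864.l_pos hl
  have hν : 0 < T * (l : ℝ) ^ 2 := by positivity
  unfold H114.pS
  refine Tendsto.div_const (tendsto_finsetSum _ fun i _ => ?_) _
  refine Tendsto.const_mul _ ?_
  have hk : ax (jm (N / l) i) ≠ 0 := by
    intro h0
    have h1 : jm (N / l) i = 0 := congrArg Prod.fst h0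
    exact H114.jm_ne (by have := i.2; omega) h1
  have h1 := tendsto_qk hb hl hT hN hk
  have h2 := le_of_abs_le (h i)
  have h3 : T * (l : ℝ) ^ 2 - wt (qz N l b T) (ax (jm (N / l) i)) ≠ 0 := by
    have : 0 < T * (l : ℝ) ^ 2 - wt (qz N l b T) (ax (jm (N / l) i)) := by linarith
    exact this.ne'
  simp only [xqk_xf]
  unfold xf
  exact (h1.const_mul _).div (tendsto_const_nhds.sub h1) h3

/-- **(EXT0)**, general numbers: `|Σ x₁^{2p} qz| ≤ B ν D^{2p}` (`1 ≤ p ≤ q`),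
`Σ x₁^{2q+2} |qz| ≤ ν M` -/
theorem ext0 {q : ℕ} {μ : Fin (q + 1) → ℝ} (h : RW q μ) (hb : 0 ≤ b) (hl : l ∣ N) (hT : 0 < T)
    (hN : Nf (acl N l b T T)) (hq : q + 1 < N / l) {B D M : ℝ} (hB : 1 ≤ B) (hD : 0 < D)
    (h2 : ∀ p, 1 ≤ p → p ≤ q → |∑ z : V (N / l), (z.1.valMinAbs : ℝ) ^ (2 * p) *
      qz N l b T z| ≤ B * (T * (l : ℝ) ^ 2) * D ^ (2 * p))
    (h3 : ∑ z : V (N / l), (z.1.valMinAbs : ℝ) ^ (2 * (q + 1)) * |qz N l b T z| ≤
      T * (l : ℝ) ^ 2 * M)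
    (s1 : B * (((q : ℝ) + 1) * D * (2 * Real.pi / (N / l : ℕ))) ^ 2 ≤ 1 / 2)
    (s2 : M * (((q : ℝ) + 1) * (2 * Real.pi / (N / l : ℕ))) ^ (2 * (q + 1)) /
      ((2 * (q + 1)).factorial : ℝ) ≤ 1 / 4) {e : ℝ} (he : 0 < e) :
    ∀ᶠ τ in 𝓝[>] (0 : ℝ), |pS q μ (N / l) (xqk N l b T τ) - aq N l b T| ≤
      eX q μ (N / l) (T * (l : ℝ) ^ 2) B D M + e := by
  have hlp : (0 : ℝ) < l := by exact_mod_cast H864.l_pos hl
  have hν : 0 < T * (l : ℝ) ^ 2 := by positivity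
  have h1 : ∑ z, qz N l b T z = 0 := by
    have := H462.sum_qK (κ := 0) hb hl hT
    simpa only [H462.qK_zero] using this
  obtain ⟨k1, k2⟩ := ext_ker h hν hB hD h1 h2 h3 s1 s2
  have h4 := ((tendsto_pS hb hl hT hN μ hq k1).sub_const (aq N l b T)).abs
  rw [← aq_mo] at k2
  refine (h4.eventually (ge_mem_nhds (lt_of_le_of_lt k2 (lt_add_of_pos_right _ he)))).mono ?_
  intro τ hτ
  exact hτ

/-- constant of the extrapolation -/
def CX (q : ℕ) (B : ℝ) : ℝ :=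
  (((q : ℝ) + 1) * B ^ (q + 1) + 8 * B) * ((q : ℝ) + 1) ^ (2 * (q + 1))

lemma eX_le {q : ℕ} (μ : Fin (q + 1) → ℝ) {n : ℕ} (hn : 0 < n) {ν B D : ℝ} (hν : 0 ≤ ν)
    (hB : 1 ≤ B) :
    eX q μ n ν B D (B * D ^ (2 * (q + 1))) ≤
      Lw q μ * CX q B * (ν * D ^ 2) * (D * (2 * Real.pi / n)) ^ (2 * q) := by
  have hn' : (0 : ℝ) < n := by exact_mod_cast hn
  have hpi := Real.pi_pos
  have hL := Lw_nonneg q μ
  unfold eX CX
  set θ := 2 * Real.pi / (n : ℝ) with hθ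
  have hθ0 : 0 < θ := by positivity
  have hf : (1 : ℝ) ≤ ((2 * (q + 1)).factorial : ℝ) := by exact_mod_cast Nat.factorial_pos _
  rw [div_le_iff₀ (by positivity)]
  have e1 : (B * (((q : ℝ) + 1) * D * θ) ^ 2) ^ (q + 1) =
      B ^ (q + 1) * (((q : ℝ) + 1) ^ (2 * (q + 1)) * (D ^ 2 * θ ^ 2 * (D * θ) ^ (2 * q))) := by
    rw [mul_pow, ← pow_mul, mul_assoc ((q : ℝ) + 1) D θ, mul_pow ((q : ℝ) + 1)]
    have : (D * θ) ^ (2 * (q + 1)) = D ^ 2 * θ ^ 2 * (D * θ) ^ (2 * q) := by ring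
    rw [this]
  have e2 : B * D ^ (2 * (q + 1)) * (((q : ℝ) + 1) * θ) ^ (2 * (q + 1)) =
      B * (((q : ℝ) + 1) ^ (2 * (q + 1)) * (D ^ 2 * θ ^ 2 * (D * θ) ^ (2 * q))) := by
    rw [mul_pow ((q : ℝ) + 1)]
    ring
  rw [e1, e2]
  set X := ((q : ℝ) + 1) ^ (2 * (q + 1)) * (D ^ 2 * θ ^ 2 * (D * θ) ^ (2 * q)) with hX
  have hX0 : 0 ≤ X := by
    have : 0 ≤ (D * θ) ^ (2 * q) := (even_two_mul q).pow_nonneg _
    positivity
  have h1 : B * X / ((2 * (q + 1)).factorial : ℝ) ≤ B * X :=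
    div_le_self (by positivity) hf
  have h2 := mul_le_mul_of_nonneg_left h1 (by positivity : 0 ≤ 8 * Lw q μ * ν)
  have e3 : Lw q μ * ((((q : ℝ) + 1) * B ^ (q + 1) + 8 * B) * ((q : ℝ) + 1) ^ (2 * (q + 1))) *
      (ν * D ^ 2) * (D * θ) ^ (2 * q) * θ ^ 2 =
      ((q : ℝ) + 1) * Lw q μ * ν * (B ^ (q + 1) * X) + 8 * Lw q μ * ν * (B * X) := by
    rw [hX]
    ring
  rw [e3]
  linarith

/-- **(EXT0)**: `|Σ x₁^{2p} qz| ≤ B ν D^{2p}` (`1 ≤ p ≤ q`), `Σ x₁^{2q+2} |qz| ≤ B ν D^{2q+2}` -/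
theorem ext0' {q : ℕ} {μ : Fin (q + 1) → ℝ} (h : RW q μ) (hb : 0 ≤ b) (hl : l ∣ N) (hT : 0 < T)
    (hN : Nf (acl N l b T T)) (hq : q + 1 < N / l) {B D : ℝ} (hB : 1 ≤ B) (hD : 0 < D)
    (h2 : ∀ p, 1 ≤ p → p ≤ q → |∑ z : V (N / l), (z.1.valMinAbs : ℝ) ^ (2 * p) *
      qz N l b T z| ≤ B * (T * (l : ℝ) ^ 2) * D ^ (2 * p))
    (h3 : ∑ z : V (N / l), (z.1.valMinAbs : ℝ) ^ (2 * (q + 1)) * |qz N l b T z| ≤
      B * (T * (l : ℝ) ^ 2) * D ^ (2 * (q + 1)))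
    (s : B * (((q : ℝ) + 1) * D * (2 * Real.pi / (N / l : ℕ))) ^ 2 ≤ 1 / 2) {e : ℝ}
    (he : 0 < e) :
    ∀ᶠ τ in 𝓝[>] (0 : ℝ), |pS q μ (N / l) (xqk N l b T τ) - aq N l b T| ≤
      Lw q μ * CX q B * (T * (l : ℝ) ^ 2 * D ^ 2) *
        (D * (2 * Real.pi / (N / l : ℕ))) ^ (2 * q) + e := by
  have hlp : (0 : ℝ) < l := by exact_mod_cast H864.l_pos hl
  have hν : 0 < T * (l : ℝ) ^ 2 := by positivity
  have hn : 0 < N / l := NeZero.pos _
  have s2 : B * D ^ (2 * (q + 1)) * (((q : ℝ) + 1) * (2 * Real.pi / (N / l : ℕ))) ^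
      (2 * (q + 1)) / ((2 * (q + 1)).factorial : ℝ) ≤ 1 / 4 := by
    set θ := 2 * Real.pi / ((N / l : ℕ) : ℝ) with hθ
    have e1 : B * D ^ (2 * (q + 1)) * (((q : ℝ) + 1) * θ) ^ (2 * (q + 1)) =
        B * ((((q : ℝ) + 1) * D * θ) ^ 2) ^ (q + 1) := by
      rw [← pow_mul, mul_pow ((q : ℝ) + 1), mul_pow (((q : ℝ) + 1) * D), mul_pow ((q : ℝ) + 1)]
      ring
    rw [e1]
    set x := (((q : ℝ) + 1) * D * θ) ^ 2 with hx
    have hx0 : 0 ≤ x := sq_nonneg _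
    have hx1 : x ≤ 1 := by nlinarith
    have h5 : x ^ (q + 1) ≤ x := by
      have := pow_le_pow_of_le_one hx0 hx1 (by omega : 1 ≤ q + 1)
      simpa using this
    have h6 : B * x ^ (q + 1) ≤ 1 / 2 :=
      (mul_le_mul_of_nonneg_left h5 (by linarith)).trans s
    have hf : (2 : ℝ) ≤ ((2 * (q + 1)).factorial : ℝ) := by
      have h7 : 2 ≤ (2 * (q + 1)).factorial := by
        calc 2 = (2).factorial := rfl
          _ ≤ _ := Nat.factorial_le (by omega)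
      exact_mod_cast h7
    rw [div_le_iff₀ (by linarith)]
    linarith
  have h3' : ∑ z : V (N / l), (z.1.valMinAbs : ℝ) ^ (2 * (q + 1)) * |qz N l b T z| ≤
      T * (l : ℝ) ^ 2 * (B * D ^ (2 * (q + 1))) := h3.trans (le_of_eq (by ring))
  refine (ext0 h hb hl hT hN hq hB hD h2 h3' s s2 he).mono fun τ hτ => ?_
  have := eX_le μ hn (D := D) hν.le hB
  linarith

end

end Vale.Agent.P159.H813
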