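import Vale.Agent.P159.H813.Sq13
import Vale.Agent.P159.H159.Mz1
import Vale.Agent.P159.H43.Sd8
import Vale.Agent.P159.H37.Rxg

/-!
P159 (helper813): (EXT0) on the big tori of a state: the field `ext` of helper114's `LV`, from the `l¹`
tail of helper462's kernel `qz` alone.
-/

namespace Vale.Agent.P159.H813

open Finset Filter Topology
open Vale.Agent.P159.TM.Spec (V)
open Vale.Agent.P159.TM.H764 (cN dt)
open Vale.Agent.P159.H114 (RW nd nd_ge ax jm pS KK TB)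
open Vale.Agent.P159.H363 (Nf acl)
open Vale.Agent.P159.H462 (qz qK aq)
open Vale.Agent.P159.H896 (kap)
open Vale.Agent.P159.H972 (Par tn)
open Vale.Agent.P159.H43 (nuj)

noncomputable section

set_option linter.unusedSectionVars false

/-- the tail of the kernel -/
def qTl (N l : ℕ) [NeZero N] [NeZero (N / l)] (b T D : ℝ) : ℝ :=
  ∑ z : V (N / l), if D < |(z.1.valMinAbs : ℝ)| then |qz N l b T z| else 0

section one

variable {N l : ℕ} [NeZero N] [NeZero (N / l)] {b T : ℝ}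

lemma qTl_nonneg (D : ℝ) : 0 ≤ qTl N l b T D :=
  sum_nonneg fun z _ => by split_ifs <;> positivity

lemma valMinAbs_le {n : ℕ} [NeZero n] (z : ZMod n) : |(z.valMinAbs : ℝ)| ≤ n := by
  have h1 := ZMod.natAbs_valMinAbs_le z
  have h2 : |(z.valMinAbs : ℝ)| = ((z.valMinAbs.natAbs : ℕ) : ℝ) := by
    rw [Nat.cast_natAbs, Int.cast_abs]
  rw [h2]
  exact_mod_cast h1.trans (Nat.div_le_self _ _)

/-- all even moments of `|qz|` from the tail -/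
theorem mom_qz (hb : 0 ≤ b) (hl : l ∣ N) (hT : 0 < T) (hN : Nf (acl N l b T T)) {D δ : ℝ}
    (hD : 1 ≤ D) (hδ : qTl N l b T D ≤ δ) (p : ℕ) :
    ∑ z : V (N / l), (z.1.valMinAbs : ℝ) ^ (2 * p) * |qz N l b T z| ≤
      2 * (T * (l : ℝ) ^ 2) * D ^ (2 * p) + ((N / l : ℕ) : ℝ) ^ (2 * p) * δ := by
  have h1 : ∑ z, |qz N l b T z| ≤ 2 * (T * (l : ℝ) ^ 2) := by
    have := H159.sum_abs_qK (κ := 0) hb hl hT hN le_rfl
    simpa only [H462.qK_zero] using this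
  have h2 : ∀ z : V (N / l), (z.1.valMinAbs : ℝ) ^ (2 * p) * |qz N l b T z| ≤
      D ^ (2 * p) * |qz N l b T z| + ((N / l : ℕ) : ℝ) ^ (2 * p) *
        (if D < |(z.1.valMinAbs : ℝ)| then |qz N l b T z| else 0) := by
    intro z
    rw [← (even_two_mul p).pow_abs]
    split_ifs with hz
    · have h3 : |(z.1.valMinAbs : ℝ)| ^ (2 * p) ≤ ((N / l : ℕ) : ℝ) ^ (2 * p) :=
        pow_le_pow_left₀ (abs_nonneg _) (valMinAbs_le z.1) _
      have h4 := mul_le_mul_of_nonneg_right h3 (abs_nonneg (qz N l b T z))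
      have h5 : 0 ≤ D ^ (2 * p) * |qz N l b T z| := by positivity
      linarith
    · rw [mul_zero, add_zero]
      refine mul_le_mul_of_nonneg_right ?_ (abs_nonneg _)
      exact pow_le_pow_left₀ (abs_nonneg _) (not_lt.1 hz) _
  refine (sum_le_sum fun z _ => h2 z).trans ?_
  rw [Finset.sum_add_distrib, ← Finset.mul_sum, ← Finset.mul_sum]
  have h3 := mul_le_mul_of_nonneg_left h1 (by positivity : 0 ≤ D ^ (2 * p))
  have h4 := mul_le_mul_of_nonneg_left hδ (by positivity : 0 ≤ ((N / l : ℕ) : ℝ) ^ (2 * p))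
  unfold qTl at h4
  linarith

/-- **(EXT0) from the tail of the kernel** -/
theorem ext0'' {q : ℕ} {μ : Fin (q + 1) → ℝ} (h : RW q μ) (hb : 0 ≤ b) (hl : l ∣ N) (hT : 0 < T)
    (hN : Nf (acl N l b T T)) (hq : q + 1 < N / l) {D δ : ℝ} (hD : 1 ≤ D)
    (hδ : qTl N l b T D ≤ δ) (hδν : ((N / l : ℕ) : ℝ) ^ (2 * (q + 1)) * δ ≤ T * (l : ℝ) ^ 2)
    (s : 3 * (((q : ℝ) + 1) * D * (2 * Real.pi / (N / l : ℕ))) ^ 2 ≤ 1 / 2) {e : ℝ}
    (he : 0 < e) :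
    ∀ᶠ τ in 𝓝[>] (0 : ℝ), |pS q μ (N / l) (xqk N l b T τ) - aq N l b T| ≤
      Lw q μ * CX q 3 * (T * (l : ℝ) ^ 2 * D ^ 2) *
        (D * (2 * Real.pi / (N / l : ℕ))) ^ (2 * q) + e := by
  have hlp : (0 : ℝ) < l := by exact_mod_cast H864.l_pos hl
  have hν : 0 < T * (l : ℝ) ^ 2 := by positivity
  have hn1 : (1 : ℝ) ≤ ((N / l : ℕ) : ℝ) := by exact_mod_cast NeZero.pos (N / l)
  have hδ0 : 0 ≤ δ := (qTl_nonneg D).trans hδ
  have hm : ∀ p, p ≤ q + 1 → ∑ z : V (N / l), (z.1.valMinAbs : ℝ) ^ (2 * p) *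
      |qz N l b T z| ≤ 3 * (T * (l : ℝ) ^ 2) * D ^ (2 * p) := by
    intro p hp
    refine (mom_qz hb hl hT hN hD hδ p).trans ?_
    have h1 : ((N / l : ℕ) : ℝ) ^ (2 * p) * δ ≤ ((N / l : ℕ) : ℝ) ^ (2 * (q + 1)) * δ :=
      mul_le_mul_of_nonneg_right (pow_le_pow_right₀ hn1 (by omega)) hδ0
    have h2 : 1 ≤ D ^ (2 * p) := one_le_pow₀ hD
    have h3 := mul_le_mul_of_nonneg_left h2 hν.le
    linarith
  refine ext0' h hb hl hT hN hq (by norm_num) (by linarith) (fun p hp hpq => ?_)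
    (hm (q + 1) le_rfl) s he
  refine (Finset.abs_sum_le_sum_abs _ _).trans (le_trans (le_of_eq ?_) (hm p (by omega)))
  refine sum_congr rfl fun z _ => ?_
  rw [abs_mul, abs_of_nonneg ((even_two_mul p).pow_nonneg _)]

end one

/-- **the field `ext` on the big tori** -/
theorem ext_tb {P : Par} {q : ℕ} {μ : Fin (q + 1) → ℝ} (h : RW q μ)
    (hq : 1 ≤ ((q : ℝ) - 1) * P.x1) : ∃ E : ℝ, 0 < E ∧ E ≤ 1 ∧
    ∀ (b : ℝ) (n j r : ℕ) (e y c D δ : ℝ), 0 < e → 0 < y → y ≤ E → e ≤ y ^ (9 / 5 : ℝ) →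
      c ≤ 3 / 10 → TB P n e r → j ≤ n → 0 ≤ b →
      Nf (acl (2 ^ r) (2 ^ min j r) b (tn n) (tn n)) → 1 ≤ D →
      (2 : ℝ) ^ j * D ≤ 2 ^ n * e ^ (-P.x1) →
      qTl (2 ^ r) (2 ^ min j r) b (tn n) D ≤ δ →
      ((2 : ℝ) ^ (r - j)) ^ (2 * (q + 1)) * δ ≤ nuj n j →
      ∀ᶠ τ in 𝓝[>] (0 : ℝ), |pS q μ (2 ^ r / 2 ^ min j r)
        (xqk (2 ^ r) (2 ^ min j r) b (tn n) τ) - aq (2 ^ r) (2 ^ min j r) b (tn n)| ≤
          y ^ (2 + c) := by
  have hx := P.x10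
  have hpi := Real.pi_pos
  have hL := Lw_nonneg q μ
  have hCX : 0 ≤ CX q 3 := by unfold CX; positivity
  obtain ⟨E1, p1, q1, k1⟩ := H43.abs_const (C := 2 * (Lw q μ * CX q 3 *
    (2 * Real.pi) ^ (2 * q) + 1)) (η := 13 / 10) (by positivity) (by norm_num)
  obtain ⟨E2, p2, q2, k2⟩ := H43.abs_const (C := 6 * (((q : ℝ) + 1) * (2 * Real.pi)) ^ 2)
    (η := 2 * P.x1) (by positivity) (by positivity)
  obtain ⟨E3, p3, q3, k3⟩ := H43.abs_const (C := (q : ℝ) + 2)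
    (η := 2 * P.x1) (by positivity) (by positivity)
  refine ⟨min E1 (min E2 E3), by positivity, (min_le_left _ _).trans q1, ?_⟩
  intro b n j r e y c D δ he hy hE hey hc hTB hjn hb hN hD hDe hδ hδν
  have a1 : y ≤ E1 := hE.trans (min_le_left _ _)
  have a2 : y ≤ E2 := hE.trans ((min_le_right _ _).trans (min_le_left _ _))
  have a3 : y ≤ E3 := hE.trans ((min_le_right _ _).trans (min_le_right _ _))
  have hy1 : y ≤ 1 := a1.trans q1
  have hey1 : e ≤ y := by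
    refine hey.trans ?_
    calc y ^ (9 / 5 : ℝ) ≤ y ^ (1 : ℝ) := Real.rpow_le_rpow_of_exponent_ge hy hy1 (by norm_num)
      _ = y := Real.rpow_one y
  have he1 : e ≤ 1 := hey1.trans hy1
  obtain ⟨hTV, hxr⟩ := hTB
  have hnr : n ≤ r := le_trans (Nat.le_add_right _ _) hTV.1
  have hjr : j ≤ r := hjn.trans hnr
  have hm : min j r = j := min_eq_left hjr
  have hmr : min j r ≤ r := min_le_right _ _
  have hl : 2 ^ min j r ∣ 2 ^ r := pow_dvd_pow 2 hmr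
  have hT : 0 < tn n := H43.tn_pos n
  have hν : tn n * ((2 ^ min j r : ℕ) : ℝ) ^ 2 = nuj n j := by rw [hm]; rfl
  have hn' : ((2 ^ r / 2 ^ min j r : ℕ) : ℝ) = (2 : ℝ) ^ (r - j) := by
    rw [Nat.pow_div hmr two_pos, hm]
    push_cast
    rfl
  -- size of the torus
  have hX : e ^ (-P.x1) ≤ (2 : ℝ) ^ P.xE e := H37.lg_lo he
  have hX0 : 0 < e ^ (-P.x1) := by positivity
  have hX2 : (e ^ (-P.x1)) ^ 2 ≤ (2 : ℝ) ^ (r - n) := by
    calc (e ^ (-P.x1)) ^ 2 ≤ ((2 : ℝ) ^ P.xE e) ^ 2 := pow_le_pow_left₀ hX0.le hX 2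
      _ = (2 : ℝ) ^ (2 * P.xE e) := by rw [← pow_mul, mul_comm]
      _ ≤ _ := pow_le_pow_right₀ one_le_two (by omega)
  have hXe : e ^ (-P.x1) * e ^ P.x1 = 1 := by
    rw [← Real.rpow_add he, neg_add_cancel, Real.rpow_zero]
  have h2x : e ^ (2 * P.x1) = (e ^ P.x1) ^ 2 := by
    rw [mul_comm, Real.rpow_mul he.le, Real.rpow_two]
  have hex0 : 0 < e ^ P.x1 := by positivity
  -- `D θ`
  have hpow : (2 : ℝ) ^ (r - j) * 2 ^ j = 2 ^ (r - n) * 2 ^ n := by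
    rw [← pow_add, ← pow_add]
    congr 1
    omega
  have hDr : D ≤ (2 : ℝ) ^ (r - j) * e ^ P.x1 := by
    have h2j : (0 : ℝ) < 2 ^ j := by positivity
    have h2n : (0 : ℝ) < 2 ^ n := by positivity
    have h5 : (2 : ℝ) ^ j * D ≤ 2 ^ j * ((2 : ℝ) ^ (r - j) * e ^ P.x1) := by
      calc (2 : ℝ) ^ j * D ≤ 2 ^ n * e ^ (-P.x1) := hDe
        _ = 2 ^ n * ((e ^ (-P.x1)) ^ 2 * e ^ P.x1) := by
            rw [pow_two, mul_assoc (e ^ (-P.x1)), hXe, mul_one]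
        _ ≤ 2 ^ n * (2 ^ (r - n) * e ^ P.x1) := by gcongr
        _ = (2 ^ (r - n) * 2 ^ n) * e ^ P.x1 := by ring
        _ = 2 ^ j * ((2 : ℝ) ^ (r - j) * e ^ P.x1) := by
            rw [← hpow]
            ring
    exact le_of_mul_le_mul_left h5 h2j
  have h2rj : (0 : ℝ) < 2 ^ (r - j) := by positivity
  have hDθ : D * (2 * Real.pi / ((2 ^ r / 2 ^ min j r : ℕ) : ℝ)) ≤ 2 * Real.pi * e ^ P.x1 := by
    rw [hn', ← mul_div_assoc, div_le_iff₀ h2rj]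
    have := mul_le_mul_of_nonneg_right hDr (by positivity : 0 ≤ 2 * Real.pi)
    linarith
  have hDθ0 : 0 ≤ D * (2 * Real.pi / ((2 ^ r / 2 ^ min j r : ℕ) : ℝ)) := by positivity
  -- small numbers
  have hq2 : q + 1 < 2 ^ r / 2 ^ min j r := by
    have h5 := k3 e he (hey1.trans a3)
    have h6 : (q : ℝ) + 2 ≤ 2 ^ (r - n) := by
      refine le_trans ?_ hX2
      rw [h2x] at h5
      have h7 : ((q : ℝ) + 2) * (e ^ P.x1) ^ 2 * (e ^ (-P.x1)) ^ 2 = (q : ℝ) + 2 := by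
        have : ((q : ℝ) + 2) * (e ^ P.x1) ^ 2 * (e ^ (-P.x1)) ^ 2 =
            ((q : ℝ) + 2) * (e ^ (-P.x1) * e ^ P.x1) ^ 2 := by ring
        rw [this, hXe, one_pow, mul_one]
      have h8 := mul_le_mul_of_nonneg_right h5 (by positivity : 0 ≤ (e ^ (-P.x1)) ^ 2)
      rw [h7, one_mul] at h8
      exact h8
    have h7 : (2 : ℝ) ^ (r - n) ≤ 2 ^ (r - j) := pow_le_pow_right₀ one_le_two (by omega)
    have h8 : ((q + 1 : ℕ) : ℝ) < ((2 ^ r / 2 ^ min j r : ℕ) : ℝ) := by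
      rw [hn']
      push_cast
      linarith
    exact_mod_cast h8
  have hs : 3 * (((q : ℝ) + 1) * D * (2 * Real.pi / (2 ^ r / 2 ^ min j r : ℕ))) ^ 2 ≤ 1 / 2 := by
    have h5 := k2 e he (hey1.trans a2)
    rw [h2x] at h5
    rw [mul_assoc ((q : ℝ) + 1) D, mul_pow]
    have h6 := pow_le_pow_left₀ hDθ0 hDθ 2
    have h7 := mul_le_mul_of_nonneg_left h6 (by positivity : 0 ≤ 3 * ((q : ℝ) + 1) ^ 2)
    have h8 : 3 * ((q : ℝ) + 1) ^ 2 * (2 * Real.pi * e ^ P.x1) ^ 2 =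
        (6 * (((q : ℝ) + 1) * (2 * Real.pi)) ^ 2 * (e ^ P.x1) ^ 2) / 2 := by ring
    rw [h8] at h7
    linarith
  have hyc : 0 < y ^ (2 + c) / 2 := by positivity
  have hδν' : ((2 ^ r / 2 ^ min j r : ℕ) : ℝ) ^ (2 * (q + 1)) * δ ≤
      tn n * ((2 ^ min j r : ℕ) : ℝ) ^ 2 := by
    rw [hn', hν]
    exact hδν
  refine (ext0'' h hb hl hT hN hq2 hD hδ hδν' hs hyc).mono fun τ hτ => hτ.trans ?_
  -- the error
  have hA : tn n * ((2 ^ min j r : ℕ) : ℝ) ^ 2 * D ^ 2 ≤ (e ^ (-P.x1)) ^ 2 := by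
    rw [hν]
    have h5 : nuj n j * D ^ 2 = ((2 : ℝ) ^ j * D / 2 ^ n) ^ 2 := by
      unfold H43.nuj H972.tn
      rw [show (4 : ℝ) ^ n = (2 ^ n) ^ 2 by rw [← pow_mul, mul_comm, pow_mul]; norm_num]
      push_cast
      field_simp
    rw [h5]
    refine pow_le_pow_left₀ (by positivity) ?_ 2
    rw [div_le_iff₀ (by positivity)]
    linarith
  have hB : (D * (2 * Real.pi / ((2 ^ r / 2 ^ min j r : ℕ) : ℝ))) ^ (2 * q) ≤
      (2 * Real.pi) ^ (2 * q) * (e ^ P.x1) ^ (2 * q) := by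
    rw [← mul_pow]
    exact pow_le_pow_left₀ hDθ0 hDθ _
  have hq1 := h.q1
  have hC : (e ^ (-P.x1)) ^ 2 * (e ^ P.x1) ^ (2 * q) ≤ y ^ (18 / 5 : ℝ) := by
    have h5 : (e ^ (-P.x1)) ^ 2 * (e ^ P.x1) ^ (2 * q) = e ^ (2 * (((q : ℝ) - 1) * P.x1)) := by
      rw [← Real.rpow_natCast, ← Real.rpow_natCast, ← Real.rpow_mul he.le, ← Real.rpow_mul he.le,
        ← Real.rpow_add he]
      congr 1
      push_cast
      ring
    rw [h5]
    calc e ^ (2 * (((q : ℝ) - 1) * P.x1)) ≤ e ^ (2 : ℝ) :=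
          Real.rpow_le_rpow_of_exponent_ge he he1 (by linarith)
      _ ≤ (y ^ (9 / 5 : ℝ)) ^ (2 : ℝ) := Real.rpow_le_rpow he.le hey (by norm_num)
      _ = y ^ (18 / 5 : ℝ) := by
          rw [← Real.rpow_mul hy.le]
          norm_num
  set K := Lw q μ * CX q 3 with hK
  have hK0 : 0 ≤ K := by positivity
  have h10 : K * (tn n * ((2 ^ min j r : ℕ) : ℝ) ^ 2 * D ^ 2) *
      (D * (2 * Real.pi / ((2 ^ r / 2 ^ min j r : ℕ) : ℝ))) ^ (2 * q) ≤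
      K * (2 * Real.pi) ^ (2 * q) * y ^ (18 / 5 : ℝ) := by
    calc K * (tn n * ((2 ^ min j r : ℕ) : ℝ) ^ 2 * D ^ 2) *
          (D * (2 * Real.pi / ((2 ^ r / 2 ^ min j r : ℕ) : ℝ))) ^ (2 * q) ≤
          K * (e ^ (-P.x1)) ^ 2 * ((2 * Real.pi) ^ (2 * q) * (e ^ P.x1) ^ (2 * q)) := by
          gcongr
      _ = K * (2 * Real.pi) ^ (2 * q) * ((e ^ (-P.x1)) ^ 2 * (e ^ P.x1) ^ (2 * q)) := by ring
      _ ≤ _ := mul_le_mul_of_nonneg_left hC (by positivity)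
  have h11 : K * (2 * Real.pi) ^ (2 * q) * y ^ (18 / 5 : ℝ) ≤ y ^ (2 + c) / 2 := by
    have h5 := k1 y hy a1
    have h6 : y ^ (18 / 5 : ℝ) = y ^ (13 / 10 : ℝ) * y ^ (23 / 10 : ℝ) := by
      rw [← Real.rpow_add hy]
      norm_num
    have h7 : y ^ (23 / 10 : ℝ) ≤ y ^ (2 + c) :=
      Real.rpow_le_rpow_of_exponent_ge hy hy1 (by linarith)
    have h8 : K * (2 * Real.pi) ^ (2 * q) * y ^ (13 / 10 : ℝ) ≤ 1 / 2 := by
      have : 0 ≤ y ^ (13 / 10 : ℝ) := by positivity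
      linarith
    rw [h6, ← mul_assoc]
    have h9 : 0 ≤ y ^ (23 / 10 : ℝ) := by positivity
    calc K * (2 * Real.pi) ^ (2 * q) * y ^ (13 / 10 : ℝ) * y ^ (23 / 10 : ℝ) ≤
          1 / 2 * y ^ (23 / 10 : ℝ) := mul_le_mul_of_nonneg_right h8 h9
      _ ≤ y ^ (2 + c) / 2 := by linarith
  linarith

end

end Vale.Agent.P159.H813
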