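import Vale.Agent.P159.H813.Sq14
import Vale.Agent.P159.H43.Sd10

/-!
P159 (helper813): (EXT0), the field `ext` of a state in Par letters: cells `(e y)^(9/8 C1) ≤ λ ≤ (e y)^C1`,
window `D λ ≤ 2 A0 log (1/λ)`, the only input is the tail of the kernel `qz`.
-/

namespace Vale.Agent.P159.H813

open Finset Filter Topology
open Vale.Agent.P159.TM.Spec (V)
open Vale.Agent.P159.H114 (RW ax jm pS TB)
open Vale.Agent.P159.H363 (Nf acl)
open Vale.Agent.P159.H462 (qz aq)
open Vale.Agent.P159.H972 (Par tn)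
open Vale.Agent.P159.H889 (lam Lg)
open Vale.Agent.P159.H43 (nuj)

noncomputable section

set_option linter.unusedSectionVars false

/-- the tail is a sum over the complement of the window -/
lemma qTl_box {N l : ℕ} [NeZero N] [NeZero (N / l)] {b T : ℝ} (D : ℕ) :
    qTl N l b T D ≤ ∑ z ∈ (H462.box (0 : V (N / l)) D)ᶜ, |qz N l b T z| := by
  classical
  unfold qTl
  rw [← Finset.sum_filter]
  refine Finset.sum_le_sum_of_subset_of_nonneg ?_ fun _ _ _ => abs_nonneg _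
  intro z hz
  rw [Finset.mem_filter] at hz
  rw [Finset.mem_compl]
  intro hb
  have h1 := (H462.mem_box.1 hb).1
  rw [sub_zero] at h1
  have h3 : |(z.1.valMinAbs : ℝ)| ≤ D := by
    have h4 : |(z.1.valMinAbs : ℝ)| = ((z.1.valMinAbs.natAbs : ℕ) : ℝ) := by
      rw [Nat.cast_natAbs, Int.cast_abs]
    rw [h4]
    exact_mod_cast h1
  linarith [hz.2]

lemma lam_pos (n j : ℕ) : 0 < lam n j := by unfold H889.lam; positivity

lemma log_lam (n j : ℕ) : Real.log (lam n j) = -Lg n j := by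
  unfold H889.lam H889.Lg
  rw [Real.log_div (by positivity) (by positivity), Real.log_pow, Real.log_pow]
  ring

/-- **the field `ext` on the big tori, Par letters** -/
theorem ext_sd {P : Par} {q : ℕ} {μ : Fin (q + 1) → ℝ} (h : RW q μ)
    (hq : 1 ≤ ((q : ℝ) - 1) * P.x1) (hρ : P.th + 4 * P.q0 * P.thp ≤ 1 / 2) {C1 : ℝ}
    (hC1 : 1 ≤ C1) {A0 : ℝ} (hA0 : 0 < A0) : ∃ E : ℝ, 0 < E ∧ E ≤ 1 ∧
    ∀ (b : ℝ) (n j r D : ℕ) (e y c : ℝ), 0 < b → 0 < e → 0 < y → y ≤ E → e ≤ y ^ (9 / 5 : ℝ) →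
      (e * y) ^ (9 / 8 * C1) ≤ lam n j → lam n j ≤ (e * y) ^ C1 → c ≤ 3 / 10 → TB P n e r →
      1 ≤ D → D * lam n j ≤ 2 * A0 * Lg n j → ∀ [NeZero (2 ^ r / 2 ^ j)],
      qTl (2 ^ r) (2 ^ j) b (tn n) D ≤ lam n j ^ (4 * q + 6) →
      ∀ᶠ τ in 𝓝[>] (0 : ℝ), |pS q μ (2 ^ r / 2 ^ min j r)
        (xqk (2 ^ r) (2 ^ min j r) b (tn n) τ) - aq (2 ^ r) (2 ^ min j r) b (tn n)| ≤
          y ^ (2 + c) := by
  have hx := P.x10
  obtain ⟨E0, p0, q0, k0⟩ := ext_tb (P := P) h hq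
  obtain ⟨E1, p1, q1, k1⟩ := H43.abs_const (C := 7 * A0 * C1 / P.x1) (η := P.x1 / 2)
    (by positivity) (by positivity)
  obtain ⟨E2, p2, q2, k2⟩ := H43.abs_const (C := 2 ^ (1 + 4 * P.q0)) (η := 1 / 2)
    (by positivity) (by norm_num)
  obtain ⟨E3, p3, q3, k3⟩ := H43.abs_const (C := 2) (η := 1) (by norm_num) (by norm_num)
  refine ⟨min (min E0 E1) (min E2 E3), by positivity,
    ((min_le_left _ _).trans (min_le_left _ _)).trans q0, ?_⟩
  intro b n j r D e y c hb he hy hE hey h1 h2 hc hTB hD hDl _ hq6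
  have a0 : y ≤ E0 := hE.trans ((min_le_left _ _).trans (min_le_left _ _))
  have a1 : y ≤ E1 := hE.trans ((min_le_left _ _).trans (min_le_right _ _))
  have a2 : y ≤ E2 := hE.trans ((min_le_right _ _).trans (min_le_left _ _))
  have a3 : y ≤ E3 := hE.trans ((min_le_right _ _).trans (min_le_right _ _))
  have hy1 : y ≤ 1 := a0.trans q0
  have hey1 : e ≤ y := by
    refine hey.trans ?_
    calc y ^ (9 / 5 : ℝ) ≤ y ^ (1 : ℝ) := Real.rpow_le_rpow_of_exponent_ge hy hy1 (by norm_num)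
      _ = y := Real.rpow_one y
  have he1 : e ≤ 1 := hey1.trans hy1
  have hl0 := lam_pos n j
  have hle : lam n j ≤ e := by
    calc lam n j ≤ (e * y) ^ C1 := h2
      _ ≤ (e * y) ^ (1 : ℝ) :=
          Real.rpow_le_rpow_of_exponent_ge (by positivity) (by nlinarith) hC1
      _ = e * y := Real.rpow_one _
      _ ≤ e := by nlinarith
  have he2 : e ≤ 1 / 2 := by
    have := k3 e he (hey1.trans a3)
    rw [Real.rpow_one] at this
    linarith
  -- the order of the scales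
  have hjn : j ≤ n := by
    by_contra hcon
    push Not at hcon
    have h5 : (1 : ℝ) ≤ lam n j := by
      unfold H889.lam
      rw [le_div_iff₀ (by positivity), one_mul]
      exact pow_le_pow_right₀ one_le_two hcon.le
    linarith
  have hTV := hTB.1
  have hnr : n ≤ r := le_trans (Nat.le_add_right _ _) hTV.1
  have hjr : j ≤ r := hjn.trans hnr
  have hm : min j r = j := min_eq_left hjr
  -- the window
  have hLg : Lg n j ≤ 7 / 4 * C1 * Real.log (1 / e) := by
    have h3 : Real.log ((e * y) ^ (9 / 8 * C1)) ≤ Real.log (lam n j) :=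
      Real.log_le_log (by positivity) h1
    rw [log_lam, Real.log_rpow (by positivity), Real.log_mul he.ne' hy.ne'] at h3
    have h4 : Real.log e ≤ 9 / 5 * Real.log y := by
      rw [← Real.log_rpow hy]
      exact Real.log_le_log he hey
    rw [one_div, Real.log_inv]
    have h5 : -(Real.log e + Real.log y) ≤ 14 / 9 * (-Real.log e) := by linarith
    have h6 := mul_le_mul_of_nonneg_left h5 (by positivity : 0 ≤ 9 / 8 * C1)
    linarith
  have hlog : Real.log (1 / e) ≤ 2 / P.x1 * e ^ (-(P.x1 / 2)) := by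
    have h3 := Real.log_le_rpow_div (x := 1 / e) (by positivity) (half_pos hx)
    have h4 : (1 / e) ^ (P.x1 / 2) = e ^ (-(P.x1 / 2)) := by
      rw [one_div, Real.inv_rpow he.le, Real.rpow_neg he.le]
    rw [h4] at h3
    refine h3.trans (le_of_eq ?_)
    field_simp
  have hwin : (D : ℝ) * lam n j ≤ e ^ (-P.x1) := by
    refine hDl.trans ?_
    have h3 := k1 e he (hey1.trans a1)
    have h4 : e ^ (-P.x1) * e ^ (P.x1 / 2) = e ^ (-(P.x1 / 2)) := by
      rw [← Real.rpow_add he]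
      congr 1
      ring
    have h5 : 0 < e ^ (-P.x1) := by positivity
    calc 2 * A0 * Lg n j ≤ 2 * A0 * (7 / 4 * C1 * (2 / P.x1 * e ^ (-(P.x1 / 2)))) := by
          refine mul_le_mul_of_nonneg_left (hLg.trans ?_) (by positivity)
          exact mul_le_mul_of_nonneg_left hlog (by positivity)
      _ = e ^ (-P.x1) * (7 * A0 * C1 / P.x1 * e ^ (P.x1 / 2)) := by
          rw [← h4]
          ring
      _ ≤ e ^ (-P.x1) * 1 := mul_le_mul_of_nonneg_left h3 h5.le
      _ = _ := mul_one _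
  have hwin2 : (2 : ℝ) ^ j * D ≤ 2 ^ n * e ^ (-P.x1) := by
    have h3 : (2 : ℝ) ^ j * D = 2 ^ n * (D * lam n j) := by
      unfold H889.lam
      field_simp
    rw [h3]
    exact mul_le_mul_of_nonneg_left hwin (by positivity)
  -- the tail
  have hR : (2 : ℝ) ^ (r - n) * lam n j ≤ 1 := by
    have h3 := H43.tt_R (H43.tt_of_tv hTV) he he1
    have h4 := k2 e he (hey1.trans a2)
    have h5 : e ^ (-(P.th + 4 * P.q0 * P.thp)) * e ≤ e ^ (1 / 2 : ℝ) := by
      nth_rewrite 2 [← Real.rpow_one e]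
      rw [← Real.rpow_add he]
      exact Real.rpow_le_rpow_of_exponent_ge he he1 (by linarith)
    calc (2 : ℝ) ^ (r - n) * lam n j ≤
          2 ^ (1 + 4 * P.q0) * e ^ (-(P.th + 4 * P.q0 * P.thp)) * e :=
          mul_le_mul h3 hle hl0.le (by positivity)
      _ = 2 ^ (1 + 4 * P.q0) * (e ^ (-(P.th + 4 * P.q0 * P.thp)) * e) := by ring
      _ ≤ 2 ^ (1 + 4 * P.q0) * e ^ (1 / 2 : ℝ) := mul_le_mul_of_nonneg_left h5 (by positivity)
      _ ≤ 1 := h4
  have hrj : (2 : ℝ) ^ (r - j) * lam n j ^ 2 ≤ 1 := by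
    have h3 : (2 : ℝ) ^ (r - j) * lam n j = 2 ^ (r - n) := by
      have h4 : (2 : ℝ) ^ (r - j) * 2 ^ j = 2 ^ (r - n) * 2 ^ n := by
        rw [← pow_add, ← pow_add]
        congr 1
        omega
      unfold H889.lam
      rw [← mul_div_assoc, h4, mul_div_assoc, div_self (by positivity), mul_one]
    rw [pow_two, ← mul_assoc, h3]
    exact hR
  have hδ : ((2 : ℝ) ^ (r - j)) ^ (2 * (q + 1)) * lam n j ^ (4 * q + 6) ≤ nuj n j := by
    rw [H43.nuj_lam]
    have h3 : ((2 : ℝ) ^ (r - j)) ^ (2 * (q + 1)) * lam n j ^ (4 * q + 6) =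
        ((2 : ℝ) ^ (r - j) * lam n j ^ 2) ^ (2 * (q + 1)) * lam n j ^ 2 := by
      rw [mul_pow, ← pow_mul (lam n j), mul_assoc, ← pow_add]
      congr 2
      ring
    rw [h3]
    have h4 : ((2 : ℝ) ^ (r - j) * lam n j ^ 2) ^ (2 * (q + 1)) ≤ 1 :=
      pow_le_one₀ (by positivity) hrj
    have h5 : 0 ≤ lam n j ^ 2 := by positivity
    have := mul_le_mul_of_nonneg_right h4 h5
    linarith
  have hT : 0 < tn n := H43.tn_pos n
  have hl : 2 ^ min j r ∣ 2 ^ r := pow_dvd_pow 2 (min_le_right _ _)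
  have hN : Nf (acl (2 ^ r) (2 ^ min j r) b (tn n) (tn n)) :=
    nf_of_dom (H375.dom_acl hb hl hT le_rfl)
  have hq6' : qTl (2 ^ r) (2 ^ min j r) b (tn n) D ≤ lam n j ^ (4 * q + 6) := by
    have h3 : ∀ j' : ℕ, j' = j → ∀ [NeZero (2 ^ r / 2 ^ j')],
        qTl (2 ^ r) (2 ^ j') b (tn n) D ≤ lam n j ^ (4 * q + 6) := by
      intro j' hj' _
      subst hj'
      exact hq6
    exact h3 _ hm
  exact k0 b n j r e y c D _ he hy a0 hey hc hTB hjn hb.le hN (by exact_mod_cast hD) hwin2 hq6' hδ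

end

end Vale.Agent.P159.H813
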