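import Vale.Agent.P159.H813.Sq15

/-!
P159 (helper813): (EXT0), final numbers: the tail `λ ^ 4` of the kernel is enough (order of constants:
the exponent of the tail is absolute), radius `D' = (N / l) e ^ α` in the moments.
-/

namespace Vale.Agent.P159.H813

open Finset Filter Topology
open Vale.Agent.P159.TM.Spec (V)
open Vale.Agent.P159.H114 (RW ax jm pS TB TV)
open Vale.Agent.P159.H363 (Nf acl)
open Vale.Agent.P159.H462 (qz aq)
open Vale.Agent.P159.H972 (Par tn)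
open Vale.Agent.P159.H889 (lam Lg)
open Vale.Agent.P159.H43 (nuj)

noncomputable section

set_option linter.unusedSectionVars false

section one

variable {N l : ℕ} [NeZero N] [NeZero (N / l)] {b T : ℝ}

lemma qTl_anti {D D' : ℝ} (h : D ≤ D') : qTl N l b T D' ≤ qTl N l b T D := by
  unfold qTl
  refine sum_le_sum fun z _ => ?_
  split_ifs with h1 h2
  · exact le_rfl
  · exact absurd (lt_of_le_of_lt h h1) h2
  · exact abs_nonneg _
  · exact le_rfl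

/-- **(EXT0) from the tail of the kernel**, sharp use of the tail -/
theorem ext0w {q : ℕ} {μ : Fin (q + 1) → ℝ} (h : RW q μ) (hb : 0 ≤ b) (hl : l ∣ N) (hT : 0 < T)
    (hN : Nf (acl N l b T T)) (hq : q + 1 < N / l) {D δ : ℝ} (hD : 1 ≤ D)
    (hDn : D ≤ ((N / l : ℕ) : ℝ)) (hδ : qTl N l b T D ≤ δ)
    (hδν : (((N / l : ℕ) : ℝ) / D) ^ (2 * (q + 1)) * δ ≤ T * (l : ℝ) ^ 2)
    (s : 3 * (((q : ℝ) + 1) * D * (2 * Real.pi / (N / l : ℕ))) ^ 2 ≤ 1 / 2) {e : ℝ}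
    (he : 0 < e) :
    ∀ᶠ τ in 𝓝[>] (0 : ℝ), |pS q μ (N / l) (xqk N l b T τ) - aq N l b T| ≤
      Lw q μ * CX q 3 * (T * (l : ℝ) ^ 2 * D ^ 2) *
        (D * (2 * Real.pi / (N / l : ℕ))) ^ (2 * q) + e := by
  have hlp : (0 : ℝ) < l := by exact_mod_cast H864.l_pos hl
  have hν : 0 < T * (l : ℝ) ^ 2 := by positivity
  have hD0 : 0 < D := by linarith
  have hδ0 : 0 ≤ δ := (qTl_nonneg D).trans hδ
  have hr : 1 ≤ ((N / l : ℕ) : ℝ) / D := by rwa [one_le_div hD0]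
  have hm : ∀ p, p ≤ q + 1 → ∑ z : V (N / l), (z.1.valMinAbs : ℝ) ^ (2 * p) *
      |qz N l b T z| ≤ 3 * (T * (l : ℝ) ^ 2) * D ^ (2 * p) := by
    intro p hp
    refine (mom_qz hb hl hT hN hD hδ p).trans ?_
    have h1 : ((N / l : ℕ) : ℝ) ^ (2 * p) * δ =
        D ^ (2 * p) * ((((N / l : ℕ) : ℝ) / D) ^ (2 * p) * δ) := by
      rw [div_pow]
      field_simp
    have h2 : (((N / l : ℕ) : ℝ) / D) ^ (2 * p) * δ ≤ T * (l : ℝ) ^ 2 :=
      (mul_le_mul_of_nonneg_right (pow_le_pow_right₀ hr (by omega)) hδ0).trans hδν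
    have h3 := mul_le_mul_of_nonneg_left h2 (by positivity : 0 ≤ D ^ (2 * p))
    rw [h1]
    linarith
  refine ext0' h hb hl hT hN hq (by norm_num) hD0 (fun p hp hpq => ?_)
    (hm (q + 1) le_rfl) s he
  refine (Finset.abs_sum_le_sum_abs _ _).trans (le_trans (le_of_eq ?_) (hm p (by omega)))
  refine sum_congr rfl fun z _ => ?_
  rw [abs_mul, abs_of_nonneg ((even_two_mul p).pow_nonneg _)]

end one

/-- **the field `ext`**, tori `N / ξ ≥ e ^ (-2 α)`, tail `λ ^ 4` -/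
theorem ext_al {P : Par} {q : ℕ} {μ : Fin (q + 1) → ℝ} (h : RW q μ) {α : ℝ} (hα : 0 < α)
    (hρ : P.th + 4 * P.q0 * P.thp ≤ 1 / 2)
    (hq : 1 + (P.th + 4 * P.q0 * P.thp) ≤ ((q : ℝ) + 1) * α) {C1 : ℝ}
    (hC1 : ((q : ℝ) + 1) * α ≤ C1) {A0 : ℝ} (hA0 : 0 < A0) : ∃ E : ℝ, 0 < E ∧ E ≤ 1 ∧
    ∀ (b : ℝ) (n j r D : ℕ) (e y c : ℝ), 0 < b → 0 < e → 0 < y → y ≤ E → e ≤ y ^ (9 / 5 : ℝ) →
      (e * y) ^ (9 / 8 * C1) ≤ lam n j → lam n j ≤ (e * y) ^ C1 → c ≤ 3 / 10 → TV P n e r →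
      (e ^ (-α)) ^ 2 ≤ 2 ^ (r - n) → D * lam n j ≤ 2 * A0 * Lg n j →
      ∀ [NeZero (2 ^ r / 2 ^ j)], qTl (2 ^ r) (2 ^ j) b (tn n) D ≤ lam n j ^ 4 →
      ∀ᶠ τ in 𝓝[>] (0 : ℝ), |pS q μ (2 ^ r / 2 ^ min j r)
        (xqk (2 ^ r) (2 ^ min j r) b (tn n) τ) - aq (2 ^ r) (2 ^ min j r) b (tn n)| ≤
          y ^ (2 + c) := by
  have hpi := Real.pi_pos
  have hL := Lw_nonneg q μ
  have hCX : 0 ≤ CX q 3 := by unfold CX; positivity
  have hρ0 : 0 ≤ P.th + 4 * P.q0 * P.thp := by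
    have := P.th0
    have := P.thp0
    positivity
  have hC1' : 1 ≤ C1 := by linarith
  set c0 : ℝ := 2 ^ (1 + 4 * P.q0) with hc0
  have hc01 : 1 ≤ c0 := one_le_pow₀ one_le_two
  obtain ⟨E0, p0, q0, k0⟩ := H43.abs_const (C := 2 * (Lw q μ * CX q 3 * c0 ^ 2 *
    (2 * Real.pi) ^ (2 * q) + 1)) (η := 13 / 10) (by positivity) (by norm_num)
  obtain ⟨E1, p1, q1, k1⟩ := H43.abs_const (C := 7 * A0 * C1 / α) (η := α / 2)
    (by positivity) (by positivity)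
  obtain ⟨E3, p3, q3, k3⟩ := H43.abs_const (C := 2) (η := 1) (by norm_num) (by norm_num)
  obtain ⟨E4, p4, q4, k4⟩ := H43.abs_const (C := 6 * (((q : ℝ) + 1) * (2 * Real.pi)) ^ 2)
    (η := 2 * α) (by positivity) (by positivity)
  obtain ⟨E5, p5, q5, k5⟩ := H43.abs_const (C := (q : ℝ) + 2)
    (η := 2 * α) (by positivity) (by positivity)
  refine ⟨min (min (min E0 E1) E3) (min E4 E5), by positivity,
    (((min_le_left _ _).trans (min_le_left _ _)).trans (min_le_left _ _)).trans q0, ?_⟩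
  intro b n j r D e y c hb he hy hE hey h1 h2 hc hTV hX2 hDl _ hq6
  have a0 : y ≤ E0 := hE.trans (((min_le_left _ _).trans (min_le_left _ _)).trans (min_le_left _ _))
  have a1 : y ≤ E1 := hE.trans (((min_le_left _ _).trans (min_le_left _ _)).trans (min_le_right _ _))
  have a3 : y ≤ E3 := hE.trans ((min_le_left _ _).trans (min_le_right _ _))
  have a4 : y ≤ E4 := hE.trans ((min_le_right _ _).trans (min_le_left _ _))
  have a5 : y ≤ E5 := hE.trans ((min_le_right _ _).trans (min_le_right _ _))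
  have hy1 : y ≤ 1 := a0.trans q0
  have hey1 : e ≤ y := by
    refine hey.trans ?_
    calc y ^ (9 / 5 : ℝ) ≤ y ^ (1 : ℝ) := Real.rpow_le_rpow_of_exponent_ge hy hy1 (by norm_num)
      _ = y := Real.rpow_one y
  have he1 : e ≤ 1 := hey1.trans hy1
  have hl0 := lam_pos n j
  have hleC : lam n j ≤ e ^ C1 := by
    refine h2.trans ?_
    refine Real.rpow_le_rpow (by positivity) ?_ (by linarith)
    nlinarith
  have hle : lam n j ≤ e := by
    refine hleC.trans ?_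
    calc e ^ C1 ≤ e ^ (1 : ℝ) := Real.rpow_le_rpow_of_exponent_ge he he1 hC1'
      _ = e := Real.rpow_one e
  have he2 : e ≤ 1 / 2 := by
    have := k3 e he (hey1.trans a3)
    rw [Real.rpow_one] at this
    linarith
  have hjn : j ≤ n := by
    by_contra hcon
    push Not at hcon
    have h5 : (1 : ℝ) ≤ lam n j := by
      unfold H889.lam
      rw [le_div_iff₀ (by positivity), one_mul]
      exact pow_le_pow_right₀ one_le_two hcon.le
    linarith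
  have hnr : n ≤ r := le_trans (Nat.le_add_right _ _) hTV.1
  have hjr : j ≤ r := hjn.trans hnr
  have hm : min j r = j := min_eq_left hjr
  have hmr : min j r ≤ r := min_le_right _ _
  have hl : 2 ^ min j r ∣ 2 ^ r := pow_dvd_pow 2 hmr
  have hT : 0 < tn n := H43.tn_pos n
  have hν : tn n * ((2 ^ min j r : ℕ) : ℝ) ^ 2 = lam n j ^ 2 := by
    rw [hm, ← H43.nuj_lam]
    rfl
  have hn' : ((2 ^ r / 2 ^ min j r : ℕ) : ℝ) = (2 : ℝ) ^ (r - j) := by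
    rw [Nat.pow_div hmr two_pos, hm]
    push_cast
    rfl
  -- the window
  have hLg : Lg n j ≤ 7 / 4 * C1 * Real.log (1 / e) := by
    have h3 : Real.log ((e * y) ^ (9 / 8 * C1)) ≤ Real.log (lam n j) :=
      Real.log_le_log (by positivity) h1
    rw [log_lam, Real.log_rpow (by positivity), Real.log_mul he.ne' hy.ne'] at h3
    have h4 : Real.log e ≤ 9 / 5 * Real.log y := by
      rw [← Real.log_rpow hy]
      exact Real.log_le_log he hey
    rw [one_div, Real.log_inv]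
    have h5 : -(Real.log e + Real.log y) ≤ 14 / 9 * (-Real.log e) := by linarith
    have h6 := mul_le_mul_of_nonneg_left h5 (by positivity : 0 ≤ 9 / 8 * C1)
    linarith
  have hlog : Real.log (1 / e) ≤ 2 / α * e ^ (-(α / 2)) := by
    have h3 := Real.log_le_rpow_div (x := 1 / e) (by positivity) (half_pos hα)
    have h4 : (1 / e) ^ (α / 2) = e ^ (-(α / 2)) := by
      rw [one_div, Real.inv_rpow he.le, Real.rpow_neg he.le]
    rw [h4] at h3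
    refine h3.trans (le_of_eq ?_)
    field_simp
  have hwin : (D : ℝ) * lam n j ≤ e ^ (-α) := by
    refine hDl.trans ?_
    have h3 := k1 e he (hey1.trans a1)
    have h4 : e ^ (-α) * e ^ (α / 2) = e ^ (-(α / 2)) := by
      rw [← Real.rpow_add he]
      congr 1
      ring
    have h5 : 0 < e ^ (-α) := by positivity
    calc 2 * A0 * Lg n j ≤ 2 * A0 * (7 / 4 * C1 * (2 / α * e ^ (-(α / 2)))) := by
          refine mul_le_mul_of_nonneg_left (hLg.trans ?_) (by positivity)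
          exact mul_le_mul_of_nonneg_left hlog (by positivity)
      _ = e ^ (-α) * (7 * A0 * C1 / α * e ^ (α / 2)) := by
          rw [← h4]
          ring
      _ ≤ e ^ (-α) * 1 := mul_le_mul_of_nonneg_left h3 h5.le
      _ = _ := mul_one _
  -- the big radius
  have hXe : e ^ (-α) * e ^ α = 1 := by
    rw [← Real.rpow_add he, neg_add_cancel, Real.rpow_zero]
  have hex0 : 0 < e ^ α := by positivity
  have hex1 : e ^ α ≤ 1 := Real.rpow_le_one he.le he1 hα.le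
  have h2x : e ^ (2 * α) = (e ^ α) ^ 2 := by
    rw [mul_comm, Real.rpow_mul he.le, Real.rpow_two]
  have hnl : (2 : ℝ) ^ (r - j) * lam n j = 2 ^ (r - n) := by
    have h4 : (2 : ℝ) ^ (r - j) * 2 ^ j = 2 ^ (r - n) * 2 ^ n := by
      rw [← pow_add, ← pow_add]
      congr 1
      omega
    unfold H889.lam
    rw [← mul_div_assoc, h4, mul_div_assoc, div_self (by positivity), mul_one]
  set n' : ℝ := (2 : ℝ) ^ (r - j) with hn'd
  have hn'0 : 0 < n' := by positivity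
  have hex : e ^ (-α) ≤ 2 ^ (r - n) * e ^ α := by
    calc e ^ (-α) = (e ^ (-α)) ^ 2 * e ^ α := by
          rw [pow_two, mul_assoc, hXe, mul_one]
      _ ≤ 2 ^ (r - n) * e ^ α := mul_le_mul_of_nonneg_right hX2 hex0.le
  have hDD : (D : ℝ) ≤ n' * e ^ α := by
    have h5 : (D : ℝ) * lam n j ≤ n' * e ^ α * lam n j := by
      calc (D : ℝ) * lam n j ≤ e ^ (-α) := hwin
        _ ≤ 2 ^ (r - n) * e ^ α := hex
        _ = n' * e ^ α * lam n j := by rw [← hnl]; ring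
    exact le_of_mul_le_mul_right h5 hl0
  have hD1 : 1 ≤ n' * e ^ α := by
    have h5 : 1 ≤ e ^ (-α) := Real.one_le_rpow_of_pos_of_le_one_of_nonpos he he1 (by linarith)
    have h6 : (2 : ℝ) ^ (r - n) ≤ n' := pow_le_pow_right₀ one_le_two (by omega)
    calc 1 ≤ e ^ (-α) := h5
      _ ≤ 2 ^ (r - n) * e ^ α := hex
      _ ≤ n' * e ^ α := mul_le_mul_of_nonneg_right h6 hex0.le
  have hDn : n' * e ^ α ≤ n' := mul_le_of_le_one_right hn'0.le hex1
  have hq2 : q + 1 < 2 ^ r / 2 ^ min j r := by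
    have h5 := k5 e he (hey1.trans a5)
    have h6 : (q : ℝ) + 2 ≤ 2 ^ (r - n) := by
      refine le_trans ?_ hX2
      rw [h2x] at h5
      have h7 : ((q : ℝ) + 2) * (e ^ α) ^ 2 * (e ^ (-α)) ^ 2 = (q : ℝ) + 2 := by
        have : ((q : ℝ) + 2) * (e ^ α) ^ 2 * (e ^ (-α)) ^ 2 =
            ((q : ℝ) + 2) * (e ^ (-α) * e ^ α) ^ 2 := by ring
        rw [this, hXe, one_pow, mul_one]
      have h8 := mul_le_mul_of_nonneg_right h5 (by positivity : 0 ≤ (e ^ (-α)) ^ 2)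
      rw [h7, one_mul] at h8
      exact h8
    have h7 : (2 : ℝ) ^ (r - n) ≤ n' := pow_le_pow_right₀ one_le_two (by omega)
    have h8 : ((q + 1 : ℕ) : ℝ) < ((2 ^ r / 2 ^ min j r : ℕ) : ℝ) := by
      rw [hn']
      push_cast
      linarith
    exact_mod_cast h8
  have hDθ : n' * e ^ α * (2 * Real.pi / ((2 ^ r / 2 ^ min j r : ℕ) : ℝ)) =
      2 * Real.pi * e ^ α := by
    rw [hn']
    field_simp
  have hs : 3 * (((q : ℝ) + 1) * (n' * e ^ α) *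
      (2 * Real.pi / (2 ^ r / 2 ^ min j r : ℕ))) ^ 2 ≤ 1 / 2 := by
    have h5 := k4 e he (hey1.trans a4)
    rw [h2x] at h5
    rw [mul_assoc ((q : ℝ) + 1), hDθ]
    have h8 : 3 * (((q : ℝ) + 1) * (2 * Real.pi * e ^ α)) ^ 2 =
        (6 * (((q : ℝ) + 1) * (2 * Real.pi)) ^ 2 * (e ^ α) ^ 2) / 2 := by ring
    rw [h8]
    linarith
  -- the tail
  have hqT : qTl (2 ^ r) (2 ^ min j r) b (tn n) (n' * e ^ α) ≤ lam n j ^ 4 := by
    have h3 : ∀ j' : ℕ, j' = j → ∀ [NeZero (2 ^ r / 2 ^ j')],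
        qTl (2 ^ r) (2 ^ j') b (tn n) D ≤ lam n j ^ 4 := by
      intro j' hj' _
      subst hj'
      exact hq6
    exact (qTl_anti hDD).trans (h3 _ hm)
  have hae : (e ^ α) ^ (2 * (q + 1)) = e ^ (2 * (((q : ℝ) + 1) * α)) := by
    rw [← Real.rpow_natCast, ← Real.rpow_mul he.le]
    congr 1
    push_cast
    ring
  have hδν : (((2 ^ r / 2 ^ min j r : ℕ) : ℝ) / (n' * e ^ α)) ^ (2 * (q + 1)) * lam n j ^ 4 ≤
      tn n * ((2 ^ min j r : ℕ) : ℝ) ^ 2 := by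
    rw [hn', hν]
    have h5 : n' / (n' * e ^ α) = (e ^ α)⁻¹ := by
      field_simp
    rw [h5, inv_pow, hae]
    have h6 : lam n j ^ 2 ≤ e ^ (2 * (((q : ℝ) + 1) * α)) := by
      calc lam n j ^ 2 ≤ (e ^ C1) ^ 2 := pow_le_pow_left₀ hl0.le hleC 2
        _ = e ^ (2 * C1) := by
            rw [← Real.rpow_natCast, ← Real.rpow_mul he.le]
            congr 1
            push_cast
            ring
        _ ≤ _ := Real.rpow_le_rpow_of_exponent_ge he he1 (by linarith)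
    have h7 : 0 < e ^ (2 * (((q : ℝ) + 1) * α)) := by positivity
    rw [inv_mul_le_iff₀ h7]
    have h8 : lam n j ^ 4 = lam n j ^ 2 * lam n j ^ 2 := by ring
    rw [h8]
    exact mul_le_mul_of_nonneg_right h6 (by positivity)
  have hN : Nf (acl (2 ^ r) (2 ^ min j r) b (tn n) (tn n)) :=
    nf_of_dom (H375.dom_acl hb hl hT le_rfl)
  have hyc : 0 < y ^ (2 + c) / 2 := by positivity
  refine (ext0w h hb.le hl hT hN hq2 hD1 (by rw [hn']; exact hDn) hqT hδν hs hyc).mono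
    fun τ hτ => hτ.trans ?_
  -- the error
  rw [hDθ, hν]
  have hR := H43.tt_R (H43.tt_of_tv hTV) he he1
  rw [← hc0] at hR
  set ρ := P.th + 4 * P.q0 * P.thp with hρd
  have hA : lam n j ^ 2 * (n' * e ^ α) ^ 2 ≤ c0 ^ 2 * (e ^ (-ρ)) ^ 2 * (e ^ α) ^ 2 := by
    have h5 : lam n j ^ 2 * (n' * e ^ α) ^ 2 = (2 ^ (r - n)) ^ 2 * (e ^ α) ^ 2 := by
      rw [← hnl]
      ring
    rw [h5, ← mul_pow c0]
    exact mul_le_mul_of_nonneg_right (pow_le_pow_left₀ (by positivity) hR 2) (by positivity)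
  have hC : (e ^ (-ρ)) ^ 2 * (e ^ α) ^ 2 * (e ^ α) ^ (2 * q) ≤ y ^ (18 / 5 : ℝ) := by
    have h5 : (e ^ (-ρ)) ^ 2 * (e ^ α) ^ 2 * (e ^ α) ^ (2 * q) =
        e ^ (2 * (((q : ℝ) + 1) * α - ρ)) := by
      rw [← Real.rpow_natCast, ← Real.rpow_natCast, ← Real.rpow_natCast, ← Real.rpow_mul he.le,
        ← Real.rpow_mul he.le, ← Real.rpow_mul he.le, ← Real.rpow_add he, ← Real.rpow_add he]
      congr 1
      push_cast
      ring
    rw [h5]
    calc e ^ (2 * (((q : ℝ) + 1) * α - ρ)) ≤ e ^ (2 : ℝ) :=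
          Real.rpow_le_rpow_of_exponent_ge he he1 (by linarith)
      _ ≤ (y ^ (9 / 5 : ℝ)) ^ (2 : ℝ) := Real.rpow_le_rpow he.le hey (by norm_num)
      _ = y ^ (18 / 5 : ℝ) := by
          rw [← Real.rpow_mul hy.le]
          norm_num
  set K := Lw q μ * CX q 3 with hK
  have hK0 : 0 ≤ K := by positivity
  have h10 : K * (lam n j ^ 2 * (n' * e ^ α) ^ 2) * (2 * Real.pi * e ^ α) ^ (2 * q) ≤
      K * c0 ^ 2 * (2 * Real.pi) ^ (2 * q) * y ^ (18 / 5 : ℝ) := by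
    calc K * (lam n j ^ 2 * (n' * e ^ α) ^ 2) * (2 * Real.pi * e ^ α) ^ (2 * q) ≤
          K * (c0 ^ 2 * (e ^ (-ρ)) ^ 2 * (e ^ α) ^ 2) * (2 * Real.pi * e ^ α) ^ (2 * q) := by
          gcongr
      _ = K * c0 ^ 2 * (2 * Real.pi) ^ (2 * q) *
          ((e ^ (-ρ)) ^ 2 * (e ^ α) ^ 2 * (e ^ α) ^ (2 * q)) := by
          rw [mul_pow (2 * Real.pi)]
          ring
      _ ≤ _ := mul_le_mul_of_nonneg_left hC (by positivity)
  have h11 : K * c0 ^ 2 * (2 * Real.pi) ^ (2 * q) * y ^ (18 / 5 : ℝ) ≤ y ^ (2 + c) / 2 := by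
    have h5 := k0 y hy a0
    have h6 : y ^ (18 / 5 : ℝ) = y ^ (13 / 10 : ℝ) * y ^ (23 / 10 : ℝ) := by
      rw [← Real.rpow_add hy]
      norm_num
    have h7 : y ^ (23 / 10 : ℝ) ≤ y ^ (2 + c) :=
      Real.rpow_le_rpow_of_exponent_ge hy hy1 (by linarith)
    have h8 : K * c0 ^ 2 * (2 * Real.pi) ^ (2 * q) * y ^ (13 / 10 : ℝ) ≤ 1 / 2 := by
      have : 0 ≤ y ^ (13 / 10 : ℝ) := by positivity
      linarith
    rw [h6, ← mul_assoc]
    have h9 : 0 ≤ y ^ (23 / 10 : ℝ) := by positivity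
    calc K * c0 ^ 2 * (2 * Real.pi) ^ (2 * q) * y ^ (13 / 10 : ℝ) * y ^ (23 / 10 : ℝ) ≤
          1 / 2 * y ^ (23 / 10 : ℝ) := mul_le_mul_of_nonneg_right h8 h9
      _ ≤ y ^ (2 + c) / 2 := by linarith
  linarith

/-- **the field `ext` on the big tori, tail `λ ^ 4`** -/
theorem ext_sd4 {P : Par} {q : ℕ} {μ : Fin (q + 1) → ℝ} (h : RW q μ)
    (hρ : P.th + 4 * P.q0 * P.thp ≤ 1 / 2)
    (hq : 1 + (P.th + 4 * P.q0 * P.thp) ≤ ((q : ℝ) + 1) * P.x1) {C1 : ℝ}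
    (hC1 : ((q : ℝ) + 1) * P.x1 ≤ C1) {A0 : ℝ} (hA0 : 0 < A0) : ∃ E : ℝ, 0 < E ∧ E ≤ 1 ∧
    ∀ (b : ℝ) (n j r D : ℕ) (e y c : ℝ), 0 < b → 0 < e → 0 < y → y ≤ E → e ≤ y ^ (9 / 5 : ℝ) →
      (e * y) ^ (9 / 8 * C1) ≤ lam n j → lam n j ≤ (e * y) ^ C1 → c ≤ 3 / 10 → TB P n e r →
      D * lam n j ≤ 2 * A0 * Lg n j →
      ∀ [NeZero (2 ^ r / 2 ^ j)], qTl (2 ^ r) (2 ^ j) b (tn n) D ≤ lam n j ^ 4 →
      ∀ᶠ τ in 𝓝[>] (0 : ℝ), |pS q μ (2 ^ r / 2 ^ min j r)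
        (xqk (2 ^ r) (2 ^ min j r) b (tn n) τ) - aq (2 ^ r) (2 ^ min j r) b (tn n)| ≤
          y ^ (2 + c) := by
  obtain ⟨E, hE, hE1, k⟩ := ext_al (P := P) h P.x10 hρ hq hC1 hA0
  refine ⟨E, hE, hE1, fun b n j r D e y c hb he hy hyE hey h1 h2 hc hTB hDl _ hq6 => ?_⟩
  refine k b n j r D e y c hb he hy hyE hey h1 h2 hc hTB.1 ?_ hDl hq6
  have hX : e ^ (-P.x1) ≤ (2 : ℝ) ^ P.xE e := H37.lg_lo he
  calc (e ^ (-P.x1)) ^ 2 ≤ ((2 : ℝ) ^ P.xE e) ^ 2 := pow_le_pow_left₀ (by positivity) hX 2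
    _ = (2 : ℝ) ^ (2 * P.xE e) := by rw [← pow_mul, mul_comm]
    _ ≤ _ := pow_le_pow_right₀ one_le_two (by have := hTB.2; omega)

/-- a number `q` of nodes, from `x₁` only -/
lemma exists_q {x1 ρ : ℝ} (hx : 0 < x1) (hx1 : x1 ≤ 1) (hρ : ρ ≤ 1 / 2) (hρ0 : 0 ≤ ρ) :
    ∃ q : ℕ, 1 ≤ q ∧ 1 + ρ ≤ ((q : ℝ) + 1) * x1 ∧ ((q : ℝ) + 1) * x1 ≤ 4 := by
  refine ⟨⌈(3 / 2) / x1⌉₊, ?_, ?_, ?_⟩
  · exact Nat.one_le_ceil_iff.2 (by positivity)
  · have h1 : (3 / 2) / x1 ≤ ⌈(3 / 2) / x1⌉₊ := Nat.le_ceil _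
    have h2 := mul_le_mul_of_nonneg_right h1 hx.le
    rw [div_mul_cancel₀ _ hx.ne'] at h2
    linarith
  · have h1 : (⌈(3 / 2) / x1⌉₊ : ℝ) ≤ (3 / 2) / x1 + 1 :=
      (Nat.ceil_lt_add_one (by positivity)).le
    have h2 := mul_le_mul_of_nonneg_right h1 hx.le
    rw [add_mul, div_mul_cancel₀ _ hx.ne'] at h2
    linarith

end

end Vale.Agent.P159.H813
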