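import Vale.Agent.P159.H813.Sq1
import Vale.Agent.P159.H730.Law

/-!
P159 (helper813): (STAR0), part 2: the channel law to second order, centred functionals:
`Ech Φ = E_g[Φ R] + O(η² + η p) E|Φ| + O(√(Ech Φ² p))` if `E_g Φ = 0`.
-/

namespace Vale.Agent.P159.H813

open Finset Matrix MeasureTheory
open Vale.Agent.P159.TM.H104 (EM Ex Cv K3 Lg li nh Gr)
open Vale.Agent.P159.H37
open Vale.Agent.P159.H730 (RL)

noncomputable section

set_option linter.unusedSectionVars false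

variable {V' : Type*} [Fintype V'] {I I' : Type*} [Fintype I] [Fintype I'] [DecidableEq I]
variable {μ' : (V' → ℤ) → ℝ} {P : Matrix I V' ℝ} {X : Matrix V' I' ℝ}

/-- integral of a product with the bad set in terms of the channel law -/
lemma bad_int (hX : RL μ' P X) {Gd : Set (V' → ℝ)} (hG : MeasurableSet Gd) {p : ℝ}
    (hp : Ech μ' 0 P (Gdᶜ.indicator fun _ => (1 : ℝ)) ≤ p) {Φ : (V' → ℝ) → ℝ} (hΦ : Measurable Φ)
    (hi : H663.ChI μ' 0 P Φ) (hi2 : H663.ChI μ' 0 P fun J => Φ J ^ 2) :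
    ∫ g, Gdᶜ.indicator (fun J => |Φ J|) (X *ᵥ g) * Real.exp (Rs (post μ' P) (X *ᵥ g)) ∂(gau I') ≤
      (∫ g, Real.exp (Rs (post μ' P) (X *ᵥ g)) ∂(gau I')) *
        Real.sqrt ((Ech μ' 0 P fun J => Φ J ^ 2) * p) := by
  have hm : Measurable fun J => |Φ J| := hΦ.abs
  have hia : H663.ChI μ' 0 P fun J => |Φ J| := by
    rw [hX.chi_iff hm]
    have h1 := ((hX.chi_iff hΦ).1 hi).abs
    refine h1.congr (Filter.Eventually.of_forall fun g => ?_)
    simp only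
    rw [abs_mul, abs_of_pos (Real.exp_pos _)]
  have e2 : (fun J => |Φ J| ^ 2) = fun J => Φ J ^ 2 := by
    funext J
    exact sq_abs _
  have hia2 : H663.ChI μ' 0 P fun J => |Φ J| ^ 2 := by
    rw [e2]; exact hi2
  have h := hX.bad_le hG.compl hp hm hia hia2
  rw [e2, hX.Ech_eq (hm.indicator hG.compl), div_le_iff₀ hX.pos] at h
  linarith

/-- `1 - 1/Z` from the good set -/
lemma one_sub_inv (hX : RL μ' P X) {Gd : Set (V' → ℝ)} (hG : MeasurableSet Gd) {η p : ℝ}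
    (hR : ∀ J ∈ Gd, Rs (post μ' P) J ≤ η) (hη : 0 ≤ η) (hp0 : 0 ≤ p) (hp1 : p ≤ 1 / 2)
    (hp : 1 - p ≤ Ech μ' 0 P (Gd.indicator fun _ => (1 : ℝ))) :
    1 - (∫ g, Real.exp (Rs (post μ' P) (X *ᵥ g)) ∂(gau I'))⁻¹ ≤ η + p := by
  have h1 := hX.norm_le hG hR hp
  have hZ := hX.pos
  set Z := ∫ g, Real.exp (Rs (post μ' P) (X *ᵥ g)) ∂(gau I') with hZd
  have h2 : (1 - p) * Real.exp (-η) ≤ Z⁻¹ := by
    rw [le_inv_comm₀ (mul_pos (by linarith) (Real.exp_pos _)) hZ, mul_inv, ← Real.exp_neg, neg_neg]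
    rw [inv_mul_eq_div, le_div_iff₀ (by linarith)]
    linarith
  have h3 := Real.add_one_le_exp (-η)
  have h4 : (1 - p) * (1 - η) ≤ (1 - p) * Real.exp (-η) :=
    mul_le_mul_of_nonneg_left (by linarith) (by linarith)
  nlinarith

/-- **the channel law to second order** -/
theorem law2 (hX : RL μ' P X) {Gd : Set (V' → ℝ)} (hG : MeasurableSet Gd) {η p : ℝ}
    (hR : ∀ J ∈ Gd, Rs (post μ' P) J ≤ η) (hη : 0 ≤ η) (hη1 : η ≤ 1) (hp0 : 0 ≤ p)
    (hp1 : p ≤ 1 / 2) (hp : Ech μ' 0 P (Gdᶜ.indicator fun _ => (1 : ℝ)) ≤ p)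
    {Φ : (V' → ℝ) → ℝ} (hΦ : Measurable Φ) (hi : H663.ChI μ' 0 P Φ)
    (hi2 : H663.ChI μ' 0 P fun J => Φ J ^ 2) (h0 : ∫ g, Φ (X *ᵥ g) ∂(gau I') = 0) :
    |Ech μ' 0 P Φ - ∫ g, Φ (X *ᵥ g) * Rs (post μ' P) (X *ᵥ g) ∂(gau I')| ≤
      (2 * η ^ 2 + η * p) * (∫ g, |Φ (X *ᵥ g)| ∂(gau I')) +
        7 * Real.sqrt ((Ech μ' 0 P fun J => Φ J ^ 2) * p) := by
  have hp' : 1 - p ≤ Ech μ' 0 P (Gd.indicator fun _ => (1 : ℝ)) := by
    have h1 := H730.split_good hX measurable_const (H730.chi_one hX) hG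
    rw [Ech_const hX.em] at h1
    linarith
  set R : (V' → ℝ) → ℝ := Rs (post μ' P) with hRd
  set Z := ∫ g, Real.exp (R (X *ᵥ g)) ∂(gau I') with hZd
  set κ := Real.sqrt ((Ech μ' 0 P fun J => Φ J ^ 2) * p) with hκ
  have hκ0 : 0 ≤ κ := Real.sqrt_nonneg _
  set m := ∫ g, |Φ (X *ᵥ g)| ∂(gau I') with hm
  have hm0 : 0 ≤ m := integral_nonneg fun g => abs_nonneg _
  have hZ1 : 1 ≤ Z := hX.one_le
  have hZ0 : 0 < Z := by linarith
  have hR0 : ∀ J, 0 ≤ R J := hX.k1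
  have mX : Measurable fun g : I' → ℝ => X *ᵥ g := H552.meas_mulVec X
  have mR : Measurable R := (H114.continuous_Rs (em_post hX.em P)).measurable
  -- integrability
  have i1 : Integrable (fun g => Φ (X *ᵥ g)) (gau I') := hX.chi_G hΦ hi
  have i2 : Integrable (fun g => Φ (X *ᵥ g) * Real.exp (R (X *ᵥ g))) (gau I') :=
    (hX.chi_iff hΦ).1 hi
  have hRe : ∀ J, R J ≤ Real.exp (R J) := fun J => by
    have := Real.add_one_le_exp (R J); linarith
  have i3 : Integrable (fun g => Φ (X *ᵥ g) * R (X *ᵥ g)) (gau I') := by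
    refine i2.mono ((hΦ.comp mX).mul (mR.comp mX)).aestronglyMeasurable
      (Filter.Eventually.of_forall fun g => ?_)
    rw [norm_mul, norm_mul]
    refine mul_le_mul_of_nonneg_left ?_ (norm_nonneg _)
    rw [Real.norm_eq_abs, Real.norm_eq_abs, abs_of_nonneg (hR0 _), abs_of_pos (Real.exp_pos _)]
    exact hRe _
  set Bd : (V' → ℝ) → ℝ := Gdᶜ.indicator (fun J => |Φ J|) with hBd
  have mB : Measurable Bd := hΦ.abs.indicator hG.compl
  have hB0 : ∀ J, 0 ≤ Bd J := fun J => Set.indicator_nonneg (fun _ _ => abs_nonneg _) J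
  have hBle : ∀ J, Bd J ≤ |Φ J| := fun J => Set.indicator_le_self' (fun _ _ => abs_nonneg _) J
  have i4 : Integrable (fun g => Bd (X *ᵥ g) * Real.exp (R (X *ᵥ g))) (gau I') := by
    refine i2.mono ((mB.comp mX).mul ((Real.measurable_exp.comp mR).comp mX)).aestronglyMeasurable
      (Filter.Eventually.of_forall fun g => ?_)
    rw [norm_mul, norm_mul]
    refine mul_le_mul_of_nonneg_right ?_ (norm_nonneg _)
    rw [Real.norm_eq_abs, Real.norm_eq_abs, abs_of_nonneg (hB0 _)]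
    exact hBle _
  have hbad : ∫ g, Bd (X *ᵥ g) * Real.exp (R (X *ᵥ g)) ∂(gau I') ≤ Z * κ :=
    bad_int hX hG hp hΦ hi hi2
  -- pointwise bounds
  have p1 : ∀ J, |Φ J * (Real.exp (R J) - 1 - R J)| ≤
      η ^ 2 * |Φ J| + Bd J * Real.exp (R J) := by
    intro J
    rw [abs_mul]
    have hr := hR0 J
    have h3 : 0 ≤ Real.exp (R J) - 1 - R J := by
      have := Real.add_one_le_exp (R J); linarith
    rw [abs_of_nonneg h3]
    by_cases hJ : J ∈ Gd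
    · have h4 : R J ≤ η := hR J hJ
      have h5 := (abs_le.1 (Real.abs_exp_sub_one_sub_id_le (x := R J)
        (by rw [abs_of_nonneg hr]; linarith))).2
      have h6 : R J ^ 2 ≤ η ^ 2 := pow_le_pow_left₀ hr h4 2
      have h7 := mul_nonneg (hB0 J) (Real.exp_pos (R J)).le
      have h8 := mul_le_mul_of_nonneg_left (h5.trans h6) (abs_nonneg (Φ J))
      linarith
    · have h4 : Bd J = |Φ J| := by
        rw [hBd, Set.indicator_of_mem (show J ∈ Gdᶜ from hJ)]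
      rw [h4]
      have h5 := mul_nonneg (sq_nonneg η) (abs_nonneg (Φ J))
      have h6 : |Φ J| * (Real.exp (R J) - 1 - R J) ≤ |Φ J| * Real.exp (R J) :=
        mul_le_mul_of_nonneg_left (by linarith) (abs_nonneg _)
      linarith
  have p2 : ∀ J, |Φ J * R J| ≤ η * |Φ J| + Bd J * Real.exp (R J) := by
    intro J
    rw [abs_mul, abs_of_nonneg (hR0 J)]
    have hr := hR0 J
    by_cases hJ : J ∈ Gd
    · have h4 : R J ≤ η := hR J hJ
      have h7 := mul_nonneg (hB0 J) (Real.exp_pos (R J)).le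
      have h8 := mul_le_mul_of_nonneg_left h4 (abs_nonneg (Φ J))
      linarith
    · have h4 : Bd J = |Φ J| := by
        rw [hBd, Set.indicator_of_mem (show J ∈ Gdᶜ from hJ)]
      rw [h4]
      have h5 := mul_nonneg hη (abs_nonneg (Φ J))
      have h6 : |Φ J| * R J ≤ |Φ J| * Real.exp (R J) :=
        mul_le_mul_of_nonneg_left (hRe J) (abs_nonneg _)
      linarith
  have i5 : Integrable (fun g => Φ (X *ᵥ g) * (Real.exp (R (X *ᵥ g)) - 1 - R (X *ᵥ g)))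
      (gau I') := by
    have h3 := (i2.sub i1).sub i3
    refine h3.congr (Filter.Eventually.of_forall fun g => ?_)
    simp only [Pi.sub_apply]
    ring
  have q1 : |∫ g, Φ (X *ᵥ g) * (Real.exp (R (X *ᵥ g)) - 1 - R (X *ᵥ g)) ∂(gau I')| ≤
      η ^ 2 * m + Z * κ := by
    refine (abs_integral_le_integral_abs).trans ?_
    have h1 : ∫ g, |Φ (X *ᵥ g) * (Real.exp (R (X *ᵥ g)) - 1 - R (X *ᵥ g))| ∂(gau I') ≤
        ∫ g, (η ^ 2 * |Φ (X *ᵥ g)| + Bd (X *ᵥ g) * Real.exp (R (X *ᵥ g))) ∂(gau I') :=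
      integral_mono i5.abs ((i1.abs.const_mul (η ^ 2)).add i4) fun g => p1 _
    rw [integral_add (i1.abs.const_mul (η ^ 2)) i4, integral_const_mul] at h1
    linarith
  have q2 : |∫ g, Φ (X *ᵥ g) * R (X *ᵥ g) ∂(gau I')| ≤ η * m + Z * κ := by
    refine (abs_integral_le_integral_abs).trans ?_
    have h1 : ∫ g, |Φ (X *ᵥ g) * R (X *ᵥ g)| ∂(gau I') ≤
        ∫ g, (η * |Φ (X *ᵥ g)| + Bd (X *ᵥ g) * Real.exp (R (X *ᵥ g))) ∂(gau I') :=
      integral_mono i3.abs ((i1.abs.const_mul η).add i4) fun g => p2 _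
    rw [integral_add (i1.abs.const_mul η) i4, integral_const_mul] at h1
    linarith
  -- the identity
  have e1 : Ech μ' 0 P Φ = Z⁻¹ * ((∫ g, Φ (X *ᵥ g) * R (X *ᵥ g) ∂(gau I')) +
      ∫ g, Φ (X *ᵥ g) * (Real.exp (R (X *ᵥ g)) - 1 - R (X *ᵥ g)) ∂(gau I')) := by
    rw [hX.Ech_eq hΦ, ← integral_add i3 i5]
    have e2 : ∫ g, (Φ (X *ᵥ g) * R (X *ᵥ g) +
        Φ (X *ᵥ g) * (Real.exp (R (X *ᵥ g)) - 1 - R (X *ᵥ g))) ∂(gau I') =
        ∫ g, Φ (X *ᵥ g) * Real.exp (R (X *ᵥ g)) ∂(gau I') := by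
      have e3 : (fun g => Φ (X *ᵥ g) * R (X *ᵥ g) +
          Φ (X *ᵥ g) * (Real.exp (R (X *ᵥ g)) - 1 - R (X *ᵥ g))) =
          fun g => Φ (X *ᵥ g) * Real.exp (R (X *ᵥ g)) - Φ (X *ᵥ g) := by
        funext g; ring
      rw [e3, integral_sub i2 i1, h0, sub_zero]
    rw [e2, div_eq_inv_mul]
  rw [e1]
  set A := ∫ g, Φ (X *ᵥ g) * R (X *ᵥ g) ∂(gau I') with hA
  set B := ∫ g, Φ (X *ᵥ g) * (Real.exp (R (X *ᵥ g)) - 1 - R (X *ᵥ g)) ∂(gau I') with hB
  have e4 : Z⁻¹ * (A + B) - A = Z⁻¹ * B + -((1 - Z⁻¹) * A) := by ring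
  rw [e4]
  have hinv := one_sub_inv hX hG hR hη hp0 hp1 hp'
  rw [← hRd, ← hZd] at hinv
  have hZi : Z⁻¹ ≤ 1 := inv_le_one_of_one_le₀ hZ1
  have hZi0 : 0 < Z⁻¹ := inv_pos.2 hZ0
  have hZ6 : Z ≤ 6 := by
    have h3 := hX.norm_le hG hR hp'
    have h4 : Real.exp η ≤ 3 := (Real.exp_le_exp.2 hη1).trans
      (Real.exp_one_lt_d9.le.trans (by norm_num))
    rw [← hRd, ← hZd] at h3
    nlinarith
  have r1 : |Z⁻¹ * B| ≤ η ^ 2 * m + κ := by
    rw [abs_mul, abs_of_pos hZi0]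
    have h3 := mul_le_mul_of_nonneg_left q1 hZi0.le
    have h4 : Z⁻¹ * (η ^ 2 * m + Z * κ) = Z⁻¹ * (η ^ 2 * m) + κ := by
      field_simp
    have h5 : Z⁻¹ * (η ^ 2 * m) ≤ η ^ 2 * m :=
      mul_le_of_le_one_left (mul_nonneg (sq_nonneg _) hm0) hZi
    linarith
  have r2 : |-((1 - Z⁻¹) * A)| ≤ (η + p) * (η * m) + 5 * κ := by
    rw [abs_neg, abs_mul, abs_of_nonneg (by linarith)]
    have h3 := mul_le_mul_of_nonneg_left q2 (by linarith : 0 ≤ 1 - Z⁻¹)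
    have h4 : (1 - Z⁻¹) * (η * m + Z * κ) = (1 - Z⁻¹) * (η * m) + (Z - 1) * κ := by
      field_simp
    have h5 : (1 - Z⁻¹) * (η * m) ≤ (η + p) * (η * m) :=
      mul_le_mul_of_nonneg_right hinv (mul_nonneg hη hm0)
    have h6 : (Z - 1) * κ ≤ 5 * κ := mul_le_mul_of_nonneg_right (by linarith) hκ0
    linarith
  refine (abs_add_le _ _).trans ((add_le_add r1 r2).trans ?_)
  nlinarith

end

end Vale.Agent.P159.H813
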