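import Vale.Agent.P159.H813.Sq2
import Vale.Agent.P159.H663.Tail
import Vale.Agent.P159.H963.NeuI

/-!
P159 (helper813): (STAR0), part 3: moments.
* `int_hk`, `int_hk_sq`, `int_hk_abs` : `E h_k = 0`, `E h_k² ≤ 4`, `E |h_k| ≤ 2`;
* `Ech_sq0`, `Ech_four0` : second and fourth moment of a linear functional of the source at zero source.
-/

namespace Vale.Agent.P159.H813

open Finset MeasureTheory Matrix
open Vale.Agent.P159.TM.H104 (EM Ex Cv K3 Lg li nh Gr)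
open Vale.Agent.P159.H37
open Vale.Agent.P159.TM.Spec (V)
open Vale.Agent.P159.TM.H764 (EE cN sN dt Gh)
open Vale.Agent.P159.H864 (TI sym)
open Vale.Agent.P159.H462 (hk mh)
open Vale.Agent.P159.H708 (DirD stein2 egr_integrable)
open Vale.Agent.P159.H663 (ChI)
open scoped Real

noncomputable section

set_option linter.unusedSectionVars false

section gen

variable {I : Type*} [Fintype I]

lemma egr_h2 (v : I → ℝ) : EGr fun g : I → ℝ => (∑ i, v i * g i) ^ 2 - ∑ i, v i ^ 2 := by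
  have h1 : EGr fun g : I → ℝ => ∑ i, v i * g i := egr_lin1 v
  have h3 := (h1.mul h1).sub (EGr.const (∑ i, v i ^ 2))
  simpa only [pow_two] using h3

lemma dird_lin (v : I → ℝ) (c : ℝ) :
    DirD (fun g : I → ℝ => c * ∑ i, v i * g i) (fun _ => c * ∑ i, v i ^ 2) v := by
  intro g
  simp only [dot_line]
  have h1 : HasDerivAt (fun s : ℝ => ∑ i, v i * g i + s * ∑ i, v i * v i) (∑ i, v i * v i) 0 := by
    simpa using ((hasDerivAt_id (0 : ℝ)).mul_const (∑ i, v i * v i)).const_add (∑ i, v i * g i)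
  refine (h1.const_mul c).congr_deriv ?_
  simp only [pow_two]

lemma dird_h2 (v : I → ℝ) :
    DirD (fun g : I → ℝ => (∑ i, v i * g i) ^ 2 - ∑ i, v i ^ 2)
      (fun g => (2 * ∑ i, v i ^ 2) * ∑ i, v i * g i) v := by
  intro g
  simp only [dot_line]
  have h1 : HasDerivAt (fun s : ℝ => ∑ i, v i * g i + s * ∑ i, v i * v i) (∑ i, v i * v i) 0 := by
    simpa using ((hasDerivAt_id (0 : ℝ)).mul_const (∑ i, v i * v i)).const_add (∑ i, v i * g i)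
  refine ((h1.pow 2).sub_const _).congr_deriv ?_
  simp only [pow_two, zero_mul, add_zero]
  norm_num
  ring

/-- the second Hermite polynomial: second moment -/
lemma int_h2_sq (v : I → ℝ) :
    ∫ g, ((∑ i, v i * g i) ^ 2 - ∑ i, v i ^ 2) ^ 2 ∂(gau I) = 2 * (∑ i, v i ^ 2) ^ 2 := by
  have h := stein2 (egr_h2 v) ((egr_lin1 v).cmul (2 * ∑ i, v i ^ 2))
    (EGr.const ((2 * ∑ i, v i ^ 2) * ∑ i, v i ^ 2)) v (dird_h2 v) (dird_lin v _)
  simp only [pow_two] at h ⊢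
  rw [h]
  simp only [integral_const, probReal_univ, one_smul]
  ring

lemma int_h2_zero (v : I → ℝ) :
    ∫ g, ((∑ i, v i * g i) ^ 2 - ∑ i, v i ^ 2) ∂(gau I) = 0 := by
  have h := int_h2_cos (fun _ => 0) v
  simpa using h

lemma int_h2_i (v : I → ℝ) :
    Integrable (fun g : I → ℝ => (∑ i, v i * g i) ^ 2 - ∑ i, v i ^ 2) (gau I) :=
  egr_integrable (egr_h2 v)

lemma int_h2_sq_i (v : I → ℝ) :
    Integrable (fun g : I → ℝ => ((∑ i, v i * g i) ^ 2 - ∑ i, v i ^ 2) ^ 2) (gau I) := by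
  have h := egr_integrable ((egr_h2 v).mul (egr_h2 v))
  simpa only [pow_two] using h

end gen

section tor

variable {n : ℕ} [NeZero n]

lemma egr_hk (k : V n) : EGr (hk k) := by
  have h := ((egr_h2 fun x : V n => cN (dt k x)).add (egr_h2 fun x => sN (dt k x))).cmul
    (((n : ℝ) ^ 2)⁻¹)
  have e : (hk k : (V n → ℝ) → ℝ) = fun g => ((n : ℝ) ^ 2)⁻¹ *
    (((∑ x, cN (dt k x) * g x) ^ 2 - ∑ x, cN (dt k x) ^ 2) +
      ((∑ x, sN (dt k x) * g x) ^ 2 - ∑ x, sN (dt k x) ^ 2)) := funext (hk_eq k)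
  rw [e]
  exact h

lemma int_hk_i (k : V n) : Integrable (hk k) (gau (V n)) := egr_integrable (egr_hk k)

lemma int_hk_sq_i (k : V n) : Integrable (fun g => hk k g ^ 2) (gau (V n)) := by
  have h := egr_integrable ((egr_hk k).mul (egr_hk k))
  simpa only [pow_two] using h

/-- `E h_k = 0` -/
theorem int_hk (k : V n) : ∫ g, hk k g ∂(gau (V n)) = 0 := by
  simp only [hk_eq]
  rw [integral_const_mul, integral_add (int_h2_i _) (int_h2_i _), int_h2_zero, int_h2_zero]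
  ring

/-- `E h_k² ≤ 4` -/
theorem int_hk_sq (k : V n) : ∫ g, hk k g ^ 2 ∂(gau (V n)) ≤ 4 := by
  have hn : (0 : ℝ) < (n : ℝ) ^ 2 := H864.N_pos
  have h1 : ∀ g : V n → ℝ, hk k g ^ 2 ≤ 2 * (((n : ℝ) ^ 2)⁻¹) ^ 2 *
      (((∑ x, cN (dt k x) * g x) ^ 2 - ∑ x, cN (dt k x) ^ 2) ^ 2 +
        ((∑ x, sN (dt k x) * g x) ^ 2 - ∑ x, sN (dt k x) ^ 2) ^ 2) := by
    intro g
    rw [hk_eq, mul_pow]
    have h2 := sq_nonneg (((∑ x, cN (dt k x) * g x) ^ 2 - ∑ x, cN (dt k x) ^ 2) -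
      ((∑ x, sN (dt k x) * g x) ^ 2 - ∑ x, sN (dt k x) ^ 2))
    have h3 : (0 : ℝ) ≤ (((n : ℝ) ^ 2)⁻¹) ^ 2 := sq_nonneg _
    nlinarith
  have i1 := int_h2_sq_i (I := V n) fun x => cN (dt k x)
  have i2 := int_h2_sq_i (I := V n) fun x => sN (dt k x)
  refine (integral_mono (int_hk_sq_i k) ((i1.add i2).const_mul _) h1).trans ?_
  rw [integral_const_mul]
  have e : ∫ g : V n → ℝ, (((∑ x, cN (dt k x) * g x) ^ 2 - ∑ x, cN (dt k x) ^ 2) ^ 2 +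
        ((∑ x, sN (dt k x) * g x) ^ 2 - ∑ x, sN (dt k x) ^ 2) ^ 2) ∂(gau (V n)) =
      2 * (∑ x, cN (dt k x) ^ 2) ^ 2 + 2 * (∑ x, sN (dt k x) ^ 2) ^ 2 := by
    rw [integral_add i1 i2, int_h2_sq, int_h2_sq]
  simp only [Pi.add_apply]
  rw [e]
  have h4 := sum_cs_sq k
  have a0 : 0 ≤ ∑ x : V n, cN (dt k x) ^ 2 := sum_nonneg fun _ _ => sq_nonneg _
  have b0 : 0 ≤ ∑ x : V n, sN (dt k x) ^ 2 := sum_nonneg fun _ _ => sq_nonneg _
  set a := ∑ x : V n, cN (dt k x) ^ 2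
  set b := ∑ x : V n, sN (dt k x) ^ 2
  have h5 : 2 * a ^ 2 + 2 * b ^ 2 ≤ 2 * ((n : ℝ) ^ 2) ^ 2 := by
    rw [← h4]
    nlinarith [mul_nonneg a0 b0]
  have h6 : (((n : ℝ) ^ 2)⁻¹) ^ 2 * ((n : ℝ) ^ 2) ^ 2 = 1 := by
    rw [← mul_pow, inv_mul_cancel₀ hn.ne', one_pow]
  have h7 : 2 * (((n : ℝ) ^ 2)⁻¹) ^ 2 * (2 * a ^ 2 + 2 * b ^ 2) ≤
      2 * (((n : ℝ) ^ 2)⁻¹) ^ 2 * (2 * ((n : ℝ) ^ 2) ^ 2) :=
    mul_le_mul_of_nonneg_left h5 (by positivity)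
  calc _ ≤ _ := h7
    _ = 4 * ((((n : ℝ) ^ 2)⁻¹) ^ 2 * ((n : ℝ) ^ 2) ^ 2) := by ring
    _ = 4 := by rw [h6, mul_one]

/-- `E |h_k| ≤ 2` -/
theorem int_hk_abs (k : V n) : ∫ g, |hk k g| ∂(gau (V n)) ≤ 2 := by
  have h1 : ∀ g : V n → ℝ, |hk k g| ≤ 1 + hk k g ^ 2 / 4 := by
    intro g
    have h2 := sq_nonneg (|hk k g| / 2 - 1)
    have h3 := sq_abs (hk k g)
    nlinarith
  have i1 : Integrable (fun g : V n → ℝ => (1 : ℝ) + hk k g ^ 2 / 4) (gau (V n)) :=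
    (integrable_const _).add ((int_hk_sq_i k).div_const 4)
  refine (integral_mono (int_hk_i k).abs i1 h1).trans ?_
  rw [integral_add (integrable_const _) ((int_hk_sq_i k).div_const 4), integral_div]
  have h4 := int_hk_sq k
  simp only [integral_const, probReal_univ, one_smul]
  linarith

end tor

/-! ### linear functionals of the source at zero source -/

section ch

variable {V' : Type*} [Fintype V'] {I : Type*} [Fintype I] {μ' : (V' → ℤ) → ℝ}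

/-- second moment of a linear functional of the source -/
theorem Ech_sq0 (hμ : EM μ') (hE : Ev μ') (P : Matrix I V' ℝ) (v : V' → ℝ) :
    Ech μ' 0 P (fun J => (v ⬝ᵥ J) ^ 2) =
      qf (Gm μ') (Pᵀ *ᵥ (P *ᵥ v)) + qf (Pᵀ * P) v := by
  have e0 : (fun J : V' → ℝ => (v ⬝ᵥ J) ^ 2) = fun J => (v ⬝ᵥ J) * (v ⬝ᵥ J) := by
    funext J; ring
  rw [e0, Ech_eq hμ 0 P ((H663.EGr.dot v).mul (H663.EGr.dot v))]
  simp only [H663.int_dot_mul_obs]
  simp only [dotProduct_zero, zero_add]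
  set u := Pᵀ *ᵥ (P *ᵥ v) with hu
  have e1 : Ex μ' 0 (fun h => li u h * li u h + bf (Pᵀ * P) v v) =
      Ex μ' 0 (fun h => li u h * li u h) + bf (Pᵀ * P) v v := by
    rw [TM.H104.Ex_add hμ ((Gr.li u).mul (Gr.li u)) (Gr.const _), TM.H104.Ex_const hμ]
  rw [e1]
  have h1 : qf (Gm μ') u = Cv μ' 0 (li u) (li u) := H114.bf_Cm hμ 0 u u
  have h2 := H663.Ex_li_zero hE u
  rw [h1]
  unfold Cv
  rw [h2]
  have h3 : bf (Pᵀ * P) v v = qf (Pᵀ * P) v := rfl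
  rw [h3]
  ring

/-- fourth moment of a linear functional of the source -/
theorem Ech_four0 (hμ : EM μ') (P : Matrix I V' ℝ) (v : V' → ℝ) {h sig : ℝ} (hs0 : 0 < sig)
    (hh : ∀ s : ℝ, Lg μ' (s • (Pᵀ *ᵥ (P *ᵥ v))) - Lg μ' 0 ≤ s ^ 2 * h / 2)
    (hsig : qf (Pᵀ * P) v + h ≤ sig) :
    Ech μ' 0 P (fun J => (v ⬝ᵥ J) ^ 4) ≤ 80 * sig ^ 2 := by
  set s : ℝ := 1 / Real.sqrt sig with hsd
  have hsq : Real.sqrt sig ^ 2 = sig := Real.sq_sqrt hs0.le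
  have hsp : 0 < Real.sqrt sig := Real.sqrt_pos.2 hs0
  have gexp : ∀ c : ℝ, EGr fun J : V' → ℝ => Real.exp (c * (v ⬝ᵥ J)) := by
    intro c
    have h1 := H663.EGr.exp_dot (c • v)
    have e : (fun J : V' → ℝ => Real.exp ((c • v) ⬝ᵥ J)) = fun J => Real.exp (c * (v ⬝ᵥ J)) := by
      funext J
      rw [smul_dotProduct, smul_eq_mul]
    rwa [e] at h1
  have g4 : EGr fun J : V' → ℝ => (v ⬝ᵥ J) ^ 4 := by
    have h1 : EGr fun J : V' → ℝ => v ⬝ᵥ J := H663.EGr.dot v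
    have h2 := (h1.mul h1).mul (h1.mul h1)
    have e : (fun J : V' → ℝ => (v ⬝ᵥ J) * (v ⬝ᵥ J) * ((v ⬝ᵥ J) * (v ⬝ᵥ J))) =
        fun J => (v ⬝ᵥ J) ^ 4 := by
      funext J
      ring
    rwa [e] at h2
  have hexp : ∀ c : ℝ, Ech μ' 0 P (fun J => Real.exp (c * (v ⬝ᵥ J))) ≤
      Real.exp (c ^ 2 * sig / 2) := by
    intro c
    have e1 : (fun J : V' → ℝ => Real.exp (c * (v ⬝ᵥ J))) =
        fun J => Real.exp ((c • v) ⬝ᵥ J) := by
      funext J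
      rw [smul_dotProduct, smul_eq_mul]
    rw [e1, H663.Ech_exp hμ, ← Real.exp_add]
    refine Real.exp_le_exp.2 ?_
    have e2 : Pᵀ *ᵥ (P *ᵥ (c • v)) = c • (Pᵀ *ᵥ (P *ᵥ v)) := by
      rw [mulVec_smul, mulVec_smul]
    rw [e2, qf_smul, dotProduct_zero, zero_add, zero_add]
    have h1 := hh c
    have h2 := mul_le_mul_of_nonneg_left hsig (sq_nonneg c)
    linarith
  have hle : ∀ J : V' → ℝ, (v ⬝ᵥ J) ^ 4 ≤
      24 * sig ^ 2 * (Real.exp (s * (v ⬝ᵥ J)) + Real.exp (-s * (v ⬝ᵥ J))) := by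
    intro J
    have h1 := H663.four_le (s * (v ⬝ᵥ J))
    have h2 : (s * (v ⬝ᵥ J)) ^ 4 * sig ^ 2 = (v ⬝ᵥ J) ^ 4 := by
      have : s ^ 4 * sig ^ 2 = 1 := by
        rw [hsd]
        have h3 : (1 / Real.sqrt sig) ^ 4 = 1 / (Real.sqrt sig ^ 2) ^ 2 := by
          field_simp
        rw [h3, hsq]
        field_simp
      calc (s * (v ⬝ᵥ J)) ^ 4 * sig ^ 2 = (s ^ 4 * sig ^ 2) * (v ⬝ᵥ J) ^ 4 := by ring
        _ = _ := by rw [this, one_mul]
    have h4 := mul_le_mul_of_nonneg_right h1 (sq_nonneg sig)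
    rw [h2] at h4
    have e : -(s * (v ⬝ᵥ J)) = -s * (v ⬝ᵥ J) := by ring
    rw [e] at h4
    linarith
  refine (Ech_mono hμ 0 P g4 (((gexp s).add (gexp (-s))).cmul _) hle).trans ?_
  rw [Ech_cmul, Ech_add hμ 0 P (gexp s) (gexp (-s))]
  have h6 := hexp s
  have h7 := hexp (-s)
  have h8 : s ^ 2 * sig = 1 := by
    rw [hsd]
    have : (1 / Real.sqrt sig) ^ 2 = 1 / (Real.sqrt sig ^ 2) := by
      field_simp
    rw [this, hsq]
    field_simp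
  have h9 : (-s) ^ 2 * sig = 1 := by
    rw [neg_sq, h8]
  rw [h8] at h6
  rw [h9] at h7
  have h10 := H663.exp_half_lt
  nlinarith [sq_nonneg sig]

end ch

end

end Vale.Agent.P159.H813
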