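import Vale.Agent.P159.H813.Sq3
import Vale.Agent.P159.H896.TypI

/-!
P159 (helper813): (STAR0), part 4: the functional of the source of the neutral cell channel whose value
at the source of a typical field is `h_k(g)`; its exact mean and a bound of its second moment.
-/

namespace Vale.Agent.P159.H813

open Finset MeasureTheory Matrix
open Vale.Agent.P159.TM.H104 (EM Ex Cv K3 Lg li nh Gr)
open Vale.Agent.P159.H37
open Vale.Agent.P159.TM.Spec (V)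
open Vale.Agent.P159.TM.SpecC (Tor wT)
open Vale.Agent.P159.TM.H764 (EE cN sN dt Gh)
open Vale.Agent.P159.H864 (TI sym MC cobV)
open Vale.Agent.P159.H462 (hk mh)
open Vale.Agent.P159.H363 (Nf acl ti_acl)
open Vale.Agent.P159.H896 (srcF srcM pinK kap)
open Vale.Agent.P159.H963 (Pn Gnc nM nMC obsN ntr Neu gw_wT mf_MC)
open Vale.Agent.P159.H663 (ChI)
open scoped Real

noncomputable section

set_option linter.unusedSectionVars false

variable {N l : ℕ} [NeZero N] [NeZero (N / l)] {b T τ : ℝ}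

/-- test vector of the source -/
def tv (N l : ℕ) [NeZero N] [NeZero (N / l)] (T : ℝ) (φ : V (N / l) → ℝ) : V N → ℝ :=
  (T * l)⁻¹ • ((cobV N l)ᵀ *ᵥ φ)

lemma obs_tv (hl : l ∣ N) (T q : ℝ) {φ : V (N / l) → ℝ} (hφ : Neu φ) :
    obsN N l q *ᵥ tv N l T φ = (Real.sqrt q * (T * l)⁻¹) • φ := by
  unfold tv H963.obsN
  rw [mulVec_smul, smul_mulVec, ← mulVec_mulVec, mulVec_mulVec φ (cobV N l), H864.cobV_mul_tr hl,
    one_mulVec, H963.Pn_of_neu hφ, smul_smul, mul_comm]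

lemma obs_tr (q c : ℝ) {φ : V (N / l) → ℝ} (hφ : Neu φ) :
    (obsN N l q)ᵀ *ᵥ (c • φ) = (c * Real.sqrt q) • ((cobV N l)ᵀ *ᵥ φ) := by
  unfold H963.obsN
  rw [transpose_smul, transpose_mul, H963.Pn_transpose, mulVec_smul, smul_mulVec, ← mulVec_mulVec,
    H963.Pn_of_neu hφ, smul_smul]

lemma obs_obs_tv (hl : l ∣ N) (T : ℝ) {q : ℝ} (hq : 0 ≤ q) {φ : V (N / l) → ℝ} (hφ : Neu φ) :
    (obsN N l q)ᵀ *ᵥ (obsN N l q *ᵥ tv N l T φ) = (q * (T * l)⁻¹) • ((cobV N l)ᵀ *ᵥ φ) := by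
  rw [obs_tv hl T q hφ, obs_tr q _ hφ]
  congr 1
  have := Real.mul_self_sqrt hq
  calc Real.sqrt q * (T * l)⁻¹ * Real.sqrt q = Real.sqrt q * Real.sqrt q * (T * l)⁻¹ := by ring
    _ = _ := by rw [this]

lemma qf_obs_tv (hl : l ∣ N) (T : ℝ) {q : ℝ} (hq : 0 ≤ q) {φ : V (N / l) → ℝ} (hφ : Neu φ) :
    qf ((obsN N l q)ᵀ * obsN N l q) (tv N l T φ) = q * ((T * l)⁻¹) ^ 2 * ∑ x, φ x ^ 2 := by
  rw [qf_gram, obs_tv hl T q hφ]
  simp only [Pi.smul_apply, smul_eq_mul]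
  rw [mul_sum]
  refine sum_congr rfl fun x _ => ?_
  have := Real.sq_sqrt hq
  rw [mul_pow, mul_pow, this]

/-- second moment of the test functional -/
theorem Ech_tv (hb : 0 ≤ b) (hl : l ∣ N) (hτ : 0 < τ) (h : τ ≤ T) {φ : V (N / l) → ℝ}
    (hφ : Neu φ) :
    Ech (nMC N l b T τ 0) 0 (obsN N l (T - τ)) (fun J => (tv N l T φ ⬝ᵥ J) ^ 2) =
      ((T * l)⁻¹) ^ 2 * ((T - τ) ^ 2 * qf (Gnc N l b T τ) φ + (T - τ) * ∑ x, φ x ^ 2) := by
  rw [Ech_sq0 (H963.em_nMC hb hl hτ h 0) (H963.ev_nMC hb T τ 0),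
    obs_obs_tv hl T (sub_nonneg.2 h) hφ, qf_obs_tv hl T (sub_nonneg.2 h) hφ, qf_smul,
    ← H963.qf_Gnc_neu hl b T τ hφ]
  ring

/-- fourth moment of the test functional -/
theorem Ech_tv4 (hb : 0 ≤ b) (hl : l ∣ N) (hτ : 0 < τ) (h : τ < T) {φ : V (N / l) → ℝ}
    (hφ : Neu φ) {S : ℝ} (hS0 : 0 < S) (hS : ∑ x, φ x ^ 2 ≤ S) :
    Ech (nMC N l b T τ 0) 0 (obsN N l (T - τ)) (fun J => (tv N l T φ ⬝ᵥ J) ^ 4) ≤
      80 * (((T * l)⁻¹) ^ 2 * (T * (T - τ) / τ) * S) ^ 2 := by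
  have hT : 0 < T := hτ.trans h
  have hq : 0 < T - τ := sub_pos.2 h
  have hlp : (0 : ℝ) < l := by exact_mod_cast H864.l_pos hl
  have hsum0 : 0 ≤ ∑ x, φ x ^ 2 := sum_nonneg fun _ _ => sq_nonneg _
  refine Ech_four0 (H963.em_nMC hb hl hτ h.le 0) _ _
    (h := ((T - τ) * (T * l)⁻¹) ^ 2 * (τ⁻¹ * ∑ x, φ x ^ 2)) (by positivity) (fun s => ?_) ?_
  · rw [obs_obs_tv hl T hq.le hφ, smul_smul]
    have hn : Neu ((cobV N l)ᵀ *ᵥ φ) := H963.neu_cobV_tr hl hφ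
    have h1 := (gw_wT (N := N) hb).Lg_nM_le_inv (mf_MC hl hτ h.le) (0 : V N)
      (hn.smul (s * ((T - τ) * (T * l)⁻¹)))
    have h2 : qf (MC N l T τ)⁻¹ ((cobV N l)ᵀ *ᵥ φ) = τ⁻¹ * ∑ c, φ c ^ 2 := by
      rw [H864.MC_inv hl (hτ.trans h).ne' hτ.ne', qf_eq, H864.MC_mulVec_tr hl, dotProduct_smul,
        smul_eq_mul, ← H864.sq_cobV_tr hl φ]
      congr 1
      simp only [dotProduct]
      exact Finset.sum_congr rfl fun x _ => by ring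
    rw [qf_smul, h2] at h1
    refine h1.trans (le_of_eq ?_)
    ring
  · rw [qf_obs_tv hl T hq.le hφ]
    have e : (T - τ) * ((T * l)⁻¹) ^ 2 * ∑ x, φ x ^ 2 +
        ((T - τ) * (T * l)⁻¹) ^ 2 * (τ⁻¹ * ∑ x, φ x ^ 2) =
        ((T * l)⁻¹) ^ 2 * (T * (T - τ) / τ) * ∑ x, φ x ^ 2 := by
      field_simp
      ring
    rw [e]
    exact mul_le_mul_of_nonneg_left hS (by positivity)

/-- the functional of the source -/
def Fk (N l : ℕ) [NeZero N] [NeZero (N / l)] (b T τ : ℝ) (k : V (N / l)) (J : V N → ℝ) : ℝ :=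
  (sym (acl N l b T T) k + kap l T τ) * ((((N / l : ℕ) : ℝ) ^ 2)⁻¹ *
    ((tv N l T (fun x => cN (dt k x)) ⬝ᵥ J) ^ 2 + (tv N l T (fun x => sN (dt k x)) ⬝ᵥ J) ^ 2)) - 1

lemma egr_Fk (k : V (N / l)) : EGr (Fk N l b T τ k) := by
  have h1 := (H663.EGr.dot (tv N l T fun x : V (N / l) => cN (dt k x))).mul
    (H663.EGr.dot (tv N l T fun x : V (N / l) => cN (dt k x)))
  have h2 := (H663.EGr.dot (tv N l T fun x : V (N / l) => sN (dt k x))).mul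
    (H663.EGr.dot (tv N l T fun x : V (N / l) => sN (dt k x)))
  have h3 := (((h1.add h2).cmul ((((N / l : ℕ) : ℝ) ^ 2)⁻¹)).cmul
    (sym (acl N l b T T) k + kap l T τ)).sub (EGr.const 1)
  simp only [← pow_two] at h3
  exact h3

/-- dot product with the source of a field -/
lemma tv_src (hl : l ∣ N) (hT : T ≠ 0) {φ : V (N / l) → ℝ} (hφ : Neu φ) (F : V (N / l) → ℝ) :
    tv N l T φ ⬝ᵥ (srcM N l T *ᵥ F) = φ ⬝ᵥ F := by
  have hlp : (l : ℝ) ≠ 0 := by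
    have : (0 : ℝ) < l := by exact_mod_cast H864.l_pos hl
    exact this.ne'
  unfold tv H896.srcM
  rw [smul_mulVec, smul_dotProduct, dotProduct_smul, smul_smul, smul_eq_mul,
    inv_mul_cancel₀ (mul_ne_zero hT hlp), one_mul, ← mulVec_mulVec, dotProduct_mulVec,
    vecMul_transpose, mulVec_mulVec, H864.cobV_mul_tr hl, one_mulVec, dotProduct_mulVec,
    ← mulVec_transpose, H963.Pn_transpose, H963.Pn_of_neu hφ]

lemma dot_mulVec_c {n : ℕ} [NeZero n] {B : Matrix (V n) (V n) ℝ} (hB : TI B) (k : V n)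
    (g : V n → ℝ) : (fun x => cN (dt k x)) ⬝ᵥ (B *ᵥ g) = sym B k * ∑ x, cN (dt k x) * g x := by
  rw [dotProduct_mulVec, ← mulVec_transpose, hB.transpose, hB.mulVec_cN, smul_dotProduct,
    smul_eq_mul]
  rfl

lemma dot_mulVec_s {n : ℕ} [NeZero n] {B : Matrix (V n) (V n) ℝ} (hB : TI B) (k : V n)
    (g : V n → ℝ) : (fun x => sN (dt k x)) ⬝ᵥ (B *ᵥ g) = sym B k * ∑ x, sN (dt k x) * g x := by
  rw [dotProduct_mulVec, ← mulVec_transpose, hB.transpose, hB.mulVec_sN, smul_dotProduct,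
    smul_eq_mul]
  rfl

/-- **the value at the source of a typical field** -/
theorem Fk_src (hl : l ∣ N) (hτ : 0 < τ) (h : τ < T) (hA : Nf (acl N l b T T)) {k : V (N / l)}
    (hk : k ≠ 0) (g : V (N / l) → ℝ) :
    Fk N l b T τ k ((srcM N l T * pinK (acl N l b T T) (kap l T τ)) *ᵥ g) = H462.hk k g := by
  have hT : 0 < T := hτ.trans h
  have hn : ((N / l : ℕ) : ℝ) ^ 2 ≠ 0 := H864.N_pos.ne'
  have tp : TI (pinK (acl N l b T T) (kap l T τ)) := H363.ti_pin _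
  have hκ := H896.kap_pos hl hτ h
  have hs := H896.sym_pinK hA (kap l T τ) k
  rw [if_neg hk] at hs
  have hpos := hA.pos k hk
  have hsq : sym (pinK (acl N l b T T) (kap l T τ)) k ^ 2 =
      (sym (acl N l b T T) k + kap l T τ)⁻¹ := by
    rw [hs, Real.sq_sqrt (by positivity)]
  unfold Fk
  rw [← mulVec_mulVec, tv_src hl hT.ne' (H963.neu_cN hk), tv_src hl hT.ne' (H963.neu_sN k),
    dot_mulVec_c tp, dot_mulVec_s tp, mul_pow, mul_pow, hsq, hk_eq]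
  have h1 := sum_cs_sq k
  have h2 : (sym (acl N l b T T) k + kap l T τ) ≠ 0 := by positivity
  have e : ((∑ x, cN (dt k x) * g x) ^ 2 - ∑ x, cN (dt k x) ^ 2 +
      ((∑ x, sN (dt k x) * g x) ^ 2 - ∑ x, sN (dt k x) ^ 2)) =
      (∑ x, cN (dt k x) * g x) ^ 2 + (∑ x, sN (dt k x) * g x) ^ 2 - ((N / l : ℕ) : ℝ) ^ 2 := by
    rw [← h1]; ring
  rw [e]
  generalize (∑ x, cN (dt k x) * g x) ^ 2 = X
  generalize (∑ x, sN (dt k x) * g x) ^ 2 = Y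
  rw [mul_sub, inv_mul_cancel₀ hn]
  generalize (((N / l : ℕ) : ℝ) ^ 2)⁻¹ = c
  rw [← mul_add, mul_left_comm c, mul_inv_cancel_left₀ h2]

/-- the relative error of the self energies -/
def rho (N l : ℕ) [NeZero N] [NeZero (N / l)] (b T τ : ℝ) (k : V (N / l)) : ℝ :=
  (sym (acl N l b T T) k + kap l T τ) * (((T * l)⁻¹) ^ 2 *
    ((T - τ) ^ 2 * sym (Gnc N l b T τ) k + (T - τ))) - 1

/-- **the exact mean** -/
theorem Ech_Fk (hb : 0 ≤ b) (hl : l ∣ N) (hτ : 0 < τ) (h : τ ≤ T) {k : V (N / l)} (hk : k ≠ 0) :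
    Ech (nMC N l b T τ 0) 0 (obsN N l (T - τ)) (Fk N l b T τ k) = rho N l b T τ k := by
  have hμ := H963.em_nMC hb hl hτ h (0 : V N)
  have hn : ((N / l : ℕ) : ℝ) ^ 2 ≠ 0 := H864.N_pos.ne'
  have g1 : ∀ φ : V (N / l) → ℝ, EGr fun J : V N → ℝ => (tv N l T φ ⬝ᵥ J) ^ 2 := fun φ => by
    have := (H663.EGr.dot (tv N l T φ)).mul (H663.EGr.dot (tv N l T φ))
    simpa only [← pow_two] using this
  have h2 := (g1 fun x => cN (dt k x)).add (g1 fun x => sN (dt k x))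
  unfold Fk
  rw [Ech_sub hμ _ _ ((h2.cmul _).cmul _) (EGr.const 1), Ech_const hμ, Ech_cmul, Ech_cmul,
    Ech_add hμ _ _ (g1 _) (g1 _), Ech_tv hb hl hτ h (H963.neu_cN hk),
    Ech_tv hb hl hτ h (H963.neu_sN k)]
  have h3 := H864.qf_wave (H963.ti_Gnc hb hl hτ h) k
  have h4 := sum_cs_sq k
  unfold rho
  have e : ((T * l)⁻¹) ^ 2 * ((T - τ) ^ 2 * qf (Gnc N l b T τ) (fun x => cN (dt k x)) +
      (T - τ) * ∑ x : V (N / l), cN (dt k x) ^ 2) +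
      ((T * l)⁻¹) ^ 2 * ((T - τ) ^ 2 * qf (Gnc N l b T τ) (fun x => sN (dt k x)) +
      (T - τ) * ∑ x : V (N / l), sN (dt k x) ^ 2) =
      ((N / l : ℕ) : ℝ) ^ 2 * (((T * l)⁻¹) ^ 2 * ((T - τ) ^ 2 * sym (Gnc N l b T τ) k +
        (T - τ))) := by
    linear_combination (((T * l)⁻¹) ^ 2 * (T - τ) ^ 2) * h3 + (((T * l)⁻¹) ^ 2 * (T - τ)) * h4
  rw [e, inv_mul_cancel_left₀ hn]

/-- **the second moment** -/
theorem Ech_Fk_sq (hb : 0 ≤ b) (hl : l ∣ N) (hτ : 0 < τ) (h : τ < T) {k : V (N / l)} (hk : k ≠ 0)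
    (hA0 : 0 ≤ sym (acl N l b T T) k) (hA : sym (acl N l b T T) k + kap l T τ ≤ 2 * (T * l ^ 2)) :
    Ech (nMC N l b T τ 0) 0 (obsN N l (T - τ)) (fun J => Fk N l b T τ k J ^ 2) ≤
      2562 * (T / τ) ^ 2 := by
  have hT : 0 < T := hτ.trans h
  have hq : 0 < T - τ := sub_pos.2 h
  have hlp : (0 : ℝ) < l := by exact_mod_cast H864.l_pos hl
  have hμ := H963.em_nMC hb hl hτ h.le (0 : V N)
  have hn : 0 < ((N / l : ℕ) : ℝ) ^ 2 := H864.N_pos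
  have hκ := H896.kap_pos hl hτ h
  set κ := sym (acl N l b T T) k + kap l T τ with hκd
  have hκ0 : 0 ≤ κ := by positivity
  have g4 : ∀ φ : V (N / l) → ℝ, EGr fun J : V N → ℝ => (tv N l T φ ⬝ᵥ J) ^ 4 := fun φ => by
    have h1 := H663.EGr.dot (tv N l T φ)
    have h2 := (h1.mul h1).mul (h1.mul h1)
    have e : (fun J : V N → ℝ => (tv N l T φ ⬝ᵥ J) * (tv N l T φ ⬝ᵥ J) *
        ((tv N l T φ ⬝ᵥ J) * (tv N l T φ ⬝ᵥ J))) = fun J => (tv N l T φ ⬝ᵥ J) ^ 4 := by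
      funext J; ring
    rwa [e] at h2
  set c2 : ℝ := 4 * (κ * (((N / l : ℕ) : ℝ) ^ 2)⁻¹) ^ 2 with hc2
  have hle : ∀ J : V N → ℝ, Fk N l b T τ k J ^ 2 ≤
      c2 * ((tv N l T (fun x => cN (dt k x)) ⬝ᵥ J) ^ 4 +
        (tv N l T (fun x => sN (dt k x)) ⬝ᵥ J) ^ 4) + 2 := by
    intro J
    unfold Fk
    set X := tv N l T (fun x => cN (dt k x)) ⬝ᵥ J
    set Y := tv N l T (fun x => sN (dt k x)) ⬝ᵥ J
    rw [← hκd, hc2, ← mul_assoc κ]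
    set a := κ * (((N / l : ℕ) : ℝ) ^ 2)⁻¹
    have h1 := sq_nonneg (a * (X ^ 2 + Y ^ 2) + 1)
    have h2 := sq_nonneg (a * (X ^ 2 - Y ^ 2))
    nlinarith
  have hE := Ech_mono hμ 0 (obsN N l (T - τ)) (by
    have h1 := (egr_Fk (N := N) (l := l) (b := b) (T := T) (τ := τ) k).mul
      (egr_Fk (N := N) (l := l) (b := b) (T := T) (τ := τ) k)
    simpa only [← pow_two] using h1)
    ((((g4 fun x => cN (dt k x)).add (g4 fun x => sN (dt k x))).cmul c2).add (EGr.const 2)) hle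
  refine hE.trans ?_
  rw [Ech_add hμ _ _ (((g4 _).add (g4 _)).cmul _) (EGr.const 2), Ech_const hμ, Ech_cmul,
    Ech_add hμ _ _ (g4 _) (g4 _)]
  have h4 := sum_cs_sq k
  have c0 : 0 ≤ ∑ x : V (N / l), cN (dt k x) ^ 2 := sum_nonneg fun _ _ => sq_nonneg _
  have s0 : 0 ≤ ∑ x : V (N / l), sN (dt k x) ^ 2 := sum_nonneg fun _ _ => sq_nonneg _
  have m1 := Ech_tv4 hb hl hτ h (H963.neu_cN hk) hn (by linarith)
  have m2 := Ech_tv4 hb hl hτ h (H963.neu_sN k) hn (by linarith)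
  set E1 := Ech (nMC N l b T τ 0) 0 (obsN N l (T - τ))
    (fun J => (tv N l T (fun x => cN (dt k x)) ⬝ᵥ J) ^ 4)
  set E2 := Ech (nMC N l b T τ 0) 0 (obsN N l (T - τ))
    (fun J => (tv N l T (fun x => sN (dt k x)) ⬝ᵥ J) ^ 4)
  set s := ((T * l)⁻¹) ^ 2 * (T * (T - τ) / τ) * ((N / l : ℕ) : ℝ) ^ 2 with hs
  have hc20 : 0 ≤ c2 := by positivity
  have h5 : c2 * (E1 + E2) ≤ c2 * (80 * s ^ 2 + 80 * s ^ 2) :=
    mul_le_mul_of_nonneg_left (add_le_add m1 m2) hc20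
  have h6 : κ * (((N / l : ℕ) : ℝ) ^ 2)⁻¹ * s ≤ 2 * (T / τ) := by
    have e : κ * (((N / l : ℕ) : ℝ) ^ 2)⁻¹ * s = κ * (((T * l)⁻¹) ^ 2 * (T * (T - τ) / τ)) := by
      rw [hs]
      generalize ((T * l)⁻¹) ^ 2 * (T * (T - τ) / τ) = a
      rw [mul_assoc, mul_comm a, inv_mul_cancel_left₀ hn.ne']
    rw [e]
    have h7 : κ * (((T * l)⁻¹) ^ 2 * (T * (T - τ) / τ)) ≤
        2 * (T * l ^ 2) * (((T * l)⁻¹) ^ 2 * (T * (T - τ) / τ)) :=
      mul_le_mul_of_nonneg_right hA (by positivity)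
    refine h7.trans ?_
    have e2 : 2 * (T * l ^ 2) * (((T * l)⁻¹) ^ 2 * (T * (T - τ) / τ)) = 2 * ((T - τ) / τ) := by
      field_simp
    rw [e2]
    have h8 : (T - τ) / τ ≤ T / τ := div_le_div_of_nonneg_right (by linarith) hτ.le
    linarith
  have h9 : 0 ≤ κ * (((N / l : ℕ) : ℝ) ^ 2)⁻¹ * s := by positivity
  have h10 : (κ * (((N / l : ℕ) : ℝ) ^ 2)⁻¹ * s) ^ 2 ≤ (2 * (T / τ)) ^ 2 :=
    pow_le_pow_left₀ h9 h6 2
  have h11 : 1 ≤ T / τ := by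
    rw [one_le_div hτ]
    exact h.le
  have e3 : c2 * (80 * s ^ 2 + 80 * s ^ 2) = 640 * (κ * (((N / l : ℕ) : ℝ) ^ 2)⁻¹ * s) ^ 2 := by
    rw [hc2]; ring
  rw [e3] at h5
  nlinarith

end

end Vale.Agent.P159.H813
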