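import Vale.Agent.P159.H813.Sq4
import Vale.Agent.P159.H462.Q1

/-!
P159 (helper813): (STAR0), part 5: **(i)**: the relative error of the self energies is the mean of
`R h_k` in the typical law up to second order.
-/

namespace Vale.Agent.P159.H813

open Finset MeasureTheory Matrix
open Vale.Agent.P159.TM.H104 (EM Ex Cv K3 Lg li nh Gr)
open Vale.Agent.P159.H37
open Vale.Agent.P159.TM.Spec (V)
open Vale.Agent.P159.TM.SpecC (Tor wT)
open Vale.Agent.P159.TM.H764 (EE cN sN dt Gh)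
open Vale.Agent.P159.H864 (TI sym MC cobV)
open Vale.Agent.P159.H462 (hk mh St Dom ms Phl Bfl V0l Smf Dtot oT oB)
open Vale.Agent.P159.H363 (Nf acl ti_acl Rcl)
open Vale.Agent.P159.H896 (srcF srcM pinK kap)
open Vale.Agent.P159.H963 (Pn Gnc nM nMC obsN ntr Neu gw_wT mf_MC)
open Vale.Agent.P159.H663 (ChI)
open Vale.Agent.P159.H730 (RL)
open scoped Real

noncomputable section

set_option linter.unusedSectionVars false

section gen

variable {V' : Type*} [Fintype V'] {I I' : Type*} [Fintype I] [Fintype I'] [DecidableEq I]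
variable {μ' : (V' → ℤ) → ℝ} {P : Matrix I V' ℝ} {X : Matrix V' I' ℝ}

/-- first order bound of the Gaussian mean -/
theorem law2_lin (hX : RL μ' P X) {Gd : Set (V' → ℝ)} (hG : MeasurableSet Gd) {η p : ℝ}
    (hR : ∀ J ∈ Gd, Rs (post μ' P) J ≤ η) (hη : 0 ≤ η) (hη1 : η ≤ 1) (hp0 : 0 ≤ p)
    (hp1 : p ≤ 1 / 2) (hp : Ech μ' 0 P (Gdᶜ.indicator fun _ => (1 : ℝ)) ≤ p)
    {Φ : (V' → ℝ) → ℝ} (hΦ : Measurable Φ) (hi : H663.ChI μ' 0 P Φ)
    (hi2 : H663.ChI μ' 0 P fun J => Φ J ^ 2) :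
    |∫ g, Φ (X *ᵥ g) * Rs (post μ' P) (X *ᵥ g) ∂(gau I')| ≤
      η * (∫ g, |Φ (X *ᵥ g)| ∂(gau I')) + 6 * Real.sqrt ((Ech μ' 0 P fun J => Φ J ^ 2) * p) := by
  have hp' : 1 - p ≤ Ech μ' 0 P (Gd.indicator fun _ => (1 : ℝ)) := by
    have h1 := H730.split_good hX measurable_const (H730.chi_one hX) hG
    rw [Ech_const hX.em] at h1
    linarith
  set R : (V' → ℝ) → ℝ := Rs (post μ' P) with hRd
  set Z := ∫ g, Real.exp (R (X *ᵥ g)) ∂(gau I') with hZd
  set κ := Real.sqrt ((Ech μ' 0 P fun J => Φ J ^ 2) * p) with hκ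
  have hκ0 : 0 ≤ κ := Real.sqrt_nonneg _
  have hR0 : ∀ J, 0 ≤ R J := hX.k1
  have mX : Measurable fun g : I' → ℝ => X *ᵥ g := H552.meas_mulVec X
  have mR : Measurable R := (H114.continuous_Rs (em_post hX.em P)).measurable
  have i1 : Integrable (fun g => Φ (X *ᵥ g)) (gau I') := hX.chi_G hΦ hi
  have i2 : Integrable (fun g => Φ (X *ᵥ g) * Real.exp (R (X *ᵥ g))) (gau I') :=
    (hX.chi_iff hΦ).1 hi
  have hRe : ∀ J, R J ≤ Real.exp (R J) := fun J => by
    have := Real.add_one_le_exp (R J); linarith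
  have i3 : Integrable (fun g => Φ (X *ᵥ g) * R (X *ᵥ g)) (gau I') := by
    refine i2.mono ((hΦ.comp mX).mul (mR.comp mX)).aestronglyMeasurable
      (Filter.Eventually.of_forall fun g => ?_)
    rw [norm_mul, norm_mul]
    refine mul_le_mul_of_nonneg_left ?_ (norm_nonneg _)
    rw [Real.norm_eq_abs, Real.norm_eq_abs, abs_of_nonneg (hR0 _), abs_of_pos (Real.exp_pos _)]
    exact hRe _
  set Bd : (V' → ℝ) → ℝ := Gdᶜ.indicator (fun J => |Φ J|) with hBd
  have mB : Measurable Bd := hΦ.abs.indicator hG.compl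
  have hB0 : ∀ J, 0 ≤ Bd J := fun J => Set.indicator_nonneg (fun _ _ => abs_nonneg _) J
  have hBle : ∀ J, Bd J ≤ |Φ J| := fun J => Set.indicator_le_self' (fun _ _ => abs_nonneg _) J
  have i4 : Integrable (fun g => Bd (X *ᵥ g) * Real.exp (R (X *ᵥ g))) (gau I') := by
    refine i2.mono ((mB.comp mX).mul ((Real.measurable_exp.comp mR).comp mX)).aestronglyMeasurable
      (Filter.Eventually.of_forall fun g => ?_)
    rw [norm_mul, norm_mul]
    refine mul_le_mul_of_nonneg_right ?_ (norm_nonneg _)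
    rw [Real.norm_eq_abs, Real.norm_eq_abs, abs_of_nonneg (hB0 _)]
    exact hBle _
  have hbad : ∫ g, Bd (X *ᵥ g) * Real.exp (R (X *ᵥ g)) ∂(gau I') ≤ Z * κ :=
    bad_int hX hG hp hΦ hi hi2
  have hZ6 : Z ≤ 6 := by
    have h3 := hX.norm_le hG hR hp'
    have h4 : Real.exp η ≤ 3 := (Real.exp_le_exp.2 hη1).trans
      (Real.exp_one_lt_d9.le.trans (by norm_num))
    have hZ0 := hX.pos
    rw [← hRd, ← hZd] at h3
    rw [← hRd, ← hZd] at hZ0
    nlinarith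
  have p2 : ∀ J, |Φ J * R J| ≤ η * |Φ J| + Bd J * Real.exp (R J) := by
    intro J
    rw [abs_mul, abs_of_nonneg (hR0 J)]
    have hr := hR0 J
    by_cases hJ : J ∈ Gd
    · have h4 : R J ≤ η := hR J hJ
      have h7 := mul_nonneg (hB0 J) (Real.exp_pos (R J)).le
      have h8 := mul_le_mul_of_nonneg_left h4 (abs_nonneg (Φ J))
      linarith
    · have h4 : Bd J = |Φ J| := by
        rw [hBd, Set.indicator_of_mem (show J ∈ Gdᶜ from hJ)]
      rw [h4]
      have h5 := mul_nonneg hη (abs_nonneg (Φ J))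
      have h6 : |Φ J| * R J ≤ |Φ J| * Real.exp (R J) :=
        mul_le_mul_of_nonneg_left (hRe J) (abs_nonneg _)
      linarith
  refine (abs_integral_le_integral_abs).trans ?_
  have h1 : ∫ g, |Φ (X *ᵥ g) * R (X *ᵥ g)| ∂(gau I') ≤
      ∫ g, (η * |Φ (X *ᵥ g)| + Bd (X *ᵥ g) * Real.exp (R (X *ᵥ g))) ∂(gau I') :=
    integral_mono i3.abs ((i1.abs.const_mul η).add i4) fun g => p2 _
  rw [integral_add (i1.abs.const_mul η) i4, integral_const_mul] at h1
  have h2 := mul_le_mul_of_nonneg_right hZ6 hκ0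
  linarith

end gen

variable {N l : ℕ} [NeZero N] [NeZero (N / l)] {b T τ ηR δ dT c : ℝ} {z : ℂ}

lemma nf_of_dom {n : ℕ} [NeZero n] {A : Matrix (V n) (V n) ℝ} {ν c : ℝ} (h : Dom A ν c) : Nf A :=
  ⟨h.ti, fun _ hk => h.sym_pos hk, h.zero⟩

lemma st_kap (h : St N l b T τ z ηR δ dT c) : kap l T τ ≤ T * (l : ℝ) ^ 2 := by
  have hl := h.hl
  have hlp : (0 : ℝ) < l := by exact_mod_cast H864.l_pos hl
  have hT := h.t₀0
  have hκ := H896.kap_pos hl h.hτ h.lt
  have h1 := h.tiny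
  rw [H462.ms_kap N τ T l] at h1
  set m := kap l T τ
  set ν := T * (l : ℝ) ^ 2 with hν
  have hν0 : 0 < ν := by positivity
  have hn : (1 : ℝ) ≤ ((N / l : ℕ) : ℝ) := by
    exact_mod_cast Nat.one_le_iff_ne_zero.2 (NeZero.ne _)
  set n : ℝ := ((N / l : ℕ) : ℝ)
  have hc := h.dom.hc
  have h2 : m * (ν + m) / 2 * (2 * n ^ 2 / ν ^ 2) ≤ 1 := by
    refine le_trans ?_ h1
    refine mul_le_mul_of_nonneg_left ?_ (by positivity)
    have : 0 ≤ n ^ 4 / c ^ 2 := by positivity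
    linarith
  by_contra hcon
  push Not at hcon
  have h3 : m * (ν + m) / 2 * (2 * n ^ 2 / ν ^ 2) = m * (ν + m) * n ^ 2 / ν ^ 2 := by
    field_simp
  rw [h3, div_le_one (by positivity)] at h2
  have h4 : 1 ≤ n ^ 2 := one_le_pow₀ hn
  have h5 : ν * (ν + ν) ≤ m * (ν + m) := by
    refine mul_le_mul hcon.le (by linarith) (by positivity) (by positivity)
  have h6 : m * (ν + m) * 1 ≤ m * (ν + m) * n ^ 2 :=
    mul_le_mul_of_nonneg_left h4 (by positivity)
  have h7 : 0 < ν ^ 2 := by positivity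
  nlinarith

lemma st_δ0 (h : St N l b T τ z ηR δ dT c) : 0 ≤ δ :=
  (Ech_nonneg (H963.em_nMC h.hb.le h.hl h.hτ h.lt.le 0) 0 _ fun J =>
    Set.indicator_nonneg (fun _ _ => zero_le_one) J).trans h.bad

/-- good sources -/
def Gds (N l : ℕ) [NeZero N] (b T ηR : ℝ) : Set (V N → ℝ) :=
  {J | Rs (nMC N l b T T 0) J ≤ ηR}

lemma meas_Gds (hb : 0 ≤ b) (hl : l ∣ N) (hT : 0 < T) (ηR : ℝ) : MeasurableSet (Gds N l b T ηR) :=
  (H114.continuous_Rs (H963.em_nMC hb hl hT (le_refl T) 0)).measurable measurableSet_Iic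

lemma Gds_compl (N l : ℕ) [NeZero N] (b T ηR : ℝ) :
    (Gds N l b T ηR)ᶜ = {J | ηR < Rs (nMC N l b T T 0) J} := by
  ext J
  simp only [Gds, Set.mem_compl_iff, Set.mem_setOf_eq, not_le]

lemma st_chi (h : St N l b T τ z ηR δ dT c) (k : V (N / l)) :
    ChI (nMC N l b T τ 0) 0 (obsN N l (T - τ)) (Fk N l b T τ k) ∧
    ChI (nMC N l b T τ 0) 0 (obsN N l (T - τ)) (fun J => Fk N l b T τ k J ^ 2) := by
  have hμ := H963.em_nMC h.hb.le h.hl h.hτ h.lt.le (0 : V N)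
  have g1 := egr_Fk (N := N) (l := l) (b := b) (T := T) (τ := τ) k
  refine ⟨ChI.of_EGr hμ _ _ g1, ChI.of_EGr hμ _ _ ?_⟩
  have h1 := g1.mul g1
  simpa only [← pow_two] using h1

lemma st_sqrt (h : St N l b T τ z ηR δ dT c) {k : V (N / l)} (hk : k ≠ 0) :
    Real.sqrt ((Ech (nMC N l b T τ 0) 0 (obsN N l (T - τ)) fun J => Fk N l b T τ k J ^ 2) * δ) ≤
      51 * (T / τ) * Real.sqrt δ := by
  have hT := h.t₀0
  have hτ := h.hτ
  have h1 := Ech_Fk_sq (N := N) (l := l) h.hb.le h.hl h.hτ h.lt hk (h.dom.nn k)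
    (by have := h.dom.le k; have := st_kap h; linarith)
  have h2 : (Ech (nMC N l b T τ 0) 0 (obsN N l (T - τ)) fun J => Fk N l b T τ k J ^ 2) * δ ≤
      (51 * (T / τ)) ^ 2 * δ := by
    refine mul_le_mul_of_nonneg_right (h1.trans ?_) (st_δ0 h)
    nlinarith [sq_nonneg (T / τ)]
  refine (Real.sqrt_le_sqrt h2).trans (le_of_eq ?_)
  rw [Real.sqrt_mul (sq_nonneg _), Real.sqrt_sq (by positivity)]

/-- **(STAR0) (i)** -/
theorem star_i (h : St N l b T τ z ηR δ dT c) (hδ : δ ≤ 1 / 2) {k : V (N / l)} (hk : k ≠ 0) :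
    |rho N l b T τ k - H462.mh (pinK (acl N l b T T) (kap l T τ)) (Rcl N l b T T) k| ≤
        4 * ηR ^ 2 + 2 * ηR * δ + 360 * (T / τ) * Real.sqrt δ ∧
      |H462.mh (pinK (acl N l b T T) (kap l T τ)) (Rcl N l b T T) k| ≤
        2 * ηR + 310 * (T / τ) * Real.sqrt δ := by
  have hb := h.hb
  have hl := h.hl
  have hτ := h.hτ
  have hT := h.t₀0
  have hδ0 := (st_δ0 h)
  have hη0 := h.η0
  have hη1 : ηR ≤ 1 := by
    have h1 := h.η1
    have h2 := H462.oT_nonneg (N := N) (l := l) hb.le hl hT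
    linarith
  have hA := nf_of_dom h.dom
  have hX := H896.rl_cell hb.le hl hτ h.lt (le_refl T) hA
  have hpost : post (nMC N l b T τ 0) (obsN N l (T - τ)) = nMC N l b T T 0 :=
    H963.post_nMC hl b h.lt.le 0
  have mG := meas_Gds (N := N) (l := l) hb.le hl hT ηR
  have hR : ∀ J ∈ Gds N l b T ηR,
      Rs (post (nMC N l b T τ 0) (obsN N l (T - τ))) J ≤ ηR := by
    intro J hJ
    rw [hpost]
    exact hJ
  have hbad : Ech (nMC N l b T τ 0) 0 (obsN N l (T - τ))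
      ((Gds N l b T ηR)ᶜ.indicator fun _ => (1 : ℝ)) ≤ δ := by
    rw [Gds_compl]
    exact h.bad
  obtain ⟨c1, c2⟩ := st_chi h k
  have mF := (egr_Fk (N := N) (l := l) (b := b) (T := T) (τ := τ) k).meas
  have hsrc : ∀ g : V (N / l) → ℝ, Fk N l b T τ k
      ((srcM N l T * pinK (acl N l b T T) (kap l T τ)) *ᵥ g) = H462.hk k g := fun g =>
    Fk_src hl hτ h.lt hA hk g
  have h0 : ∫ g, Fk N l b T τ k ((srcM N l T * pinK (acl N l b T T) (kap l T τ)) *ᵥ g)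
      ∂(gau (V (N / l))) = 0 := by
    simp only [hsrc]
    exact int_hk k
  have k1 := law2 hX mG hR hη0 hη1 hδ0 hδ hbad mF c1 c2 h0
  have k2 := law2_lin hX mG hR hη0 hη1 hδ0 hδ hbad mF c1 c2
  rw [hpost] at k1 k2
  have hRs : ∀ g : V (N / l) → ℝ, Rs (nMC N l b T T 0)
      ((srcM N l T * pinK (acl N l b T T) (kap l T τ)) *ᵥ g) =
      Rcl N l b T T (pinK (acl N l b T T) (kap l T τ) *ᵥ g) := by
    intro g
    rw [H896.Rcl_eq, H896.srcF_eq hl hT (le_refl T), mulVec_mulVec]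
  simp only [hsrc, hRs] at k1 k2
  rw [Ech_Fk hb.le hl hτ h.lt.le hk] at k1
  have e : ∫ g, H462.hk k g * Rcl N l b T T (pinK (acl N l b T T) (kap l T τ) *ᵥ g)
      ∂(gau (V (N / l))) = H462.mh (pinK (acl N l b T T) (kap l T τ)) (Rcl N l b T T) k := by
    unfold H462.mh
    exact integral_congr_ae (Filter.Eventually.of_forall fun g => mul_comm _ _)
  rw [e] at k1 k2
  have m2 := int_hk_abs k
  have m0 : 0 ≤ ∫ g, |H462.hk k g| ∂(gau (V (N / l))) := integral_nonneg fun _ => abs_nonneg _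
  have s1 := st_sqrt h hk
  have hs : 0 ≤ T / τ * Real.sqrt δ := by positivity
  refine ⟨k1.trans ?_, k2.trans ?_⟩
  · have h1 : (2 * ηR ^ 2 + ηR * δ) * ∫ g, |H462.hk k g| ∂(gau (V (N / l))) ≤
        (2 * ηR ^ 2 + ηR * δ) * 2 := mul_le_mul_of_nonneg_left m2 (by positivity)
    nlinarith
  · have h1 : ηR * ∫ g, |H462.hk k g| ∂(gau (V (N / l))) ≤ ηR * 2 :=
      mul_le_mul_of_nonneg_left m2 hη0
    nlinarith

end

end Vale.Agent.P159.H813
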