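import Vale.Agent.P159.H813.Sq5
import Vale.Agent.P159.H816.HtFine

/-!
P159 (helper813): (STAR0), part 6: the second moment of the functional of the source **uniformly in
the prior mass**: `Ech Φ_k² ≤ 2562 W²`, `W = 1 + T l² / (κ EE k)`, `κ = (b + 12 max(b,1)²)⁻¹`; the
state without the fields on `z`; (i) uniformly in the prior mass.
-/

namespace Vale.Agent.P159.H813

open Finset MeasureTheory Matrix
open Vale.Agent.P159.TM.H104 (EM Ex Cv K3 Lg li nh Gr)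
open Vale.Agent.P159.H37
open Vale.Agent.P159.TM.Spec (V)
open Vale.Agent.P159.TM.SpecC (Tor wT)
open Vale.Agent.P159.TM.H764 (EE cN sN dt Gh grd)
open Vale.Agent.P159.H864 (TI sym MC cobV lapM)
open Vale.Agent.P159.H462 (hk St Dom ms Phl Bfl V0l Smf Dtot oT oB)
open Vale.Agent.P159.H363 (Nf acl ti_acl Rcl)
open Vale.Agent.P159.H896 (srcF srcM pinK kap)
open Vale.Agent.P159.H963 (Pn Gnc nM nMC obsN ntr Neu gw_wT mf_MC MF)
open Vale.Agent.P159.H859 (Rk ge nC_ge)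
open Vale.Agent.P159.H513 (nC)
open Vale.Agent.P159.H663 (ChI)
open Vale.Agent.P159.H730 (RL)
open Vale.Agent.P159.H889 (tn2)
open scoped Real

noncomputable section

set_option linter.unusedSectionVars false

/-- the bare stiffness -/
def kq (b : ℝ) : ℝ := (b + 12 * max b 1 ^ 2)⁻¹

lemma kq_pos {b : ℝ} (hb : 0 ≤ b) : 0 < kq b := by
  unfold kq
  have : (0 : ℝ) < max b 1 := lt_of_lt_of_le one_pos (le_max_right _ _)
  positivity

lemma kq_le {b : ℝ} (hb : 0 ≤ b) : kq b ≤ 1 := by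
  unfold kq
  have h1 : (1 : ℝ) ≤ max b 1 := le_max_right _ _
  refine inv_le_one_of_one_le₀ ?_
  nlinarith

lemma kq_cs {b : ℝ} (hb : 0 ≤ b) : kq b * (b + 12 * max b 1 ^ 2 * 1 ^ 2) ≤ 1 := by
  have h1 : (0 : ℝ) < b + 12 * max b 1 ^ 2 := by
    have : (0 : ℝ) < max b 1 := lt_of_lt_of_le one_pos (le_max_right _ _)
    positivity
  unfold kq
  rw [one_pow, mul_one, inv_mul_cancel₀ h1.ne']

variable {N l : ℕ} [NeZero N] [NeZero (N / l)] {b T τ ηR δ dT c : ℝ} {z : ℂ}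

/-- **domination of `log Z` at a cell source of bounded size** -/
theorem Lg_cell (hb : 0 ≤ b) (hl : l ∣ N) (hτ : 0 < τ) (h : τ ≤ T) {φ : V (N / l) → ℝ}
    (hφ : Neu φ) (hsm : qf (Rk τ (kq b / (l : ℝ) ^ 2)) φ ≤ 1) :
    Lg (nMC N l b T τ 0) ((cobV N l)ᵀ *ᵥ φ) - Lg (nMC N l b T τ 0) 0 ≤
      qf (Rk τ (kq b / (l : ℝ) ^ 2)) φ / 2 := by
  have hκ := kq_pos hb
  have hM := mf_MC (N := N) (l := l) hl hτ h
  have hco : ∀ u : V N → ℝ, τ * ∑ x, u x ^ 2 ≤ qf (MC N l T τ) u := fun u => H864.qf_MC_ge hl h u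
  have hMτ : ∀ f : V N → ℝ, τ * ∑ c, (cobV N l *ᵥ f) c ^ 2 ≤ qf (MC N l T τ) f := by
    intro f
    rw [H864.qf_MC' hl]
    have h1 : 0 ≤ T * ∑ x, (f x - (cellP N l *ᵥ f) x) ^ 2 :=
      mul_nonneg (hτ.le.trans h) (Finset.sum_nonneg fun _ _ => sq_nonneg _)
    linarith
  have hle := H859.cob_res_le hl (H864.MC_tr N l T τ) hτ hco hτ hκ.le hMτ φ
  set J := (cobV N l)ᵀ *ᵥ φ with hJ
  set A : Matrix (V N) (V N) ℝ := MC N l T τ + kq b • lapM with hA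
  have hA0 : ∀ f, qf A f = qf (MC N l T τ) f + kq b * grd f := by
    intro f
    rw [hA, H37.qf_add_mat, H864.qf_smul_mat, H864.qf_lapM]
  have hAc : ∀ f, τ * ∑ x, f x ^ 2 ≤ qf A f := by
    intro f
    rw [hA0]
    have := mul_nonneg hκ.le (H859.grd_nonneg f)
    linarith [hco f]
  have hdet : IsUnit A.det := H864.coer_det hτ hAc
  have hAu : IsUnit A := (Matrix.isUnit_iff_isUnit_det A).2 hdet
  set w : V N → ℝ := A⁻¹ *ᵥ J with hw
  have h1 : qf A w = qf A⁻¹ J := H859.qf_of_mul hAu _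
  have h2 : kq b * grd w ≤ 1 := by
    have h3 := hA0 w
    have h4 : 0 ≤ qf (MC N l T τ) w :=
      (mul_nonneg hτ.le (Finset.sum_nonneg fun _ _ => sq_nonneg _)).trans (hco w)
    linarith
  have h5 := H816.dom_neu (b := b) (κ := kq b) (cs := 1) hb hM (0 : V N) hκ (kq_cs hb) le_rfl J
    (H963.neu_cobV_tr hl hφ) (fun x s => by
      have h6 : ge (kq b) w x s ^ 2 ≤ nC (ge (kq b) w) := by
        unfold H513.nC
        have h7 : ∀ y : Tor N, 0 ≤ ge (kq b) w y true ^ 2 + ge (kq b) w y false ^ 2 :=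
          fun y => by positivity
        have h8 := Finset.single_le_sum (f := fun y : Tor N => ge (kq b) w y true ^ 2 +
          ge (kq b) w y false ^ 2) (fun y _ => h7 y) (Finset.mem_univ x)
        refine le_trans ?_ h8
        cases s
        · have := sq_nonneg (ge (kq b) w x true)
          linarith
        · have := sq_nonneg (ge (kq b) w x false)
          linarith
      rw [nC_ge] at h6
      have h9 : kq b ^ 2 * grd w ≤ 1 := by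
        have h10 := mul_le_mul_of_nonneg_left h2 hκ.le
        have h11 := kq_le hb
        nlinarith
      exact (sq_le_one_iff_abs_le_one _).1 (h6.trans h9))
  refine h5.trans ?_
  linarith

/-- fourth moment of a linear functional of the source, bounded range of the exponent -/
theorem Ech_four1 {V' : Type*} [Fintype V'] {I : Type*} [Fintype I] {μ' : (V' → ℤ) → ℝ}
    (hμ : EM μ') (P : Matrix I V' ℝ) (v : V' → ℝ) {h sig : ℝ} (hs0 : 0 < sig) (hle : h ≤ sig)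
    (hh : ∀ s : ℝ, s ^ 2 * h ≤ 1 →
      Lg μ' (s • (Pᵀ *ᵥ (P *ᵥ v))) - Lg μ' 0 ≤ s ^ 2 * h / 2)
    (hsig : qf (Pᵀ * P) v + h ≤ sig) :
    Ech μ' 0 P (fun J => (v ⬝ᵥ J) ^ 4) ≤ 80 * sig ^ 2 := by
  set s : ℝ := 1 / Real.sqrt sig with hsd
  have hsq : Real.sqrt sig ^ 2 = sig := Real.sq_sqrt hs0.le
  have hsp : 0 < Real.sqrt sig := Real.sqrt_pos.2 hs0
  have gexp : ∀ c : ℝ, EGr fun J : V' → ℝ => Real.exp (c * (v ⬝ᵥ J)) := by
    intro c
    have h1 := H663.EGr.exp_dot (c • v)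
    have e : (fun J : V' → ℝ => Real.exp ((c • v) ⬝ᵥ J)) = fun J => Real.exp (c * (v ⬝ᵥ J)) := by
      funext J
      rw [smul_dotProduct, smul_eq_mul]
    rwa [e] at h1
  have g4 : EGr fun J : V' → ℝ => (v ⬝ᵥ J) ^ 4 := by
    have h1 : EGr fun J : V' → ℝ => v ⬝ᵥ J := H663.EGr.dot v
    have h2 := (h1.mul h1).mul (h1.mul h1)
    have e : (fun J : V' → ℝ => (v ⬝ᵥ J) * (v ⬝ᵥ J) * ((v ⬝ᵥ J) * (v ⬝ᵥ J))) =
        fun J => (v ⬝ᵥ J) ^ 4 := by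
      funext J
      ring
    rwa [e] at h2
  have hexp : ∀ c : ℝ, c ^ 2 * h ≤ 1 → Ech μ' 0 P (fun J => Real.exp (c * (v ⬝ᵥ J))) ≤
      Real.exp (c ^ 2 * sig / 2) := by
    intro c hc
    have e1 : (fun J : V' → ℝ => Real.exp (c * (v ⬝ᵥ J))) =
        fun J => Real.exp ((c • v) ⬝ᵥ J) := by
      funext J
      rw [smul_dotProduct, smul_eq_mul]
    rw [e1, H663.Ech_exp hμ, ← Real.exp_add]
    refine Real.exp_le_exp.2 ?_
    have e2 : Pᵀ *ᵥ (P *ᵥ (c • v)) = c • (Pᵀ *ᵥ (P *ᵥ v)) := by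
      rw [mulVec_smul, mulVec_smul]
    rw [e2, qf_smul, dotProduct_zero, zero_add, zero_add]
    have h1 := hh c hc
    have h2 := mul_le_mul_of_nonneg_left hsig (sq_nonneg c)
    linarith
  have hle4 : ∀ J : V' → ℝ, (v ⬝ᵥ J) ^ 4 ≤
      24 * sig ^ 2 * (Real.exp (s * (v ⬝ᵥ J)) + Real.exp (-s * (v ⬝ᵥ J))) := by
    intro J
    have h1 := H663.four_le (s * (v ⬝ᵥ J))
    have h2 : (s * (v ⬝ᵥ J)) ^ 4 * sig ^ 2 = (v ⬝ᵥ J) ^ 4 := by
      have : s ^ 4 * sig ^ 2 = 1 := by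
        rw [hsd]
        have h3 : (1 / Real.sqrt sig) ^ 4 = 1 / (Real.sqrt sig ^ 2) ^ 2 := by
          field_simp
        rw [h3, hsq]
        field_simp
      calc (s * (v ⬝ᵥ J)) ^ 4 * sig ^ 2 = (s ^ 4 * sig ^ 2) * (v ⬝ᵥ J) ^ 4 := by ring
        _ = _ := by rw [this, one_mul]
    have h4 := mul_le_mul_of_nonneg_right h1 (sq_nonneg sig)
    rw [h2] at h4
    have e : -(s * (v ⬝ᵥ J)) = -s * (v ⬝ᵥ J) := by ring
    rw [e] at h4
    linarith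
  refine (Ech_mono hμ 0 P g4 (((gexp s).add (gexp (-s))).cmul _) hle4).trans ?_
  rw [Ech_cmul, Ech_add hμ 0 P (gexp s) (gexp (-s))]
  have h8 : s ^ 2 * sig = 1 := by
    rw [hsd]
    have : (1 / Real.sqrt sig) ^ 2 = 1 / (Real.sqrt sig ^ 2) := by
      field_simp
    rw [this, hsq]
    field_simp
  have h9 : (-s) ^ 2 * sig = 1 := by
    rw [neg_sq, h8]
  have h8' : s ^ 2 * h ≤ 1 := by
    have := mul_le_mul_of_nonneg_left hle (sq_nonneg s)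
    linarith
  have h9' : (-s) ^ 2 * h ≤ 1 := by rwa [neg_sq]
  have h6 := hexp s h8'
  have h7 := hexp (-s) h9'
  rw [h8] at h6
  rw [h9] at h7
  have h10 := H663.exp_half_lt
  nlinarith [sq_nonneg sig]

/-- bound of the covariance of a mode -/
def rk (l : ℕ) (b τ E : ℝ) : ℝ := (τ + kq b / (l : ℝ) ^ 2 * E)⁻¹

lemma qf_Rk_c (hb : 0 ≤ b) (hτ : 0 < τ) (k : V (N / l)) :
    qf (Rk τ (kq b / (l : ℝ) ^ 2)) (fun x => cN (dt k x)) =
      rk l b τ (EE k) * ∑ x : V (N / l), cN (dt k x) ^ 2 := by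
  have hκ : 0 ≤ kq b / (l : ℝ) ^ 2 := div_nonneg (kq_pos hb).le (sq_nonneg _)
  rw [H37.qf_eq, (H859.ti_Rk _ _).mulVec_cN, H859.sym_Rk hτ hκ, dotProduct_smul, smul_eq_mul]
  unfold rk
  congr 1
  simp only [dotProduct, pow_two]

lemma qf_Rk_s (hb : 0 ≤ b) (hτ : 0 < τ) (k : V (N / l)) :
    qf (Rk τ (kq b / (l : ℝ) ^ 2)) (fun x => sN (dt k x)) =
      rk l b τ (EE k) * ∑ x : V (N / l), sN (dt k x) ^ 2 := by
  have hκ : 0 ≤ kq b / (l : ℝ) ^ 2 := div_nonneg (kq_pos hb).le (sq_nonneg _)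
  rw [H37.qf_eq, (H859.ti_Rk _ _).mulVec_sN, H859.sym_Rk hτ hκ, dotProduct_smul, smul_eq_mul]
  unfold rk
  congr 1
  simp only [dotProduct, pow_two]

/-- fourth moment of the test functional, uniform in the prior mass -/
theorem Ech_tv4' (hb : 0 ≤ b) (hl : l ∣ N) (hτ : 0 < τ) (h : τ < T) {φ : V (N / l) → ℝ}
    (hφ : Neu φ) {S r : ℝ} (hS0 : 0 < S) (hS : ∑ x, φ x ^ 2 ≤ S) (hr : 0 ≤ r)
    (hR : qf (Rk τ (kq b / (l : ℝ) ^ 2)) φ = r * ∑ x, φ x ^ 2) :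
    Ech (nMC N l b T τ 0) 0 (obsN N l (T - τ)) (fun J => (tv N l T φ ⬝ᵥ J) ^ 4) ≤
      80 * (((T * l)⁻¹) ^ 2 * ((T - τ) + (T - τ) ^ 2 * r) * S) ^ 2 := by
  have hT : 0 < T := hτ.trans h
  have hq : 0 < T - τ := sub_pos.2 h
  have hlp : (0 : ℝ) < l := by exact_mod_cast H864.l_pos hl
  have hsum0 : 0 ≤ ∑ x, φ x ^ 2 := sum_nonneg fun _ _ => sq_nonneg _
  have hh1 : ((T - τ) * (T * l)⁻¹) ^ 2 * (r * ∑ x, φ x ^ 2) ≤
      ((T * l)⁻¹) ^ 2 * ((T - τ) ^ 2 * r) * S := by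
    have e : ((T - τ) * (T * l)⁻¹) ^ 2 * (r * ∑ x, φ x ^ 2) =
        ((T * l)⁻¹) ^ 2 * ((T - τ) ^ 2 * r) * ∑ x, φ x ^ 2 := by ring
    rw [e]
    exact mul_le_mul_of_nonneg_left hS (by positivity)
  refine Ech_four1 (H963.em_nMC hb hl hτ h.le 0) _ _
    (h := ((T - τ) * (T * l)⁻¹) ^ 2 * (r * ∑ x, φ x ^ 2)) (by positivity) (hh1.trans ?_)
    (fun s hs => ?_) ?_
  · refine mul_le_mul_of_nonneg_right (mul_le_mul_of_nonneg_left ?_ (sq_nonneg _)) hS0.le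
    linarith
  · rw [obs_obs_tv hl T hq.le hφ, smul_smul, ← mulVec_smul]
    have hq2 : qf (Rk τ (kq b / (l : ℝ) ^ 2)) ((s * ((T - τ) * (T * l)⁻¹)) • φ) =
        s ^ 2 * (((T - τ) * (T * l)⁻¹) ^ 2 * (r * ∑ x, φ x ^ 2)) := by
      rw [qf_smul, hR]
      ring
    have h1 := Lg_cell hb hl hτ h.le (hφ.smul (s * ((T - τ) * (T * l)⁻¹))) (by
      rw [hq2]
      exact hs)
    rw [hq2] at h1
    exact h1
  · rw [qf_obs_tv hl T hq.le hφ]
    have h2 : (T - τ) * ((T * l)⁻¹) ^ 2 * ∑ x, φ x ^ 2 ≤ (T - τ) * ((T * l)⁻¹) ^ 2 * S :=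
      mul_le_mul_of_nonneg_left hS (by positivity)
    calc _ ≤ (T - τ) * ((T * l)⁻¹) ^ 2 * S + ((T * l)⁻¹) ^ 2 * ((T - τ) ^ 2 * r) * S :=
          add_le_add h2 hh1
      _ = _ := by ring

end

end Vale.Agent.P159.H813
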