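import Vale.Agent.P159.H813.Sq7
import Vale.Agent.P159.H114.L2a

/-!
P159 (helper813): (STAR0), part 8: **(ii)** the mean of `Bf h_k`:
`mh C Bf = - 8 π² |z|² B(k)² ∑_r (1 - cos k r) exp (-D(r)) + O(oB + dT (om1 + |z| n²))`.
-/

namespace Vale.Agent.P159.H813

open Finset MeasureTheory Matrix
open Vale.Agent.P159.TM.H104 (EM Ex Cv K3 Lg li nh Gr)
open Vale.Agent.P159.H37
open Vale.Agent.P159.TM.Spec (V)
open Vale.Agent.P159.TM.SpecC (Tor wT)
open Vale.Agent.P159.TM.H764 (EE cN sN dt Gh grd)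
open Vale.Agent.P159.H864 (TI sym MC cobV lapM)
open Vale.Agent.P159.H462 (hk Dom ms cm cm_cst Phl Bfl V0l Smf Dtot oT oB)
open Vale.Agent.P159.H363 (Nf acl ti_acl Rcl Ch pin mainf ee)
open Vale.Agent.P159.H896 (pinK kap om)
open Vale.Agent.P159.H889 (tn2)
open scoped Real

noncomputable section

set_option linter.unusedSectionVars false

variable {N l : ℕ} [NeZero N] [NeZero (N / l)] {b T τ ηR δ dT c : ℝ} {z : ℂ}

/-- the deviation in the law of `C g` -/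
theorem St0.dev_sq (h : St0 N l b T τ z ηR δ dT c) :
    ∫ g, ‖Dtot N l b T z (CK N l b T τ *ᵥ g)‖ ^ 2 ∂(gau (V (N / l))) ≤ 3 * dT ^ 2 := by
  have hb := h.hb
  have hl := h.hl
  have hT := h.T0
  have hm := H896.kap_pos hl h.hτ h.lt
  have hA := nf_of_dom h.dom
  have mDt := H462.measurable_Dtot (N := N) hb.le hl hT z
  have bDt := H462.norm_Dtot_le (N := N) hb.le hl hT z
  have hch := H462.ch_Dtot (N := N) hb.le hl hT z
  have hdT : 0 ≤ dT := (H889.tn2_nonneg _ _).trans h.dev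
  have h5 := H462.law_tiny h.dom hm hch mDt bDt
  rw [← H889.tn2_sq mDt bDt] at h5
  have h6 : Real.exp (kap l T τ * (T * (l : ℝ) ^ 2 + kap l T τ) / 2 *
      (((N / l : ℕ) : ℝ) ^ 4 / c ^ 2 + 2 * ((N / l : ℕ) : ℝ) ^ 2 / (T * (l : ℝ) ^ 2) ^ 2)) ≤ 3 := by
    have h7 := h.tiny
    rw [H462.ms_kap N τ T l] at h7
    have h8 := Real.exp_le_exp.2 h7
    have h9 := Real.exp_one_lt_d9
    linarith
  have h9 : tn2 (acl N l b T T) (Dtot N l b T z) ^ 2 ≤ dT ^ 2 :=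
    pow_le_pow_left₀ (H889.tn2_nonneg _ _) h.dev 2
  have h10 : ∫ g, ‖Dtot N l b T z (cm (kap l T τ) (acl N l b T T) *ᵥ g)‖ ^ 2
      ∂(gau (V (N / l))) ≤ 3 * dT ^ 2 :=
    h5.trans (mul_le_mul h6 h9 (sq_nonneg _) (by norm_num))
  -- constants
  have hcst := cm_cst (ti_acl (N := N) hb.le hl hT (le_refl T))
    (H363.sym_acl_nonneg (N := N) hb.le hl hT (le_refl T)) hA.zero hm
  have hσ0 : 0 ≤ (kap l T τ)⁻¹ * (((N / l : ℕ) : ℝ) ^ 2)⁻¹ := by positivity
  have hf : Measurable fun F : V (N / l) → ℝ => ‖Dtot N l b T z F‖ ^ 2 := mDt.norm.pow_const 2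
  have hin : ∀ (F : V (N / l) → ℝ) (c : ℝ), ‖Dtot N l b T z (fun x => F x + c)‖ ^ 2 =
      ‖Dtot N l b T z F‖ ^ 2 := by
    intro F c
    have h1 := hch.norm_add F c
    have h2 : (F + fun _ => c) = fun x => F x + c := rfl
    rw [h2] at h1
    rw [h1]
  have hint : Integrable (fun g => ‖Dtot N l b T z (cm (kap l T τ) (acl N l b T T) *ᵥ g)‖ ^ 2)
      (gau (V (N / l))) :=
    Integrable.of_bound (C := (om (wT b N) (MC N l T T) 1 +
        ‖z‖ * ∑ x, ∑ w, |Smf N l b T x w|) ^ 2)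
      (hf.comp (H363.measurable_mulVec _)).aestronglyMeasurable
      (Filter.Eventually.of_forall fun g => by
        rw [Real.norm_eq_abs, abs_of_nonneg (sq_nonneg _)]
        exact pow_le_pow_left₀ (norm_nonneg _) (bDt _) 2)
  have q1 := H363.inv_int hσ0 hcst hf.stronglyMeasurable hin hint
  rw [q1.2] at h10
  exact h10

lemma sum_mainf {n : ℕ} [NeZero n] {S : Matrix (V n) (V n) ℝ} (hS : ∀ w, ∑ x, S x w = 1)
    (F : V n → ℝ) : ∑ x, mainf S x F = ∑ w, ee ((S *ᵥ F) w) := by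
  unfold H363.mainf
  rw [Finset.sum_comm]
  refine sum_congr rfl fun w _ => ?_
  rw [← Finset.sum_mul]
  have : (∑ x, (S x w : ℂ)) = 1 := by exact_mod_cast hS w
  rw [this, one_mul]

lemma norm_sum_ee_le {n : ℕ} [NeZero n] (a : V n → ℝ) : ‖∑ w, ee (a w)‖ ≤ (n : ℝ) ^ 2 := by
  refine (norm_sum_le _ _).trans ?_
  simp only [H363.norm_ee]
  rw [sum_const, card_univ, nsmul_eq_mul, TM.H764.card_V, mul_one]

/-- the main functional -/
def Mn (N l : ℕ) [NeZero N] [NeZero (N / l)] (b T : ℝ) (z : ℂ) (F : V (N / l) → ℝ) : ℂ :=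
  z * ∑ x, mainf (Smf N l b T) x F

lemma norm_Mn_le (hb : 0 ≤ b) (hl : l ∣ N) (hT : 0 < T) (F : V (N / l) → ℝ) :
    ‖Mn N l b T z F‖ ≤ ‖z‖ * ((N / l : ℕ) : ℝ) ^ 2 := by
  unfold Mn
  rw [norm_mul, sum_mainf (fun w => H462.col_Smf hb hl hT w)]
  exact mul_le_mul_of_nonneg_left (norm_sum_ee_le _) (norm_nonneg _)

lemma measurable_Mn : Measurable (Mn N l b T z) := (H462.measurable_smf _).const_mul z

/-- pointwise comparison -/
lemma Bfl_Mn (hb : 0 ≤ b) (hl : l ∣ N) (hT : 0 < T) (ho : oT N l b T ≤ 1 / 2)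
    (F : V (N / l) → ℝ) : |Bfl N l b T F - ‖Mn N l b T z F‖ ^ 2| ≤
      oB N l b T + (om (wT b N) (MC N l T T) 1 + ‖z‖ * ((N / l : ℕ) : ℝ) ^ 2) *
        ‖Dtot N l b T z F‖ := by
  have h1 := H462.Bfl_sub hb hl hT ho F
  have h2 := H462.norm_Phl_le hb hl hT F
  have h3 := norm_Mn_le (z := z) hb hl hT F
  have h4 : Dtot N l b T z F = Phl N l b T F - Mn N l b T z F := rfl
  have h5 : |‖Phl N l b T F‖ ^ 2 - ‖Mn N l b T z F‖ ^ 2| ≤
      (om (wT b N) (MC N l T T) 1 + ‖z‖ * ((N / l : ℕ) : ℝ) ^ 2) * ‖Dtot N l b T z F‖ := by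
    rw [sq_sub_sq, abs_mul]
    refine mul_le_mul ?_ ?_ (abs_nonneg _) ?_
    · rw [abs_of_nonneg (by positivity)]
      exact add_le_add h2 h3
    · rw [h4]
      exact abs_norm_sub_norm_le _ _
    · exact add_nonneg ((norm_nonneg _).trans h2) ((norm_nonneg _).trans h3)
  have e : Bfl N l b T F - ‖Mn N l b T z F‖ ^ 2 = (Bfl N l b T F - ‖Phl N l b T F‖ ^ 2) +
      (‖Phl N l b T F‖ ^ 2 - ‖Mn N l b T z F‖ ^ 2) := by ring
  rw [e]
  exact (abs_add_le _ _).trans (add_le_add h1 h5)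

/-- the mean of the main functional -/
theorem mh_Mn (hb : 0 ≤ b) (hl : l ∣ N) (hT : 0 < T) (C : Matrix (V (N / l)) (V (N / l)) ℝ)
    (hC : TI C) (k : V (N / l)) :
    H462.mh C (fun F => ‖Mn N l b T z F‖ ^ 2) k =
      -(8 * π ^ 2) * ‖z‖ ^ 2 * (sym (Smf N l b T * C) k ^ 2 * SigB (Smf N l b T * C) k) := by
  have hS := H462.ti_Smf (N := N) hb hl hT
  have e : ∀ g : V (N / l) → ℝ, ‖Mn N l b T z (C *ᵥ g)‖ ^ 2 * hk k g =
      ‖z‖ ^ 2 * (‖∑ w, ee (((Smf N l b T * C) *ᵥ g) w)‖ ^ 2 * hk k g) := by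
    intro g
    unfold Mn
    rw [norm_mul, sum_mainf (fun w => H462.col_Smf hb hl hT w), mulVec_mulVec]
    ring
  unfold H462.mh
  simp only [e]
  rw [integral_const_mul, int_main (hS.mul hC)]
  ring

/-- **(STAR0) (ii)** -/
theorem St0.star_ii (h : St0 N l b T τ z ηR δ dT c) (k : V (N / l)) :
    |H462.mh (CK N l b T τ) (Bfl N l b T) k + 8 * π ^ 2 * ‖z‖ ^ 2 *
      (sym (Smf N l b T * CK N l b T τ) k ^ 2 * SigB (Smf N l b T * CK N l b T τ) k)| ≤
      2 * oB N l b T + 4 * dT * (om (wT b N) (MC N l T T) 1 + ‖z‖ * ((N / l : ℕ) : ℝ) ^ 2) := by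
  have hb := h.hb
  have hl := h.hl
  have hT := h.T0
  have ho := h.ho
  have hC : TI (CK N l b T τ) := H363.ti_pin _
  set M := om (wT b N) (MC N l T T) 1 + ‖z‖ * ((N / l : ℕ) : ℝ) ^ 2 with hM
  have hom : 0 ≤ om (wT b N) (MC N l T T) 1 :=
    (norm_nonneg _).trans (H462.norm_Phl_le hb.le hl hT (0 : V (N / l) → ℝ))
  have hM0 : 0 ≤ M := by positivity
  have hdT : 0 ≤ dT := (H889.tn2_nonneg _ _).trans h.dev
  have hoB : 0 ≤ oB N l b T := (abs_nonneg _).trans (H462.Bfl_sub hb.le hl hT ho 0)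
  have e1 := mh_Mn (z := z) hb.le hl hT (CK N l b T τ) hC k
  have mC : Measurable fun g : V (N / l) → ℝ => CK N l b T τ *ᵥ g := H363.measurable_mulVec _
  have mB := (H462.continuous_Bfl (N := N) (l := l) hb.le hl hT).measurable.comp mC
  have mM : Measurable fun g : V (N / l) → ℝ => ‖Mn N l b T z (CK N l b T τ *ᵥ g)‖ ^ 2 :=
    (measurable_Mn.comp mC).norm.pow_const 2
  have mD : Measurable fun g : V (N / l) → ℝ => ‖Dtot N l b T z (CK N l b T τ *ᵥ g)‖ :=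
    ((H462.measurable_Dtot (N := N) hb.le hl hT z).comp mC).norm
  have ihk := int_hk_i k
  have i1 : Integrable (fun g => Bfl N l b T (CK N l b T τ *ᵥ g) * hk k g) (gau (V (N / l))) := by
    refine ihk.bdd_mul (c := 2 * oT N l b T ^ 2) mB.aestronglyMeasurable
      (Filter.Eventually.of_forall fun g => ?_)
    rw [Real.norm_eq_abs, abs_of_nonneg (H462.Bfl_nonneg hb.le hl hT ho _)]
    exact H462.Bfl_le hb.le hl hT ho _
  have i2 : Integrable (fun g => ‖Mn N l b T z (CK N l b T τ *ᵥ g)‖ ^ 2 * hk k g)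
      (gau (V (N / l))) := by
    refine ihk.bdd_mul (c := (‖z‖ * ((N / l : ℕ) : ℝ) ^ 2) ^ 2) mM.aestronglyMeasurable
      (Filter.Eventually.of_forall fun g => ?_)
    rw [Real.norm_eq_abs, abs_of_nonneg (sq_nonneg _)]
    exact pow_le_pow_left₀ (norm_nonneg _) (norm_Mn_le hb.le hl hT _) 2
  have e2 : H462.mh (CK N l b T τ) (Bfl N l b T) k + 8 * π ^ 2 * ‖z‖ ^ 2 *
      (sym (Smf N l b T * CK N l b T τ) k ^ 2 * SigB (Smf N l b T * CK N l b T τ) k) =
      ∫ g, (Bfl N l b T (CK N l b T τ *ᵥ g) - ‖Mn N l b T z (CK N l b T τ *ᵥ g)‖ ^ 2) * hk k g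
        ∂(gau (V (N / l))) := by
    have e3 : (fun g => (Bfl N l b T (CK N l b T τ *ᵥ g) -
        ‖Mn N l b T z (CK N l b T τ *ᵥ g)‖ ^ 2) * hk k g) = fun g =>
        Bfl N l b T (CK N l b T τ *ᵥ g) * hk k g -
          ‖Mn N l b T z (CK N l b T τ *ᵥ g)‖ ^ 2 * hk k g := by
      funext g; ring
    rw [e3, integral_sub i1 i2]
    unfold H462.mh at e1 ⊢
    rw [e1]
    ring
  rw [e2]
  refine (abs_integral_le_integral_abs).trans ?_
  have iD : Integrable (fun g => ‖Dtot N l b T z (CK N l b T τ *ᵥ g)‖ * |hk k g|)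
      (gau (V (N / l))) := by
    refine ihk.abs.bdd_mul (c := om (wT b N) (MC N l T T) 1 +
      ‖z‖ * ∑ x, ∑ w, |Smf N l b T x w|) mD.aestronglyMeasurable
      (Filter.Eventually.of_forall fun g => ?_)
    rw [Real.norm_eq_abs, abs_of_nonneg (norm_nonneg _)]
    exact H462.norm_Dtot_le (N := N) hb.le hl hT z _
  have i3 : Integrable (fun g => oB N l b T * |hk k g| +
      M * (‖Dtot N l b T z (CK N l b T τ *ᵥ g)‖ * |hk k g|)) (gau (V (N / l))) :=
    (ihk.abs.const_mul _).add (iD.const_mul _)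
  have i4 : Integrable (fun g => (Bfl N l b T (CK N l b T τ *ᵥ g) -
      ‖Mn N l b T z (CK N l b T τ *ᵥ g)‖ ^ 2) * hk k g) (gau (V (N / l))) := by
    refine (i1.sub i2).congr (Filter.Eventually.of_forall fun g => ?_)
    simp only [Pi.sub_apply]
    ring
  have h1 : ∫ g, |(Bfl N l b T (CK N l b T τ *ᵥ g) -
      ‖Mn N l b T z (CK N l b T τ *ᵥ g)‖ ^ 2) * hk k g| ∂(gau (V (N / l))) ≤
      ∫ g, (oB N l b T * |hk k g| +
        M * (‖Dtot N l b T z (CK N l b T τ *ᵥ g)‖ * |hk k g|)) ∂(gau (V (N / l))) := by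
    refine integral_mono i4.abs i3 fun g => ?_
    simp only
    rw [abs_mul]
    have h2 := mul_le_mul_of_nonneg_right (Bfl_Mn (z := z) hb.le hl hT ho (CK N l b T τ *ᵥ g))
      (abs_nonneg (hk k g))
    refine h2.trans (le_of_eq ?_)
    rw [← hM]
    ring
  refine h1.trans ?_
  rw [integral_add (ihk.abs.const_mul _) (iD.const_mul _), integral_const_mul, integral_const_mul]
  have h3 := int_hk_abs k
  have h4 : ∫ g, ‖Dtot N l b T z (CK N l b T τ *ᵥ g)‖ * |hk k g| ∂(gau (V (N / l))) ≤ 4 * dT := by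
    have q1 : MemLp (fun g : V (N / l) → ℝ => ‖Dtot N l b T z (CK N l b T τ *ᵥ g)‖) 2
        (gau (V (N / l))) :=
      MemLp.of_bound mD.aestronglyMeasurable (om (wT b N) (MC N l T T) 1 +
        ‖z‖ * ∑ x, ∑ w, |Smf N l b T x w|) (Filter.Eventually.of_forall fun g => by
          rw [Real.norm_eq_abs, abs_of_nonneg (norm_nonneg _)]
          exact H462.norm_Dtot_le (N := N) hb.le hl hT z _)
    have mh' : Measurable fun g : V (N / l) → ℝ => |hk k g| := (egr_hk k).meas.abs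
    have q2 : MemLp (fun g : V (N / l) → ℝ => |hk k g|) 2 (gau (V (N / l))) := by
      rw [memLp_two_iff_integrable_sq mh'.aestronglyMeasurable]
      simpa only [sq_abs] using int_hk_sq_i k
    have q3 : ∫ g, |hk k g| ^ 2 ∂(gau (V (N / l))) ≤ 2 ^ 2 := by
      simp only [sq_abs]
      refine (int_hk_sq k).trans (by norm_num)
    have q4 : ∫ g, ‖Dtot N l b T z (CK N l b T τ *ᵥ g)‖ ^ 2 ∂(gau (V (N / l))) ≤
        (2 * dT) ^ 2 := by
      refine h.dev_sq.trans ?_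
      nlinarith [sq_nonneg dT]
    have q5 := H114.cs_le q1 q2 (A := 2 * dT) (B := 2) (by positivity) (by norm_num) q4 q3
    have q6 := le_abs_self (∫ g, ‖Dtot N l b T z (CK N l b T τ *ᵥ g)‖ * |hk k g|
      ∂(gau (V (N / l))))
    linarith
  have h5 := mul_le_mul_of_nonneg_left h3 hoB
  have h6 := mul_le_mul_of_nonneg_left h4 hM0
  linarith

end

end Vale.Agent.P159.H813
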