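import Vale.Agent.P159.H813.Sq8
import Vale.Agent.P159.H114.Chain6

/-!
P159 (helper813): **(STAR0)**, final: the neutral self energy of the cell channel at a tiny prior is the
value `xqk` of the letter `V0` plus `8 π² |z|² Sig`, up to second order errors, uniformly in the prior.
-/

namespace Vale.Agent.P159.H813

open Finset MeasureTheory Matrix
open Vale.Agent.P159.TM.H104 (EM Ex Cv K3 Lg li nh Gr)
open Vale.Agent.P159.H37
open Vale.Agent.P159.TM.Spec (V)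
open Vale.Agent.P159.TM.SpecC (Tor wT)
open Vale.Agent.P159.TM.H764 (EE cN sN dt Gh grd)
open Vale.Agent.P159.H864 (TI sym MC cobV lapM)
open Vale.Agent.P159.H462 (hk Dom ms cm cm_cst Phl Bfl V0l Smf Dtot oT oB Pst)
open Vale.Agent.P159.H363 (Nf acl ti_acl Rcl Ch pin mainf ee)
open Vale.Agent.P159.H896 (srcM pinK kap om)
open Vale.Agent.P159.H963 (Gnc nMC obsN PinC)
open Vale.Agent.P159.H889 (tn2)
open Vale.Agent.P159.H114 (Pc Sig)
open scoped Real

noncomputable section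

set_option linter.unusedSectionVars false

variable {N l : ℕ} [NeZero N] [NeZero (N / l)] {b T τ ηR δ dT c : ℝ} {z : ℂ}

/-! ### symbols -/

lemma acl_P (hb : 0 < b) (hl : l ∣ N) (hT : 0 < T) (k : V (N / l)) :
    sym (acl N l b T T) k =
      T * (l : ℝ) ^ 2 * Pst N l b T k / (T * (l : ℝ) ^ 2 + Pst N l b T k) := by
  rw [H462.sym_acl_Pst hb hl hT]
  rfl

/-- the symbol of the smeared reference field -/
theorem sym_B (h : St0 N l b T τ z ηR δ dT c) {k : V (N / l)} (hk : k ≠ 0) :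
    sym (Smf N l b T * CK N l b T τ) k ^ 2 =
      1 / (τ * (l : ℝ) ^ 2 + Pst N l b T k) - 1 / (T * (l : ℝ) ^ 2 + Pst N l b T k) := by
  have hb := h.hb
  have hl := h.hl
  have hT := h.T0
  have hτ := h.hτ
  have hq : 0 < T - τ := sub_pos.2 h.lt
  have hlp : (0 : ℝ) < l := by exact_mod_cast H864.l_pos hl
  have hA := nf_of_dom h.dom
  have hS := H462.ti_Smf (N := N) hb.le hl hT
  have hC : TI (CK N l b T τ) := H363.ti_pin _
  have hP := H462.Pst_nonneg hb hl hT k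
  have hpos := hA.pos k hk
  have hκ := H896.kap_pos hl hτ h.lt
  have e1 : sym (CK N l b T τ) k ^ 2 = (sym (acl N l b T T) k + kap l T τ)⁻¹ := by
    unfold CK
    rw [H896.sym_pinK hA, if_neg hk, Real.sq_sqrt (by positivity)]
  have e2 : sym (Smf N l b T) k = 1 - (T * (l : ℝ) ^ 2)⁻¹ * sym (acl N l b T T) k := by
    unfold H462.Smf
    rw [H864.sym_sub, H864.sym_smul, H864.sym_one]
  rw [H864.sym_mul hS hC, mul_pow, e1, e2]
  rw [acl_P hb hl hT] at hpos ⊢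
  unfold H896.kap
  set P := Pst N l b T k
  have hP0 : 0 < P := by
    rcases hP.lt_or_eq with h0 | h0
    · exact h0
    · rw [← h0] at hpos
      simp at hpos
  have h1 : (l : ℝ) ^ 2 * T * τ / (T - τ) + T * (l : ℝ) ^ 2 * P / (T * (l : ℝ) ^ 2 + P) ≠ 0 := by
    positivity
  have h2 : T * (l : ℝ) ^ 2 + P ≠ 0 := by positivity
  have h3 : τ * (l : ℝ) ^ 2 + P ≠ 0 := by positivity
  have e3 : T * (l : ℝ) ^ 2 * P / (T * (l : ℝ) ^ 2 + P) + (l : ℝ) ^ 2 * T * τ / (T - τ) =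
      T ^ 2 * (l : ℝ) ^ 2 * (τ * (l : ℝ) ^ 2 + P) / ((T * (l : ℝ) ^ 2 + P) * (T - τ)) := by
    field_simp
    ring
  rw [e3]
  field_simp
  ring

lemma sym_B0 (h : St0 N l b T τ z ηR δ dT c) :
    sym (Smf N l b T * CK N l b T τ) (0 : V (N / l)) = 0 := by
  have hS := H462.ti_Smf (N := N) h.hb.le h.hl h.T0
  have hC : TI (CK N l b T τ) := H363.ti_pin _
  have hA := nf_of_dom h.dom
  rw [H864.sym_mul hS hC]
  unfold CK
  rw [H896.sym_pinK hA, if_pos rfl, mul_zero]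

/-- the exponent is helper114's -/
theorem DB_eq (h : St0 N l b T τ z ηR δ dT c) (r : V (N / l)) :
    DB (Smf N l b T * CK N l b T τ) r =
      Dk (N / l) (T * (l : ℝ) ^ 2) (τ * (l : ℝ) ^ 2) (Pst N l b T) r := by
  unfold DB Dk GamP
  have e : ∀ q : V (N / l), sym (Smf N l b T * CK N l b T τ) q ^ 2 * (1 - cN (dt q r)) =
      cN (dt q 0) * (1 / (τ * (l : ℝ) ^ 2 + Pst N l b T q) -
        1 / (T * (l : ℝ) ^ 2 + Pst N l b T q)) -
      cN (dt q r) * (1 / (τ * (l : ℝ) ^ 2 + Pst N l b T q) -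
        1 / (T * (l : ℝ) ^ 2 + Pst N l b T q)) := by
    intro q
    have h1 : cN (dt q 0) = 1 := by rw [H864.dt_zero, TM.H764.cN_zero]
    by_cases hq : q = 0
    · rw [hq, sym_B0 h, H864.dt_zero_left, H864.dt_zero_left]
      ring
    · rw [sym_B h hq, h1]
      ring
  simp only [e]
  rw [sum_sub_distrib, inv_mul_eq_div, sub_div]

theorem SigB_eq (h : St0 N l b T τ z ηR δ dT c) (k : V (N / l)) :
    SigB (Smf N l b T * CK N l b T τ) k =
      Sig (N / l) (T * (l : ℝ) ^ 2) (τ * (l : ℝ) ^ 2) (Pst N l b T) k := by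
  unfold SigB H114.Sig
  exact sum_congr rfl fun r _ => by rw [DB_eq h]

/-! ### the letters -/

/-- mean of `V0 h_k` -/
def vh (N l : ℕ) [NeZero N] [NeZero (N / l)] (b T τ : ℝ) (k : V (N / l)) : ℝ :=
  H462.mh (CK N l b T τ) (V0l N l b T) k

/-- the Hessian of the averaged `log Z` at `k` -/
def qk (N l : ℕ) [NeZero N] [NeZero (N / l)] (b T τ : ℝ) (k : V (N / l)) : ℝ :=
  sym (acl N l b T T) k - (sym (acl N l b T T) k + kap l T τ) * vh N l b T τ k

/-- its self energy -/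
def xqk (N l : ℕ) [NeZero N] [NeZero (N / l)] (b T τ : ℝ) (k : V (N / l)) : ℝ :=
  T * (l : ℝ) ^ 2 * qk N l b T τ k / (T * (l : ℝ) ^ 2 - qk N l b T τ k)

/-- first order size -/
def Sz (ηR δ W o : ℝ) : ℝ := 8 * ηR + 700 * W * Real.sqrt δ + 4 * o ^ 2

/-- second order error -/
def E0z (ηR δ W o e2 : ℝ) : ℝ := 140 * Sz ηR δ W o ^ 2 + 4 * E1i ηR δ W + 4 * e2

/-! ### algebra -/

/-- the factor `g` -/
def gP (ν t P : ℝ) : ℝ := (ν + P) / (ν - t)

lemma gP_bd {ν t P : ℝ} (ht : 0 ≤ t) (h2 : t ≤ ν / 2) (hν : 0 < ν) (hP : 0 ≤ P) (hPν : P ≤ ν) :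
    1 ≤ gP ν t P ∧ gP ν t P ≤ 4 := by
  have h1 : 0 < ν - t := by linarith
  unfold gP
  constructor
  · rw [one_le_div h1]; linarith
  · rw [div_le_iff₀ h1]; linarith

/-- algebra of (STAR0) -/
lemma star_alg {X x p g v ρ β e S : ℝ} (hp : 0 ≤ p) (hg1 : 1 ≤ g) (hg4 : g ≤ 4)
    (hX : X * (1 + ρ * g) = p) (hx : x * (1 + v * (g - 1)) = p * (1 - v)) (hv : |v| ≤ S)
    (hρ : |ρ| ≤ S) (hS : S ≤ 1 / 16) (he : |v - ρ + β| ≤ e) :
    |X - x + p * g * β| ≤ p * (140 * S ^ 2 + 4 * e) := by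
  have hS0 : 0 ≤ S := (abs_nonneg _).trans hv
  obtain ⟨v1, v2⟩ := abs_le.1 hv
  obtain ⟨r1, r2⟩ := abs_le.1 hρ
  have a1 : |ρ * g| ≤ 4 * S := by
    rw [abs_mul, abs_of_nonneg (by linarith : 0 ≤ g)]
    nlinarith [abs_nonneg ρ]
  have a2 : |v * (g - 1)| ≤ 3 * S := by
    rw [abs_mul, abs_of_nonneg (by linarith : 0 ≤ g - 1)]
    nlinarith [abs_nonneg v]
  set α := ρ * g with hα
  set γ := v * (g - 1) with hγ
  obtain ⟨a3, a4⟩ := abs_le.1 a1
  obtain ⟨a5, a6⟩ := abs_le.1 a2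
  have d1 : 0 < 1 + α := by linarith
  have d2 : 0 < 1 + γ := by linarith
  set D := (1 + α) * (1 + γ) with hD
  have hD1 : |D - 1| ≤ 8 * S := by
    have e1 : D - 1 = α + γ + α * γ := by rw [hD]; ring
    rw [e1]
    have h3 : |α * γ| ≤ 4 * S * (3 * S) := by
      rw [abs_mul]; exact mul_le_mul a1 a2 (abs_nonneg _) (by linarith)
    refine (abs_add_le _ _).trans ?_
    have h4 := abs_add_le α γ
    nlinarith
  have hD2 : 1 / 2 ≤ D := by
    have := (abs_le.1 hD1).1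
    linarith
  have hD0 : 0 < D := by linarith
  have hXe : X = p / (1 + α) := by rw [eq_div_iff d1.ne', hX]
  have hxe : x = p * (1 - v) / (1 + γ) := by rw [eq_div_iff d2.ne', hx]
  have key : X - x + p * g * β = p * g * ((v - ρ + v * ρ) * (1 / D - 1) +
      ((v - ρ + β) + v * ρ)) := by
    have e1 : X - x = p * g * ((v - ρ + v * ρ) / D) := by
      rw [hXe, hxe, hD]
      field_simp
      rw [hα, hγ]
      ring
    rw [e1]
    ring
  have b1 : |v - ρ + v * ρ| ≤ 17 / 8 * S := by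
    have h3 : |v * ρ| ≤ S * S := by
      rw [abs_mul]; exact mul_le_mul hv hρ (abs_nonneg _) hS0
    refine (abs_add_le _ _).trans ?_
    have h4 := abs_sub v ρ
    nlinarith
  have b2 : |1 / D - 1| ≤ 16 * S := by
    have e1 : 1 / D - 1 = (1 - D) / D := by field_simp
    rw [e1, abs_div, abs_of_pos hD0, div_le_iff₀ hD0, abs_sub_comm]
    nlinarith
  have b3 : |(v - ρ + v * ρ) * (1 / D - 1)| ≤ 34 * S ^ 2 := by
    rw [abs_mul]
    refine (mul_le_mul b1 b2 (abs_nonneg _) (by positivity)).trans (le_of_eq ?_)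
    ring
  have b4 : |v * ρ| ≤ S ^ 2 := by
    rw [abs_mul, pow_two]; exact mul_le_mul hv hρ (abs_nonneg _) hS0
  rw [key, abs_mul, abs_of_nonneg (by positivity : 0 ≤ p * g)]
  have b5 : |(v - ρ + v * ρ) * (1 / D - 1) + ((v - ρ + β) + v * ρ)| ≤ 35 * S ^ 2 + e := by
    refine (abs_add_le _ _).trans ?_
    have h5 := abs_add_le (v - ρ + β) (v * ρ)
    linarith
  have he0 : 0 ≤ e := (abs_nonneg _).trans he
  have b6 : p * g * |(v - ρ + v * ρ) * (1 / D - 1) + ((v - ρ + β) + v * ρ)| ≤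
      p * 4 * (35 * S ^ 2 + e) :=
    mul_le_mul (mul_le_mul_of_nonneg_left hg4 hp) b5 (abs_nonneg _) (by positivity)
  refine b6.trans (le_of_eq ?_)
  ring

lemma near_alg {x p g v S : ℝ} (hp : 0 ≤ p) (hg1 : 1 ≤ g) (hg4 : g ≤ 4)
    (hx : x * (1 + v * (g - 1)) = p * (1 - v)) (hv : |v| ≤ S) (hS : S ≤ 1 / 16) :
    |x - p| ≤ 5 * p * S := by
  have hS0 : 0 ≤ S := (abs_nonneg _).trans hv
  have a2 : |v * (g - 1)| ≤ 3 * S := by
    rw [abs_mul, abs_of_nonneg (by linarith : 0 ≤ g - 1)]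
    nlinarith [abs_nonneg v]
  set γ := v * (g - 1) with hγ
  obtain ⟨a5, a6⟩ := abs_le.1 a2
  have d2 : 4 / 5 ≤ 1 + γ := by linarith
  have e1 : (x - p) * (1 + γ) = -(p * g * v) := by
    have : p * γ = p * v * g - p * v := by rw [hγ]; ring
    linear_combination hx - this
  have e2 : |x - p| * (1 + γ) = p * g * |v| := by
    have h1 := congrArg abs e1
    rw [abs_mul, abs_neg, abs_mul, abs_of_nonneg (by linarith : 0 ≤ 1 + γ),
      abs_of_nonneg (by positivity : 0 ≤ p * g)] at h1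
    exact h1
  have e3 : p * g * |v| ≤ p * 4 * S :=
    mul_le_mul (mul_le_mul_of_nonneg_left hg4 hp) hv (abs_nonneg _) (by positivity)
  have e4 : |x - p| * (4 / 5) ≤ |x - p| * (1 + γ) :=
    mul_le_mul_of_nonneg_left d2 (abs_nonneg _)
  linarith

end

end Vale.Agent.P159.H813
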