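import Vale.Agent.P159.H813.TB3b
import Vale.Agent.P159.H474.Green8

/-!
P159 / P#4, final form: the hypotheses of `P4` follow from the flat profile of the self energy.
-/

namespace Vale.Agent.P159.H813

open Finset Real
open Vale.Agent.P159.TM.H764
open Vale.Agent.P159.H474 (GK Gi Im SN)

noncomputable section

lemma TB2_green : ∃ cs : ℝ, TB2 cs := by
  obtain ⟨cs, h⟩ := H474.TB2a
  refine ⟨cs, fun ε hε => ?_⟩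
  obtain ⟨B, hB, hB'⟩ := h ε hε
  refine ⟨B, hB, fun N _ m m' x hm hmm h1 h2 h3 h4 => ?_⟩
  have hB0 : 0 < B := by linarith
  have e : en x = √(H474.sx x) := rfl
  have hm'B : m' ≤ 1 / B := by
    rw [le_div_iff₀ hB0]
    have : B ≤ B ^ 2 := by nlinarith
    have hm' : 0 < m' := hm.trans_le hmm
    nlinarith
  have h5 := hB' N m m' x hm hmm hm'B (by rw [← e]; exact h2)
    (by rw [← e, le_div_iff₀ hB0, mul_comm]; exact h3) h4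
  have e2 : H474.sx x = en x ^ 2 := by rw [e, sq_sqrt (H474.sx_nonneg x)]
  rw [H474.DD2_eq, e2] at h5
  have e3 : (GK N m 0 - GK N m x) - (GK N m' 0 - GK N m' x) =
      SN N m - SN N m' - (GK N m x - GK N m' x) := by
    have hz : (0 : ZMod N × ZMod N) = (0, 0) := rfl
    rw [hz, ← H474.SN_eq, ← H474.SN_eq]
    ring
  rw [e3]
  exact h5

variable {N : ℕ} [NeZero N]

lemma GamP_le {τ1 τ2 : ℝ} {P : ZMod N × ZMod N → ℝ} (hτ2 : 0 < τ2) (h12 : τ2 ≤ τ1)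
    (hP : ∀ k, 0 ≤ P k) (x : ZMod N × ZMod N) : |GamP N τ1 τ2 P x| ≤ GamP N τ1 τ2 P 0 := by
  have hN : (0 : ℝ) < (N : ℝ) ^ 2 := by
    have : (0 : ℝ) < N := by exact_mod_cast NeZero.pos N
    positivity
  unfold GamP
  rw [abs_div, abs_of_pos hN]
  refine div_le_div_of_nonneg_right ?_ hN.le
  refine (abs_sum_le_sum_abs _ _).trans (sum_le_sum fun k _ => ?_)
  have h0 : 0 ≤ 1 / (τ2 + P k) - 1 / (τ1 + P k) := by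
    have := hP k
    rw [sub_nonneg]
    exact one_div_le_one_div_of_le (by linarith) (by linarith)
  have h1 : dt k (0 : ZMod N × ZMod N) = 0 := by unfold dt; simp
  rw [abs_mul, abs_of_nonneg h0, h1, cN_zero]
  refine mul_le_mul_of_nonneg_right ?_ h0
  exact abs_le.2 ⟨neg_one_le_cN _, cN_le_one _⟩

/-- middle region for the reference covariance -/
lemma ref_mid {cs : ℝ} (h2 : TB2 cs) : ∀ ε : ℝ, 0 < ε → ∃ B : ℝ, 1 ≤ B ∧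
    ∀ (N : ℕ) [NeZero N] (a ξ ξ2 κ : ℝ) (x : ZMod N × ZMod N), 1 ≤ a → a ≤ 2 → B ≤ ξ → ξ ≤ ξ2 →
      B * ξ2 ≤ N → |a - π / 2| * (1 + log (ξ2 / ξ)) ≤ κ → B * ξ ≤ en x → en x ≤ ξ2 / B →
      |4 * π ^ 2 * (GamP N (1 / ξ ^ 2) (1 / ξ2 ^ 2) (fun k => a * EE k) 0 -
        GamP N (1 / ξ ^ 2) (1 / ξ2 ^ 2) (fun k => a * EE k) x) -
          (4 * log (en x / ξ) + 2 * (cs - log (π / 2)))| ≤ 40 * ε + (8 + 2 * |cs|) * κ := by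
  intro ε hε
  obtain ⟨B, hB, hB2⟩ := h2 ε hε
  refine ⟨2 * B, by linarith, ?_⟩
  intro N _ a ξ ξ2 κ x ha1 ha2 hξ hξξ hN hκ hx1 hx2
  have hB0 : 0 < B := by linarith
  have ha0 : 0 < a := by linarith
  have hξ0 : 0 < ξ := by linarith
  have hξ20 : 0 < ξ2 := by linarith
  have hx0 : 0 < en x := lt_of_lt_of_le (by positivity) hx1
  have s1 := sqrt_m ha1 ha2 hξ20
  have s2 := sqrt_m ha1 ha2 hξ0
  have hmm : 1 / ξ2 ^ 2 / a ≤ 1 / ξ ^ 2 / a := by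
    refine div_le_div_of_nonneg_right ?_ ha0.le
    exact one_div_le_one_div_of_le (by positivity) (pow_le_pow_left₀ hξ0.le hξξ 2)
  have c1 : B ^ 2 * (1 / ξ ^ 2 / a) ≤ 1 := by
    have e1 : 1 / ξ ^ 2 / a ≤ 1 / ξ ^ 2 := div_le_self (by positivity) ha1
    calc B ^ 2 * (1 / ξ ^ 2 / a) ≤ B ^ 2 * (1 / ξ ^ 2) := mul_le_mul_of_nonneg_left e1 (by positivity)
      _ = (B / ξ) ^ 2 := by rw [div_pow]; ring
      _ ≤ 1 := by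
          have : B / ξ ≤ 1 := by rw [div_le_one hξ0]; linarith
          exact pow_le_one₀ (by positivity) this
  have c2 : B ≤ en x * √(1 / ξ ^ 2 / a) := by
    calc B = (2 * B * ξ) * (1 / (2 * ξ)) := by field_simp
      _ ≤ _ := mul_le_mul hx1 s2.1 (by positivity) hx0.le
  have c3 : B * (en x * √(1 / ξ2 ^ 2 / a)) ≤ 1 := by
    have h3 : en x * √(1 / ξ2 ^ 2 / a) ≤ ξ2 / (2 * B) * (1 / ξ2) :=
      mul_le_mul hx2 s1.2 (by positivity) (by positivity)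
    calc B * (en x * √(1 / ξ2 ^ 2 / a)) ≤ B * (ξ2 / (2 * B) * (1 / ξ2)) :=
          mul_le_mul_of_nonneg_left h3 hB0.le
      _ = 1 / 2 := by field_simp
      _ ≤ 1 := by norm_num
  have c4 : B ≤ (N : ℝ) * √(1 / ξ2 ^ 2 / a) := by
    calc B = (2 * B * ξ2) * (1 / (2 * ξ2)) := by field_simp
      _ ≤ _ := mul_le_mul hN s1.1 (by positivity) (Nat.cast_nonneg _)
  have h := hB2 N (1 / ξ2 ^ 2 / a) (1 / ξ ^ 2 / a) x (by positivity) hmm c1 c2 c3 c4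
  have hl : log (1 / ξ ^ 2 / a * en x ^ 2) = 2 * log (en x / ξ) - log a := by
    have e1 : 1 / ξ ^ 2 / a * en x ^ 2 = (en x / ξ) ^ 2 / a := by
      rw [div_pow]; field_simp
    rw [e1, log_div (by positivity) ha0.ne', log_pow]
    push_cast
    ring
  rw [hl] at h
  have hl0 : 0 ≤ log (en x / ξ) := by
    refine log_nonneg ?_
    rw [le_div_iff₀ hξ0]
    nlinarith
  have hlL : log (en x / ξ) ≤ log (ξ2 / ξ) := by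
    refine log_le_log (by positivity) (div_le_div_of_nonneg_right ?_ hξ0.le)
    exact hx2.trans (div_le_self hξ20.le (by linarith))
  have hf := mid_alg ha1 ha2 hl0 hlL hκ h
  rw [GamP_ref ha0, GamP_ref ha0]
  have e4 : ((GK N (1 / ξ2 ^ 2 / a) 0 - GK N (1 / ξ ^ 2 / a) 0) / a -
      (GK N (1 / ξ2 ^ 2 / a) x - GK N (1 / ξ ^ 2 / a) x) / a) =
      ((GK N (1 / ξ2 ^ 2 / a) 0 - GK N (1 / ξ2 ^ 2 / a) x) -
        (GK N (1 / ξ ^ 2 / a) 0 - GK N (1 / ξ ^ 2 / a) x)) / a := by ring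
  rw [e4]
  exact hf

/-- constant in the exponent -/
lemma del_small {c0 η ξ2 κ : ℝ} (hc0 : 0 < c0) (hη : 0 ≤ η) (hN0 : 1 ≤ ξ2) (hN : ξ2 ≤ N)
    (hκ : η * (1 + log (1 + 9 * ξ2 ^ 2)) * (N : ℝ) ^ 4 ≤ κ * ξ2 ^ 4) :
    del c0 η (1 / ξ2 ^ 2) * (N : ℝ) ^ 4 ≤ 50 / c0 ^ 3 * κ * ξ2 ^ 4 ∧
      del c0 η (1 / ξ2 ^ 2) ≤ 50 / c0 ^ 3 * κ ∧ 0 ≤ del c0 η (1 / ξ2 ^ 2) := by
  have hξ : 0 < ξ2 := by linarith
  have e : 9 / (1 / ξ2 ^ 2) = 9 * ξ2 ^ 2 := by field_simp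
  have hl : 0 ≤ log (1 + 9 * ξ2 ^ 2) := log_nonneg (by nlinarith)
  unfold del
  rw [e]
  have h1 : 50 * η / c0 ^ 3 * (1 + log (1 + 9 * ξ2 ^ 2)) * (N : ℝ) ^ 4 ≤
      50 / c0 ^ 3 * κ * ξ2 ^ 4 := by
    calc 50 * η / c0 ^ 3 * (1 + log (1 + 9 * ξ2 ^ 2)) * (N : ℝ) ^ 4
        = 50 / c0 ^ 3 * (η * (1 + log (1 + 9 * ξ2 ^ 2)) * (N : ℝ) ^ 4) := by ring
      _ ≤ 50 / c0 ^ 3 * (κ * ξ2 ^ 4) := mul_le_mul_of_nonneg_left hκ (by positivity)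
      _ = _ := by ring
  have h0 : 0 ≤ 50 * η / c0 ^ 3 * (1 + log (1 + 9 * ξ2 ^ 2)) := by positivity
  refine ⟨h1, ?_, h0⟩
  have h2 : ξ2 ^ 4 ≤ (N : ℝ) ^ 4 := pow_le_pow_left₀ hξ.le hN 4
  have h3 : 50 * η / c0 ^ 3 * (1 + log (1 + 9 * ξ2 ^ 2)) * ξ2 ^ 4 ≤ 50 / c0 ^ 3 * κ * ξ2 ^ 4 :=
    (mul_le_mul_of_nonneg_left h2 h0).trans h1
  exact le_of_mul_le_mul_right h3 (by positivity)

omit [NeZero N] in
lemma pi2_le : 4 * π ^ 2 ≤ 40 := by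
  have h1 := pi_lt_d2
  have h2 := pi_pos
  nlinarith

lemma tr_G0 {Γ Γ' : ZMod N × ZMod N → ℝ} {δ K v : ℝ} (h : ∀ x, |Γ x - Γ' x| ≤ δ)
    (h0 : |4 * π ^ 2 * Γ' 0 - v| ≤ K) : |4 * π ^ 2 * Γ 0 - v| ≤ K + 40 * δ := by
  have e : 4 * π ^ 2 * Γ 0 - v = 4 * π ^ 2 * (Γ 0 - Γ' 0) + (4 * π ^ 2 * Γ' 0 - v) := by ring
  rw [e]
  refine (abs_add_le _ _).trans ?_
  rw [abs_mul, abs_of_nonneg (by positivity : 0 ≤ 4 * π ^ 2)]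
  have h4 : 4 * π ^ 2 * |Γ 0 - Γ' 0| ≤ 40 * δ :=
    mul_le_mul pi2_le (h 0) (abs_nonneg _) (by norm_num)
  linarith

lemma tr_Ga {Γ Γ' : ZMod N × ZMod N → ℝ} {δ K v : ℝ} (h : ∀ x, |Γ x - Γ' x| ≤ δ)
    {x : ZMod N × ZMod N} (h0 : |4 * π ^ 2 * (Γ' 0 - Γ' x) - v| ≤ K) :
    |4 * π ^ 2 * (Γ 0 - Γ x) - v| ≤ K + 80 * δ := by
  have e : 4 * π ^ 2 * (Γ 0 - Γ x) - v = 4 * π ^ 2 * ((Γ 0 - Γ' 0) - (Γ x - Γ' x)) +
      (4 * π ^ 2 * (Γ' 0 - Γ' x) - v) := by ring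
  rw [e]
  refine (abs_add_le _ _).trans ?_
  rw [abs_mul, abs_of_nonneg (by positivity : 0 ≤ 4 * π ^ 2)]
  have h2 : |(Γ 0 - Γ' 0) - (Γ x - Γ' x)| ≤ 2 * δ := by
    refine (abs_sub _ _).trans ?_
    linarith [h 0, h x]
  have h4 : 4 * π ^ 2 * |(Γ 0 - Γ' 0) - (Γ x - Γ' x)| ≤ 40 * (2 * δ) :=
    mul_le_mul pi2_le h2 (abs_nonneg _) (by norm_num)
  linarith

lemma tr_Gc {Γ Γ' : ZMod N × ZMod N → ℝ} {δ M e : ℝ} (h : ∀ x, |Γ x - Γ' x| ≤ δ)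
    {x : ZMod N × ZMod N} (h0 : |Γ' x| ≤ M * e) (hM : 0 ≤ M) (he : e ≤ 1) :
    |Γ x| ≤ M + δ ∧ |Γ x| ≤ M * e + δ := by
  have h3 : |Γ x| ≤ |Γ x - Γ' x| + |Γ' x| := by
    have := abs_add_le (Γ x - Γ' x) (Γ' x)
    rwa [sub_add_cancel] at this
  have h4 : M * e ≤ M := by nlinarith
  constructor <;> linarith [h x]

omit [NeZero N] in
lemma a_range {a κ L : ℝ} (hL : 0 ≤ L) (h : |a - π / 2| * (1 + L) ≤ κ) (hκ : κ ≤ 1 / 24) :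
    1 ≤ a ∧ a ≤ 2 := by
  have hab := abs_nonneg (a - π / 2)
  have hA : |a - π / 2| ≤ κ := by nlinarith
  have ha := abs_le.1 hA
  have hpi3 := pi_gt_d2
  have hpi4 := pi_lt_d2
  constructor <;> linarith [ha.1, ha.2]

/-- all hypotheses of `P4` -/
lemma flat_all {cs B1 ε1 : ℝ} (hB1 : 1 ≤ B1)
    (hmid : ∀ (N : ℕ) [NeZero N] (a ξ ξ2 κ : ℝ) (x : ZMod N × ZMod N), 1 ≤ a → a ≤ 2 → B1 ≤ ξ →
      ξ ≤ ξ2 → B1 * ξ2 ≤ N → |a - π / 2| * (1 + log (ξ2 / ξ)) ≤ κ → B1 * ξ ≤ en x →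
      en x ≤ ξ2 / B1 →
      |4 * π ^ 2 * (GamP N (1 / ξ ^ 2) (1 / ξ2 ^ 2) (fun k => a * EE k) 0 -
        GamP N (1 / ξ ^ 2) (1 / ξ2 ^ 2) (fun k => a * EE k) x) -
          (4 * log (en x / ξ) + 2 * (cs - log (π / 2)))| ≤ 40 * (ε1 / 120) + (8 + 2 * |cs|) * κ)
    {c0 κ ξ ξ2 a η : ℝ} (hc0 : 0 < c0) (hc01 : c0 ≤ 1) (hκ0 : 0 < κ) (hκ1 : κ ≤ 1 / 24)
    (hκ2 : (8 + 2 * |cs|) * κ + 80 * (50 / c0 ^ 3 * κ) ≤ ε1 / 3)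
    (hξ : 1 ≤ ξ) (hξB : B1 ≤ ξ) (hξξ : ξ ≤ ξ2) (hN2 : 2 * ξ2 ≤ N) (hNB : B1 * ξ2 ≤ N)
    {P : ZMod N × ZMod N → ℝ} (hη : 0 ≤ η) (hP : ∀ k, c0 * EE k ≤ P k)
    (hF : ∀ k, |P k - a * EE k| ≤ η * EE k * (1 + EE k * ξ ^ 2))
    (hκa : |a - π / 2| * (1 + log (ξ2 / ξ)) ≤ κ)
    (hκη : η * (1 + log (1 + 9 * ξ2 ^ 2)) * (N : ℝ) ^ 4 ≤ κ * ξ2 ^ 4) :
    ∃ δ : ℝ, 0 ≤ δ ∧ δ ≤ 50 / c0 ^ 3 ∧ δ * (N : ℝ) ^ 4 ≤ 50 / c0 ^ 3 * ξ2 ^ 4 ∧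
    |4 * π ^ 2 * GamP N (1 / ξ ^ 2) (1 / ξ2 ^ 2) P 0 - 4 * log (ξ2 / ξ)| ≤
      50001 + 40 * (50 / c0 ^ 3) ∧
    (∀ x, B1 * ξ ≤ en x → en x ≤ ξ2 / B1 →
      |4 * π ^ 2 * (GamP N (1 / ξ ^ 2) (1 / ξ2 ^ 2) P 0 - GamP N (1 / ξ ^ 2) (1 / ξ2 ^ 2) P x) -
        (4 * log (en x / ξ) + 2 * (cs - log (π / 2)))| ≤ ε1) ∧
    (∀ x, ξ2 / (2 * B1) ≤ en x → |GamP N (1 / ξ ^ 2) (1 / ξ2 ^ 2) P x| ≤
        32 * B1 + 1200 + 50 / c0 ^ 3 ∧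
      |GamP N (1 / ξ ^ 2) (1 / ξ2 ^ 2) P x| ≤
        (32 * B1 + 1200) * exp (-((1 / 32) / ξ2 * (|r1 x| + |r2 x|))) + δ) := by
  have hξ0 : 0 < ξ := by linarith
  have hξ20 : 0 < ξ2 := by linarith
  have hlog : 0 ≤ log (ξ2 / ξ) := log_nonneg (by rw [le_div_iff₀ hξ0]; linarith)
  obtain ⟨ha1, ha2⟩ := a_range hlog hκa hκ1
  have hτ2 : 0 < 1 / ξ2 ^ 2 := by positivity
  have hτ12 : 1 / ξ2 ^ 2 ≤ 1 / ξ ^ 2 :=
    one_div_le_one_div_of_le (by positivity) (pow_le_pow_left₀ hξ0.le hξξ 2)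
  have hF' : ∀ k, |P k - a * EE k| ≤ η * EE k * (1 + EE k / (1 / ξ ^ 2)) := by
    intro k
    have : EE k / (1 / ξ ^ 2) = EE k * ξ ^ 2 := by field_simp
    rw [this]
    exact hF k
  obtain ⟨d1, d2, d3⟩ := del_small (N := N) (c0 := c0) (η := η) (ξ2 := ξ2) (κ := κ) hc0 hη
    (by linarith) (by linarith) hκη
  have hcomp := GamP_comp (N := N) hτ2 hτ12 hc0 hc01 (by linarith : c0 ≤ a) hη hP hF'
  have hD0 : 0 < 50 / c0 ^ 3 := by positivity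
  have hD0κ : 50 / c0 ^ 3 * κ ≤ 50 / c0 ^ 3 := by nlinarith
  refine ⟨del c0 η (1 / ξ2 ^ 2), d3, d2.trans hD0κ,
    d1.trans (mul_le_mul_of_nonneg_right hD0κ (by positivity)), ?_, ?_, ?_⟩
  · have h1 := ref_zero ha1 ha2 hξ hξξ hN2 hκa
    have h2 := tr_G0 hcomp h1
    linarith
  · intro x hx1 hx2
    have h1 := hmid N a ξ ξ2 κ x ha1 ha2 hξB hξξ hNB hκa hx1 hx2
    have h2 := tr_Ga hcomp h1
    have h3 : 0 ≤ (8 + 2 * |cs|) * κ + 80 * (50 / c0 ^ 3 * κ) := by positivity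
    linarith
  · intro x hx
    have h1 := ref_far ha1 ha2 hξ hξξ hB1 hN2 hx
    have h5 : exp (-((1 / 32) / ξ2 * (|r1 x| + |r2 x|))) ≤ 1 := by
      rw [exp_le_one_iff]
      have : 0 ≤ (1 / 32) / ξ2 * (|r1 x| + |r2 x|) := by positivity
      linarith
    have h2 := tr_Gc hcomp h1 (by linarith) h5
    exact ⟨by linarith [h2.1], h2.2⟩

omit [NeZero N] in
/-- choice of the small parameter -/
lemma kap_choice (cs c0 ε1 : ℝ) (hc0 : 0 < c0) (hε1 : 0 < ε1) (hε11 : ε1 ≤ 1) :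
    ∃ κ : ℝ, 0 < κ ∧ κ ≤ 1 / 24 ∧ (8 + 2 * |cs|) * κ + 80 * (50 / c0 ^ 3 * κ) ≤ ε1 / 3 := by
  have hden : 0 < 3 * (8 + 2 * |cs| + 80 * (50 / c0 ^ 3)) := by
    have := abs_nonneg cs; positivity
  refine ⟨ε1 / (3 * (8 + 2 * |cs| + 80 * (50 / c0 ^ 3))), by positivity, ?_, ?_⟩
  · rw [div_le_iff₀ hden]
    have := abs_nonneg cs
    have : 0 ≤ 80 * (50 / c0 ^ 3) := by positivity
    linarith
  · have e : (8 + 2 * |cs|) * (ε1 / (3 * (8 + 2 * |cs| + 80 * (50 / c0 ^ 3)))) +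
        80 * (50 / c0 ^ 3 * (ε1 / (3 * (8 + 2 * |cs| + 80 * (50 / c0 ^ 3))))) = ε1 / 3 := by
      have hne := hden.ne'
      have hne2 : 8 + 2 * |cs| + 80 * (50 / c0 ^ 3) ≠ 0 := by
        intro h; rw [h] at hden; simp at hden
      calc _ = (8 + 2 * |cs| + 80 * (50 / c0 ^ 3)) *
            (ε1 / (3 * (8 + 2 * |cs| + 80 * (50 / c0 ^ 3)))) := by ring
        _ = _ := by field_simp
    rw [e]

/-- **(P#4, final form.)** There is a universal constant `A₀ > 0` such that for a self energy with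
flat profile of stiffness `a` close to `π/2` the second order term of the stiffness flow is
`A₀ ξ⁴ k² log (ξ₂/ξ) (1 + o(1)) + O(ξ⁴ k²)`. -/
theorem P4_flat : ∃ A0 : ℝ, 0 < A0 ∧ ∀ c0 C2 ε : ℝ, 0 < c0 → c0 ≤ 1 → 0 < ε → ∃ C B κ : ℝ,
    0 ≤ C ∧ 1 ≤ B ∧ 0 < κ ∧ ∀ (N : ℕ) [NeZero N] (ξ ξ2 a η : ℝ) (P : ZMod N × ZMod N → ℝ)
      (j : ZMod N), B ≤ ξ → B * ξ ≤ ξ2 → B * ξ2 ≤ N → |pw j| * ξ2 ≤ C2 → 0 ≤ η →
      (∀ k, c0 * EE k ≤ P k) →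
      (∀ k, |P k - a * EE k| ≤ η * EE k * (1 + EE k * ξ ^ 2)) →
      |a - π / 2| * (1 + log (ξ2 / ξ)) ≤ κ →
      η * (1 + log (1 + 9 * ξ2 ^ 2)) * (N : ℝ) ^ 4 ≤ κ * ξ2 ^ 4 →
      |∑ x, (1 - cN (j * x.1)) * gk (GamP N (1 / ξ ^ 2) (1 / ξ2 ^ 2) P) x -
        A0 * (ξ ^ 4 * pw j ^ 2) * log (ξ2 / ξ)| ≤ ξ ^ 4 * pw j ^ 2 * (ε * log (ξ2 / ξ) + C) := by
  obtain ⟨cs, hcs⟩ := TB2_green
  refine ⟨π / 4 * exp (-(2 * (cs - log (π / 2)))), by positivity, ?_⟩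
  intro c0 C2 ε hc0 hc01 hε
  obtain ⟨ε1, hε10, hε11, hε12⟩ : ∃ ε1 : ℝ, 0 < ε1 ∧ ε1 ≤ 1 ∧
      2 * ε1 * exp (-(2 * (cs - log (π / 2)))) ≤ ε := by
    refine ⟨min 1 (ε / (2 * exp (-(2 * (cs - log (π / 2)))))), by positivity, min_le_left _ _, ?_⟩
    have : min 1 (ε / (2 * exp (-(2 * (cs - log (π / 2)))))) ≤
      ε / (2 * exp (-(2 * (cs - log (π / 2))))) := min_le_right _ _
    rw [le_div_iff₀ (by positivity)] at this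
    linarith
  obtain ⟨B1, hB1, hmid⟩ := ref_mid hcs (ε1 / 120) (by positivity)
  obtain ⟨κ, hκ0, hκ1, hκ2⟩ := kap_choice cs c0 ε1 hc0 hε10 hε11
  obtain ⟨K, hK⟩ : ∃ K : ℝ, K = 16 / (1 / 32 : ℝ) ^ 2 * (1 + 4 / (1 / 32 : ℝ)) *
    (1 + 2 / (1 / 32 : ℝ)) := ⟨_, rfl⟩
  have hK0 : 0 ≤ K := by rw [hK]; positivity
  obtain ⟨D0, hD0⟩ : ∃ D0 : ℝ, D0 = 50 / c0 ^ 3 := ⟨_, rfl⟩
  have hD00 : 0 < D0 := by rw [hD0]; positivity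
  obtain ⟨C1, hC10, hC1a, hC1b, hC1c⟩ : ∃ C1 : ℝ, 0 ≤ C1 ∧ 50001 + 40 * D0 ≤ C1 ∧
      32 * B1 + 1200 + D0 ≤ C1 ∧ (32 * B1 + 1200) * K + D0 ≤ C1 := by
    refine ⟨50001 + 40 * D0 + (32 * B1 + 1200 + D0) + ((32 * B1 + 1200) * K + D0), ?_, ?_, ?_, ?_⟩
    · positivity
    · have : 0 ≤ (32 * B1 + 1200 + D0) + ((32 * B1 + 1200) * K + D0) := by positivity
      linarith
    · have : 0 ≤ ((32 * B1 + 1200) * K + D0) := by positivity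
      linarith
    · have : 0 ≤ (32 * B1 + 1200 + D0) := by positivity
      linarith
  obtain ⟨C, hC⟩ := P4 (B := B1) (c := 2 * (cs - log (π / 2))) (C1 := C1) (C2 := C2) hB1 hC10
  refine ⟨max C 0, 8 * B1 ^ 2, κ, le_max_right _ _, by nlinarith, hκ0, ?_⟩
  intro N _ ξ ξ2 a η P j hξB hξξ hξN hj hη hP hF hκa hκη
  have hB1sq : B1 ≤ 8 * B1 ^ 2 := by nlinarith
  have hB8 : 8 ≤ 8 * B1 ^ 2 := by nlinarith
  have hξ1 : 8 ≤ ξ := by linarith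
  have hξ0 : 0 < ξ := by linarith
  have hξξ' : ξ ≤ ξ2 := by nlinarith
  have hξ20 : 0 < ξ2 := by linarith
  have hN2 : 2 * ξ2 ≤ N := by nlinarith
  have hNB : B1 * ξ2 ≤ N := by nlinarith
  have hlog : 0 ≤ log (ξ2 / ξ) := log_nonneg (by rw [le_div_iff₀ hξ0]; linarith)
  obtain ⟨δ, d3, d2, d1, G0, Ga, Gc⟩ := flat_all (N := N) hB1 hmid hc0 hc01 hκ0 hκ1 hκ2
    (by linarith : 1 ≤ ξ) (by linarith) hξξ' hN2 hNB hη hP hF hκa hκη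
  rw [← hD0] at d1 d2 G0 Gc
  have hP0 : ∀ k, 0 ≤ P k := fun k => le_trans (mul_nonneg hc0.le (EE_nn k)) (hP k)
  have hτ2 : 0 < 1 / ξ2 ^ 2 := by positivity
  have hτ12 : 1 / ξ2 ^ 2 ≤ 1 / ξ ^ 2 :=
    one_div_le_one_div_of_le (by positivity) (pow_le_pow_left₀ hξ0.le hξξ' 2)
  have hsum : ∑ x : ZMod N × ZMod N, r1 x ^ 2 *
      ((32 * B1 + 1200) * exp (-((1 / 32) / ξ2 * (|r1 x| + |r2 x|))) + δ) ≤ C1 * ξ2 ^ 4 := by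
    refine (sum_H (N := N) (A := 32 * B1 + 1200) (c1 := 1 / 32) (ξ2 := ξ2) (ϑ := δ) (by linarith)
      (by norm_num) (by linarith) d3).trans ?_
    rw [← hK]
    have h3 : (32 * B1 + 1200) * K * ξ2 ^ 4 + D0 * ξ2 ^ 4 ≤ C1 * ξ2 ^ 4 := by
      rw [← add_mul]
      exact mul_le_mul_of_nonneg_right hC1c (by positivity)
    linarith
  have hfin := hC N ξ ξ2 ε1 (GamP N (1 / ξ ^ 2) (1 / ξ2 ^ 2) P)
    (fun x => (32 * B1 + 1200) * exp (-((1 / 32) / ξ2 * (|r1 x| + |r2 x|))) + δ) j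
    (by linarith) hξξ hN2 hε10.le hε11 hj (GamP_le hτ2 hτ12 hP0) (G0.trans hC1a) Ga
    (fun x hx => ⟨(Gc x hx).1.trans hC1b, (Gc x hx).2⟩)
    (fun x => by have : 0 ≤ (32 * B1 + 1200) := by linarith
                 positivity) hsum
  refine hfin.trans ?_
  refine mul_le_mul_of_nonneg_left ?_ (by positivity)
  have h8 : 2 * ε1 * exp (-(2 * (cs - log (π / 2)))) * log (ξ2 / ξ) ≤ ε * log (ξ2 / ξ) :=
    mul_le_mul_of_nonneg_right hε12 hlog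
  have h9 := le_max_left C 0
  linarith

end

end Vale.Agent.P159.H813
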