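import Vale.Agent.P159.H813.TB3a

/-!
P159 / P#4: the reference covariance `P = a EE`, `a` close to `π/2`.
-/

namespace Vale.Agent.P159.H813

open Finset Real
open Vale.Agent.P159.TM.H764
open Vale.Agent.P159.H474 (GK Gi Im SN)

noncomputable section

variable {N : ℕ} [NeZero N]

lemma GK_neg1 (m : ℝ) (a b : ZMod N) : GK N m (-a, b) = GK N m (a, b) := by
  unfold GK
  congr 1
  rw [← Equiv.sum_comp (refl1 (N := N))]
  refine sum_congr rfl fun k _ => ?_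
  rw [refl1_apply]
  unfold dt EE
  simp only [neg_mul_neg, cN_neg]

lemma GK_neg2 (m : ℝ) (a b : ZMod N) : GK N m (a, -b) = GK N m (a, b) := by
  have h : GK N m (-(-a), -b) = GK N m (-a, b) := by
    unfold GK
    congr 1
    refine sum_congr rfl fun k _ => ?_
    congr 1
    rw [← cN_neg]
    congr 1
    unfold dt
    simp only
    ring
  rw [← GK_neg1 m a b, ← h, neg_neg]

/-- only the absolute values matter -/
lemma GK_abs (m : ℝ) (x : ZMod N × ZMod N) :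
    GK N m x = GK N m ((x.1.valMinAbs.natAbs : ZMod N), (x.2.valMinAbs.natAbs : ZMod N)) := by
  have key : ∀ v : ZMod N, v = (v.valMinAbs.natAbs : ZMod N) ∨ v = -(v.valMinAbs.natAbs : ZMod N) := by
    intro v
    have h := ZMod.coe_valMinAbs v
    rcases Int.natAbs_eq v.valMinAbs with h1 | h1
    · left
      rw [← Int.cast_natCast, ← h1, h]
    · right
      rw [← Int.cast_natCast, ← Int.cast_neg, ← h1, h]
  obtain ⟨x1, x2⟩ := x
  simp only
  rcases key x1 with h1 | h1 <;> rcases key x2 with h2 | h2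
  · conv_lhs => rw [h1, h2]
  · conv_lhs => rw [h1, h2, GK_neg2]
  · conv_lhs => rw [h1, h2, GK_neg1]
  · conv_lhs => rw [h1, h2, GK_neg1, GK_neg2]

lemma GK_far {m : ℝ} (hm : 0 < m) (hm1 : m ≤ 4) (hN : 1 ≤ (N : ℝ) * √m)
    {x : ZMod N × ZMod N} (hx : 1 ≤ mx x) :
    |GK N m x| ≤ 2 / (mx x * √m) * exp (-(mx x * √m / 8)) + 600 * exp (-((N : ℝ) * √m / 16)) := by
  rw [GK_abs]
  have h5 := ZMod.natAbs_valMinAbs_le x.1
  have h6 := ZMod.natAbs_valMinAbs_le x.2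
  have h1 := H474.GK_sub_Gi' (N := N) hm hm1 hN (n₁ := x.1.valMinAbs.natAbs)
    (n₂ := x.2.valMinAbs.natAbs) (by omega) (by omega)
  have h2 := H474.Gi_decay hm hm1 (n₁ := x.1.valMinAbs.natAbs) (n₂ := x.2.valMinAbs.natAbs)
    (n := mx x) hx (by unfold mx; rcases max_choice x.1.valMinAbs.natAbs x.2.valMinAbs.natAbs with
      h | h <;> [left; right] <;> rw [h])
  have h3 : ∀ a b : ℝ, |a| ≤ |a - b| + |b| := by
    intro a b
    calc |a| = |(a - b) + b| := by ring_nf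
      _ ≤ _ := abs_add_le _ _
  have h4 := h3 (GK N m ((x.1.valMinAbs.natAbs : ZMod N), (x.2.valMinAbs.natAbs : ZMod N)))
    (Gi m x.1.valMinAbs.natAbs x.2.valMinAbs.natAbs)
  linarith

lemma r12_le (x : ZMod N × ZMod N) : |r1 x| + |r2 x| ≤ 2 * mx x ∧ |r1 x| + |r2 x| ≤ N := by
  have h1 := abs_r1_le x
  have h2 := abs_r2_le x
  have h3 : (2 * mx x : ℝ) ≤ N := by
    have h5 := ZMod.natAbs_valMinAbs_le x.1
    have h6 := ZMod.natAbs_valMinAbs_le x.2
    have h7 : 2 * mx x ≤ N := by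
      have : mx x ≤ N / 2 := by unfold mx; exact max_le (by omega) (by omega)
      omega
    exact_mod_cast h7
  constructor <;> linarith

/-- decay of the Green function beyond `ξ2/(2B)` -/
lemma GK_far' {m ξ2 B : ℝ} (hξ2 : 1 ≤ ξ2) (hB : 1 ≤ B) (hm1 : m ≤ 4) (hm : 1 / (2 * ξ2) ≤ √m)
    (hN : 2 * ξ2 ≤ N) {x : ZMod N × ZMod N} (hx : ξ2 / (2 * B) ≤ en x) :
    |GK N m x| ≤ (16 * B + 600) * exp (-((1 / 32) / ξ2 * (|r1 x| + |r2 x|))) := by
  have hξ20 : 0 < ξ2 := by linarith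
  have hB0 : 0 < B := by linarith
  have hq : 0 < √m := lt_of_lt_of_le (by positivity) hm
  have hm0 : 0 < m := Real.sqrt_pos.1 hq
  have e1 := en_le_mx x
  have hmx : ξ2 / (4 * B) ≤ mx x := by
    have : ξ2 / (4 * B) = ξ2 / (2 * B) / 2 := by field_simp; ring
    linarith
  have hmx0 : (0 : ℝ) < mx x := lt_of_lt_of_le (by positivity) hmx
  have hmx1 : 1 ≤ mx x := by exact_mod_cast hmx0
  have hNm : 1 ≤ (N : ℝ) * √m := by
    calc (1 : ℝ) = (2 * ξ2) * (1 / (2 * ξ2)) := by field_simp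
      _ ≤ (N : ℝ) * √m := mul_le_mul hN hm (by positivity) (Nat.cast_nonneg _)
  have h := GK_far hm0 hm1 hNm hmx1
  obtain ⟨hr2, hrN⟩ := r12_le x
  set r := |r1 x| + |r2 x| with hr
  have hr0 : 0 ≤ r := by positivity
  have f1 : 1 / (8 * B) ≤ mx x * √m := by
    calc 1 / (8 * B) = ξ2 / (4 * B) * (1 / (2 * ξ2)) := by field_simp; ring
      _ ≤ _ := mul_le_mul hmx hm (by positivity) (by positivity)
  have f2 : 2 / (mx x * √m) ≤ 16 * B := by
    rw [div_le_iff₀ (by positivity)]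
    have := mul_le_mul_of_nonneg_left f1 (by positivity : (0 : ℝ) ≤ 16 * B)
    have e : 16 * B * (1 / (8 * B)) = 2 := by field_simp; norm_num
    linarith
  have f3 : (1 / 32) / ξ2 * r ≤ mx x * √m / 8 := by
    have : (1 / (2 * ξ2)) * r ≤ √m * (2 * mx x) :=
      mul_le_mul hm hr2 hr0 hq.le
    have e : (1 / 32) / ξ2 * r = (1 / (2 * ξ2)) * r / 16 := by field_simp; ring
    rw [e]; linarith
  have f4 : (1 / 32) / ξ2 * r ≤ N * √m / 16 := by
    have : (1 / (2 * ξ2)) * r ≤ √m * N := mul_le_mul hm hrN hr0 hq.le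
    have e : (1 / 32) / ξ2 * r = (1 / (2 * ξ2)) * r / 16 := by field_simp; ring
    rw [e]; linarith
  have g1 : exp (-(mx x * √m / 8)) ≤ exp (-((1 / 32) / ξ2 * r)) := exp_le_exp.2 (by linarith)
  have g2 : exp (-(N * √m / 16)) ≤ exp (-((1 / 32) / ξ2 * r)) := exp_le_exp.2 (by linarith)
  calc |GK N m x| ≤ 2 / (mx x * √m) * exp (-(mx x * √m / 8)) +
        600 * exp (-((N : ℝ) * √m / 16)) := h
    _ ≤ (16 * B) * exp (-((1 / 32) / ξ2 * r)) + 600 * exp (-((1 / 32) / ξ2 * r)) := by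
        refine add_le_add (mul_le_mul f2 g1 (exp_pos _).le (by positivity)) ?_
        exact mul_le_mul_of_nonneg_left g2 (by norm_num)
    _ = _ := by ring

omit [NeZero N] in
lemma sqrt_m {a ξ : ℝ} (ha1 : 1 ≤ a) (ha2 : a ≤ 2) (hξ : 0 < ξ) :
    1 / (2 * ξ) ≤ √(1 / ξ ^ 2 / a) ∧ √(1 / ξ ^ 2 / a) ≤ 1 / ξ := by
  have ha0 : 0 < a := by linarith
  constructor
  · refine Real.le_sqrt_of_sq_le ?_
    rw [div_pow, mul_pow, one_pow, div_div]
    refine one_div_le_one_div_of_le (by positivity) ?_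
    nlinarith [sq_nonneg ξ]
  · rw [Real.sqrt_le_left (by positivity), div_pow, one_pow]
    exact div_le_self (by positivity) ha1

/-- **far region for the reference covariance** -/
lemma ref_far {a ξ ξ2 B : ℝ} (ha1 : 1 ≤ a) (ha2 : a ≤ 2) (hξ : 1 ≤ ξ) (hξξ : ξ ≤ ξ2) (hB : 1 ≤ B)
    (hN : 2 * ξ2 ≤ N) {x : ZMod N × ZMod N} (hx : ξ2 / (2 * B) ≤ en x) :
    |GamP N (1 / ξ ^ 2) (1 / ξ2 ^ 2) (fun k => a * EE k) x| ≤
      (32 * B + 1200) * exp (-((1 / 32) / ξ2 * (|r1 x| + |r2 x|))) := by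
  have ha0 : 0 < a := by linarith
  have hξ0 : 0 < ξ := by linarith
  have hξ20 : 0 < ξ2 := by linarith
  rw [GamP_ref ha0]
  have h1 := sqrt_m ha1 ha2 hξ20
  have h2 := sqrt_m ha1 ha2 hξ0
  have h3 : 1 / (2 * ξ2) ≤ 1 / (2 * ξ) := one_div_le_one_div_of_le (by positivity) (by linarith)
  have b : ∀ η : ℝ, 1 ≤ η → 1 / η ^ 2 / a ≤ 4 := by
    intro η hη
    have e1 : 1 / η ^ 2 / a ≤ 1 / η ^ 2 := div_le_self (by positivity) ha1
    have e2 : 1 / η ^ 2 ≤ 1 := by rw [div_le_one (by positivity)]; nlinarith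
    linarith
  have g1 := GK_far' (m := 1 / ξ2 ^ 2 / a) (by linarith) hB (b ξ2 (by linarith)) h1.1 hN hx
  have g2 := GK_far' (m := 1 / ξ ^ 2 / a) (ξ2 := ξ2) (by linarith) hB (b ξ hξ) (by linarith) hN hx
  rw [abs_div, abs_of_pos ha0, div_le_iff₀ ha0]
  have g3 : |GK N (1 / ξ2 ^ 2 / a) x - GK N (1 / ξ ^ 2 / a) x| ≤
      (32 * B + 1200) * exp (-((1 / 32) / ξ2 * (|r1 x| + |r2 x|))) * 1 := by
    refine (abs_sub _ _).trans ?_
    linarith
  refine g3.trans (mul_le_mul_of_nonneg_left ha1 (by positivity))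

/-- **the value at the origin** -/
lemma ref_zero {a ξ ξ2 κ : ℝ} (ha1 : 1 ≤ a) (ha2 : a ≤ 2) (hξ : 1 ≤ ξ) (hξξ : ξ ≤ ξ2)
    (hN : 2 * ξ2 ≤ N) (hκ : |a - π / 2| * (1 + log (ξ2 / ξ)) ≤ κ) :
    |4 * π ^ 2 * GamP N (1 / ξ ^ 2) (1 / ξ2 ^ 2) (fun k => a * EE k) 0 - 4 * log (ξ2 / ξ)| ≤
      50000 + 4 * κ := by
  have ha0 : 0 < a := by linarith
  have hξ0 : 0 < ξ := by linarith
  have hξ20 : 0 < ξ2 := by linarith
  have hpi := pi_pos
  have hlog : 0 ≤ log (ξ2 / ξ) := log_nonneg (by rw [le_div_iff₀ hξ0]; linarith)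
  rw [GamP_ref ha0]
  have hz : (0 : ZMod N × ZMod N) = (0, 0) := rfl
  rw [hz, ← H474.SN_eq, ← H474.SN_eq]
  have h1 := sqrt_m ha1 ha2 hξ20
  have h2 := sqrt_m ha1 ha2 hξ0
  have hNm : 1 ≤ (N : ℝ) * √(1 / ξ2 ^ 2 / a) := by
    calc (1 : ℝ) = (2 * ξ2) * (1 / (2 * ξ2)) := by field_simp
      _ ≤ _ := mul_le_mul hN h1.1 (by positivity) (Nat.cast_nonneg _)
  have hmm : 1 / ξ2 ^ 2 / a ≤ 1 / ξ ^ 2 / a := by
    refine div_le_div_of_nonneg_right ?_ ha0.le
    exact one_div_le_one_div_of_le (by positivity) (pow_le_pow_left₀ hξ0.le hξξ 2)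
  have hm1 : 1 / ξ ^ 2 / a ≤ 1 := by
    have e1 : 1 / ξ ^ 2 / a ≤ 1 / ξ ^ 2 := div_le_self (by positivity) ha1
    have e2 : 1 / ξ ^ 2 ≤ 1 := by rw [div_le_one (by positivity)]; nlinarith
    linarith
  have h := H474.TB1' (N := N) (m := 1 / ξ2 ^ 2 / a) (m' := 1 / ξ ^ 2 / a) (by positivity) hmm hm1
    hNm
  have hratio : 1 / ξ ^ 2 / a / (1 / ξ2 ^ 2 / a) = (ξ2 / ξ) ^ 2 := by field_simp
  rw [hratio, log_pow] at h
  push_cast at h
  have hsq : √(1 / ξ ^ 2 / a) ≤ 1 := h2.2.trans (by rw [div_le_one hξ0]; exact hξ)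
  have hex : exp (-((N : ℝ) * √(1 / ξ2 ^ 2 / a) / 16)) ≤ 1 := by
    rw [exp_le_one_iff]; have : 0 ≤ (N : ℝ) * √(1 / ξ2 ^ 2 / a) := by positivity
    linarith
  have h' : |SN N (1 / ξ2 ^ 2 / a) - SN N (1 / ξ ^ 2 / a) - 2 * log (ξ2 / ξ) / (4 * π)| ≤ 1201 := by
    linarith
  have e1 : 4 * π ^ 2 * ((SN N (1 / ξ2 ^ 2 / a) - SN N (1 / ξ ^ 2 / a)) / a) - 4 * log (ξ2 / ξ) =
      4 * π ^ 2 / a * (SN N (1 / ξ2 ^ 2 / a) - SN N (1 / ξ ^ 2 / a) - 2 * log (ξ2 / ξ) / (4 * π)) +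
      4 * (π / 2 - a) / a * log (ξ2 / ξ) := by
    field_simp
    ring
  rw [e1]
  have hpi2 : π ^ 2 ≤ 10 := by nlinarith [pi_lt_d2]
  have h3 : 4 * π ^ 2 / a ≤ 40 := by
    rw [div_le_iff₀ ha0]; nlinarith
  have h4 : |4 * (π / 2 - a) / a * log (ξ2 / ξ)| ≤ 4 * κ := by
    rw [abs_mul, abs_div, abs_mul, abs_of_pos ha0, abs_of_nonneg hlog,
      abs_of_pos (by norm_num : (0 : ℝ) < 4), abs_sub_comm]
    have h5 : 4 * |a - π / 2| / a ≤ 4 * |a - π / 2| := div_le_self (by positivity) ha1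
    have h6 := abs_nonneg (a - π / 2)
    calc 4 * |a - π / 2| / a * log (ξ2 / ξ) ≤ 4 * |a - π / 2| * log (ξ2 / ξ) :=
          mul_le_mul_of_nonneg_right h5 hlog
      _ ≤ 4 * (|a - π / 2| * (1 + log (ξ2 / ξ))) := by nlinarith
      _ ≤ _ := by linarith
  refine (abs_add_le _ _).trans (add_le_add ?_ h4)
  rw [abs_mul, abs_of_nonneg (by positivity : 0 ≤ 4 * π ^ 2 / a)]
  calc 4 * π ^ 2 / a * |SN N (1 / ξ2 ^ 2 / a) - SN N (1 / ξ ^ 2 / a) -
        2 * log (ξ2 / ξ) / (4 * π)| ≤ 40 * 1201 :=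
        mul_le_mul h3 h' (abs_nonneg _) (by norm_num)
    _ ≤ _ := by norm_num

/-- the potential kernel statement consumed (module GREEN) -/
def TB2 (cs : ℝ) : Prop := ∀ ε : ℝ, 0 < ε → ∃ B : ℝ, 1 ≤ B ∧
  ∀ (N : ℕ) [NeZero N] (m m' : ℝ) (x : ZMod N × ZMod N), 0 < m → m ≤ m' → B ^ 2 * m' ≤ 1 →
    B ≤ en x * √m' → B * (en x * √m) ≤ 1 → B ≤ N * √m →
    |(GK N m 0 - GK N m x) - (GK N m' 0 - GK N m' x) -
      (log (m' * en x ^ 2) + cs) / (4 * π)| ≤ ε

omit [NeZero N] in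
/-- algebra of the middle region -/
lemma mid_alg {a cs L l κ ε D : ℝ} (ha1 : 1 ≤ a) (ha2 : a ≤ 2) (hl : 0 ≤ l) (hL : l ≤ L)
    (hκ : |a - π / 2| * (1 + L) ≤ κ) (h : |D - (2 * l - log a + cs) / (4 * π)| ≤ ε) :
    |4 * π ^ 2 * (D / a) - (4 * l + 2 * (cs - log (π / 2)))| ≤
      40 * ε + (8 + 2 * |cs|) * κ := by
  have ha0 : 0 < a := by linarith
  have hpi := pi_pos
  have hpi2 : π ^ 2 ≤ 10 := by nlinarith [pi_lt_d2]
  have hpi3 := pi_gt_three
  have hab := abs_nonneg (a - π / 2)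
  have hA : |a - π / 2| ≤ κ := by nlinarith
  have hAl : |a - π / 2| * l ≤ κ := by nlinarith
  have hκ0 : 0 ≤ κ := hab.trans hA
  have e1 : 4 * π ^ 2 * (D / a) - (4 * l + 2 * (cs - log (π / 2))) =
      4 * π ^ 2 / a * (D - (2 * l - log a + cs) / (4 * π)) +
      (2 * (π / 2 - a) / a * (2 * l - log a + cs) - 2 * (log a - log (π / 2))) := by
    field_simp
    ring
  have hloga : 0 ≤ log a := log_nonneg ha1
  have hloga2 : log a ≤ 1 := by
    have := log_le_sub_one_of_pos ha0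
    linarith
  have hlog : |log a - log (π / 2)| ≤ |a - π / 2| := by
    have hp : (1 : ℝ) ≤ π / 2 := by linarith
    rw [abs_le]
    constructor
    · have h1 : log (π / 2) - log a ≤ π / 2 / a - 1 := by
        rw [← log_div (by positivity) ha0.ne']
        exact log_le_sub_one_of_pos (by positivity)
      have h2 : π / 2 / a - 1 ≤ |a - π / 2| := by
        have e : π / 2 / a - 1 = (π / 2 - a) / a := by field_simp
        rw [e, div_le_iff₀ ha0]
        have := neg_abs_le (a - π / 2)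
        nlinarith
      linarith
    · have h1 : log a - log (π / 2) ≤ a / (π / 2) - 1 := by
        rw [← log_div ha0.ne' (by positivity)]
        exact log_le_sub_one_of_pos (by positivity)
      have h2 : a / (π / 2) - 1 ≤ |a - π / 2| := by
        have e : a / (π / 2) - 1 = (a - π / 2) / (π / 2) := by field_simp
        rw [e, div_le_iff₀ (by positivity)]
        have := le_abs_self (a - π / 2)
        nlinarith
      linarith
  rw [e1]
  have h3 : 4 * π ^ 2 / a ≤ 40 := by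
    rw [div_le_iff₀ ha0]; nlinarith
  have t1 : |4 * π ^ 2 / a * (D - (2 * l - log a + cs) / (4 * π))| ≤ 40 * ε := by
    rw [abs_mul, abs_of_nonneg (by positivity : 0 ≤ 4 * π ^ 2 / a)]
    exact mul_le_mul h3 h (abs_nonneg _) (by norm_num)
  have t2 : |2 * (π / 2 - a) / a * (2 * l - log a + cs)| ≤ (6 + 2 * |cs|) * κ := by
    rw [abs_mul, abs_div, abs_mul, abs_of_pos ha0, abs_of_pos (by norm_num : (0 : ℝ) < 2),
      abs_sub_comm]
    have h5 : 2 * |a - π / 2| / a ≤ 2 * |a - π / 2| := div_le_self (by positivity) ha1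
    have h6 : |2 * l - log a + cs| ≤ 2 * l + 1 + |cs| := by
      rw [abs_le]
      have := neg_abs_le cs
      have := le_abs_self cs
      constructor <;> linarith
    calc 2 * |a - π / 2| / a * |2 * l - log a + cs|
        ≤ 2 * |a - π / 2| * (2 * l + 1 + |cs|) :=
          mul_le_mul h5 h6 (abs_nonneg _) (by positivity)
      _ = 4 * (|a - π / 2| * l) + (2 + 2 * |cs|) * |a - π / 2| := by ring
      _ ≤ 4 * κ + (2 + 2 * |cs|) * κ := by
          have := mul_le_mul_of_nonneg_left hA (by positivity : 0 ≤ 2 + 2 * |cs|)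
          linarith
      _ = _ := by ring
  have t3 : |2 * (log a - log (π / 2))| ≤ 2 * κ := by
    rw [abs_mul, abs_of_pos (by norm_num : (0 : ℝ) < 2)]
    linarith
  have t4 : |2 * (π / 2 - a) / a * (2 * l - log a + cs) - 2 * (log a - log (π / 2))| ≤
      (6 + 2 * |cs|) * κ + 2 * κ := (abs_sub _ _).trans (add_le_add t2 t3)
  refine (abs_add_le _ _).trans ?_
  linarith

end

end Vale.Agent.P159.H813
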